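import Vale.Agent.P340.Defs

/-!
Weak normalization of the elements of kinds and of the elements of variables.
-/

namespace Vale.Agent.P340

universe u

open Tm

variable {S : Type u}

/-- Kind sorts. All sorts of products `Π x₁ : A₁. … Π xₙ : Aₙ. s` (`n ≥ 0`) ending with a sort
`s` are kind sorts. -/
inductive KindSort (P : Spec S) : S → Prop where
  | ax {s t : S} : P.ax s t → KindSort P t
  | rule {s₁ s₂ s₃ : S} : P.rule s₁ s₂ s₃ → KindSort P s₂ → KindSort P s₃

/-- Weak normalization of the expressions `M : A` for which `A` is a variable or has a kind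
sort as type. -/
def WNKindVar (P : Spec S) : Prop :=
  ∀ (Γ : List (Tm S)) (M A : Tm S), Typ P Γ M A →
    ((∃ n, A = var n) ∨ ∃ t, KindSort P t ∧ Typ P Γ A (sort t)) → ∃ N, Red M N ∧ Normal N

end Vale.Agent.P340
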