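import Mathlib.Logic.Relation
import Mathlib.Data.Set.Basic
import Mathlib.Data.Nat.Notation
import Mathlib.Order.WellFounded
import Mathlib.Data.Countable.Basic
import Mathlib.Logic.Equiv.List
import Mathlib.Data.Nat.Pairing
import Mathlib.Data.Int.Init
import Mathlib.Tactic.Linarith
import Mathlib.Logic.Small.Set
import Mathlib.Data.List.Forall2
import Mathlib.Order.FixedPoints
import Mathlib.Algebra.Group.Nat.Even
import Mathlib.Data.Set.Finite.Basic
import Mathlib.Data.Set.Finite.Lattice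
import Mathlib.Data.Finite.Prod
import Mathlib.Data.Set.Defs
import Mathlib.Data.Set.Card
import Mathlib.Order.Lattice.Nat
import Mathlib.Data.Fintype.EquivFin
import Mathlib.Order.Bounds.Basic
import Mathlib.Data.Finite.Sum
import Mathlib.Data.Set.Finite.Lemmas
import Mathlib.Data.Fintype.Order
import Vale.Agent.P340.H796.Defs

set_option linter.all false

section

/-!
Labelled untyped terms with memory.  Applications and abstractions carry a label; a redex
`app l (mem .. (lam l M) ..) N` needs equal labels; contraction keeps the argument in memory.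
-/

namespace Vale.Agent.P340

universe u

/-- Labelled terms with memory. -/
inductive LTm (Λ : Type u) : Type u where
  | var : ℕ → LTm Λ
  | con : LTm Λ
  | app : Λ → LTm Λ → LTm Λ → LTm Λ
  | lam : Λ → LTm Λ → LTm Λ
  | mem : LTm Λ → LTm Λ → LTm Λ

variable {Λ : Type u}

namespace LTm

/-- Lifting of a renaming. -/
def up (r : ℕ → ℕ) : ℕ → ℕ
  | 0 => 0
  | n + 1 => r n + 1

/-- Renaming. -/
def ren : (ℕ → ℕ) → LTm Λ → LTm Λ
  | r, var n => var (r n)
  | _, con => con
  | r, app l M N => app l (ren r M) (ren r N)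
  | r, lam l M => lam l (ren (up r) M)
  | r, mem M N => mem (ren r M) (ren r N)

/-- Weakening. -/
def wk (M : LTm Λ) : LTm Λ := ren Nat.succ M

/-- Lifting of a substitution. -/
def ups (σ : ℕ → LTm Λ) : ℕ → LTm Λ
  | 0 => var 0
  | n + 1 => wk (σ n)

/-- Substitution. -/
def sub : (ℕ → LTm Λ) → LTm Λ → LTm Λ
  | σ, var n => σ n
  | _, con => con
  | σ, app l M N => app l (sub σ M) (sub σ N)
  | σ, lam l M => lam l (sub (ups σ) M)
  | σ, mem M N => mem (sub σ M) (sub σ N)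

/-- Extension of a substitution. -/
def scons (N : LTm Λ) (σ : ℕ → LTm Λ) : ℕ → LTm Λ
  | 0 => N
  | n + 1 => σ n

/-- Substitution for the variable `0`. -/
def inst (M N : LTm Λ) : LTm Λ := sub (scons N var) M

theorem up_comp (r q : ℕ → ℕ) : (fun n => up q (up r n)) = up (fun n => q (r n)) := by
  funext n; cases n <;> rfl

theorem ren_ren (M : LTm Λ) : ∀ (r q : ℕ → ℕ), ren q (ren r M) = ren (fun n => q (r n)) M := by
  induction M with
  | var n => intros; rfl
  | con => intros; rfl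
  | app l M N ihM ihN => intros; simp only [ren, ihM, ihN]
  | lam l M ihM => intro r q; simp [ren, ihM, up_comp]
  | mem M N ihM ihN => intros; simp [ren, ihM, ihN]

theorem ups_up (σ : ℕ → LTm Λ) (r : ℕ → ℕ) :
    (fun n => ups σ (up r n)) = ups (fun n => σ (r n)) := by
  funext n; cases n <;> rfl

theorem sub_ren (M : LTm Λ) : ∀ (r : ℕ → ℕ) (σ : ℕ → LTm Λ),
    sub σ (ren r M) = sub (fun n => σ (r n)) M := by
  induction M with
  | var n => intros; rfl
  | con => intros; rfl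
  | app l M N ihM ihN => intros; simp only [ren, sub, ihM, ihN]
  | lam l M ihM => intro r σ; simp [ren, sub, ihM, ups_up]
  | mem M N ihM ihN => intros; simp [ren, sub, ihM, ihN]

theorem ren_wk (r : ℕ → ℕ) (M : LTm Λ) : ren (up r) (wk M) = wk (ren r M) := by
  unfold wk; rw [ren_ren, ren_ren]; rfl

theorem ren_ups (σ : ℕ → LTm Λ) (r : ℕ → ℕ) :
    (fun n => ren (up r) (ups σ n)) = ups (fun n => ren r (σ n)) := by
  funext n; cases n with
  | zero => rfl
  | succ n => exact ren_wk r (σ n)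

theorem ren_sub (M : LTm Λ) : ∀ (σ : ℕ → LTm Λ) (r : ℕ → ℕ),
    ren r (sub σ M) = sub (fun n => ren r (σ n)) M := by
  induction M with
  | var n => intros; rfl
  | con => intros; rfl
  | app l M N ihM ihN => intros; simp only [sub, ren, ihM, ihN]
  | lam l M ihM => intro σ r; simp [ren, sub, ihM, ren_ups]
  | mem M N ihM ihN => intros; simp [ren, sub, ihM, ihN]

theorem sub_wk (σ : ℕ → LTm Λ) (M : LTm Λ) : sub (ups σ) (wk M) = wk (sub σ M) := by
  unfold wk; rw [sub_ren, ren_sub]; rfl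

theorem sub_ups (σ τ : ℕ → LTm Λ) :
    (fun n => sub (ups τ) (ups σ n)) = ups (fun n => sub τ (σ n)) := by
  funext n; cases n with
  | zero => rfl
  | succ n => exact sub_wk τ (σ n)

theorem sub_sub (M : LTm Λ) : ∀ (σ τ : ℕ → LTm Λ),
    sub τ (sub σ M) = sub (fun n => sub τ (σ n)) M := by
  induction M with
  | var n => intros; rfl
  | con => intros; rfl
  | app l M N ihM ihN => intros; simp only [sub, ihM, ihN]
  | lam l M ihM => intro σ τ; simp [sub, ihM, sub_ups]
  | mem M N ihM ihN => intros; simp [sub, ihM, ihN]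

theorem ups_var : ups (var : ℕ → LTm Λ) = var := by
  funext n; cases n <;> rfl

theorem sub_var (M : LTm Λ) : sub var M = M := by
  induction M with
  | var n => rfl
  | con => rfl
  | app l M N ihM ihN => simp only [sub, ihM, ihN]
  | lam l M ihM => simp [sub, ups_var, ihM]
  | mem M N ihM ihN => simp [sub, ihM, ihN]

theorem ups_varr (r : ℕ → ℕ) : ups (fun n => (var (r n) : LTm Λ)) = fun n => var (up r n) := by
  funext n; cases n <;> rfl

theorem ren_eq_sub (M : LTm Λ) : ∀ r : ℕ → ℕ, ren r M = sub (fun n => var (r n)) M := by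
  induction M with
  | var n => intro r; rfl
  | con => intro r; rfl
  | app l M N ihM ihN => intro r; simp only [ren, ihM, ihN, sub]
  | lam l M ihM => intro r; simp [ren, sub, ihM, ups_varr]
  | mem M N ihM ihN => intro r; simp [ren, sub, ihM, ihN]

theorem sub_scons_wk (M N : LTm Λ) (σ : ℕ → LTm Λ) : sub (scons N σ) (wk M) = sub σ M := by
  unfold wk; rw [sub_ren]; rfl

theorem inst_ups (M N : LTm Λ) (σ : ℕ → LTm Λ) :
    inst (sub (ups σ) M) N = sub (scons N σ) M := by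
  unfold inst; rw [sub_sub]
  congr 1; funext n; cases n with
  | zero => rfl
  | succ n => show sub (scons N var) (wk (σ n)) = _; rw [sub_scons_wk, sub_var]; rfl

theorem sub_inst (M N : LTm Λ) (σ : ℕ → LTm Λ) :
    sub σ (inst M N) = inst (sub (ups σ) M) (sub σ N) := by
  rw [inst_ups]; unfold inst; rw [sub_sub]
  congr 1; funext n; cases n <;> rfl

/-- Abstractions, possibly under memory. -/
def IsLam : LTm Λ → Prop
  | lam _ _ => True
  | mem M _ => IsLam M
  | _ => False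

end LTm

open LTm

/-- Contraction of a redex with label `l`: `Ctr l F N R` means `app l F N` contracts to `R`. -/
inductive Ctr (l : Λ) : LTm Λ → LTm Λ → LTm Λ → Prop where
  | lam (M N : LTm Λ) : Ctr l (LTm.lam l M) N (LTm.mem (inst M N) N)
  | mem {F N R : LTm Λ} (Q : LTm Λ) : Ctr l F N R → Ctr l (LTm.mem F Q) N (LTm.mem R Q)

/-- One-step reduction of redexes with a label in `X`. -/
inductive St (X : Set Λ) : LTm Λ → LTm Λ → Prop where
  | root {l : Λ} {F N R : LTm Λ} : l ∈ X → Ctr l F N R → St X (app l F N) R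
  | appL (l : Λ) {M M' : LTm Λ} (N : LTm Λ) : St X M M' → St X (app l M N) (app l M' N)
  | appR (l : Λ) (M : LTm Λ) {N N' : LTm Λ} : St X N N' → St X (app l M N) (app l M N')
  | lam (l : Λ) {M M' : LTm Λ} : St X M M' → St X (lam l M) (lam l M')
  | memL {M M' : LTm Λ} (N : LTm Λ) : St X M M' → St X (mem M N) (mem M' N)
  | memR (M : LTm Λ) {N N' : LTm Λ} : St X N N' → St X (mem M N) (mem M N')

/-- Strong normalization for the labels in `X`. -/
def SnX (X : Set Λ) (M : LTm Λ) : Prop := Acc (fun a b => St X b a) M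

theorem Ctr.isLam {l : Λ} {F N R : LTm Λ} (h : Ctr l F N R) : IsLam F := by
  induction h with
  | lam => trivial
  | mem _ _ ih => exact ih

theorem Ctr.sub {l : Λ} {F N R : LTm Λ} (h : Ctr l F N R) (σ : ℕ → LTm Λ) :
    Ctr l (F.sub σ) (N.sub σ) (R.sub σ) := by
  induction h with
  | lam M N =>
    show Ctr l (LTm.lam l (M.sub (ups σ))) (N.sub σ) (LTm.mem ((LTm.inst M N).sub σ) (N.sub σ))
    rw [sub_inst]; exact .lam _ _
  | mem Q _ ih => exact .mem _ ih

theorem St.sub {X : Set Λ} {M N : LTm Λ} (h : St X M N) : ∀ σ : ℕ → LTm Λ,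
    St X (M.sub σ) (N.sub σ) := by
  induction h with
  | root hl h => intro σ; exact .root hl (h.sub σ)
  | appL l N _ ih => intro σ; exact .appL _ _ (ih σ)
  | appR l N _ ih => intro σ; exact .appR _ _ (ih σ)
  | lam l _ ih => intro σ; exact .lam _ (ih _)
  | memL N _ ih => intro σ; exact .memL _ (ih σ)
  | memR N _ ih => intro σ; exact .memR _ (ih σ)

theorem St.ren {X : Set Λ} {M N : LTm Λ} (h : St X M N) (r : ℕ → ℕ) :
    St X (M.ren r) (N.ren r) := by
  rw [ren_eq_sub, ren_eq_sub]; exact h.sub _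

theorem St.mono {X Y : Set Λ} (hXY : X ⊆ Y) {M N : LTm Λ} (h : St X M N) : St Y M N := by
  induction h with
  | root hl h => exact .root (hXY hl) h
  | appL l N _ ih => exact .appL _ _ ih
  | appR l N _ ih => exact .appR _ _ ih
  | lam l _ ih => exact .lam _ ih
  | memL N _ ih => exact .memL _ ih
  | memR N _ ih => exact .memR _ ih

end Vale.Agent.P340
end

section

/-!
Labelled terms with memory: reduction is weakly confluent and increasing, hence weak
normalization implies strong normalization (Nederpelt, Klop).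
-/

namespace Vale.Agent.P340

universe u v
variable {Λ : Type u} {X : Set Λ}

open LTm Relation

/-- A weakly confluent relation along which a natural number increases is strongly normalizing
at each element with a normal form. -/
theorem klop {α : Type v} {r : α → α → Prop} (μ : α → ℕ) (hinc : ∀ a b, r a b → μ a < μ b)
    (wcr : ∀ a b c, r a b → r a c → ∃ d, ReflTransGen r b d ∧ ReflTransGen r c d)
    {b : α} (hb : ∀ c, ¬ r b c) : ∀ (k : ℕ) (a : α), μ b - μ a ≤ k → ReflTransGen r a b →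
      Acc (fun x y => r y x) a ∧ ∀ c, ReflTransGen r a c → ReflTransGen r c b := by
  have hle : ∀ {x y}, ReflTransGen r x y → μ x ≤ μ y := by
    intro x y h
    induction h with
    | refl => exact le_rfl
    | tail _ h ih => exact ih.trans (hinc _ _ h).le
  have hbb : Acc (fun x y => r y x) b ∧ ∀ c, ReflTransGen r b c → ReflTransGen r c b := by
    refine ⟨Acc.intro _ fun c hc => absurd hc (hb c), fun c hc => ?_⟩
    rcases ReflTransGen.cases_head hc with rfl | ⟨d, hd, _⟩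
    · exact .refl
    · exact absurd hd (hb d)
  intro k
  induction k with
  | zero =>
    intro a hk h
    rcases ReflTransGen.cases_head h with rfl | ⟨a', h1, h2⟩
    · exact hbb
    · have := hinc _ _ h1
      have := hle h2
      omega
  | succ k ih =>
    intro a hk h
    rcases ReflTransGen.cases_head h with rfl | ⟨a', h1, h2⟩
    · exact hbb
    have e1 := hinc _ _ h1
    have e2 := hle h2
    have key : ∀ c, r a c → ReflTransGen r c b := by
      intro c hc
      obtain ⟨d, hd1, hd2⟩ := wcr _ _ _ h1 hc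
      exact hd2.trans ((ih a' (by omega) h2).2 d hd1)
    have key2 : ∀ c, r a c → Acc (fun x y => r y x) c ∧
        ∀ d, ReflTransGen r c d → ReflTransGen r d b := by
      intro c hc
      have e3 := hinc _ _ hc
      have e4 := hle (key c hc)
      exact ih c (by omega) (key c hc)
    refine ⟨Acc.intro _ fun c hc => (key2 c hc).1, fun c hc => ?_⟩
    rcases ReflTransGen.cases_head hc with rfl | ⟨d, hd1, hd2⟩
    · exact h
    · exact (key2 d hd1).2 c hd2

/-- Many steps. -/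
def Sts (X : Set Λ) : LTm Λ → LTm Λ → Prop := ReflTransGen (St X)

theorem Sts.refl (M : LTm Λ) : Sts X M M := ReflTransGen.refl

theorem Sts.trans {M N Q : LTm Λ} (h : Sts X M N) (h' : Sts X N Q) : Sts X M Q :=
  ReflTransGen.trans h h'

theorem St.sts {M N : LTm Λ} (h : St X M N) : Sts X M N := ReflTransGen.single h

theorem Sts.map (f : LTm Λ → LTm Λ) (hf : ∀ a b, St X a b → St X (f a) (f b)) {M N : LTm Λ}
    (h : Sts X M N) : Sts X (f M) (f N) := by
  induction h with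
  | refl => exact .refl _
  | tail _ h ih => exact ih.trans (hf _ _ h).sts

theorem Sts.app {l : Λ} {M M' N N' : LTm Λ} (h : Sts X M M') (h' : Sts X N N') :
    Sts X (LTm.app l M N) (LTm.app l M' N') :=
  (h.map (fun M => LTm.app l M N) fun _ _ h => .appL _ _ h).trans
    (h'.map (fun N => LTm.app l M' N) fun _ _ h => .appR _ _ h)

theorem Sts.mem {M M' N N' : LTm Λ} (h : Sts X M M') (h' : Sts X N N') :
    Sts X (LTm.mem M N) (LTm.mem M' N') :=
  (h.map (fun M => LTm.mem M N) fun _ _ h => .memL _ h).trans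
    (h'.map (fun N => LTm.mem M' N) fun _ _ h => .memR _ h)

theorem Sts.lam {l : Λ} {M M' : LTm Λ} (h : Sts X M M') : Sts X (LTm.lam l M) (LTm.lam l M') :=
  h.map (fun M => LTm.lam l M) fun _ _ h => .lam _ h

theorem Sts.ren {M M' : LTm Λ} (h : Sts X M M') (r : ℕ → ℕ) : Sts X (M.ren r) (M'.ren r) :=
  h.map (fun M => M.ren r) fun _ _ h => h.ren r

theorem Sts.ups {σ τ : ℕ → LTm Λ} (h : ∀ n, Sts X (σ n) (τ n)) (n : ℕ) :
    Sts X (LTm.ups σ n) (LTm.ups τ n) := by
  cases n with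
  | zero => exact .refl _
  | succ n => exact (h n).ren _

theorem Sts.sub (M : LTm Λ) : ∀ {σ τ : ℕ → LTm Λ}, (∀ n, Sts X (σ n) (τ n)) →
    Sts X (M.sub σ) (M.sub τ) := by
  induction M with
  | var n => intro σ τ h; exact h n
  | con => intro σ τ _; exact .refl _
  | app l M N ihM ihN => intro σ τ h; exact (ihM h).app (ihN h)
  | lam l M ih => intro σ τ h; exact (ih (Sts.ups h)).lam
  | mem M N ihM ihN => intro σ τ h; exact (ihM h).mem (ihN h)

theorem Sts.instR (M : LTm Λ) {N N' : LTm Λ} (h : Sts X N N') :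
    Sts X (LTm.inst M N) (LTm.inst M N') := by
  refine Sts.sub M fun n => ?_
  cases n with
  | zero => exact h
  | succ n => exact .refl _

theorem Ctr.det {l : Λ} {F N R R' : LTm Λ} (h : Ctr l F N R) (h' : Ctr l F N R') : R = R' := by
  induction h generalizing R' with
  | lam => cases h'; rfl
  | mem Q _ ih => cases h' with
    | mem _ h' => rw [ih h']

theorem Ctr.stepL {l : Λ} {F N R : LTm Λ} (h : Ctr l F N R) : ∀ {F' : LTm Λ}, St X F F' →
    ∃ R', Ctr l F' N R' ∧ Sts X R R' := by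
  induction h with
  | lam M N =>
    intro F' h
    cases h with
    | lam _ h => exact ⟨_, .lam _ _, (Sts.mem (h.sub _).sts (.refl _))⟩
  | mem Q hc ih =>
    intro F' h
    cases h with
    | memL _ h => obtain ⟨R', h1, h2⟩ := ih h; exact ⟨_, .mem _ h1, h2.mem (.refl _)⟩
    | memR _ h => exact ⟨_, .mem _ hc, (Sts.refl _).mem h.sts⟩

theorem Ctr.stepR {l : Λ} {F N R : LTm Λ} (h : Ctr l F N R) {N' : LTm Λ} (hN : St X N N') :
    ∃ R', Ctr l F N' R' ∧ Sts X R R' := by
  induction h with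
  | lam M N => exact ⟨_, .lam _ _, (Sts.instR M hN.sts).mem hN.sts⟩
  | mem Q hc ih => obtain ⟨R', h1, h2⟩ := ih hN; exact ⟨_, .mem _ h1, h2.mem (.refl _)⟩

/-- Weak confluence. -/
theorem St.wcr {M N Q : LTm Λ} (h : St X M N) (h' : St X M Q) :
    ∃ R, Sts X N R ∧ Sts X Q R := by
  induction h generalizing Q with
  | root hl hc =>
    cases h' with
    | root hl' hc' => rw [hc.det hc']; exact ⟨_, .refl _, .refl _⟩
    | appL _ _ h =>
      obtain ⟨R', h1, h2⟩ := hc.stepL h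
      exact ⟨R', h2, (St.root hl h1).sts⟩
    | appR _ _ h =>
      obtain ⟨R', h1, h2⟩ := hc.stepR h
      exact ⟨R', h2, (St.root hl h1).sts⟩
  | appL l N h ih =>
    cases h' with
    | root hl' hc' =>
      obtain ⟨R', h1, h2⟩ := hc'.stepL h
      exact ⟨R', (St.root hl' h1).sts, h2⟩
    | appL _ _ h' =>
      obtain ⟨R, h1, h2⟩ := ih h'
      exact ⟨_, h1.app (.refl _), h2.app (.refl _)⟩
    | appR _ _ h' => exact ⟨_, (Sts.refl _).app h'.sts, h.sts.app (.refl _)⟩
  | appR l M h ih =>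
    cases h' with
    | root hl' hc' =>
      obtain ⟨R', h1, h2⟩ := hc'.stepR h
      exact ⟨R', (St.root hl' h1).sts, h2⟩
    | appL _ _ h' => exact ⟨_, h'.sts.app (.refl _), (Sts.refl _).app h.sts⟩
    | appR _ _ h' =>
      obtain ⟨R, h1, h2⟩ := ih h'
      exact ⟨_, (Sts.refl _).app h1, (Sts.refl _).app h2⟩
  | lam l h ih =>
    cases h' with
    | lam _ h' =>
      obtain ⟨R, h1, h2⟩ := ih h'
      exact ⟨_, h1.lam, h2.lam⟩
  | memL N h ih =>
    cases h' with
    | memL _ h' =>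
      obtain ⟨R, h1, h2⟩ := ih h'
      exact ⟨_, h1.mem (.refl _), h2.mem (.refl _)⟩
    | memR _ h' => exact ⟨_, (Sts.refl _).mem h'.sts, h.sts.mem (.refl _)⟩
  | memR M h ih =>
    cases h' with
    | memL _ h' => exact ⟨_, h'.sts.mem (.refl _), (Sts.refl _).mem h.sts⟩
    | memR _ h' =>
      obtain ⟨R, h1, h2⟩ := ih h'
      exact ⟨_, (Sts.refl _).mem h1, (Sts.refl _).mem h2⟩

/-- The weight of a term. -/
def wt : LTm Λ → ℕ
  | LTm.var _ => 1
  | LTm.con => 1
  | LTm.app _ M N => wt M + wt N + 1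
  | LTm.lam _ M => wt M + 1
  | LTm.mem M N => wt M + wt N + 3

theorem wt_pos (M : LTm Λ) : 1 ≤ wt M := by
  cases M <;> simp only [wt] <;> omega

theorem le_wt_sub (M : LTm Λ) : ∀ σ : ℕ → LTm Λ, wt M ≤ wt (M.sub σ) := by
  induction M with
  | var n => intro σ; exact wt_pos _
  | con => intro σ; exact le_rfl
  | app l M N ihM ihN =>
    intro σ; have := ihM σ; have := ihN σ; simp only [wt, sub]; omega
  | lam l M ih => intro σ; have := ih (LTm.ups σ); simp only [LTm.sub, wt]; omega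
  | mem M N ihM ihN =>
    intro σ; have := ihM σ; have := ihN σ; simp only [LTm.sub, wt]; omega

theorem Ctr.wt_lt {l : Λ} {F N R : LTm Λ} (h : Ctr l F N R) : wt F + wt N + 1 < wt R := by
  induction h with
  | lam M N =>
    have : wt M ≤ wt (LTm.inst M N) := le_wt_sub M _
    simp only [wt]; omega
  | mem Q _ ih => simp only [wt]; omega

theorem St.wt_lt {M N : LTm Λ} (h : St X M N) : wt M < wt N := by
  induction h with
  | root _ hc => have := hc.wt_lt; simp only [wt]; omega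
  | _ => simp only [wt]; omega

/-- Weak normalization implies strong normalization. -/
theorem snX_of_wn {M N : LTm Λ} (h : Sts X M N) (hN : ∀ Q, ¬ St X N Q) : SnX X M :=
  (klop wt (fun _ _ h => h.wt_lt) (fun _ _ _ h h' => h.wcr h') hN _ M le_rfl h).1

end Vale.Agent.P340
end

section

/-! Substitution calculus. -/

namespace Vale.Agent.P340

universe u
variable {S : Type u}

namespace Tm

theorem up_id : up (fun n => n) = fun n => n := by
  funext n; cases n <;> rfl

theorem up_comp (r q : ℕ → ℕ) : (fun n => up q (up r n)) = up (fun n => q (r n)) := by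
  funext n; cases n <;> rfl

theorem ren_id (M : Tm S) : ren (fun n => n) M = M := by
  induction M with
  | var n => rfl
  | sort s => rfl
  | app M N ihM ihN => simp only [ren, ihM, ihN]
  | lam A M ihA ihM => simp [ren, ihA, up_id, ihM]
  | pi A M ihA ihM => simp [ren, ihA, up_id, ihM]

theorem ren_ren (M : Tm S) : ∀ (r q : ℕ → ℕ), ren q (ren r M) = ren (fun n => q (r n)) M := by
  induction M with
  | var n => intros; rfl
  | sort s => intros; rfl
  | app M N ihM ihN => intros; simp only [ren, ihM, ihN]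
  | lam A M ihA ihM => intro r q; simp [ren, ihA, ihM, up_comp]
  | pi A M ihA ihM => intro r q; simp [ren, ihA, ihM, up_comp]

theorem ups_up (σ : ℕ → Tm S) (r : ℕ → ℕ) :
    (fun n => ups σ (up r n)) = ups (fun n => σ (r n)) := by
  funext n; cases n <;> rfl

theorem sub_ren (M : Tm S) : ∀ (r : ℕ → ℕ) (σ : ℕ → Tm S),
    sub σ (ren r M) = sub (fun n => σ (r n)) M := by
  induction M with
  | var n => intros; rfl
  | sort s => intros; rfl
  | app M N ihM ihN => intros; simp only [ren, sub, ihM, ihN]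
  | lam A M ihA ihM => intro r σ; simp [ren, sub, ihA, ihM, ups_up]
  | pi A M ihA ihM => intro r σ; simp [ren, sub, ihA, ihM, ups_up]

theorem ren_wk (r : ℕ → ℕ) (M : Tm S) : ren (up r) (wk M) = wk (ren r M) := by
  unfold wk; rw [ren_ren, ren_ren]; rfl

theorem ren_ups (σ : ℕ → Tm S) (r : ℕ → ℕ) :
    (fun n => ren (up r) (ups σ n)) = ups (fun n => ren r (σ n)) := by
  funext n; cases n with
  | zero => rfl
  | succ n => exact ren_wk r (σ n)

theorem ren_sub (M : Tm S) : ∀ (σ : ℕ → Tm S) (r : ℕ → ℕ),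
    ren r (sub σ M) = sub (fun n => ren r (σ n)) M := by
  induction M with
  | var n => intros; rfl
  | sort s => intros; rfl
  | app M N ihM ihN => intros; simp only [sub, ren, ihM, ihN]
  | lam A M ihA ihM => intro σ r; simp [ren, sub, ihA, ihM, ren_ups]
  | pi A M ihA ihM => intro σ r; simp [ren, sub, ihA, ihM, ren_ups]

theorem sub_wk (σ : ℕ → Tm S) (M : Tm S) : sub (ups σ) (wk M) = wk (sub σ M) := by
  unfold wk; rw [sub_ren, ren_sub]; rfl

theorem sub_ups (σ τ : ℕ → Tm S) :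
    (fun n => sub (ups τ) (ups σ n)) = ups (fun n => sub τ (σ n)) := by
  funext n; cases n with
  | zero => rfl
  | succ n => exact sub_wk τ (σ n)

theorem sub_sub (M : Tm S) : ∀ (σ τ : ℕ → Tm S),
    sub τ (sub σ M) = sub (fun n => sub τ (σ n)) M := by
  induction M with
  | var n => intros; rfl
  | sort s => intros; rfl
  | app M N ihM ihN => intros; simp only [sub, ihM, ihN]
  | lam A M ihA ihM => intro σ τ; simp [sub, ihA, ihM, sub_ups]
  | pi A M ihA ihM => intro σ τ; simp [sub, ihA, ihM, sub_ups]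

theorem ups_var : ups (var : ℕ → Tm S) = var := by
  funext n; cases n <;> rfl

theorem sub_var (M : Tm S) : sub var M = M := by
  induction M with
  | var n => rfl
  | sort s => rfl
  | app M N ihM ihN => simp [sub, ihM, ihN]
  | lam A M ihA ihM => simp [sub, ihA, ups_var, ihM]
  | pi A M ihA ihM => simp [sub, ihA, ups_var, ihM]

theorem ups_varr (r : ℕ → ℕ) : ups (fun n => (var (r n) : Tm S)) = fun n => var (up r n) := by
  funext n; cases n <;> rfl

theorem ren_eq_sub (M : Tm S) : ∀ r : ℕ → ℕ, ren r M = sub (fun n => var (r n)) M := by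
  induction M with
  | var n => intro r; rfl
  | sort s => intro r; rfl
  | app M N ihM ihN => intro r; simp [ren, sub, ihM, ihN]
  | lam A M ihA ihM => intro r; simp [ren, sub, ihA, ihM, ups_varr]
  | pi A M ihA ihM => intro r; simp [ren, sub, ihA, ihM, ups_varr]

theorem sub_single_wk (N M : Tm S) : sub (single N) (wk M) = M := by
  unfold wk; rw [sub_ren]
  exact sub_var M

theorem inst_wk (M N : Tm S) : inst (wk M) N = M := sub_single_wk N M

theorem ren_inst (M N : Tm S) (r : ℕ → ℕ) :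
    ren r (inst M N) = inst (ren (up r) M) (ren r N) := by
  unfold inst; rw [ren_sub, sub_ren]
  congr 1; funext n; cases n <;> rfl

theorem sub_inst (M N : Tm S) (σ : ℕ → Tm S) :
    sub σ (inst M N) = inst (sub (ups σ) M) (sub σ N) := by
  unfold inst; rw [sub_sub, sub_sub]
  congr 1; funext n; cases n with
  | zero => rfl
  | succ n => exact (sub_single_wk (sub σ N) (σ n)).symm

/-- Extension of a substitution. -/
def scons (N : Tm S) (σ : ℕ → Tm S) : ℕ → Tm S
  | 0 => N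
  | n + 1 => σ n

theorem inst_ups (M N : Tm S) (σ : ℕ → Tm S) :
    inst (sub (ups σ) M) N = sub (scons N σ) M := by
  unfold inst; rw [sub_sub]
  congr 1; funext n; cases n with
  | zero => rfl
  | succ n => exact sub_single_wk N (σ n)

theorem sub_scons_wk (M N : Tm S) (σ : ℕ → Tm S) : sub (scons N σ) (wk M) = sub σ M := by
  unfold wk; rw [sub_ren]; rfl

theorem single_eq (N : Tm S) : single N = scons N var := by
  funext n; cases n <;> rfl

theorem inst_eq (M N : Tm S) : inst M N = sub (scons N var) M := by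
  unfold inst; rw [single_eq]

end Tm

end Vale.Agent.P340
end

section

/-! Confluence of beta reduction. -/

namespace Vale.Agent.P340

universe u
variable {S : Type u}

open Tm

/-- Parallel reduction. -/
inductive Par : Tm S → Tm S → Prop where
  | var (n : ℕ) : Par (var n) (var n)
  | sort (s : S) : Par (sort s) (sort s)
  | app {M M' N N' : Tm S} : Par M M' → Par N N' → Par (app M N) (app M' N')
  | lam {A A' M M' : Tm S} : Par A A' → Par M M' → Par (lam A M) (lam A' M')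
  | pi {A A' M M' : Tm S} : Par A A' → Par M M' → Par (pi A M) (pi A' M')
  | beta {A M M' N N' : Tm S} : Par M M' → Par N N' → Par (app (lam A M) N) (inst M' N')

theorem Par.refl (M : Tm S) : Par M M := by
  induction M with
  | var n => exact .var n
  | sort s => exact .sort s
  | app M N ihM ihN => exact .app ihM ihN
  | lam A M ihA ihM => exact .lam ihA ihM
  | pi A M ihA ihM => exact .pi ihA ihM

theorem Step.par {M N : Tm S} (h : Step M N) : Par M N := by
  induction h with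
  | beta A M N => exact .beta (.refl M) (.refl N)
  | appL N _ ih => exact .app ih (.refl N)
  | appR M _ ih => exact .app (.refl M) ih
  | lamL M _ ih => exact .lam ih (.refl M)
  | lamR A _ ih => exact .lam (.refl A) ih
  | piL B _ ih => exact .pi ih (.refl B)
  | piR A _ ih => exact .pi (.refl A) ih

theorem Red.refl (M : Tm S) : Red M M := Relation.ReflTransGen.refl

theorem Red.trans {M N P : Tm S} (h : Red M N) (h' : Red N P) : Red M P :=
  Relation.ReflTransGen.trans h h'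

theorem Red.step {M N : Tm S} (h : Step M N) : Red M N := Relation.ReflTransGen.single h

theorem Red.map {M N : Tm S} (f : Tm S → Tm S)
    (hf : ∀ a b, Step a b → Step (f a) (f b)) (h : Red M N) : Red (f M) (f N) := by
  induction h with
  | refl => exact .refl _
  | tail _ h ih => exact ih.trans (.step (hf _ _ h))

theorem Red.app {M M' N N' : Tm S} (h : Red M M') (h' : Red N N') :
    Red (Tm.app M N) (Tm.app M' N') := by
  refine Red.trans (N := Tm.app M' N) ?_ ?_
  · exact Red.map (fun x => Tm.app x N) (fun _ _ h => .appL N h) h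
  · exact Red.map (fun x => Tm.app M' x) (fun _ _ h => .appR M' h) h'

theorem Red.lam {M M' N N' : Tm S} (h : Red M M') (h' : Red N N') :
    Red (Tm.lam M N) (Tm.lam M' N') := by
  refine Red.trans (N := Tm.lam M' N) ?_ ?_
  · exact Red.map (fun x => Tm.lam x N) (fun _ _ h => .lamL N h) h
  · exact Red.map (fun x => Tm.lam M' x) (fun _ _ h => .lamR M' h) h'

theorem Red.pi {M M' N N' : Tm S} (h : Red M M') (h' : Red N N') :
    Red (Tm.pi M N) (Tm.pi M' N') := by
  refine Red.trans (N := Tm.pi M' N) ?_ ?_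
  · exact Red.map (fun x => Tm.pi x N) (fun _ _ h => .piL N h) h
  · exact Red.map (fun x => Tm.pi M' x) (fun _ _ h => .piR M' h) h'

theorem Par.red {M N : Tm S} (h : Par M N) : Red M N := by
  induction h with
  | var n => exact .refl _
  | sort s => exact .refl _
  | app _ _ ih ih' => exact ih.app ih'
  | lam _ _ ih ih' => exact ih.lam ih'
  | pi _ _ ih ih' => exact ih.pi ih'
  | @beta A M M' N N' _ _ ih ih' =>
    exact Red.trans (Red.app (Red.lam (.refl A) ih) ih') (.step (.beta A M' N'))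

theorem Step.ren {M N : Tm S} (h : Step M N) : ∀ r : ℕ → ℕ, Step (M.ren r) (N.ren r) := by
  induction h with
  | beta A M N => intro r; rw [ren_inst]; exact .beta _ _ _
  | appL N _ ih => intro r; exact .appL _ (ih r)
  | appR M _ ih => intro r; exact .appR _ (ih r)
  | lamL M _ ih => intro r; exact .lamL _ (ih r)
  | lamR A _ ih => intro r; exact .lamR _ (ih _)
  | piL B _ ih => intro r; exact .piL _ (ih r)
  | piR A _ ih => intro r; exact .piR _ (ih _)

theorem Step.sub {M N : Tm S} (h : Step M N) :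
    ∀ σ : ℕ → Tm S, Step (M.sub σ) (N.sub σ) := by
  induction h with
  | beta A M N => intro r; rw [sub_inst]; exact .beta _ _ _
  | appL N _ ih => intro r; exact .appL _ (ih r)
  | appR M _ ih => intro r; exact .appR _ (ih r)
  | lamL M _ ih => intro r; exact .lamL _ (ih r)
  | lamR A _ ih => intro r; exact .lamR _ (ih _)
  | piL B _ ih => intro r; exact .piL _ (ih r)
  | piR A _ ih => intro r; exact .piR _ (ih _)

theorem Red.ren {M N : Tm S} (h : Red M N) (r : ℕ → ℕ) : Red (M.ren r) (N.ren r) :=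
  Red.map (fun x => Tm.ren r x) (fun _ _ h => h.ren r) h

theorem Red.sub {M N : Tm S} (h : Red M N) (σ : ℕ → Tm S) : Red (M.sub σ) (N.sub σ) :=
  Red.map (fun x => Tm.sub σ x) (fun _ _ h => h.sub σ) h

theorem Par.ren {M N : Tm S} (h : Par M N) : ∀ r : ℕ → ℕ, Par (M.ren r) (N.ren r) := by
  induction h with
  | var n => intro r; exact .refl _
  | sort s => intro r; exact .refl _
  | app _ _ ih ih' => intro r; exact .app (ih r) (ih' r)
  | lam _ _ ih ih' => intro r; exact .lam (ih r) (ih' _)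
  | pi _ _ ih ih' => intro r; exact .pi (ih r) (ih' _)
  | beta _ _ ih ih' => intro r; rw [ren_inst]; exact .beta (ih _) (ih' r)

theorem Par.ups {σ τ : ℕ → Tm S} (h : ∀ n, Par (σ n) (τ n)) :
    ∀ n, Par (Tm.ups σ n) (ups τ n) := by
  intro n; cases n with
  | zero => exact .refl _
  | succ n => exact (h n).ren _

theorem Par.sub {M N : Tm S} (h : Par M N) :
    ∀ {σ τ : ℕ → Tm S}, (∀ n, Par (σ n) (τ n)) → Par (M.sub σ) (N.sub τ) := by
  induction h with
  | var n => intro σ τ h; exact h n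
  | sort s => intro σ τ h; exact .refl _
  | app _ _ ih ih' => intro σ τ h; exact .app (ih h) (ih' h)
  | lam _ _ ih ih' => intro σ τ h; exact .lam (ih h) (ih' (Par.ups h))
  | pi _ _ ih ih' => intro σ τ h; exact .pi (ih h) (ih' (Par.ups h))
  | beta _ _ ih ih' => intro σ τ h; rw [sub_inst]; exact .beta (ih (Par.ups h)) (ih' h)

theorem Par.inst {M M' N N' : Tm S} (h : Par M M') (h' : Par N N') :
    Par (Tm.inst M N) (Tm.inst M' N') := by
  refine h.sub ?_
  intro n; cases n with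
  | zero => exact h'
  | succ n => exact .refl _

/-- Complete development. -/
def dev : Tm S → Tm S
  | var n => var n
  | sort s => sort s
  | app (lam _ M) N => inst (dev M) (dev N)
  | app (var n) N => app (var n) (dev N)
  | app (sort s) N => app (sort s) (dev N)
  | app (app P Q) N => app (dev (app P Q)) (dev N)
  | app (pi A B) N => app (pi (dev A) (dev B)) (dev N)
  | lam A M => lam (dev A) (dev M)
  | pi A B => pi (dev A) (dev B)

theorem Par.dev {M N : Tm S} (h : Par M N) : Par N (dev M) := by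
  induction h with
  | var n => exact .refl _
  | sort s => exact .refl _
  | @app M M' N N' hM hN ih ih' =>
    cases M with
    | lam A P =>
      cases hM with
      | lam hA hP =>
        simp only [P340.dev] at ih ⊢
        cases ih with
        | lam _ hP' => exact .beta hP' ih'
    | var n => exact .app ih ih'
    | sort n => exact .app ih ih'
    | app P Q => exact .app ih ih'
    | pi P Q => exact .app ih ih'
  | lam _ _ ih ih' => exact .lam ih ih'
  | pi _ _ ih ih' => exact .pi ih ih'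
  | beta _ _ ih ih' => exact ih.inst ih'

theorem Par.diamond {M N P : Tm S} (h : Par M N) (h' : Par M P) :
    ∃ Q, Par N Q ∧ Par P Q := ⟨_, h.dev, h'.dev⟩

theorem red_iff_par {M N : Tm S} : Red M N ↔ Relation.ReflTransGen Par M N := by
  constructor
  · intro h
    induction h with
    | refl => exact .refl
    | tail _ h ih => exact ih.tail h.par
  · intro h
    induction h with
    | refl => exact .refl _
    | tail _ h ih => exact ih.trans h.red

theorem Red.confluent {M N P : Tm S} (h : Red M N) (h' : Red M P) :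
    ∃ Q, Red N Q ∧ Red P Q := by
  have key := Relation.church_rosser (r := (Par : Tm S → Tm S → Prop))
    (fun a b c hab hac => by
      obtain ⟨d, h1, h2⟩ := hab.diamond hac
      exact ⟨d, .single h1, .single h2⟩) (red_iff_par.1 h) (red_iff_par.1 h')
  obtain ⟨Q, h1, h2⟩ := key
  exact ⟨Q, red_iff_par.2 h1, red_iff_par.2 h2⟩

theorem Conv.refl (M : Tm S) : Conv M M := Relation.EqvGen.refl M

theorem Conv.symm {M N : Tm S} (h : Conv M N) : Conv N M := Relation.EqvGen.symm _ _ h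

theorem Conv.trans {M N P : Tm S} (h : Conv M N) (h' : Conv N P) : Conv M P :=
  Relation.EqvGen.trans _ _ _ h h'

theorem Red.conv {M N : Tm S} (h : Red M N) : Conv M N := by
  induction h with
  | refl => exact .refl _
  | tail _ h ih => exact ih.trans (.rel _ _ h)

theorem Conv.cr {M N : Tm S} (h : Conv M N) : ∃ Q, Red M Q ∧ Red N Q := by
  induction h with
  | rel _ _ h => exact ⟨_, .step h, .refl _⟩
  | refl _ => exact ⟨_, .refl _, .refl _⟩
  | symm _ _ _ ih => obtain ⟨Q, h1, h2⟩ := ih; exact ⟨Q, h2, h1⟩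
  | trans _ _ _ _ _ ih ih' =>
    obtain ⟨Q, h1, h2⟩ := ih
    obtain ⟨Q', h3, h4⟩ := ih'
    obtain ⟨R, h5, h6⟩ := h2.confluent h3
    exact ⟨R, h1.trans h5, h4.trans h6⟩

theorem Conv.ren {M N : Tm S} (h : Conv M N) (r : ℕ → ℕ) : Conv (M.ren r) (N.ren r) := by
  obtain ⟨Q, h1, h2⟩ := h.cr
  exact (h1.ren r).conv.trans (h2.ren r).conv.symm

theorem Conv.sub {M N : Tm S} (h : Conv M N) (σ : ℕ → Tm S) :
    Conv (M.sub σ) (N.sub σ) := by
  obtain ⟨Q, h1, h2⟩ := h.cr
  exact (h1.sub σ).conv.trans (h2.sub σ).conv.symm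

theorem Conv.app {M M' N N' : Tm S} (h : Conv M M') (h' : Conv N N') :
    Conv (Tm.app M N) (Tm.app M' N') := by
  obtain ⟨Q, h1, h2⟩ := h.cr
  obtain ⟨Q', h3, h4⟩ := h'.cr
  exact (h1.app h3).conv.trans (h2.app h4).conv.symm

theorem Conv.lam {M M' N N' : Tm S} (h : Conv M M') (h' : Conv N N') :
    Conv (Tm.lam M N) (Tm.lam M' N') := by
  obtain ⟨Q, h1, h2⟩ := h.cr
  obtain ⟨Q', h3, h4⟩ := h'.cr
  exact (h1.lam h3).conv.trans (h2.lam h4).conv.symm

theorem Conv.pi {M M' N N' : Tm S} (h : Conv M M') (h' : Conv N N') :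
    Conv (Tm.pi M N) (Tm.pi M' N') := by
  obtain ⟨Q, h1, h2⟩ := h.cr
  obtain ⟨Q', h3, h4⟩ := h'.cr
  exact (h1.pi h3).conv.trans (h2.pi h4).conv.symm

theorem Par.reds {M N N' : Tm S} (h : Step N N') : Red (Tm.inst M N) (Tm.inst M N') :=
  ((Par.refl M).inst h.par).red

theorem Red.instR {M N N' : Tm S} (h : Red N N') : Red (Tm.inst M N) (Tm.inst M N') := by
  induction h with
  | refl => exact .refl _
  | tail _ h ih => exact ih.trans (Par.reds h)

theorem Red.inst {M M' N N' : Tm S} (h : Red M M') (h' : Red N N') :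
    Red (Tm.inst M N) (Tm.inst M' N') :=
  Red.trans (h.sub _) (Red.instR h')

theorem Conv.inst {M M' N N' : Tm S} (h : Conv M M') (h' : Conv N N') :
    Conv (Tm.inst M N) (Tm.inst M' N') := by
  obtain ⟨Q, h1, h2⟩ := h.cr
  obtain ⟨Q', h3, h4⟩ := h'.cr
  exact (h1.inst h3).conv.trans (h2.inst h4).conv.symm

/-! Reducts of particular shapes. -/

theorem Red.sort_inv {s : S} {M : Tm S} (h : Red (Tm.sort s) M) : M = Tm.sort s := by
  induction h with
  | refl => rfl
  | tail _ h ih => subst ih; cases h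

theorem Red.var_inv {n : ℕ} {M : Tm S} (h : Red (Tm.var n) M) : M = Tm.var n := by
  induction h with
  | refl => rfl
  | tail _ h ih => subst ih; cases h

theorem Red.pi_inv {A B M : Tm S} (h : Red (Tm.pi A B) M) :
    ∃ A' B', M = Tm.pi A' B' ∧ Red A A' ∧ Red B B' := by
  induction h with
  | refl => exact ⟨_, _, rfl, .refl _, .refl _⟩
  | tail _ h ih =>
    obtain ⟨A', B', rfl, h1, h2⟩ := ih
    cases h with
    | piL _ h => exact ⟨_, _, rfl, h1.trans (.step h), h2⟩
    | piR _ h => exact ⟨_, _, rfl, h1, h2.trans (.step h)⟩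

theorem Conv.sort_inj {s t : S} (h : Conv (Tm.sort s) (sort t)) : s = t := by
  obtain ⟨Q, h1, h2⟩ := h.cr
  have := h1.sort_inv.symm.trans h2.sort_inv
  cases this; rfl

theorem Conv.pi_inj {A B A' B' : Tm S} (h : Conv (Tm.pi A B) (Tm.pi A' B')) :
    Conv A A' ∧ Conv B B' := by
  obtain ⟨Q, h1, h2⟩ := h.cr
  obtain ⟨A1, B1, rfl, h3, h4⟩ := h1.pi_inv
  obtain ⟨A2, B2, e, h5, h6⟩ := h2.pi_inv
  cases e
  exact ⟨h3.conv.trans h5.conv.symm, h4.conv.trans h6.conv.symm⟩

theorem Conv.sort_pi {s : S} {A B : Tm S} (h : Conv (Tm.sort s) (Tm.pi A B)) : False := by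
  obtain ⟨Q, h1, h2⟩ := h.cr
  obtain ⟨A1, B1, rfl, h3, h4⟩ := h2.pi_inv
  have := h1.sort_inv
  cases this

theorem Conv.red_sort {s : S} {M : Tm S} (h : Conv M (Tm.sort s)) : Red M (Tm.sort s) := by
  obtain ⟨Q, h1, h2⟩ := h.cr
  have := h2.sort_inv
  subst this; exact h1

end Vale.Agent.P340
end

section

/-! Metatheory of typing. -/

namespace Vale.Agent.P340

universe u
variable {S : Type u} {P : Spec S}

open Tm

/-- `Has Γ n A`: the variable `n` has type `A` in `Γ` (already weakened). -/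
inductive Has : List (Tm S) → ℕ → Tm S → Prop where
  | zero (Γ : List (Tm S)) (A : Tm S) : Has (A :: Γ) 0 (wk A)
  | succ {Γ : List (Tm S)} {n : ℕ} {A : Tm S} (B : Tm S) : Has Γ n A → Has (B :: Γ) (n + 1) (wk A)

theorem Has.unique {Γ : List (Tm S)} {n : ℕ} {A B : Tm S} (h : Has Γ n A) (h' : Has Γ n B) :
    A = B := by
  induction h generalizing B with
  | zero Γ A => cases h'; rfl
  | succ B _ ih => cases h' with
    | succ _ h' => rw [ih h']

/-- Typing without well-formedness of contexts, and without a weakening rule. -/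
inductive T (P : Spec S) : List (Tm S) → Tm S → Tm S → Prop where
  | sort {Γ : List (Tm S)} {s t : S} : P.ax s t → T P Γ (sort s) (sort t)
  | var {Γ : List (Tm S)} {n : ℕ} {A : Tm S} : Has Γ n A → T P Γ (var n) A
  | pi {Γ : List (Tm S)} {A B : Tm S} {s₁ s₂ s₃ : S} :
      T P Γ A (sort s₁) → T P (A :: Γ) B (sort s₂) → P.rule s₁ s₂ s₃ → T P Γ (pi A B) (sort s₃)
  | lam {Γ : List (Tm S)} {A M B : Tm S} {s : S} :
      T P (A :: Γ) M B → T P Γ (pi A B) (sort s) → T P Γ (lam A M) (pi A B)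
  | app {Γ : List (Tm S)} {M N A B : Tm S} :
      T P Γ M (pi A B) → T P Γ N A → T P Γ (app M N) (inst B N)
  | conv {Γ : List (Tm S)} {M A B : Tm S} {s : S} :
      T P Γ M A → T P Γ B (sort s) → Conv A B → T P Γ M B

/-- Well-formed contexts. -/
inductive WF (P : Spec S) : List (Tm S) → Prop where
  | nil : WF P []
  | cons {Γ : List (Tm S)} {A : Tm S} {s : S} : WF P Γ → T P Γ A (sort s) → WF P (A :: Γ)

/-- Renamings between contexts. -/
def RenOk (Γ Δ : List (Tm S)) (r : ℕ → ℕ) : Prop :=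
  ∀ n A, Has Γ n A → Has Δ (r n) (A.ren r)

theorem RenOk.up {Γ Δ : List (Tm S)} {r : ℕ → ℕ} (h : RenOk Γ Δ r) (A : Tm S) :
    RenOk (A :: Γ) (A.ren r :: Δ) (Tm.up r) := by
  intro n B hB
  cases hB with
  | zero => rw [ren_wk]; exact .zero _ _
  | succ _ hB => rw [ren_wk]; exact .succ _ (h _ _ hB)

theorem T.ren {Γ : List (Tm S)} {M A : Tm S} (h : T P Γ M A) :
    ∀ {Δ : List (Tm S)} {r : ℕ → ℕ}, RenOk Γ Δ r → T P Δ (M.ren r) (A.ren r) := by
  induction h with
  | sort h => intro Δ r hr; exact .sort h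
  | var h => intro Δ r hr; exact .var (hr _ _ h)
  | pi _ _ h ih ih' => intro Δ r hr; exact .pi (ih hr) (ih' (hr.up _)) h
  | lam _ _ ih ih' => intro Δ r hr; exact .lam (ih (hr.up _)) (ih' hr)
  | app _ _ ih ih' => intro Δ r hr; rw [ren_inst]; exact .app (ih hr) (ih' hr)
  | conv _ _ h ih ih' => intro Δ r hr; exact .conv (ih hr) (ih' hr) (h.ren r)

theorem renOk_wk (Γ : List (Tm S)) (A : Tm S) : RenOk Γ (A :: Γ) Nat.succ := by
  intro n B h; exact .succ _ h

theorem T.wk {Γ : List (Tm S)} {M A : Tm S} (h : T P Γ M A) (B : Tm S) :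
    T P (B :: Γ) (Tm.wk M) (Tm.wk A) := h.ren (renOk_wk Γ B)

/-- Substitutions between contexts. -/
def SubOk (P : Spec S) (Γ Δ : List (Tm S)) (σ : ℕ → Tm S) : Prop :=
  ∀ n A, Has Γ n A → T P Δ (σ n) (A.sub σ)

theorem SubOk.up {Γ Δ : List (Tm S)} {σ : ℕ → Tm S} (h : SubOk P Γ Δ σ) (A : Tm S) :
    SubOk P (A :: Γ) (A.sub σ :: Δ) (ups σ) := by
  intro n B hB
  cases hB with
  | zero => rw [sub_wk]; exact .var (.zero _ _)
  | succ _ hB => rw [sub_wk]; exact (h _ _ hB).wk _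

theorem T.sub {Γ : List (Tm S)} {M A : Tm S} (h : T P Γ M A) :
    ∀ {Δ : List (Tm S)} {σ : ℕ → Tm S}, SubOk P Γ Δ σ → T P Δ (M.sub σ) (A.sub σ) := by
  induction h with
  | sort h => intro Δ r hr; exact .sort h
  | var h => intro Δ r hr; exact hr _ _ h
  | pi _ _ h ih ih' => intro Δ r hr; exact .pi (ih hr) (ih' (hr.up _)) h
  | lam _ _ ih ih' => intro Δ r hr; exact .lam (ih (hr.up _)) (ih' hr)
  | app _ _ ih ih' => intro Δ r hr; rw [sub_inst]; exact .app (ih hr) (ih' hr)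
  | conv _ _ h ih ih' => intro Δ r hr; exact .conv (ih hr) (ih' hr) (h.sub r)

theorem subOk_single {Γ : List (Tm S)} {N A : Tm S} (h : T P Γ N A) :
    SubOk P (A :: Γ) Γ (single N) := by
  intro n B hB
  cases hB with
  | zero => rw [sub_single_wk]; exact h
  | succ _ hB => rw [sub_single_wk]; exact .var hB

theorem T.inst {Γ : List (Tm S)} {M B N A : Tm S} (h : T P (A :: Γ) M B) (h' : T P Γ N A) :
    T P Γ (Tm.inst M N) (Tm.inst B N) := h.sub (subOk_single h')

theorem T.inst_sort {Γ : List (Tm S)} {B N A : Tm S} {s : S} (h : T P (A :: Γ) B (Tm.sort s))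
    (h' : T P Γ N A) : T P Γ (Tm.inst B N) (Tm.sort s) := h.inst h'

/-- Changing the type of the last variable. -/
theorem T.ctx {Γ : List (Tm S)} {M B A A' : Tm S} {s : S} (h : T P (A :: Γ) M B)
    (hA : T P Γ A (Tm.sort s)) (hc : Conv A A') : T P (A' :: Γ) M B := by
  have := h.sub (Δ := A' :: Γ) (σ := Tm.var) (by
    intro n C hC
    rw [sub_var]
    cases hC with
    | zero => exact .conv (.var (.zero _ _)) (hA.wk _) (hc.symm.ren _)
    | succ _ hC => exact .var (.succ _ hC))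
  rwa [sub_var, sub_var] at this

theorem WF.has {Γ : List (Tm S)} (h : WF P Γ) : ∀ {n : ℕ} {A : Tm S}, Has Γ n A →
    ∃ s, T P Γ A (Tm.sort s) := by
  induction h with
  | nil => intro n A h; cases h
  | cons _ hA ih =>
    intro n B h
    cases h with
    | zero => exact ⟨_, hA.wk _⟩
    | succ _ h => obtain ⟨s, hs⟩ := ih h; exact ⟨s, hs.wk _⟩

/-! Generation. -/

theorem T.sort_inv {Γ : List (Tm S)} {s : S} {C : Tm S} (h : T P Γ (Tm.sort s) C) :
    ∃ t, P.ax s t ∧ Conv (Tm.sort t) C := by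
  generalize e : Tm.sort s = M at h
  induction h with
  | sort h => cases e; exact ⟨_, h, .refl _⟩
  | conv _ _ h ih _ => obtain ⟨t, h1, h2⟩ := ih e; exact ⟨t, h1, h2.trans h⟩
  | _ => cases e

theorem T.var_inv {Γ : List (Tm S)} {n : ℕ} {C : Tm S} (h : T P Γ (Tm.var n) C) :
    ∃ A, Has Γ n A ∧ Conv A C := by
  generalize e : Tm.var n = M at h
  induction h with
  | var h => cases e; exact ⟨_, h, .refl _⟩
  | conv _ _ h ih _ => obtain ⟨t, h1, h2⟩ := ih e; exact ⟨t, h1, h2.trans h⟩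
  | _ => cases e

theorem T.pi_inv {Γ : List (Tm S)} {A B C : Tm S} (h : T P Γ (Tm.pi A B) C) :
    ∃ s₁ s₂ s₃, T P Γ A (Tm.sort s₁) ∧ T P (A :: Γ) B (Tm.sort s₂) ∧ P.rule s₁ s₂ s₃ ∧
      Conv (Tm.sort s₃) C := by
  generalize e : Tm.pi A B = M at h
  induction h with
  | pi h1 h2 h3 => cases e; exact ⟨_, _, _, h1, h2, h3, .refl _⟩
  | conv _ _ h ih _ =>
    obtain ⟨s1, s2, s3, h1, h2, h3, h4⟩ := ih e; exact ⟨s1, s2, s3, h1, h2, h3, h4.trans h⟩
  | _ => cases e

theorem T.lam_inv {Γ : List (Tm S)} {A M C : Tm S} (h : T P Γ (Tm.lam A M) C) :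
    ∃ B s, T P (A :: Γ) M B ∧ T P Γ (Tm.pi A B) (Tm.sort s) ∧ Conv (Tm.pi A B) C := by
  generalize e : Tm.lam A M = M' at h
  induction h with
  | lam h1 h2 => cases e; exact ⟨_, _, h1, h2, .refl _⟩
  | conv _ _ h ih _ =>
    obtain ⟨B, s, h1, h2, h3⟩ := ih e; exact ⟨B, s, h1, h2, h3.trans h⟩
  | _ => cases e

theorem T.app_inv {Γ : List (Tm S)} {M N C : Tm S} (h : T P Γ (Tm.app M N) C) :
    ∃ A B, T P Γ M (Tm.pi A B) ∧ T P Γ N A ∧ Conv (Tm.inst B N) C := by
  generalize e : Tm.app M N = M' at h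
  induction h with
  | app h1 h2 => cases e; exact ⟨_, _, h1, h2, .refl _⟩
  | conv _ _ h ih _ =>
    obtain ⟨B, s, h1, h2, h3⟩ := ih e; exact ⟨B, s, h1, h2, h3.trans h⟩
  | _ => cases e

/-- Correctness of types. -/
theorem T.correct {Γ : List (Tm S)} {M A : Tm S} (h : T P Γ M A) (hΓ : WF P Γ) :
    (∃ s, A = Tm.sort s) ∨ ∃ s, T P Γ A (Tm.sort s) := by
  induction h with
  | sort h => exact .inl ⟨_, rfl⟩
  | var h => exact .inr (hΓ.has h)
  | pi _ _ _ _ _ => exact .inl ⟨_, rfl⟩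
  | lam _ h _ _ => exact .inr ⟨_, h⟩
  | app h1 h2 ih1 _ =>
    rcases ih1 hΓ with ⟨s, h⟩ | ⟨s, h⟩
    · cases h
    · obtain ⟨s1, s2, s3, h3, h4, -, -⟩ := h.pi_inv
      exact .inr ⟨s2, h4.inst_sort h2⟩
  | conv _ h _ _ _ => exact .inr ⟨_, h⟩

/-- Subject reduction. -/
theorem T.step {Γ : List (Tm S)} {M A : Tm S} (h : T P Γ M A) :
    ∀ {N : Tm S}, WF P Γ → Step M N → T P Γ N A := by
  induction h with
  | sort h => intro N _ h; cases h
  | var h => intro N _ h; cases h
  | @pi Γ A B s1 s2 s3 h1 h2 h3 ih ih' =>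
    intro N hΓ h
    cases h with
    | piL _ h => exact .pi (ih hΓ h) (h2.ctx h1 (.rel _ _ h)) h3
    | piR _ h => exact .pi h1 (ih' (hΓ.cons h1) h) h3
  | @lam Γ A M B s h1 h2 ih ih' =>
    intro N hΓ h
    obtain ⟨s1, s2, s3, hA, hB, hr, hs⟩ := h2.pi_inv
    cases h with
    | @lamL _ A' _ h =>
      have hA' : T P Γ (Tm.pi A' B) (Tm.sort s) := ih' hΓ (.piL _ h)
      have h3 := T.lam (h1.ctx hA (.rel _ _ h)) hA'
      exact .conv h3 h2 (Conv.pi (Conv.symm (.rel _ _ h)) (.refl _))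
    | lamR _ h => exact .lam (ih (hΓ.cons hA) h) h2
  | @app Γ M N A B h1 h2 ih ih' =>
    intro Q hΓ h
    have hB : ∃ s, T P Γ (Tm.inst B N) (Tm.sort s) := by
      rcases (T.app h1 h2).correct hΓ with ⟨s, h⟩ | h
      · rcases h1.correct hΓ with ⟨s, h⟩ | ⟨s, h⟩
        · cases h
        · obtain ⟨s1, s2, s3, h3, h4, -, -⟩ := h.pi_inv
          exact ⟨s2, h4.inst_sort h2⟩
      · exact h
    obtain ⟨sB, hB⟩ := hB
    cases h with
    | beta A' M' _ =>
      obtain ⟨B', s, h3, h4, h5⟩ := h1.lam_inv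
      obtain ⟨h6, h7⟩ := h5.pi_inj
      obtain ⟨s1, s2, s3, h8, h9, -, -⟩ := h4.pi_inv
      have h10 : T P Γ N A' := .conv h2 h8 h6.symm
      exact .conv (h3.inst h10) hB (h7.inst (.refl _))
    | appL _ h => exact .app (ih hΓ h) h2
    | appR _ h =>
      exact .conv (.app h1 (ih' hΓ h)) hB (Conv.inst (.refl _) (Conv.symm (.rel _ _ h)))
  | conv _ h1 h2 ih _ => intro N hΓ h; exact .conv (ih hΓ h) h1 h2

theorem T.red {Γ : List (Tm S)} {M N A : Tm S} (h : T P Γ M A) (hΓ : WF P Γ) (h' : Red M N) :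
    T P Γ N A := by
  induction h' with
  | refl => exact h
  | tail _ h' ih => exact ih.step hΓ h'

/-! Equivalence with the original typing relation. -/

theorem Typ.toT {Γ : List (Tm S)} {M A : Tm S} (h : Typ P Γ M A) : WF P Γ ∧ T P Γ M A := by
  induction h with
  | ax h => exact ⟨.nil, .sort h⟩
  | var _ ih => exact ⟨.cons ih.1 ih.2, .var (.zero _ _)⟩
  | weak _ _ ih ih' => exact ⟨.cons ih'.1 ih'.2, ih.2.wk _⟩
  | pi _ _ h ih ih' => exact ⟨ih.1, .pi ih.2 ih'.2 h⟩
  | lam _ _ ih ih' => exact ⟨ih'.1, .lam ih.2 ih'.2⟩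
  | app _ _ ih ih' => exact ⟨ih.1, .app ih.2 ih'.2⟩
  | conv _ _ h ih ih' => exact ⟨ih.1, .conv ih.2 ih'.2 h⟩

/-! Converse. -/

/-- Contexts that are well-formed for the original typing relation. -/
inductive CWF (P : Spec S) : List (Tm S) → Prop where
  | nil : CWF P []
  | cons {Γ : List (Tm S)} {A : Tm S} {s : S} : CWF P Γ → Typ P Γ A (Tm.sort s) → CWF P (A :: Γ)

theorem CWF.sort {Γ : List (Tm S)} (h : CWF P Γ) {s t : S} (hs : P.ax s t) :
    Typ P Γ (Tm.sort s) (Tm.sort t) := by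
  induction h with
  | nil => exact .ax hs
  | cons _ hA ih => exact .weak ih hA

theorem CWF.var {Γ : List (Tm S)} (h : CWF P Γ) : ∀ {n : ℕ} {A : Tm S}, Has Γ n A →
    Typ P Γ (Tm.var n) A := by
  induction h with
  | nil => intro n A h; cases h
  | cons _ hA ih =>
    intro n B h
    cases h with
    | zero => exact .var hA
    | succ _ h => exact .weak (ih h) hA

theorem Typ.pi_inv {Γ : List (Tm S)} {M C : Tm S} (h : Typ P Γ M C) :
    ∀ {A B : Tm S}, M = Tm.pi A B → ∃ s, Typ P Γ A (Tm.sort s) := by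
  induction h with
  | ax h => intro A B e; cases e
  | var _ _ => intro A B e; cases e
  | @weak Γ M B A s hM hA ih _ =>
    intro A' B' e
    cases M with
    | pi A'' B'' =>
      obtain ⟨s', hs⟩ := ih rfl
      injection e with e1 e2
      subst e1
      exact ⟨s', .weak hs hA⟩
    | _ => cases e
  | pi hA _ _ _ _ => intro A' B' e; injection e with e1 e2; subst e1; exact ⟨_, hA⟩
  | lam _ _ _ _ => intro A B e; cases e
  | app _ _ _ _ => intro A B e; cases e
  | conv _ _ _ ih _ => intro A B e; exact ih e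

theorem T.typ {Γ : List (Tm S)} {M A : Tm S} (h : T P Γ M A) (hΓ : CWF P Γ) :
    Typ P Γ M A := by
  induction h with
  | sort h => exact hΓ.sort h
  | var h => exact hΓ.var h
  | pi _ _ h ih ih' => exact .pi (ih hΓ) (ih' (hΓ.cons (ih hΓ))) h
  | lam _ _ ih ih' =>
    obtain ⟨s, hs⟩ := (ih' hΓ).pi_inv rfl
    exact .lam (ih (hΓ.cons hs)) (ih' hΓ)
  | app _ _ ih ih' => exact .app (ih hΓ) (ih' hΓ)
  | conv _ _ h ih ih' => exact .conv (ih hΓ) (ih' hΓ) h

theorem WF.cwf {Γ : List (Tm S)} (h : WF P Γ) : CWF P Γ := by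
  induction h with
  | nil => exact .nil
  | cons _ hA ih => exact .cons ih (hA.typ ih)

theorem typ_iff {Γ : List (Tm S)} {M A : Tm S} : Typ P Γ M A ↔ WF P Γ ∧ T P Γ M A :=
  ⟨Typ.toT, fun h => h.2.typ h.1.cwf⟩

/-! Uniqueness of types. -/

/-- A functional (singly sorted) specification. -/
structure Functional (P : Spec S) : Prop where
  ax : ∀ {s t t' : S}, P.ax s t → P.ax s t' → t = t'
  rule : ∀ {s₁ s₂ s₃ s₃' : S}, P.rule s₁ s₂ s₃ → P.rule s₁ s₂ s₃' → s₃ = s₃'

theorem Functional.unique (hP : Functional P) {M : Tm S} : ∀ {Γ : List (Tm S)} {A B : Tm S},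
    T P Γ M A → T P Γ M B → Conv A B := by
  induction M with
  | var n =>
    intro Γ A B h h'
    obtain ⟨A1, h1, h2⟩ := h.var_inv
    obtain ⟨B1, h3, h4⟩ := h'.var_inv
    cases h1.unique h3
    exact h2.symm.trans h4
  | sort s =>
    intro Γ A B h h'
    obtain ⟨A1, h1, h2⟩ := h.sort_inv
    obtain ⟨B1, h3, h4⟩ := h'.sort_inv
    cases hP.ax h1 h3
    exact h2.symm.trans h4
  | app M N ih _ =>
    intro Γ A B h h'
    obtain ⟨A1, B1, h1, _, h2⟩ := h.app_inv
    obtain ⟨A2, B2, h3, _, h4⟩ := h'.app_inv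
    have h5 := (ih h1 h3).pi_inj
    exact h2.symm.trans ((h5.2.inst (.refl _)).trans h4)
  | lam C M _ ih =>
    intro Γ A B h h'
    obtain ⟨A1, B1, h1, _, h2⟩ := h.lam_inv
    obtain ⟨A2, B2, h3, _, h4⟩ := h'.lam_inv
    exact h2.symm.trans (Conv.trans (Conv.pi (.refl _) (ih h1 h3)) h4)
  | pi C M ihC ih =>
    intro Γ A B h h'
    obtain ⟨s1, s2, s3, h1, h2, h3, h4⟩ := h.pi_inv
    obtain ⟨t1, t2, t3, k1, k2, k3, k4⟩ := h'.pi_inv
    cases (ihC h1 k1).sort_inj
    cases (ih h2 k2).sort_inj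
    cases hP.rule h3 k3
    exact h4.symm.trans k4

theorem Functional.sort_unique (hP : Functional P) {M : Tm S} {Γ : List (Tm S)} {s t : S}
    (h : T P Γ M (Tm.sort s)) (h' : T P Γ M (Tm.sort t)) : s = t :=
  (hP.unique h h').sort_inj

/-- Convertible types of a well-formed context have the same sort. -/
theorem Functional.conv_sort (hP : Functional P) {A B : Tm S} {Γ : List (Tm S)} {s t : S}
    (hΓ : WF P Γ) (h : T P Γ A (Tm.sort s)) (h' : T P Γ B (Tm.sort t)) (hc : Conv A B) :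
    s = t := by
  obtain ⟨C, h1, h2⟩ := hc.cr
  exact hP.sort_unique (h.red hΓ h1) (h'.red hΓ h2)

end Vale.Agent.P340
end

section

/-! Strong normalization as accessibility. -/

namespace Vale.Agent.P340

universe u
variable {S : Type u} {P : Spec S}

open Tm

/-- Strong normalization of a single expression, by accessibility. -/
def Sn (M : Tm S) : Prop := Acc (fun a b => Step b a) M

theorem Sn.intro {M : Tm S} (h : ∀ N, Step M N → Sn N) : Sn M := Acc.intro M h

theorem Sn.step {M N : Tm S} (h : Sn M) (h' : Step M N) : Sn N := Acc.inv h h'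

theorem Sn.red {M N : Tm S} (h : Sn M) (h' : Red M N) : Sn N := by
  induction h' with
  | refl => exact h
  | tail _ h' ih => exact ih.step h'

theorem Sn.sort (s : S) : Sn (Tm.sort s : Tm S) := .intro fun _ h => by cases h

/-- Iterated application. -/
def apps (M : Tm S) (l : List (Tm S)) : Tm S := l.foldl Tm.app M

theorem Step.apps {M N : Tm S} (h : Step M N) (l : List (Tm S)) :
    Step (apps M l) (apps N l) := by
  induction l generalizing M N with
  | nil => exact h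
  | cons Q l ih => exact ih (.appL Q h)

theorem Red.apps {M N : Tm S} (h : Red M N) (l : List (Tm S)) :
    Red (apps M l) (apps N l) :=
  Red.map (fun x => Vale.Agent.P340.apps x l) (fun _ _ h => h.apps l) h

/-- `M` is not an abstraction and stays so under reduction. -/
def Neu (M : Tm S) : Prop := ∀ A N, ¬ Red M (Tm.lam A N)

theorem Neu.app_red {M N Q : Tm S} (h : Neu M) (h' : Red (Tm.app M N) Q) :
    ∃ M' N', Q = Tm.app M' N' ∧ Red M M' ∧ Red N N' := by
  induction h' with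
  | refl => exact ⟨M, N, rfl, .refl _, .refl _⟩
  | tail _ hs ih =>
    obtain ⟨M', N', e, h1, h2⟩ := ih
    subst e
    cases hs with
    | beta A M'' _ => exact absurd h1 (h _ _)
    | appL _ hs => exact ⟨_, _, rfl, h1.trans (.step hs), h2⟩
    | appR _ hs => exact ⟨_, _, rfl, h1, h2.trans (.step hs)⟩

theorem Neu.app {M : Tm S} (h : Neu M) (N : Tm S) : Neu (Tm.app M N) := by
  intro A Q hr
  obtain ⟨M', N', e, -, -⟩ := h.app_red hr
  cases e

theorem Neu.var (n : ℕ) : Neu (Tm.var n : Tm S) := by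
  intro A N h; cases h.var_inv

theorem Neu.sort (s : S) : Neu (Tm.sort s : Tm S) := by
  intro A N h; cases h.sort_inv

theorem Neu.pi (A B : Tm S) : Neu (Tm.pi A B : Tm S) := by
  intro C N h
  obtain ⟨_, _, e, -, -⟩ := h.pi_inv
  cases e

/-- A step in one member of a list. -/
inductive StepL : List (Tm S) → List (Tm S) → Prop where
  | head {M N : Tm S} (l : List (Tm S)) : Step M N → StepL (M :: l) (N :: l)
  | tail (M : Tm S) {l l' : List (Tm S)} : StepL l l' → StepL (M :: l) (M :: l')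

theorem StepL.apps {l l' : List (Tm S)} (h : StepL l l') : ∀ M : Tm S,
    Step (apps M l) (Vale.Agent.P340.apps M l') := by
  induction h with
  | head l h => intro M; exact (Step.appR M h).apps l
  | tail N _ ih => intro M; exact ih (Tm.app M N)

theorem step_apps_inv {l : List (Tm S)} : ∀ {H Q : Tm S}, (∀ A M, H ≠ lam A M) →
    Step (apps H l) Q → (∃ H', Step H H' ∧ Q = apps H' l) ∨ ∃ l', StepL l l' ∧ Q = apps H l' := by
  induction l with
  | nil => intro H Q _ h; exact .inl ⟨Q, h, rfl⟩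
  | cons N l ih =>
    intro H Q hH h
    rcases ih (H := app H N) (by intro A M e; cases e) h with ⟨H', h1, h2⟩ | ⟨l', h1, h2⟩
    · cases h1 with
      | beta A M _ => exact absurd rfl (hH A M)
      | appL _ h1 => exact .inl ⟨_, h1, h2⟩
      | appR _ h1 => exact .inr ⟨_, .head l h1, h2⟩
    · exact .inr ⟨_, .tail N h1, h2⟩

/-- Strong head expansion. -/
theorem Sn.expand {A M N : Tm S} {l : List (Tm S)} (hA : Sn A) (hN : Sn N)
    (h : Sn (apps (Tm.inst M N) l)) : Sn (apps (Tm.app (Tm.lam A M) N) l) := by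
  induction hA generalizing M N l with
  | intro A _ ihA =>
    induction hN generalizing M l with
    | intro N hN' ihN =>
      have hN : Sn N := Acc.intro N hN'
      generalize e : apps (Tm.inst M N) l = R at h
      induction h generalizing M l with
      | intro R hR ihR =>
        subst e
        have hT : Sn (apps (Tm.inst M N) l) := Acc.intro _ hR
        refine .intro fun Q hQ => ?_
        rcases step_apps_inv (by intro A M e; cases e) hQ with ⟨H', h1, rfl⟩ | ⟨l', h1, rfl⟩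
        · cases h1 with
          | beta _ _ _ => exact hT
          | appL _ h1 =>
            cases h1 with
            | lamL _ h1 => exact ihA _ h1 hN hT
            | lamR _ h1 => exact ihR _ ((h1.sub _).apps l) rfl
          | appR _ h1 =>
            exact ihN _ h1 (hT.red ((Red.instR (.step h1)).apps l))
        · exact ihR _ (h1.apps _) rfl

/-- A set of strongly normalizing expressions with no infinite reduction sequence. -/
theorem Sn.no_inf {M : Tm S} (h : Sn M) :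
    ¬ ∃ f : ℕ → Tm S, f 0 = M ∧ ∀ n, Step (f n) (f (n + 1)) := by
  induction h with
  | intro M _ ih =>
    rintro ⟨f, h0, h⟩
    exact ih (f 1) (by rw [← h0]; exact h 0) ⟨fun n => f (n + 1), rfl, fun n => h (n + 1)⟩

theorem sn_of_no_inf {M : Tm S}
    (h : ¬ ∃ f : ℕ → Tm S, f 0 = M ∧ ∀ n, Step (f n) (f (n + 1))) : Sn M := by
  by_contra hM
  apply h
  have key : ∀ x : {x : Tm S // ¬ Sn x}, ∃ y : {x : Tm S // ¬ Sn x}, Step x.1 y.1 := by
    intro ⟨x, hx⟩
    by_contra hc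
    apply hx
    refine .intro fun N hN => ?_
    by_contra hN'
    exact hc ⟨⟨N, hN'⟩, hN⟩
  choose g hg using key
  refine ⟨fun n => (g^[n] ⟨M, hM⟩).1, rfl, fun n => ?_⟩
  show Step (g^[n] ⟨M, hM⟩).1 (g^[n + 1] ⟨M, hM⟩).1
  rw [Function.iterate_succ_apply']
  exact hg _

theorem sn_iff {M : Tm S} :
    Sn M ↔ ¬ ∃ f : ℕ → Tm S, f 0 = M ∧ ∀ n, Step (f n) (f (n + 1)) :=
  ⟨Sn.no_inf, sn_of_no_inf⟩

theorem SN_iff : SN P ↔ ∀ M, Legal P M → Sn M :=
  forall_congr' fun _ => forall_congr' fun _ => sn_iff.symm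

/-- It suffices to consider subjects: the type of a judgment is a sort or a subject. -/
theorem SN_of_subject (h : ∀ Γ M A, WF P Γ → T P Γ M A → Sn M) : SN P := by
  rw [SN_iff]
  rintro M ⟨Γ, A, hM | hM⟩
  · obtain ⟨h1, h2⟩ := hM.toT
    exact h _ _ _ h1 h2
  · obtain ⟨h1, h2⟩ := hM.toT
    rcases h2.correct h1 with ⟨s, rfl⟩ | ⟨s, hs⟩
    · exact .sort s
    · exact h _ _ _ h1 hs

end Vale.Agent.P340
end

section

/-! Typing over contexts given as functions. -/

namespace Vale.Agent.P340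

universe u
variable {S : Type u} {P : Spec S}

open Tm

/-- Contexts as functions; the types live in the whole context. -/
abbrev Ctx (S : Type u) := ℕ → Option (Tm S)

/-- Extension of a context by a type for the new variable `0`. -/
def push (A : Tm S) (G : Ctx S) : Ctx S
  | 0 => some (wk A)
  | n + 1 => (G n).map wk

@[simp] theorem push_zero (A : Tm S) (G : Ctx S) : push A G 0 = some (wk A) := rfl
@[simp] theorem push_succ (A : Tm S) (G : Ctx S) (n : ℕ) : push A G (n + 1) = (G n).map wk := rfl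

/-- Typing over function contexts. -/
inductive J (P : Spec S) : Ctx S → Tm S → Tm S → Prop where
  | sort {G : Ctx S} {s t : S} : P.ax s t → J P G (sort s) (sort t)
  | var {G : Ctx S} {n : ℕ} {A : Tm S} : G n = some A → J P G (var n) A
  | pi {G : Ctx S} {A B : Tm S} {s₁ s₂ s₃ : S} :
      J P G A (sort s₁) → J P (push A G) B (sort s₂) → P.rule s₁ s₂ s₃ → J P G (pi A B) (sort s₃)
  | lam {G : Ctx S} {A M B : Tm S} {s : S} :
      J P (push A G) M B → J P G (pi A B) (sort s) → J P G (lam A M) (pi A B)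
  | app {G : Ctx S} {M N A B : Tm S} :
      J P G M (pi A B) → J P G N A → J P G (app M N) (inst B N)
  | conv {G : Ctx S} {M A B : Tm S} {s : S} :
      J P G M A → J P G B (sort s) → Conv A B → J P G M B

/-- Well-formed contexts. -/
def WFC (P : Spec S) (G : Ctx S) : Prop := ∀ n A, G n = some A → ∃ s, J P G A (sort s)

/-- Renamings between contexts. -/
def RenC (G D : Ctx S) (r : ℕ → ℕ) : Prop := ∀ n A, G n = some A → D (r n) = some (A.ren r)

theorem RenC.up {G D : Ctx S} {r : ℕ → ℕ} (h : RenC G D r) (A : Tm S) :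
    RenC (push A G) (push (A.ren r) D) (Tm.up r) := by
  intro n B hB
  cases n with
  | zero =>
    simp only [push_zero, Option.some.injEq] at hB
    subst hB
    rw [ren_wk]; rfl
  | succ n =>
    rw [push_succ, Option.map_eq_some_iff] at hB
    obtain ⟨C, hC, rfl⟩ := hB
    rw [ren_wk]
    show (D (r n)).map Tm.wk = _
    rw [h _ _ hC]; rfl

theorem J.ren {G : Ctx S} {M A : Tm S} (h : J P G M A) :
    ∀ {D : Ctx S} {r : ℕ → ℕ}, RenC G D r → J P D (M.ren r) (A.ren r) := by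
  induction h with
  | sort h => intro Δ r hr; exact .sort h
  | var h => intro Δ r hr; exact .var (hr _ _ h)
  | pi _ _ h ih ih' => intro Δ r hr; exact .pi (ih hr) (ih' (hr.up _)) h
  | lam _ _ ih ih' => intro Δ r hr; exact .lam (ih (hr.up _)) (ih' hr)
  | app _ _ ih ih' => intro Δ r hr; rw [ren_inst]; exact .app (ih hr) (ih' hr)
  | conv _ _ h ih ih' => intro Δ r hr; exact .conv (ih hr) (ih' hr) (h.ren r)

theorem renC_wk (G : Ctx S) (A : Tm S) : RenC G (push A G) Nat.succ := by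
  intro n B h; rw [push_succ, h]; rfl

theorem J.wk {G : Ctx S} {M A : Tm S} (h : J P G M A) (B : Tm S) :
    J P (push B G) (Tm.wk M) (Tm.wk A) := h.ren (renC_wk G B)

/-- Substitutions between contexts. -/
def SubC (P : Spec S) (G D : Ctx S) (σ : ℕ → Tm S) : Prop :=
  ∀ n A, G n = some A → J P D (σ n) (A.sub σ)

theorem SubC.up {G D : Ctx S} {σ : ℕ → Tm S} (h : SubC P G D σ) (A : Tm S) :
    SubC P (push A G) (push (A.sub σ) D) (ups σ) := by
  intro n B hB
  cases n with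
  | zero =>
    simp only [push_zero, Option.some.injEq] at hB
    subst hB
    rw [sub_wk]; exact .var rfl
  | succ n =>
    rw [push_succ, Option.map_eq_some_iff] at hB
    obtain ⟨C, hC, rfl⟩ := hB
    rw [sub_wk]
    exact (h _ _ hC).wk _

theorem J.sub {G : Ctx S} {M A : Tm S} (h : J P G M A) :
    ∀ {D : Ctx S} {σ : ℕ → Tm S}, SubC P G D σ → J P D (M.sub σ) (A.sub σ) := by
  induction h with
  | sort h => intro Δ r hr; exact .sort h
  | var h => intro Δ r hr; exact hr _ _ h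
  | pi _ _ h ih ih' => intro Δ r hr; exact .pi (ih hr) (ih' (hr.up _)) h
  | lam _ _ ih ih' => intro Δ r hr; exact .lam (ih (hr.up _)) (ih' hr)
  | app _ _ ih ih' => intro Δ r hr; rw [sub_inst]; exact .app (ih hr) (ih' hr)
  | conv _ _ h ih ih' => intro Δ r hr; exact .conv (ih hr) (ih' hr) (h.sub r)

theorem SubC.scons {G D : Ctx S} {σ : ℕ → Tm S} (h : SubC P G D σ) {A N : Tm S}
    (hN : J P D N (A.sub σ)) : SubC P (push A G) D (Tm.scons N σ) := by
  intro n B hB
  cases n with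
  | zero =>
    simp only [push_zero, Option.some.injEq] at hB
    subst hB
    rw [sub_scons_wk]; exact hN
  | succ n =>
    rw [push_succ, Option.map_eq_some_iff] at hB
    obtain ⟨C, hC, rfl⟩ := hB
    rw [sub_scons_wk]
    exact h _ _ hC

theorem subC_var (G : Ctx S) : SubC P G G Tm.var := by
  intro n A h; rw [sub_var]; exact .var h

theorem subC_single {G : Ctx S} {N A : Tm S} (h : J P G N A) :
    SubC P (push A G) G (single N) := by
  rw [single_eq]
  exact (subC_var G).scons (by rw [sub_var]; exact h)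

theorem J.inst {G : Ctx S} {M B N A : Tm S} (h : J P (push A G) M B) (h' : J P G N A) :
    J P G (Tm.inst M N) (Tm.inst B N) := h.sub (subC_single h')

theorem J.inst_sort {G : Ctx S} {B N A : Tm S} {s : S} (h : J P (push A G) B (Tm.sort s))
    (h' : J P G N A) : J P G (Tm.inst B N) (Tm.sort s) := h.inst h'

/-- Changing the type of the last variable. -/
theorem J.ctx {G : Ctx S} {M B A A' : Tm S} {s : S} (h : J P (push A G) M B)
    (hA : J P G A (Tm.sort s)) (hc : Conv A A') : J P (push A' G) M B := by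
  have := h.sub (D := push A' G) (σ := Tm.var) (by
    intro n C hC
    rw [sub_var]
    cases n with
    | zero =>
      simp only [push_zero, Option.some.injEq] at hC
      subst hC
      exact .conv (.var rfl) (hA.wk _) (hc.symm.ren _)
    | succ n => exact .var hC)
  rwa [sub_var, sub_var] at this

theorem WFC.push {G : Ctx S} (h : WFC P G) {A : Tm S} {s : S} (hA : J P G A (Tm.sort s)) :
    WFC P (push A G) := by
  intro n B hB
  cases n with
  | zero =>
    simp only [push_zero, Option.some.injEq] at hB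
    subst hB
    exact ⟨s, hA.wk _⟩
  | succ n =>
    rw [push_succ, Option.map_eq_some_iff] at hB
    obtain ⟨C, hC, rfl⟩ := hB
    obtain ⟨s, hs⟩ := h _ _ hC
    exact ⟨s, hs.wk _⟩

/-! Generation. -/

theorem J.sort_inv {G : Ctx S} {s : S} {C : Tm S} (h : J P G (Tm.sort s) C) :
    ∃ t, P.ax s t ∧ Conv (Tm.sort t) C := by
  generalize e : Tm.sort s = M at h
  induction h with
  | sort h => cases e; exact ⟨_, h, .refl _⟩
  | conv _ _ h ih _ => obtain ⟨t, h1, h2⟩ := ih e; exact ⟨t, h1, h2.trans h⟩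
  | _ => cases e

theorem J.var_inv {G : Ctx S} {n : ℕ} {C : Tm S} (h : J P G (Tm.var n) C) :
    ∃ A, G n = some A ∧ Conv A C := by
  generalize e : Tm.var n = M at h
  induction h with
  | var h => cases e; exact ⟨_, h, .refl _⟩
  | conv _ _ h ih _ => obtain ⟨t, h1, h2⟩ := ih e; exact ⟨t, h1, h2.trans h⟩
  | _ => cases e

theorem J.pi_inv {G : Ctx S} {A B C : Tm S} (h : J P G (Tm.pi A B) C) :
    ∃ s₁ s₂ s₃, J P G A (Tm.sort s₁) ∧ J P (Vale.Agent.P340.push A G) B (Tm.sort s₂) ∧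
      P.rule s₁ s₂ s₃ ∧ Conv (Tm.sort s₃) C := by
  generalize e : Tm.pi A B = M at h
  induction h with
  | pi h1 h2 h3 => cases e; exact ⟨_, _, _, h1, h2, h3, .refl _⟩
  | conv _ _ h ih _ =>
    obtain ⟨s1, s2, s3, h1, h2, h3, h4⟩ := ih e; exact ⟨s1, s2, s3, h1, h2, h3, h4.trans h⟩
  | _ => cases e

theorem J.lam_inv {G : Ctx S} {A M C : Tm S} (h : J P G (Tm.lam A M) C) :
    ∃ B s, J P (Vale.Agent.P340.push A G) M B ∧ J P G (Tm.pi A B) (Tm.sort s) ∧
      Conv (Tm.pi A B) C := by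
  generalize e : Tm.lam A M = M' at h
  induction h with
  | lam h1 h2 => cases e; exact ⟨_, _, h1, h2, .refl _⟩
  | conv _ _ h ih _ =>
    obtain ⟨B, s, h1, h2, h3⟩ := ih e; exact ⟨B, s, h1, h2, h3.trans h⟩
  | _ => cases e

theorem J.app_inv {G : Ctx S} {M N C : Tm S} (h : J P G (Tm.app M N) C) :
    ∃ A B, J P G M (Tm.pi A B) ∧ J P G N A ∧ Conv (Tm.inst B N) C := by
  generalize e : Tm.app M N = M' at h
  induction h with
  | app h1 h2 => cases e; exact ⟨_, _, h1, h2, .refl _⟩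
  | conv _ _ h ih _ =>
    obtain ⟨B, s, h1, h2, h3⟩ := ih e; exact ⟨B, s, h1, h2, h3.trans h⟩
  | _ => cases e

/-- Correctness of types. -/
theorem J.correct {G : Ctx S} {M A : Tm S} (h : J P G M A) (hG : WFC P G) :
    (∃ s, A = Tm.sort s) ∨ ∃ s, J P G A (Tm.sort s) := by
  induction h with
  | sort h => exact .inl ⟨_, rfl⟩
  | var h => exact .inr (hG _ _ h)
  | pi _ _ _ _ _ => exact .inl ⟨_, rfl⟩
  | lam _ h _ _ => exact .inr ⟨_, h⟩
  | app h1 h2 ih1 _ =>
    rcases ih1 hG with ⟨s, h⟩ | ⟨s, h⟩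
    · cases h
    · obtain ⟨s1, s2, s3, h3, h4, -, -⟩ := h.pi_inv
      exact .inr ⟨s2, h4.inst_sort h2⟩
  | conv _ h _ _ _ => exact .inr ⟨_, h⟩

/-- Subject reduction. -/
theorem J.step {G : Ctx S} {M A : Tm S} (h : J P G M A) :
    ∀ {N : Tm S}, WFC P G → Step M N → J P G N A := by
  induction h with
  | sort h => intro N _ h; cases h
  | var h => intro N _ h; cases h
  | @pi G A B s1 s2 s3 h1 h2 h3 ih ih' =>
    intro N hΓ h
    cases h with
    | piL _ h => exact .pi (ih hΓ h) (h2.ctx h1 (.rel _ _ h)) h3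
    | piR _ h => exact .pi h1 (ih' (hΓ.push h1) h) h3
  | @lam G A M B s h1 h2 ih ih' =>
    intro N hΓ h
    obtain ⟨s1, s2, s3, hA, hB, hr, hs⟩ := h2.pi_inv
    cases h with
    | @lamL _ A' _ h =>
      have hA' : J P G (Tm.pi A' B) (Tm.sort s) := ih' hΓ (.piL _ h)
      have h3 := J.lam (h1.ctx hA (.rel _ _ h)) hA'
      exact .conv h3 h2 (Conv.pi (Conv.symm (.rel _ _ h)) (.refl _))
    | lamR _ h => exact .lam (ih (hΓ.push hA) h) h2
  | @app G M N A B h1 h2 ih ih' =>
    intro Q hΓ h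
    have hB : ∃ s, J P G (Tm.inst B N) (Tm.sort s) := by
      rcases h1.correct hΓ with ⟨s, h⟩ | ⟨s, h⟩
      · cases h
      · obtain ⟨s1, s2, s3, h3, h4, -, -⟩ := h.pi_inv
        exact ⟨s2, h4.inst_sort h2⟩
    obtain ⟨sB, hB⟩ := hB
    cases h with
    | beta A' M' _ =>
      obtain ⟨B', s, h3, h4, h5⟩ := h1.lam_inv
      obtain ⟨h6, h7⟩ := h5.pi_inj
      obtain ⟨s1, s2, s3, h8, h9, -, -⟩ := h4.pi_inv
      have h10 : J P G N A' := .conv h2 h8 h6.symm
      exact .conv (h3.inst h10) hB (h7.inst (.refl _))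
    | appL _ h => exact .app (ih hΓ h) h2
    | appR _ h =>
      exact .conv (.app h1 (ih' hΓ h)) hB (Conv.inst (.refl _) (Conv.symm (.rel _ _ h)))
  | conv _ h1 h2 ih _ => intro N hΓ h; exact .conv (ih hΓ h) h1 h2

theorem J.red {G : Ctx S} {M N A : Tm S} (h : J P G M A) (hΓ : WFC P G) (h' : Red M N) :
    J P G N A := by
  induction h' with
  | refl => exact h
  | tail _ h' ih => exact ih.step hΓ h'

/-! Uniqueness of types. -/

theorem Functional.uniqueJ (hP : Functional P) {M : Tm S} : ∀ {G : Ctx S} {A B : Tm S},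
    J P G M A → J P G M B → Conv A B := by
  induction M with
  | var n =>
    intro G A B h h'
    obtain ⟨A1, h1, h2⟩ := h.var_inv
    obtain ⟨B1, h3, h4⟩ := h'.var_inv
    rw [h1] at h3; cases h3
    exact h2.symm.trans h4
  | sort s =>
    intro G A B h h'
    obtain ⟨A1, h1, h2⟩ := h.sort_inv
    obtain ⟨B1, h3, h4⟩ := h'.sort_inv
    cases hP.ax h1 h3
    exact h2.symm.trans h4
  | app M N ih _ =>
    intro G A B h h'
    obtain ⟨A1, B1, h1, _, h2⟩ := h.app_inv
    obtain ⟨A2, B2, h3, _, h4⟩ := h'.app_inv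
    have h5 := (ih h1 h3).pi_inj
    exact h2.symm.trans ((h5.2.inst (.refl _)).trans h4)
  | lam C M _ ih =>
    intro G A B h h'
    obtain ⟨A1, B1, h1, _, h2⟩ := h.lam_inv
    obtain ⟨A2, B2, h3, _, h4⟩ := h'.lam_inv
    exact h2.symm.trans (Conv.trans (Conv.pi (.refl _) (ih h1 h3)) h4)
  | pi C M ihC ih =>
    intro G A B h h'
    obtain ⟨s1, s2, s3, h1, h2, h3, h4⟩ := h.pi_inv
    obtain ⟨t1, t2, t3, k1, k2, k3, k4⟩ := h'.pi_inv
    cases (ihC h1 k1).sort_inj
    cases (ih h2 k2).sort_inj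
    cases hP.rule h3 k3
    exact h4.symm.trans k4

theorem Functional.sortJ (hP : Functional P) {M : Tm S} {G : Ctx S} {s t : S}
    (h : J P G M (Tm.sort s)) (h' : J P G M (Tm.sort t)) : s = t :=
  (hP.uniqueJ h h').sort_inj

/-- Convertible types of a well-formed context have the same sort. -/
theorem Functional.conv_sortJ (hP : Functional P) {A B : Tm S} {G : Ctx S} {s t : S}
    (hΓ : WFC P G) (h : J P G A (Tm.sort s)) (h' : J P G B (Tm.sort t)) (hc : Conv A B) :
    s = t := by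
  obtain ⟨C, h1, h2⟩ := hc.cr
  exact hP.sortJ (h.red hΓ h1) (h'.red hΓ h2)

/-! From list contexts. -/

/-- The function context of a list context. -/
def ofList : List (Tm S) → Ctx S
  | [] => fun _ => none
  | A :: Γ => push A (ofList Γ)

theorem ofList_has {Γ : List (Tm S)} {n : ℕ} {A : Tm S} (h : Has Γ n A) :
    ofList Γ n = some A := by
  induction h with
  | zero => rfl
  | succ B _ ih => show (ofList _ _).map wk = _; rw [ih]; rfl

theorem T.toJ {Γ : List (Tm S)} {M A : Tm S} (h : T P Γ M A) : J P (ofList Γ) M A := by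
  induction h with
  | sort h => exact .sort h
  | var h => exact .var (ofList_has h)
  | pi _ _ h ih ih' => exact .pi ih ih' h
  | lam _ _ ih ih' => exact .lam ih ih'
  | app _ _ ih ih' => exact .app ih ih'
  | conv _ _ h ih ih' => exact .conv ih ih' h

theorem WF.wfc {Γ : List (Tm S)} (h : WF P Γ) : WFC P (ofList Γ) := by
  induction h with
  | nil => intro n A h; cases h
  | cons _ hA ih => exact ih.push hA.toJ

end Vale.Agent.P340
end

section

/-! Expressions with memory. -/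

namespace Vale.Agent.P340.W

universe u
variable {S : Type u}

open Relation

/-- Expressions with memory: `mem M N` is `M` with the memory `N`. -/
inductive MTm (S : Type u) : Type u where
  | var : ℕ → MTm S
  | sort : S → MTm S
  | app : MTm S → MTm S → MTm S
  | lam : MTm S → MTm S → MTm S
  | pi : MTm S → MTm S → MTm S
  | mem : MTm S → MTm S → MTm S

namespace MTm

/-- Renaming. -/
def ren : (ℕ → ℕ) → MTm S → MTm S
  | r, var n => var (r n)
  | _, sort s => sort s
  | r, app M N => app (ren r M) (ren r N)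
  | r, lam A M => lam (ren r A) (ren (Tm.up r) M)
  | r, pi A M => pi (ren r A) (ren (Tm.up r) M)
  | r, mem M N => mem (ren r M) (ren r N)

/-- Weakening. -/
def wk (M : MTm S) : MTm S := ren Nat.succ M

/-- Lifting of a substitution. -/
def ups (σ : ℕ → MTm S) : ℕ → MTm S
  | 0 => var 0
  | n + 1 => wk (σ n)

/-- Substitution. -/
def sub : (ℕ → MTm S) → MTm S → MTm S
  | σ, var n => σ n
  | _, sort s => sort s
  | σ, app M N => app (sub σ M) (sub σ N)
  | σ, lam A M => lam (sub σ A) (sub (ups σ) M)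
  | σ, pi A M => pi (sub σ A) (sub (ups σ) M)
  | σ, mem M N => mem (sub σ M) (sub σ N)

/-- Extension of a substitution. -/
def scons (N : MTm S) (σ : ℕ → MTm S) : ℕ → MTm S
  | 0 => N
  | n + 1 => σ n

/-- Substitution for the variable `0`. -/
def inst (M N : MTm S) : MTm S := sub (scons N var) M

/-- Erasure of the memory. -/
def er : MTm S → Tm S
  | var n => Tm.var n
  | sort s => Tm.sort s
  | app M N => Tm.app (er M) (er N)
  | lam A M => Tm.lam (er A) (er M)
  | pi A M => Tm.pi (er A) (er M)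
  | mem M _ => er M

/-- Expressions without memory. -/
def of : Tm S → MTm S
  | Tm.var n => var n
  | Tm.sort s => sort s
  | Tm.app M N => app (of M) (of N)
  | Tm.lam A M => lam (of A) (of M)
  | Tm.pi A M => pi (of A) (of M)

theorem er_of (M : Tm S) : er (of M) = M := by
  induction M with
  | var n => rfl
  | sort s => rfl
  | app M N ihM ihN => simp only [of, er, ihM, ihN]
  | lam M N ihM ihN => simp only [of, er, ihM, ihN]
  | pi M N ihM ihN => simp only [of, er, ihM, ihN]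

theorem up_comp (r q : ℕ → ℕ) : (fun n => Tm.up q (Tm.up r n)) = Tm.up (fun n => q (r n)) := by
  funext n; cases n <;> rfl

theorem ren_ren (M : MTm S) : ∀ (r q : ℕ → ℕ), ren q (ren r M) = ren (fun n => q (r n)) M := by
  induction M with
  | var n => intros; rfl
  | sort s => intros; rfl
  | app M N ihM ihN => intros; simp only [ren, ihM, ihN]
  | lam A M ihA ihM => intro r q; simp [ren, ihA, ihM, up_comp]
  | pi A M ihA ihM => intro r q; simp [ren, ihA, ihM, up_comp]
  | mem M N ihM ihN => intros; simp [ren, ihM, ihN]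

theorem ups_up (σ : ℕ → MTm S) (r : ℕ → ℕ) :
    (fun n => ups σ (Tm.up r n)) = ups (fun n => σ (r n)) := by
  funext n; cases n <;> rfl

theorem sub_ren (M : MTm S) : ∀ (r : ℕ → ℕ) (σ : ℕ → MTm S),
    sub σ (ren r M) = sub (fun n => σ (r n)) M := by
  induction M with
  | var n => intros; rfl
  | sort s => intros; rfl
  | app M N ihM ihN => intros; simp only [ren, sub, ihM, ihN]
  | lam A M ihA ihM => intro r σ; simp [ren, sub, ihA, ihM, ups_up]
  | pi A M ihA ihM => intro r σ; simp [ren, sub, ihA, ihM, ups_up]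
  | mem M N ihM ihN => intros; simp [ren, sub, ihM, ihN]

theorem ren_wk (r : ℕ → ℕ) (M : MTm S) : ren (Tm.up r) (wk M) = wk (ren r M) := by
  unfold wk; rw [ren_ren, ren_ren]; rfl

theorem ren_ups (σ : ℕ → MTm S) (r : ℕ → ℕ) :
    (fun n => ren (Tm.up r) (ups σ n)) = ups (fun n => ren r (σ n)) := by
  funext n; cases n with
  | zero => rfl
  | succ n => exact ren_wk r (σ n)

theorem ren_sub (M : MTm S) : ∀ (σ : ℕ → MTm S) (r : ℕ → ℕ),
    ren r (sub σ M) = sub (fun n => ren r (σ n)) M := by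
  induction M with
  | var n => intros; rfl
  | sort s => intros; rfl
  | app M N ihM ihN => intros; simp only [sub, ren, ihM, ihN]
  | lam A M ihA ihM => intro r σ; simp [ren, sub, ihA, ihM, ren_ups]
  | pi A M ihA ihM => intro r σ; simp [ren, sub, ihA, ihM, ren_ups]
  | mem M N ihM ihN => intros; simp [ren, sub, ihM, ihN]

theorem sub_wk (σ : ℕ → MTm S) (M : MTm S) : sub (ups σ) (wk M) = wk (sub σ M) := by
  unfold wk; rw [sub_ren, ren_sub]; rfl

theorem sub_ups (σ τ : ℕ → MTm S) :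
    (fun n => sub (ups τ) (ups σ n)) = ups (fun n => sub τ (σ n)) := by
  funext n; cases n with
  | zero => rfl
  | succ n => exact sub_wk τ (σ n)

theorem sub_sub (M : MTm S) : ∀ (σ τ : ℕ → MTm S),
    sub τ (sub σ M) = sub (fun n => sub τ (σ n)) M := by
  induction M with
  | var n => intros; rfl
  | sort s => intros; rfl
  | app M N ihM ihN => intros; simp only [sub, ihM, ihN]
  | lam A M ihA ihM => intro σ τ; simp [sub, ihA, ihM, sub_ups]
  | pi A M ihA ihM => intro σ τ; simp [sub, ihA, ihM, sub_ups]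
  | mem M N ihM ihN => intros; simp [sub, ihM, ihN]

theorem ups_var : ups (var : ℕ → MTm S) = var := by
  funext n; cases n <;> rfl

theorem sub_var (M : MTm S) : sub var M = M := by
  induction M with
  | var n => rfl
  | sort s => rfl
  | app M N ihM ihN => simp only [sub, ihM, ihN]
  | lam A M ihA ihM => simp [sub, ups_var, ihA, ihM]
  | pi A M ihA ihM => simp [sub, ups_var, ihA, ihM]
  | mem M N ihM ihN => simp [sub, ihM, ihN]

theorem ups_varr (r : ℕ → ℕ) : ups (fun n => (var (r n) : MTm S)) = fun n => var (Tm.up r n) := by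
  funext n; cases n <;> rfl

theorem ren_eq_sub (M : MTm S) : ∀ r : ℕ → ℕ, ren r M = sub (fun n => var (r n)) M := by
  induction M with
  | var n => intro r; rfl
  | sort s => intro r; rfl
  | app M N ihM ihN => intro r; simp only [ren, ihM, ihN, sub]
  | lam A M ihA ihM => intro r; simp [ren, sub, ihA, ihM, ups_varr]
  | pi A M ihA ihM => intro r; simp [ren, sub, ihA, ihM, ups_varr]
  | mem M N ihM ihN => intro r; simp [ren, sub, ihM, ihN]

theorem sub_scons_wk (M N : MTm S) (σ : ℕ → MTm S) : sub (scons N σ) (wk M) = sub σ M := by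
  unfold wk; rw [sub_ren]; rfl

theorem inst_ups (M N : MTm S) (σ : ℕ → MTm S) :
    inst (sub (ups σ) M) N = sub (scons N σ) M := by
  unfold inst; rw [sub_sub]
  congr 1; funext n; cases n with
  | zero => rfl
  | succ n => show sub (scons N var) (wk (σ n)) = _; rw [sub_scons_wk, sub_var]; rfl

theorem sub_inst (M N : MTm S) (σ : ℕ → MTm S) :
    sub σ (inst M N) = inst (sub (ups σ) M) (sub σ N) := by
  rw [inst_ups]; unfold inst; rw [sub_sub]
  congr 1; funext n; cases n <;> rfl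

theorem ren_inst (M N : MTm S) (r : ℕ → ℕ) :
    ren r (inst M N) = inst (ren (Tm.up r) M) (ren r N) := by
  rw [ren_eq_sub, sub_inst, ren_eq_sub, ren_eq_sub, ups_varr]

theorem er_ren (M : MTm S) : ∀ r : ℕ → ℕ, er (ren r M) = (er M).ren r := by
  induction M with
  | var n => intro r; rfl
  | sort s => intro r; rfl
  | app M N ihM ihN => intro r; simp only [ren, er, ihM, ihN, Tm.ren]
  | lam A M ihA ihM => intro r; simp [ren, er, Tm.ren, ihA, ihM]
  | pi A M ihA ihM => intro r; simp [ren, er, Tm.ren, ihA, ihM]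
  | mem M N ihM ihN => intro r; simp [ren, er, ihM]

theorem er_ups (σ : ℕ → MTm S) : (fun n => er (ups σ n)) = Tm.ups fun n => er (σ n) := by
  funext n; cases n with
  | zero => rfl
  | succ n => exact er_ren _ _

theorem er_sub (M : MTm S) : ∀ σ : ℕ → MTm S, er (sub σ M) = (er M).sub fun n => er (σ n) := by
  induction M with
  | var n => intro σ; rfl
  | sort s => intro σ; rfl
  | app M N ihM ihN => intro σ; simp [sub, er, Tm.sub, ihM, ihN]
  | lam A M ihA ihM => intro σ; simp [sub, er, Tm.sub, ihA, ihM, er_ups]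
  | pi A M ihA ihM => intro σ; simp [sub, er, Tm.sub, ihA, ihM, er_ups]
  | mem M N ihM ihN => intro σ; simp [sub, er, ihM]

theorem er_scons (N : MTm S) (σ : ℕ → MTm S) :
    (fun n => er (scons N σ n)) = Tm.scons (er N) fun n => er (σ n) := by
  funext n; cases n <;> rfl

theorem er_inst (M N : MTm S) : er (inst M N) = Tm.inst (er M) (er N) := by
  unfold inst
  rw [er_sub, er_scons, Tm.inst_eq]
  rfl

/-- Abstractions, possibly under memory. -/
def IsLam : MTm S → Prop
  | lam _ _ => True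
  | mem M _ => IsLam M
  | _ => False

theorem isLam_ren {M : MTm S} {r : ℕ → ℕ} : IsLam (ren r M) ↔ IsLam M := by
  induction M with
  | mem M N ih _ => exact ih
  | _ => rfl

end MTm

open MTm

/-- Contraction: `Ctr F N R` means that `app F N` contracts to `R`. -/
inductive Ctr : MTm S → MTm S → MTm S → Prop where
  | lam (A M N : MTm S) : Ctr (MTm.lam A M) N (MTm.mem (MTm.mem (inst M N) N) A)
  | mem {F N R : MTm S} (Q : MTm S) : Ctr F N R → Ctr (MTm.mem F Q) N (MTm.mem R Q)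

/-- One-step reduction. -/
inductive St : MTm S → MTm S → Prop where
  | root {F N R : MTm S} : Ctr F N R → St (app F N) R
  | appL {M M' : MTm S} (N : MTm S) : St M M' → St (app M N) (app M' N)
  | appR (M : MTm S) {N N' : MTm S} : St N N' → St (app M N) (app M N')
  | lamL {A A' : MTm S} (M : MTm S) : St A A' → St (lam A M) (lam A' M)
  | lamR (A : MTm S) {M M' : MTm S} : St M M' → St (lam A M) (lam A M')
  | piL {A A' : MTm S} (M : MTm S) : St A A' → St (pi A M) (pi A' M)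
  | piR (A : MTm S) {M M' : MTm S} : St M M' → St (pi A M) (pi A M')
  | memL {M M' : MTm S} (N : MTm S) : St M M' → St (mem M N) (mem M' N)
  | memR (M : MTm S) {N N' : MTm S} : St N N' → St (mem M N) (mem M N')

/-- Many steps. -/
def Sts : MTm S → MTm S → Prop := ReflTransGen St

theorem Sts.refl (M : MTm S) : Sts M M := ReflTransGen.refl

theorem Sts.trans {M N Q : MTm S} (h : Sts M N) (h' : Sts N Q) : Sts M Q :=
  ReflTransGen.trans h h'

theorem St.sts {M N : MTm S} (h : St M N) : Sts M N := ReflTransGen.single h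

theorem Sts.map (f : MTm S → MTm S) (hf : ∀ a b, St a b → St (f a) (f b)) {M N : MTm S}
    (h : Sts M N) : Sts (f M) (f N) := by
  induction h with
  | refl => exact .refl _
  | tail _ h ih => exact ih.trans (hf _ _ h).sts

theorem Sts.app {M M' N N' : MTm S} (h : Sts M M') (h' : Sts N N') :
    Sts (MTm.app M N) (MTm.app M' N') :=
  (h.map (fun M => MTm.app M N) fun _ _ h => .appL _ h).trans
    (h'.map (fun N => MTm.app M' N) fun _ _ h => .appR _ h)

theorem Sts.mem {M M' N N' : MTm S} (h : Sts M M') (h' : Sts N N') :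
    Sts (MTm.mem M N) (MTm.mem M' N') :=
  (h.map (fun M => MTm.mem M N) fun _ _ h => .memL _ h).trans
    (h'.map (fun N => MTm.mem M' N) fun _ _ h => .memR _ h)

theorem Sts.lam {A A' M M' : MTm S} (h : Sts A A') (h' : Sts M M') :
    Sts (MTm.lam A M) (MTm.lam A' M') :=
  (h.map (fun A => MTm.lam A M) fun _ _ h => .lamL _ h).trans
    (h'.map (fun M => MTm.lam A' M) fun _ _ h => .lamR _ h)

theorem Sts.pi {A A' M M' : MTm S} (h : Sts A A') (h' : Sts M M') :
    Sts (MTm.pi A M) (MTm.pi A' M') :=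
  (h.map (fun A => MTm.pi A M) fun _ _ h => .piL _ h).trans
    (h'.map (fun M => MTm.pi A' M) fun _ _ h => .piR _ h)

/-- Reductions of renamed expressions. -/
theorem Ctr.ren_inv {F N R : MTm S} {r : ℕ → ℕ} : ∀ {F' N' : MTm S}, Ctr F N R →
    F = F'.ren r → N = N'.ren r → ∃ R', Ctr F' N' R' ∧ R = R'.ren r := by
  intro F' N' h
  induction h generalizing F' with
  | lam A M N =>
    intro e1 e2
    cases F' with
    | lam A' M' =>
      injection e1 with e3 e4
      subst e3 e4 e2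
      refine ⟨_, .lam _ _ _, ?_⟩
      show _ = MTm.mem (MTm.mem ((MTm.inst M' N').ren r) (N'.ren r)) (A'.ren r)
      rw [ren_inst]
    | _ => cases e1
  | mem Q _ ih =>
    intro e1 e2
    cases F' with
    | mem F' Q' =>
      injection e1 with e3 e4
      subst e4
      obtain ⟨R', h1, rfl⟩ := ih e3 e2
      exact ⟨_, .mem _ h1, rfl⟩
    | _ => cases e1

theorem St.ren_inv {M : MTm S} : ∀ {r : ℕ → ℕ} {N : MTm S}, St (M.ren r) N →
    ∃ M', St M M' ∧ N = M'.ren r := by
  induction M with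
  | var n => intro r N h; cases h
  | sort s => intro r N h; cases h
  | app M Q ihM ihQ =>
    intro r N h
    cases h with
    | root h =>
      obtain ⟨R', h1, rfl⟩ := h.ren_inv rfl rfl
      exact ⟨_, .root h1, rfl⟩
    | appL _ h => obtain ⟨M', h1, rfl⟩ := ihM h; exact ⟨_, .appL _ h1, rfl⟩
    | appR _ h => obtain ⟨M', h1, rfl⟩ := ihQ h; exact ⟨_, .appR _ h1, rfl⟩
  | lam A M ihA ihM =>
    intro r N h
    cases h with
    | lamL _ h => obtain ⟨A', h1, rfl⟩ := ihA h; exact ⟨_, .lamL _ h1, rfl⟩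
    | lamR _ h => obtain ⟨A', h1, rfl⟩ := ihM h; exact ⟨_, .lamR _ h1, rfl⟩
  | pi A M ihA ihM =>
    intro r N h
    cases h with
    | piL _ h => obtain ⟨A', h1, rfl⟩ := ihA h; exact ⟨_, .piL _ h1, rfl⟩
    | piR _ h => obtain ⟨A', h1, rfl⟩ := ihM h; exact ⟨_, .piR _ h1, rfl⟩
  | mem A M ihA ihM =>
    intro r N h
    cases h with
    | memL _ h => obtain ⟨A', h1, rfl⟩ := ihA h; exact ⟨_, .memL _ h1, rfl⟩
    | memR _ h => obtain ⟨A', h1, rfl⟩ := ihM h; exact ⟨_, .memR _ h1, rfl⟩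

theorem Sts.ren_inv {M N : MTm S} {r : ℕ → ℕ} (h : Sts (M.ren r) N) :
    ∃ M', Sts M M' ∧ N = M'.ren r := by
  induction h with
  | refl => exact ⟨M, .refl _, rfl⟩
  | tail _ h ih =>
    obtain ⟨M1, h1, rfl⟩ := ih
    obtain ⟨M2, h2, rfl⟩ := h.ren_inv
    exact ⟨M2, h1.trans h2.sts, rfl⟩

/-! Erasure of reductions. -/

theorem Ctr.er {F N R : MTm S} (h : Ctr F N R) :
    ∃ A M, F.er = Tm.lam A M ∧ R.er = Tm.inst M N.er := by
  induction h with
  | lam A M N => exact ⟨_, _, rfl, er_inst M N⟩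
  | mem Q _ ih => exact ih

theorem St.er {M N : MTm S} (h : St M N) : Red M.er N.er := by
  induction h with
  | root h =>
    obtain ⟨A, M, h1, h2⟩ := h.er
    show Red (Tm.app _ _) _
    rw [h1, h2]; exact .step (.beta _ _ _)
  | appL N _ ih => exact Red.app ih (.refl _)
  | appR M _ ih => exact Red.app (.refl _) ih
  | lamL M _ ih => exact Red.lam ih (.refl _)
  | lamR A _ ih => exact Red.lam (.refl _) ih
  | piL M _ ih => exact Red.pi ih (.refl _)
  | piR A _ ih => exact Red.pi (.refl _) ih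
  | memL N _ ih => exact ih
  | memR M _ _ => exact .refl _

theorem Sts.er {M N : MTm S} (h : Sts M N) : Red M.er N.er := by
  induction h with
  | refl => exact .refl _
  | tail _ h ih => exact ih.trans h.er

/-- Simulation of contractions. -/
theorem ctr_of_er {F : MTm S} : ∀ {A M : Tm S} (N : MTm S), F.er = Tm.lam A M →
    ∃ R, Ctr F N R ∧ R.er = Tm.inst M N.er := by
  induction F with
  | lam A' M' _ _ =>
    intro A M N e
    injection e with e1 e2
    subst e1 e2
    exact ⟨_, .lam _ _ _, er_inst M' N⟩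
  | mem F Q ih _ =>
    intro A M N e
    obtain ⟨R, h1, h2⟩ := ih N e
    exact ⟨_, .mem _ h1, h2⟩
  | _ => intro A M N e; cases e

/-- At least one step. -/
def Sp (M N : MTm S) : Prop := TransGen St M N

theorem Sp.map (f : MTm S → MTm S) (hf : ∀ a b, St a b → St (f a) (f b)) {M N : MTm S}
    (h : Sp M N) : Sp (f M) (f N) := by
  induction h with
  | single h => exact .single (hf _ _ h)
  | tail _ h ih => exact .tail ih (hf _ _ h)

theorem sim {M : MTm S} : ∀ {N : Tm S}, Step M.er N → ∃ N', Sp M N' ∧ N'.er = N := by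
  induction M with
  | var n => intro N h; cases h
  | sort s => intro N h; cases h
  | app M Q ihM ihQ =>
    intro N h
    change Step (Tm.app M.er Q.er) N at h
    generalize e1 : M.er = M1 at h
    cases h with
    | beta A B _ =>
      obtain ⟨R, h1, h2⟩ := ctr_of_er Q e1
      exact ⟨R, .single (.root h1), h2⟩
    | appL _ h =>
      subst e1
      obtain ⟨N', h1, rfl⟩ := ihM h
      exact ⟨_, h1.map (fun M => app M Q) fun _ _ h => .appL _ h, rfl⟩
    | appR _ h =>
      subst e1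
      obtain ⟨N', h1, rfl⟩ := ihQ h
      exact ⟨_, h1.map (fun Q => app M Q) fun _ _ h => .appR _ h, rfl⟩
  | lam A M ihA ihM =>
    intro N h
    cases h with
    | lamL _ h =>
      obtain ⟨N', h1, rfl⟩ := ihA h
      exact ⟨_, h1.map (fun A => lam A M) fun _ _ h => .lamL _ h, rfl⟩
    | lamR _ h =>
      obtain ⟨N', h1, rfl⟩ := ihM h
      exact ⟨_, h1.map (fun M => lam A M) fun _ _ h => .lamR _ h, rfl⟩
  | pi A M ihA ihM =>
    intro N h
    cases h with
    | piL _ h =>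
      obtain ⟨N', h1, rfl⟩ := ihA h
      exact ⟨_, h1.map (fun A => pi A M) fun _ _ h => .piL _ h, rfl⟩
    | piR _ h =>
      obtain ⟨N', h1, rfl⟩ := ihM h
      exact ⟨_, h1.map (fun M => pi A M) fun _ _ h => .piR _ h, rfl⟩
  | mem M Q ihM _ =>
    intro N h
    obtain ⟨N', h1, rfl⟩ := ihM h
    exact ⟨_, h1.map (fun M => mem M Q) fun _ _ h => .memL _ h, rfl⟩

/-! Conservation. -/

/-- The underlying untyped term with memory. -/
def ut : MTm S → LTm Unit
  | var n => LTm.var n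
  | sort _ => LTm.con
  | app M N => LTm.app () (ut M) (ut N)
  | lam A M => LTm.mem (LTm.lam () (ut M)) (ut A)
  | pi A M => LTm.mem (LTm.mem LTm.con (ut A)) (LTm.lam () (ut M))
  | mem M N => LTm.mem (ut M) (ut N)

theorem up_eq (r : ℕ → ℕ) : LTm.up r = Tm.up r := by funext n; cases n <;> rfl

theorem ut_ren (M : MTm S) : ∀ r : ℕ → ℕ, ut (M.ren r) = (ut M).ren r := by
  induction M with
  | var n => intro r; rfl
  | sort s => intro r; rfl
  | app M N ihM ihN => intro r; simp only [ren, ut, ihM, ihN, LTm.ren]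
  | lam A M ihA ihM => intro r; simp [MTm.ren, ut, LTm.ren, ihA, ihM, up_eq]
  | pi A M ihA ihM => intro r; simp [MTm.ren, ut, LTm.ren, ihA, ihM, up_eq]
  | mem M N ihM ihN => intro r; simp [MTm.ren, ut, LTm.ren, ihM, ihN]

theorem ut_ups (σ : ℕ → MTm S) : (fun n => ut (ups σ n)) = LTm.ups fun n => ut (σ n) := by
  funext n; cases n with
  | zero => rfl
  | succ n => exact ut_ren _ _

theorem ut_sub (M : MTm S) : ∀ σ : ℕ → MTm S, ut (M.sub σ) = (ut M).sub fun n => ut (σ n) := by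
  induction M with
  | var n => intro σ; rfl
  | sort s => intro σ; rfl
  | app M N ihM ihN => intro σ; simp only [sub, ut, ihM, ihN, LTm.sub]
  | lam A M ihA ihM => intro σ; simp [MTm.sub, ut, LTm.sub, ihA, ihM, ut_ups]
  | pi A M ihA ihM => intro σ; simp [MTm.sub, ut, LTm.sub, ihA, ihM, ut_ups]
  | mem M N ihM ihN => intro σ; simp [MTm.sub, ut, LTm.sub, ihM, ihN]

theorem ut_inst (M N : MTm S) : ut (inst M N) = LTm.inst (ut M) (ut N) := by
  unfold inst LTm.inst
  rw [ut_sub]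
  congr 1
  funext n; cases n <;> rfl

theorem Ctr.ut {F N R : MTm S} (h : Ctr F N R) :
    Vale.Agent.P340.Ctr () (ut F) (ut N) (ut R) := by
  induction h with
  | lam A M N =>
    show Vale.Agent.P340.Ctr () (LTm.mem (LTm.lam () _) _) _ (LTm.mem (LTm.mem _ _) _)
    rw [ut_inst]
    exact .mem _ (.lam _ _)
  | mem Q _ ih => exact .mem _ ih

theorem St.ut {M N : MTm S} (h : St M N) :
    Vale.Agent.P340.St Set.univ (ut M) (ut N) := by
  induction h with
  | root h => exact .root trivial h.ut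
  | appL N _ ih => exact .appL _ _ ih
  | appR M _ ih => exact .appR _ _ ih
  | lamL M _ ih => exact .memR _ ih
  | lamR A _ ih => exact .memL _ (.lam _ ih)
  | piL M _ ih => exact .memL _ (.memR _ ih)
  | piR A _ ih => exact .memR _ (.lam _ ih)
  | memL N _ ih => exact .memL _ ih
  | memR M _ ih => exact .memR _ ih

theorem ctr_of_ut {F : MTm S} : ∀ {N : MTm S} {N' R : LTm Unit},
    Vale.Agent.P340.Ctr () (ut F) N' R → ∃ R', Ctr F N R' := by
  induction F with
  | lam A M _ _ => intro N N' R _; exact ⟨_, .lam _ _ _⟩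
  | mem F Q ih _ =>
    intro N N' R h
    cases h with
    | mem _ h =>
      obtain ⟨R', h1⟩ := ih (N := N) h
      exact ⟨_, .mem _ h1⟩
  | pi A M _ _ =>
    intro N N' R h
    cases h with
    | mem _ h => cases h with
      | mem _ h => cases h
  | _ => intro N N' R h; cases h

theorem st_of_ut {M : MTm S} : ∀ {N : LTm Unit}, Vale.Agent.P340.St Set.univ (ut M) N →
    ∃ N', St M N' := by
  induction M with
  | var n => intro N h; cases h
  | sort s => intro N h; cases h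
  | app M Q ihM ihQ =>
    intro N h
    cases h with
    | root _ h => obtain ⟨R, h1⟩ := ctr_of_ut (N := Q) h; exact ⟨_, .root h1⟩
    | appL _ _ h => obtain ⟨N', h1⟩ := ihM h; exact ⟨_, .appL _ h1⟩
    | appR _ _ h => obtain ⟨N', h1⟩ := ihQ h; exact ⟨_, .appR _ h1⟩
  | lam A M ihA ihM =>
    intro N h
    cases h with
    | memL _ h => cases h with
      | lam _ h => obtain ⟨N', h1⟩ := ihM h; exact ⟨_, .lamR _ h1⟩
    | memR _ h => obtain ⟨N', h1⟩ := ihA h; exact ⟨_, .lamL _ h1⟩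
  | pi A M ihA ihM =>
    intro N h
    cases h with
    | memL _ h => cases h with
      | memL _ h => cases h
      | memR _ h => obtain ⟨N', h1⟩ := ihA h; exact ⟨_, .piL _ h1⟩
    | memR _ h => cases h with
      | lam _ h => obtain ⟨N', h1⟩ := ihM h; exact ⟨_, .piR _ h1⟩
  | mem M Q ihM ihQ =>
    intro N h
    cases h with
    | memL _ h => obtain ⟨N', h1⟩ := ihM h; exact ⟨_, .memL _ h1⟩
    | memR _ h => obtain ⟨N', h1⟩ := ihQ h; exact ⟨_, .memR _ h1⟩

/-- If an expression with memory has a normal form then its erasure is strongly normalizing. -/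
theorem sn_of_nf {M N : MTm S} (h : Sts M N) (hN : ∀ Q, ¬ St N Q) : Sn M.er := by
  have h1 : Vale.Agent.P340.Sts Set.univ (ut M) (ut N) := by
    clear hN
    induction h with
    | refl => exact .refl _
    | tail _ h ih => exact ih.trans h.ut.sts
  have h2 : SnX Set.univ (ut M) := snX_of_wn h1 fun Q hQ => by
    obtain ⟨Q', h3⟩ := st_of_ut hQ
    exact hN _ h3
  have h3 : ∀ T : LTm Unit, Acc (TransGen fun a b => Vale.Agent.P340.St Set.univ b a) T →
      ∀ M : MTm S, ut M = T → Sn M.er := by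
    intro T hT
    induction hT with
    | intro T _ ih =>
      intro M e
      subst e
      refine Acc.intro _ fun N hN => ?_
      obtain ⟨N', h4, rfl⟩ := sim hN
      refine ih (ut N') ?_ N' rfl
      clear ih hN
      rw [transGen_swap]
      induction h4 with
      | single h => exact .single h.ut
      | tail _ h ih => exact .tail ih h.ut
  exact h3 _ (Acc.transGen h2) M rfl

end Vale.Agent.P340.W
end

section

/-! Types of a term up to the final sort (van Benthem Jutting), for arbitrary specifications. -/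

namespace Vale.Agent.P340

universe u
variable {S : Type u} {P : Spec S}

open Tm

/-- Convertible up to the final sort: `A` and `B` are convertible, or they are
`Π x⃗ : A⃗. s` and `Π x⃗ : A⃗. s'` with the same domains. -/
inductive Sib : Tm S → Tm S → Prop where
  | conv {A B : Tm S} : Conv A B → Sib A B
  | sort {A B : Tm S} {s t : S} : Conv A (sort s) → Conv B (sort t) → Sib A B
  | pi {A B C D D' : Tm S} : Conv A (pi C D) → Conv B (pi C D') → Sib D D' → Sib A B

theorem Sib.refl (A : Tm S) : Sib A A := .conv (.refl _)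

theorem Sib.symm {A B : Tm S} (h : Sib A B) : Sib B A := by
  induction h with
  | conv h => exact .conv h.symm
  | sort h h' => exact .sort h' h
  | pi h h' _ ih => exact .pi h' h ih

theorem Sib.convL {A A' B : Tm S} (h : Sib A B) (h' : Conv A A') : Sib A' B := by
  cases h with
  | conv h => exact .conv (h'.symm.trans h)
  | sort h1 h2 => exact .sort (h'.symm.trans h1) h2
  | pi h1 h2 h3 => exact .pi (h'.symm.trans h1) h2 h3

theorem Sib.convR {A B B' : Tm S} (h : Sib A B) (h' : Conv B B') : Sib A B' :=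
  (h.symm.convL h').symm

theorem Sib.sort_inv {A B : Tm S} {s : S} (h : Sib A B) (h' : Conv A (Tm.sort s)) :
    ∃ t, Conv B (Tm.sort t) := by
  cases h with
  | conv h => exact ⟨s, h.symm.trans h'⟩
  | sort _ h => exact ⟨_, h⟩
  | pi h _ _ => exact (h'.symm.trans h).sort_pi.elim

theorem Sib.pi_inv {A B C D : Tm S} (h : Sib A B) (h' : Conv A (Tm.pi C D)) :
    ∃ D', Conv B (Tm.pi C D') ∧ Sib D D' := by
  cases h with
  | conv h => exact ⟨D, h.symm.trans h', .refl _⟩
  | sort h _ => exact (h.symm.trans h').sort_pi.elim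
  | @pi A B C1 D1 D1' h1 h2 h3 =>
    obtain ⟨h4, h5⟩ := (h1.symm.trans h').pi_inj
    exact ⟨D1', h2.trans (Conv.pi h4 (.refl _)), h3.convL h5⟩

theorem Sib.pi_inj {A B A' B' : Tm S} (h : Sib (Tm.pi A B) (Tm.pi A' B')) :
    Conv A A' ∧ Sib B B' := by
  obtain ⟨D', h1, h2⟩ := h.pi_inv (.refl _)
  obtain ⟨h3, h4⟩ := h1.pi_inj
  exact ⟨h3.symm, h2.convR h4.symm⟩

theorem Sib.trans {A B : Tm S} (h : Sib A B) : ∀ {C : Tm S}, Sib B C → Sib A C := by
  induction h with
  | conv h => intro C h'; exact h'.convL h.symm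
  | sort h1 h2 =>
    intro C h'
    obtain ⟨t, ht⟩ := h'.sort_inv h2
    exact .sort h1 ht
  | pi h1 h2 _ ih =>
    intro C h'
    obtain ⟨D', h4, h5⟩ := h'.pi_inv h2
    exact .pi h1 h4 (ih h5)

theorem Sib.ren {A B : Tm S} (h : Sib A B) : ∀ r : ℕ → ℕ, Sib (A.ren r) (B.ren r) := by
  induction h with
  | conv h => intro r; exact .conv (h.ren r)
  | sort h h' => intro r; exact .sort (h.ren r) (h'.ren r)
  | pi h h' _ ih => intro r; exact .pi (h.ren r) (h'.ren r) (ih _)

theorem Sib.sub {A B : Tm S} (h : Sib A B) : ∀ σ : ℕ → Tm S, Sib (A.sub σ) (B.sub σ) := by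
  induction h with
  | conv h => intro r; exact .conv (h.sub r)
  | sort h h' => intro r; exact .sort (h.sub r) (h'.sub r)
  | pi h h' _ ih => intro r; exact .pi (h.sub r) (h'.sub r) (ih _)

theorem Sib.inst {A B N N' : Tm S} (h : Sib A B) (h' : Conv N N') :
    Sib (Tm.inst A N) (Tm.inst B N') :=
  (h.sub _).convR (Conv.inst (.refl _) h')

theorem Sib.mkpi {A A' B B' : Tm S} (h : Conv A A') (h' : Sib B B') :
    Sib (Tm.pi A B) (Tm.pi A' B') := .pi (.refl _) (Conv.pi h.symm (.refl _)) h'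

/-- Van Benthem Jutting: the types of a term are unique up to conversion and the final sort. -/
theorem J.sib {M : Tm S} : ∀ {G : Ctx S} {A B : Tm S}, J P G M A → J P G M B → Sib A B := by
  induction M with
  | var n =>
    intro G A B h h'
    obtain ⟨A1, h1, h2⟩ := h.var_inv
    obtain ⟨B1, h3, h4⟩ := h'.var_inv
    rw [h1] at h3; cases h3
    exact .conv (h2.symm.trans h4)
  | sort s =>
    intro G A B h h'
    obtain ⟨A1, h1, h2⟩ := h.sort_inv
    obtain ⟨B1, h3, h4⟩ := h'.sort_inv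
    exact .sort h2.symm h4.symm
  | app M N ih _ =>
    intro G A B h h'
    obtain ⟨A1, B1, h1, _, h2⟩ := h.app_inv
    obtain ⟨A2, B2, h3, _, h4⟩ := h'.app_inv
    exact ((((ih h1 h3).pi_inj).2.inst (.refl _)).convL h2).convR h4
  | lam C M _ ih =>
    intro G A B h h'
    obtain ⟨A1, B1, h1, _, h2⟩ := h.lam_inv
    obtain ⟨A2, B2, h3, _, h4⟩ := h'.lam_inv
    exact ((Sib.mkpi (.refl _) (ih h1 h3)).convL h2).convR h4
  | pi C M _ _ =>
    intro G A B h h'
    obtain ⟨s1, s2, s3, h1, h2, h3, h4⟩ := h.pi_inv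
    obtain ⟨t1, t2, t3, k1, k2, k3, k4⟩ := h'.pi_inv
    exact .sort h4.symm k4.symm

/-- The two typings of convertible terms are siblings. -/
theorem J.sib_conv {G : Ctx S} {M N A B : Tm S} (hG : WFC P G) (h : J P G M A) (h' : J P G N B)
    (hc : Conv M N) : Sib A B := by
  obtain ⟨Q, h1, h2⟩ := hc.cr
  exact (h.red hG h1).sib (h'.red hG h2)

end Vale.Agent.P340
end

section

/-! Saturated contexts: every type has a variable. -/

namespace Vale.Agent.P340

universe u
variable {S : Type u} {P : Spec S}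

open Tm

/-- A code for expressions. -/
def code : Tm S → List (ℕ ⊕ S)
  | var n => [Sum.inl 0, Sum.inl n]
  | sort s => [Sum.inl 1, Sum.inr s]
  | app M N => Sum.inl 2 :: (code M ++ code N)
  | lam M N => Sum.inl 3 :: (code M ++ code N)
  | pi M N => Sum.inl 4 :: (code M ++ code N)

theorem code_inj (M : Tm S) : ∀ (N : Tm S) (l l' : List (ℕ ⊕ S)),
    code M ++ l = code N ++ l' → M = N ∧ l = l' := by
  induction M with
  | var n =>
    intro N l l' h
    cases N with
    | var m => simp only [code, List.cons_append, List.cons.injEq, Sum.inl.injEq] at h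
               obtain ⟨-, rfl, h⟩ := h
               exact ⟨rfl, h⟩
    | _ => simp [code] at h
  | sort s =>
    intro N l l' h
    cases N with
    | sort m => simp only [code, List.cons_append, List.cons.injEq, Sum.inr.injEq] at h
                obtain ⟨-, rfl, h⟩ := h
                exact ⟨rfl, h⟩
    | _ => simp [code] at h
  | app M N ihM ihN =>
    intro Q l l' h
    cases Q with
    | app M' N' =>
      simp only [code, List.cons_append, List.append_assoc, List.cons.injEq, true_and] at h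
      obtain ⟨rfl, h2⟩ := ihM _ _ _ h
      obtain ⟨rfl, h3⟩ := ihN _ _ _ h2
      exact ⟨rfl, h3⟩
    | _ => simp [code] at h
  | lam M N ihM ihN =>
    intro Q l l' h
    cases Q with
    | lam M' N' =>
      simp only [code, List.cons_append, List.append_assoc, List.cons.injEq, true_and] at h
      obtain ⟨rfl, h2⟩ := ihM _ _ _ h
      obtain ⟨rfl, h3⟩ := ihN _ _ _ h2
      exact ⟨rfl, h3⟩
    | _ => simp [code] at h
  | pi M N ihM ihN =>
    intro Q l l' h
    cases Q with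
    | pi M' N' =>
      simp only [code, List.cons_append, List.append_assoc, List.cons.injEq, true_and] at h
      obtain ⟨rfl, h2⟩ := ihM _ _ _ h
      obtain ⟨rfl, h3⟩ := ihN _ _ _ h2
      exact ⟨rfl, h3⟩
    | _ => simp [code] at h

theorem countable_tm [Countable S] : Countable (Tm S) := by
  have : Function.Injective (code : Tm S → List (ℕ ⊕ S)) := by
    intro M N h
    exact (code_inj M N [] [] (by rw [h])).1
  exact this.countable

/-- Enlarging the context. -/
theorem J.mono {G D : Ctx S} {M A : Tm S} (h : J P G M A)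
    (hGD : ∀ n A, G n = some A → D n = some A) : J P D M A := by
  have := h.ren (D := D) (r := fun n => n) (by
    intro n B hB
    rw [ren_id]; exact hGD n B hB)
  rwa [ren_id, ren_id] at this

theorem chain_le {F : ℕ → Ctx S} (hF : ∀ k n A, F k n = some A → F (k + 1) n = some A)
    {k k' : ℕ} (h : k ≤ k') : ∀ n A, F k n = some A → F k' n = some A := by
  induction h with
  | refl => exact fun _ _ h => h
  | step _ ih => exact fun n A h => hF _ _ _ (ih n A h)

theorem push_chain {F : ℕ → Ctx S} (hF : ∀ k n A, F k n = some A → F (k + 1) n = some A)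
    (C : Tm S) : ∀ k n A, push C (F k) n = some A → push C (F (k + 1)) n = some A := by
  intro k n A h
  cases n with
  | zero => exact h
  | succ n =>
    rw [push_succ, Option.map_eq_some_iff] at h ⊢
    obtain ⟨B, h1, h2⟩ := h
    exact ⟨B, hF _ _ _ h1, h2⟩

theorem push_union {G : Ctx S} {F : ℕ → Ctx S} (hG : ∀ n A, G n = some A → ∃ k, F k n = some A)
    (C : Tm S) : ∀ n A, push C G n = some A → ∃ k, push C (F k) n = some A := by
  intro n A h
  cases n with
  | zero => exact ⟨0, h⟩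
  | succ n =>
    rw [push_succ, Option.map_eq_some_iff] at h
    obtain ⟨B, h1, h2⟩ := h
    obtain ⟨k, hk⟩ := hG _ _ h1
    exact ⟨k, by rw [push_succ, hk]; exact congrArg some h2⟩

/-- A derivation over the union of a chain of contexts lives in a member of the chain. -/
theorem J.compact {G : Ctx S} {M A : Tm S} (h : J P G M A) : ∀ {F : ℕ → Ctx S},
    (∀ k n A, F k n = some A → F (k + 1) n = some A) →
    (∀ n A, G n = some A → ∃ k, F k n = some A) → ∃ k, J P (F k) M A := by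
  induction h with
  | sort h => intro F _ _; exact ⟨0, .sort h⟩
  | var h =>
    intro F _ h2
    obtain ⟨k, hk⟩ := h2 _ _ h
    exact ⟨k, .var hk⟩
  | pi _ _ h ih ih' =>
    intro F h1 h2
    obtain ⟨k, hk⟩ := ih h1 h2
    obtain ⟨k', hk'⟩ := ih' (push_chain h1 _) (push_union h2 _)
    refine ⟨max k k', .pi (hk.mono (chain_le h1 (le_max_left _ _))) (hk'.mono ?_) h⟩
    exact chain_le (push_chain h1 _) (le_max_right k k')
  | lam _ _ ih ih' =>
    intro F h1 h2
    obtain ⟨k, hk⟩ := ih (push_chain h1 _) (push_union h2 _)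
    obtain ⟨k', hk'⟩ := ih' h1 h2
    refine ⟨max k k', .lam (hk.mono ?_) (hk'.mono (chain_le h1 (le_max_right _ _)))⟩
    exact chain_le (push_chain h1 _) (le_max_left k k')
  | app _ _ ih ih' =>
    intro F h1 h2
    obtain ⟨k, hk⟩ := ih h1 h2
    obtain ⟨k', hk'⟩ := ih' h1 h2
    exact ⟨max k k', .app (hk.mono (chain_le h1 (le_max_left _ _)))
      (hk'.mono (chain_le h1 (le_max_right _ _)))⟩
  | conv _ _ h ih ih' =>
    intro F h1 h2
    obtain ⟨k, hk⟩ := ih h1 h2
    obtain ⟨k', hk'⟩ := ih' h1 h2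
    exact ⟨max k k', .conv (hk.mono (chain_le h1 (le_max_left _ _)))
      (hk'.mono (chain_le h1 (le_max_right _ _))) h⟩

open Classical in
/-- Stages of the construction of a saturated context: at stage `k` the index `2 * k + 1`. -/
noncomputable def stage (P : Spec S) (e : ℕ → Tm S) (B : Ctx S) : ℕ → Ctx S
  | 0 => B
  | k + 1 => fun n =>
    if n = 2 * k + 1 ∧ ∃ s, J P (stage P e B k) (e k) (sort s) then some (e k)
    else stage P e B k n

theorem stage_none (e : ℕ → Tm S) {B : Ctx S} (hB : ∀ n, B (2 * n + 1) = none) :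
    ∀ {k n : ℕ}, k ≤ n → stage P e B k (2 * n + 1) = none := by
  intro k
  induction k with
  | zero => intro n _; exact hB n
  | succ k ih =>
    intro n hn
    simp only [stage]
    rw [if_neg (by omega), ih (by omega)]

theorem stage_succ (e : ℕ → Tm S) {B : Ctx S} (hB : ∀ n, B (2 * n + 1) = none) (k n : ℕ)
    (A : Tm S) (h : stage P e B k n = some A) : stage P e B (k + 1) n = some A := by
  have hn : n ≠ 2 * k + 1 := by
    rintro rfl
    rw [stage_none e hB (le_refl k)] at h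
    cases h
  simp only [stage]
  rw [if_neg (by omega), h]

theorem stage_wfc (e : ℕ → Tm S) {B : Ctx S} (hB : ∀ n, B (2 * n + 1) = none)
    (hW : WFC P B) : ∀ k, WFC P (stage P e B k) := by
  intro k
  induction k with
  | zero => exact hW
  | succ k ih =>
    intro n A h
    by_cases hc : n = 2 * k + 1 ∧ ∃ s, J P (stage P e B k) (e k) (sort s)
    · simp only [stage] at h
      rw [if_pos hc] at h
      cases h
      obtain ⟨s, hs⟩ := hc.2
      exact ⟨s, hs.mono (stage_succ e hB k)⟩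
    · simp only [stage] at h
      rw [if_neg hc] at h
      obtain ⟨s, hs⟩ := ih n A h
      exact ⟨s, hs.mono (stage_succ e hB k)⟩

/-- The context `G` with its variables moved to the even indices. -/
def evenCtx (G : Ctx S) : Ctx S := fun n =>
  if n % 2 = 0 then (G (n / 2)).map (Tm.ren fun k => 2 * k) else none

theorem evenCtx_ren (G : Ctx S) : RenC G (evenCtx G) (fun k => 2 * k) := by
  intro n A h
  show (if 2 * n % 2 = 0 then (G (2 * n / 2)).map (Tm.ren fun k => 2 * k) else none) = _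
  have h1 : 2 * n / 2 = n := by (clear * -; omega)
  rw [if_pos (by omega), h1, h]
  rfl

theorem evenCtx_wfc {G : Ctx S} (hG : WFC P G) : WFC P (evenCtx G) := by
  intro n A h
  by_cases hn : n % 2 = 0
  · have h' : (G (n / 2)).map (Tm.ren fun k => 2 * k) = some A := by
      have : evenCtx G n = (G (n / 2)).map (Tm.ren fun k => 2 * k) := by
        unfold evenCtx; rw [if_pos hn]
      rw [← this]; exact h
    rw [Option.map_eq_some_iff] at h'
    obtain ⟨C, hC, rfl⟩ := h'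
    obtain ⟨s, hs⟩ := hG _ _ hC
    exact ⟨s, hs.ren (evenCtx_ren G)⟩
  · unfold evenCtx at h
    rw [if_neg hn] at h
    cases h

end Vale.Agent.P340
end

section

/-! Levels in graded nondependent specifications. -/

namespace Vale.Agent.P340

universe u
variable {S : Type u} {P : Spec S} {ℓ : S → ℤ}

open Tm

/-- Extension of a level assignment. -/
def lcons (a : ℤ) (Δ : ℕ → ℤ) : ℕ → ℤ
  | 0 => a
  | n + 1 => Δ n

/-- The level of an expression, relative to levels of the variables. -/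
def lev (ℓ : S → ℤ) : (ℕ → ℤ) → Tm S → ℤ
  | Δ, var n => Δ n
  | _, sort s => ℓ s + 2
  | Δ, app M _ => lev ℓ Δ M
  | Δ, lam A M => lev ℓ (lcons (lev ℓ Δ A - 1) Δ) M
  | Δ, pi A B => lev ℓ (lcons (lev ℓ Δ A - 1) Δ) B

end Vale.Agent.P340
end

section

/-! Normal forms. -/

namespace Vale.Agent.P340

universe u
variable {S : Type u} {P : Spec S} {ℓ : S → ℤ}

open Tm

open Classical in
/-- The normal form, if there is one. -/
noncomputable def nf (M : Tm S) : Tm S :=
  if h : ∃ N, Red M N ∧ Normal N then h.choose else M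

theorem Normal.red {M N : Tm S} (h : Normal M) (hr : Red M N) : N = M := by
  induction hr with
  | refl => rfl
  | tail _ hs ih => subst ih; exact absurd hs (h _)

theorem nf_eq {M N : Tm S} (h : Red M N) (hN : Normal N) : nf M = N := by
  have hex : ∃ N, Red M N ∧ Normal N := ⟨N, h, hN⟩
  have h1 : nf M = hex.choose := dif_pos hex
  obtain ⟨h2, h3⟩ := hex.choose_spec
  rw [← h1] at h2 h3
  obtain ⟨Q, h4, h5⟩ := h.confluent h2
  rw [← h3.red h5, hN.red h4]

theorem nf_normal {M : Tm S} (h : Normal M) : nf M = M := nf_eq (.refl _) h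

theorem normal_var (n : ℕ) : Normal (Tm.var n : Tm S) := fun _ h => by cases h

theorem normal_sort (s : S) : Normal (Tm.sort s : Tm S) := fun _ h => by cases h

theorem Normal.pi {A B : Tm S} (hA : Normal A) (hB : Normal B) : Normal (Tm.pi A B) := by
  intro Q h
  cases h with
  | piL _ h => exact hA _ h
  | piR _ h => exact hB _ h

theorem Normal.appL {M N : Tm S} (h : Normal (Tm.app M N)) : Normal M :=
  fun _ hs => h _ (.appL N hs)

theorem Normal.appR {M N : Tm S} (h : Normal (Tm.app M N)) : Normal N :=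
  fun _ hs => h _ (.appR M hs)

theorem Normal.piL {M N : Tm S} (h : Normal (Tm.pi M N)) : Normal M :=
  fun _ hs => h _ (.piL N hs)

theorem Normal.piR {M N : Tm S} (h : Normal (Tm.pi M N)) : Normal N :=
  fun _ hs => h _ (.piR M hs)

theorem Normal.lamL {M N : Tm S} (h : Normal (Tm.lam M N)) : Normal M :=
  fun _ hs => h _ (.lamL N hs)

theorem Normal.lamR {M N : Tm S} (h : Normal (Tm.lam M N)) : Normal N :=
  fun _ hs => h _ (.lamR M hs)

end Vale.Agent.P340
end

section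

/-! Contexts approximated by well-formed list contexts, and normal forms of their terms. -/

namespace Vale.Agent.P340

universe u
variable {S : Type u} {P : Spec S}

open Tm

theorem has_of_ofList : ∀ {Γ : List (Tm S)} {n : ℕ} {A : Tm S}, ofList Γ n = some A → Has Γ n A
  | [], _, _, h => by cases h
  | B :: Γ, 0, A, h => by
    simp only [ofList, push_zero, Option.some.injEq] at h
    subst h; exact .zero _ _
  | B :: Γ, n + 1, A, h => by
    rw [ofList, push_succ, Option.map_eq_some_iff] at h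
    obtain ⟨A, hA, rfl⟩ := h
    exact .succ _ (has_of_ofList hA)

theorem J.toT {G : Ctx S} {M A : Tm S} (h : J P G M A) : ∀ {Γ : List (Tm S)}, G = ofList Γ →
    T P Γ M A := by
  induction h with
  | sort h => intro Γ _; exact .sort h
  | var h => intro Γ e; subst e; exact .var (has_of_ofList h)
  | pi _ _ h ih ih' => intro Γ e; subst e; exact .pi (ih rfl) (ih' rfl) h
  | lam _ _ ih ih' => intro Γ e; subst e; exact .lam (ih rfl) (ih' rfl)
  | app _ _ ih ih' => intro Γ e; exact .app (ih e) (ih' e)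
  | conv _ _ h ih ih' => intro Γ e; exact .conv (ih e) (ih' e) h

/-- Contexts that can be renamed to well-formed list contexts. -/
def FCtx (P : Spec S) (G : Ctx S) : Prop :=
  ∃ (Γ : List (Tm S)) (r : ℕ → ℕ), WF P Γ ∧ RenC G (ofList Γ) r

/-- Unions of chains of such contexts. -/
def NCtx (P : Spec S) (G : Ctx S) : Prop :=
  ∃ F : ℕ → Ctx S, (∀ k n A, F k n = some A → F (k + 1) n = some A) ∧
    (∀ n A, G n = some A → ∃ k, F k n = some A) ∧
    (∀ k n A, F k n = some A → G n = some A) ∧ ∀ k, FCtx P (F k)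

theorem FCtx.nctx {G : Ctx S} (h : FCtx P G) : NCtx P G :=
  ⟨fun _ => G, fun _ _ _ h => h, fun _ _ h => ⟨0, h⟩, fun _ _ _ h => h, fun _ => h⟩

theorem FCtx.ofList {Γ : List (Tm S)} (h : WF P Γ) : FCtx P (ofList Γ) :=
  ⟨Γ, fun n => n, h, fun n A hA => by rw [ren_id]; exact hA⟩

theorem FCtx.push {G : Ctx S} (h : FCtx P G) {A : Tm S} {a : S} (hA : J P G A (sort a)) :
    FCtx P (push A G) := by
  obtain ⟨Γ, r, h1, h2⟩ := h
  exact ⟨A.ren r :: Γ, Tm.up r, .cons h1 ((hA.ren h2).toT rfl), h2.up A⟩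

theorem NCtx.push {G : Ctx S} (h : NCtx P G) {A : Tm S} {a : S} (hA : J P G A (sort a)) :
    NCtx P (push A G) := by
  obtain ⟨F, h1, h2, h3, h4⟩ := h
  obtain ⟨k0, hk0⟩ := hA.compact h1 h2
  refine ⟨fun k => Vale.Agent.P340.push A (F (k + k0)), fun k => ?_, fun n B hB => ?_,
    fun k n B hB => ?_, fun k => ?_⟩
  · have := push_chain h1 A (k + k0)
    have e : k + k0 + 1 = k + 1 + k0 := by omega
    rw [e] at this; exact this
  · obtain ⟨k, hk⟩ := push_union h2 A n B hB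
    exact ⟨k, chain_le (push_chain h1 A) (Nat.le_add_right k k0) n B hk⟩
  · cases n with
    | zero => exact hB
    | succ n =>
      change ((F (k + k0)) n).map wk = some B at hB
      rw [push_succ, Option.map_eq_some_iff]
      rw [Option.map_eq_some_iff] at hB
      obtain ⟨B, h5, h6⟩ := hB
      exact ⟨B, h3 _ _ _ h5, h6⟩
  · exact (h4 _).push (hk0.mono (chain_le h1 (Nat.le_add_left k0 k)))

/-- Reductions of renamed terms. -/
theorem Step.ren_inv {M : Tm S} : ∀ {r : ℕ → ℕ} {N : Tm S}, Step (M.ren r) N →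
    ∃ M', Step M M' ∧ N = M'.ren r := by
  induction M with
  | var n => intro r N h; cases h
  | sort s => intro r N h; cases h
  | app M Q ihM ihQ =>
    intro r N h
    change Step (app (M.ren r) (Q.ren r)) N at h
    generalize e1 : M.ren r = M1 at h
    generalize e2 : Q.ren r = Q1 at h
    cases h with
    | beta A B _ =>
      cases M with
      | lam A' B' =>
        injection e1 with e3 e4
        subst e3 e4 e2
        exact ⟨inst B' Q, .beta _ _ _, (ren_inst _ _ _).symm⟩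
      | var _ => cases e1
      | sort _ => cases e1
      | app _ _ => cases e1
      | pi _ _ => cases e1
    | appL _ h =>
      subst e1 e2
      obtain ⟨M', h1, rfl⟩ := ihM h
      exact ⟨_, .appL _ h1, rfl⟩
    | appR _ h =>
      subst e1 e2
      obtain ⟨Q', h1, rfl⟩ := ihQ h
      exact ⟨_, .appR _ h1, rfl⟩
  | lam A M ihA ihM =>
    intro r N h
    cases h with
    | lamL _ h => obtain ⟨A', h1, rfl⟩ := ihA h; exact ⟨_, .lamL _ h1, rfl⟩
    | lamR _ h => obtain ⟨M', h1, rfl⟩ := ihM h; exact ⟨_, .lamR _ h1, rfl⟩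
  | pi A M ihA ihM =>
    intro r N h
    cases h with
    | piL _ h => obtain ⟨A', h1, rfl⟩ := ihA h; exact ⟨_, .piL _ h1, rfl⟩
    | piR _ h => obtain ⟨M', h1, rfl⟩ := ihM h; exact ⟨_, .piR _ h1, rfl⟩

theorem Red.ren_inv {M : Tm S} {r : ℕ → ℕ} {N : Tm S} (h : Red (M.ren r) N) :
    ∃ M', Red M M' ∧ N = M'.ren r := by
  induction h with
  | refl => exact ⟨M, .refl _, rfl⟩
  | tail _ hs ih =>
    obtain ⟨M', h1, rfl⟩ := ih
    obtain ⟨M'', h2, rfl⟩ := hs.ren_inv
    exact ⟨M'', h1.trans (.step h2), rfl⟩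

/-- Terms with a normal form. -/
def HN (M : Tm S) : Prop := ∃ N, Red M N ∧ Normal N

theorem HN.red {M : Tm S} (h : HN M) : Red M (nf M) := by
  obtain ⟨N, h1, h2⟩ := h
  rw [nf_eq h1 h2]; exact h1

theorem HN.normal {M : Tm S} (h : HN M) : Normal (nf M) := by
  obtain ⟨N, h1, h2⟩ := h
  rw [nf_eq h1 h2]; exact h2

theorem HN.eq_of_conv {M N : Tm S} (hM : HN M) (h : Conv M N) : nf M = nf N := by
  obtain ⟨Q, h1, h2⟩ := hM
  obtain ⟨R, h3, h4⟩ := h.cr
  obtain ⟨R', h5, h6⟩ := h1.confluent h3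
  have e := h2.red h5
  subst e
  rw [nf_eq h1 h2, nf_eq (h4.trans h6) h2]

theorem HN.of_conv {M N : Tm S} (hM : HN M) (h : Conv M N) : HN N := by
  obtain ⟨Q, h1, h2⟩ := hM
  obtain ⟨R, h3, h4⟩ := h.cr
  obtain ⟨R', h5, h6⟩ := h1.confluent h3
  have e := h2.red h5
  subst e
  exact ⟨_, h4.trans h6, h2⟩

theorem HN.of_ren {M : Tm S} {r : ℕ → ℕ} (h : HN (M.ren r)) : HN M := by
  obtain ⟨N, h1, h2⟩ := h
  obtain ⟨M', h3, rfl⟩ := h1.ren_inv
  exact ⟨M', h3, fun Q hQ => h2 _ (hQ.ren r)⟩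

theorem HN.pi {A B : Tm S} (hA : HN A) (hB : HN B) : HN (Tm.pi A B) :=
  ⟨_, Red.pi hA.red hB.red, hA.normal.pi hB.normal⟩

theorem HN.nf_pi {A B : Tm S} (hA : HN A) (hB : HN B) : nf (Tm.pi A B) = Tm.pi (nf A) (nf B) :=
  nf_eq (Red.pi hA.red hB.red) (hA.normal.pi hB.normal)

theorem HN.of_normal {M : Tm S} (h : Normal M) : HN M := ⟨M, .refl _, h⟩

/-- Types have normal forms. -/
theorem hn_type (hW : WNKindVar P) {M : Tm S} : ∀ {Γ : List (Tm S)} {s : S}, WF P Γ →
    T P Γ M (sort s) → HN M := by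
  have key : ∀ {Γ : List (Tm S)} {M : Tm S} {s t : S}, WF P Γ → T P Γ M (sort s) → P.ax s t →
      HN M := fun {Γ M s t} hΓ h ha =>
    hW Γ _ _ (h.typ hΓ.cwf) (.inr ⟨t, .ax ha, (T.sort ha).typ hΓ.cwf⟩)
  induction M with
  | var n => intro Γ s _ _; exact HN.of_normal (normal_var n)
  | sort s' => intro _ _ _ _; exact HN.of_normal (normal_sort s')
  | app F N _ _ =>
    intro Γ s hΓ h
    obtain ⟨A, B, h1, h2, h3⟩ := h.app_inv
    rcases h1.correct hΓ with ⟨t, e⟩ | ⟨t, ht⟩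
    · cases e
    · obtain ⟨a, b, c, k1, k2, k3, k4⟩ := ht.pi_inv
      have h5 := (k2.inst_sort h2).red hΓ h3.red_sort
      obtain ⟨t', h6, h7⟩ := h5.sort_inv
      exact key hΓ h h6
  | lam A M _ _ =>
    intro Γ s hΓ h
    obtain ⟨B, s', -, -, h1⟩ := h.lam_inv
    exact absurd h1.symm (fun h => h.sort_pi)
  | pi A B ihA ihB =>
    intro Γ s hΓ h
    obtain ⟨a, b, c, k1, k2, k3, k4⟩ := h.pi_inv
    exact (ihA hΓ k1).pi (ihB (.cons hΓ k1) k2)

/-- All types of such a context have normal forms. -/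
theorem NCtx.hn (hW : WNKindVar P) {G : Ctx S} (h : NCtx P G) {M : Tm S} {s : S}
    (hM : J P G M (sort s)) : HN M := by
  obtain ⟨F, h1, h2, h3, h4⟩ := h
  obtain ⟨k, hk⟩ := hM.compact h1 h2
  obtain ⟨Γ, r, h5, h6⟩ := h4 k
  have h7 : T P Γ (M.ren r) (sort s) := (hk.ren h6).toT rfl
  exact HN.of_ren (hn_type hW h5 h7)

/-- The elements of kinds have normal forms. -/
theorem NCtx.hnk (hW : WNKindVar P) {G : Ctx S} (h : NCtx P G) {M K : Tm S} {t : S}
    (hM : J P G M K) (hK : J P G K (sort t)) (hs : KindSort P t) : HN M := by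
  obtain ⟨F, h1, h2, h3, h4⟩ := h
  obtain ⟨k, hk⟩ := hM.compact h1 h2
  obtain ⟨k', hk'⟩ := hK.compact h1 h2
  have hk := hk.mono (chain_le h1 (Nat.le_max_left k k'))
  have hk' := hk'.mono (chain_le h1 (Nat.le_max_right k k'))
  obtain ⟨Γ, r, h5, h6⟩ := h4 (max k k')
  have h7 : T P Γ (M.ren r) (K.ren r) := (hk.ren h6).toT rfl
  have h8 : T P Γ (K.ren r) (sort t) := (hk'.ren h6).toT rfl
  exact HN.of_ren (hW Γ _ _ (h7.typ h5.cwf) (.inr ⟨t, hs, h8.typ h5.cwf⟩))

/-- The elements of variables have normal forms. -/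
theorem NCtx.hnv (hW : WNKindVar P) {G : Ctx S} (h : NCtx P G) {M : Tm S} {n : ℕ}
    (hM : J P G M (var n)) : HN M := by
  obtain ⟨F, h1, h2, h3, h4⟩ := h
  obtain ⟨k, hk⟩ := hM.compact h1 h2
  obtain ⟨Γ, r, h5, h6⟩ := h4 k
  have h7 : T P Γ (M.ren r) (var (r n)) := (hk.ren h6).toT rfl
  exact HN.of_ren (hW Γ _ _ (h7.typ h5.cwf) (.inl ⟨_, rfl⟩))

theorem Normal.lam {A B : Tm S} (hA : Normal A) (hB : Normal B) : Normal (Tm.lam A B) := by
  intro Q h
  cases h with
  | lamL _ h => exact hA _ h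
  | lamR _ h => exact hB _ h

theorem HN.lam {A B : Tm S} (hA : HN A) (hB : HN B) : HN (Tm.lam A B) :=
  ⟨_, Red.lam hA.red hB.red, hA.normal.lam hB.normal⟩

theorem inst_up_succ (M : Tm S) : inst (M.ren (Tm.up Nat.succ)) (var 0) = M := by
  unfold inst
  rw [sub_ren]
  have e : (fun n => single (var 0 : Tm S) (Tm.up Nat.succ n)) = Tm.var := by
    funext n
    cases n with
    | zero => rfl
    | succ n => rfl
  rw [e, sub_var]

/-- A typed expression has a normal form if its application to a fresh variable has one. -/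
theorem HN.of_app_var (hW : WNKindVar P) {G : Ctx S} (hG : WFC P G) (hN : NCtx P G) {X : Tm S}
    (h : HN X) : ∀ {M T : Tm S}, J P G M T → X = app (wk M) (var 0) → HN M := by
  obtain ⟨N, h1, h2⟩ := h
  induction h1 using Relation.ReflTransGen.head_induction_on with
  | refl =>
    intro M T _ e
    subst e
    exact ⟨M, .refl _, fun Q hQ => h2.appL _ (hQ.ren Nat.succ)⟩
  | @head X Y h3 h4 ih =>
    intro M T hM e
    subst e
    generalize e1 : wk M = F at h3
    cases h3 with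
    | beta A B _ =>
      cases M with
      | lam A' B' =>
        injection e1 with e3 e4
        subst e3 e4
        change Relation.ReflTransGen Step (inst (B'.ren (Tm.up Nat.succ)) (var 0)) N at h4
        rw [inst_up_succ] at h4
        obtain ⟨C, s, k1, k2, k3⟩ := hM.lam_inv
        obtain ⟨a, b, c, k4, k5, k6, k7⟩ := k2.pi_inv
        exact HN.lam (hN.hn hW k4) ⟨N, h4, h2⟩
      | var _ => cases e1
      | sort _ => cases e1
      | app _ _ => cases e1
      | pi _ _ => cases e1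
    | appL _ h =>
      subst e1
      obtain ⟨M', h5, rfl⟩ := h.ren_inv
      obtain ⟨N', h6, h7⟩ := ih (hM.step hG h5) rfl
      exact ⟨N', .head h5 h6, h7⟩
    | appR _ h => cases h

theorem J.app_var {G : Ctx S} {M A B : Tm S} (hM : J P G M (Tm.pi A B)) :
    J P (Vale.Agent.P340.push A G) (Tm.app (Tm.wk M) (Tm.var 0)) B := by
  have h1 : J P (Vale.Agent.P340.push A G) (Tm.wk M)
      (Tm.pi (Tm.wk A) (B.ren (Tm.up Nat.succ))) := hM.wk A
  have h2 : J P (Vale.Agent.P340.push A G) (Tm.var 0) (Tm.wk A) := .var rfl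
  have h3 := J.app h1 h2
  rwa [inst_up_succ] at h3

end Vale.Agent.P340
end

section

/-! Saturated contexts with normal forms. -/

namespace Vale.Agent.P340

universe u
variable {S : Type u} {P : Spec S}

open Tm

theorem J.ren_congr {G : Ctx S} {M A : Tm S} (h : J P G M A) : ∀ {r r' : ℕ → ℕ},
    (∀ n B, G n = some B → r n = r' n) → M.ren r = M.ren r' := by
  have hup : ∀ {G : Ctx S} {r r' : ℕ → ℕ} (A : Tm S), (∀ n B, G n = some B → r n = r' n) →
      ∀ n B, push A G n = some B → Tm.up r n = Tm.up r' n := by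
    intro G r r' A h n B hB
    cases n with
    | zero => rfl
    | succ n =>
      rw [push_succ, Option.map_eq_some_iff] at hB
      obtain ⟨B, hB, -⟩ := hB
      exact congrArg Nat.succ (h n B hB)
  induction h with
  | sort h => intros; rfl
  | var h => intro r r' hr; exact congrArg Tm.var (hr _ _ h)
  | pi _ _ _ ih ih' =>
    intro r r' hr
    show Tm.pi _ _ = Tm.pi _ _
    rw [ih hr, ih' (hup _ hr)]
  | lam _ _ ih ih' =>
    intro r r' hr
    have h1 : Tm.pi _ _ = Tm.pi _ _ := ih' hr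
    injection h1 with h2 h3
    show Tm.lam _ _ = Tm.lam _ _
    rw [h2, ih (hup _ hr)]
  | app _ _ ih ih' =>
    intro r r' hr
    show Tm.app _ _ = Tm.app _ _
    rw [ih hr, ih' hr]
  | conv _ _ _ ih _ => intro r r' hr; exact ih hr

open Classical in
theorem FCtx.ext {G : Ctx S} (h : FCtx P G) (hG : WFC P G) {n0 : ℕ} (hn : G n0 = none)
    {E : Tm S} {s : S} (hE : J P G E (sort s)) :
    FCtx P (fun n => if n = n0 then some E else G n) := by
  obtain ⟨Γ, r, h1, h2⟩ := h
  let r' : ℕ → ℕ := fun n => if n = n0 then 0 else r n + 1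
  have hr : ∀ n B, G n = some B → r' n = Nat.succ (r n) := by
    intro n B hB
    have : n ≠ n0 := by rintro rfl; rw [hn] at hB; cases hB
    show (if n = n0 then 0 else r n + 1) = _
    rw [if_neg this]
  have key : ∀ {M A : Tm S}, J P G M A → M.ren r' = wk (M.ren r) := by
    intro M A hM
    rw [hM.ren_congr hr]
    unfold wk
    rw [ren_ren]
  refine ⟨E.ren r :: Γ, r', .cons h1 ((hE.ren h2).toT rfl), ?_⟩
  intro n A hA
  replace hA : (if n = n0 then some E else G n) = some A := hA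
  by_cases hn' : n = n0
  · rw [if_pos hn'] at hA
    cases hA
    have : r' n = 0 := if_pos hn'
    rw [this, key hE]; rfl
  · rw [if_neg hn'] at hA
    obtain ⟨s', hs'⟩ := hG _ _ hA
    rw [hr n A hA, key hs']
    show (Vale.Agent.P340.ofList Γ (r n)).map wk = _
    rw [h2 n A hA]; rfl

theorem FCtx.stage (e : ℕ → Tm S) {B : Ctx S} (hB : ∀ n, B (2 * n + 1) = none)
    (hW : WFC P B) (hF : FCtx P B) : ∀ k, FCtx P (stage P e B k) := by
  classical
  intro k
  induction k with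
  | zero => exact hF
  | succ k ih =>
    by_cases hc : ∃ s, J P (Vale.Agent.P340.stage P e B k) (e k) (sort s)
    · obtain ⟨s, hs⟩ := hc
      have := ih.ext (stage_wfc e hB hW k) (stage_none e hB (le_refl k)) hs
      have e1 : Vale.Agent.P340.stage P e B (k + 1) = fun n =>
          if n = 2 * k + 1 then some (e k) else Vale.Agent.P340.stage P e B k n := by
        funext n
        by_cases hn : n = 2 * k + 1
        · rw [if_pos hn]; simp only [Vale.Agent.P340.stage]; rw [if_pos ⟨hn, s, hs⟩]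
        · rw [if_neg hn]; simp only [Vale.Agent.P340.stage]; rw [if_neg fun h => hn h.1]
      rw [e1]; exact this
    · have e1 : Vale.Agent.P340.stage P e B (k + 1) = Vale.Agent.P340.stage P e B k := by
        funext n
        simp only [Vale.Agent.P340.stage]; rw [if_neg fun h => hc h.2]
      rw [e1]; exact ih

theorem exists_satN [Countable S] {B : Ctx S} (hB : ∀ n, B (2 * n + 1) = none)
    (hW : WFC P B) (hF : FCtx P B) :
    ∃ G : Ctx S, WFC P G ∧ NCtx P G ∧ (∀ n A, B n = some A → G n = some A) ∧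
      ∀ L s, J P G L (sort s) → ∃ n, G n = some L := by
  have : Countable (Tm S) := countable_tm
  have : Nonempty (Tm S) := ⟨var 0⟩
  obtain ⟨f, hf⟩ := exists_surjective_nat (Tm S)
  let e : ℕ → Tm S := fun n => f (Nat.unpair n).1
  let G : Ctx S := fun n => stage P e B (n + 1) n
  have h0 : ∀ n m, n + 1 ≤ m → stage P e B m n = stage P e B (n + 1) n := by
    intro n m hm
    induction hm with
    | refl => rfl
    | @step m hm ih =>
      have hm' : n + 1 ≤ m := hm
      rw [← ih]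
      simp only [stage]
      rw [if_neg (by omega)]
  have h1 : ∀ k n A, stage P e B k n = some A → G n = some A := by
    intro k n A h
    show stage P e B (n + 1) n = some A
    rcases le_total k (n + 1) with hk | hk
    · exact chain_le (stage_succ e hB) hk n A h
    · rw [← h0 n k hk]; exact h
  refine ⟨G, ?_, ⟨stage P e B, stage_succ e hB, fun n A hA => ⟨n + 1, hA⟩, h1,
    FCtx.stage e hB hW hF⟩, fun n A h => h1 0 n A h, ?_⟩
  · intro n A hA
    obtain ⟨s, hs⟩ := stage_wfc e hB hW (n + 1) n A hA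
    exact ⟨s, hs.mono (h1 _)⟩
  · intro L s hL
    obtain ⟨k, hk⟩ := hL.compact (stage_succ e hB) (fun n A hA => ⟨n + 1, hA⟩)
    obtain ⟨a, ha⟩ := hf L
    have he : e (Nat.pair a k) = L := by
      show f (Nat.unpair (Nat.pair a k)).1 = L
      rw [Nat.unpair_pair]; exact ha
    have hle : k ≤ Nat.pair a k := Nat.right_le_pair a k
    refine ⟨2 * Nat.pair a k + 1, h1 (Nat.pair a k + 1) _ _ ?_⟩
    simp only [stage]
    rw [he, if_pos ⟨rfl, s, hk.mono (chain_le (stage_succ e hB) hle)⟩]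

theorem FCtx.evenCtx {G : Ctx S} (h : FCtx P G) : FCtx P (evenCtx G) := by
  obtain ⟨Γ, r, h1, h2⟩ := h
  refine ⟨Γ, fun n => r (n / 2), h1, fun n A hA => ?_⟩
  by_cases hn : n % 2 = 0
  · unfold Vale.Agent.P340.evenCtx at hA
    rw [if_pos hn, Option.map_eq_some_iff] at hA
    obtain ⟨A, hA, rfl⟩ := hA
    rw [ren_ren]
    have e : (fun k => r (2 * k / 2)) = r := by
      funext k
      have : 2 * k / 2 = k := by omega
      rw [this]
    rw [e]
    exact h2 _ _ hA
  · unfold Vale.Agent.P340.evenCtx at hA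
    rw [if_neg hn] at hA
    cases hA

/-- Every well-formed list context is a part of a saturated one. -/
theorem exists_satN_ext [Countable S] {G : Ctx S} (hG : WFC P G) (hF : FCtx P G) :
    ∃ (D : Ctx S) (r : ℕ → ℕ), WFC P D ∧ NCtx P D ∧ RenC G D r ∧
      ∀ L s, J P D L (sort s) → ∃ n, D n = some L := by
  obtain ⟨D, h1, h1', h2, h3⟩ := exists_satN (P := P) (B := Vale.Agent.P340.evenCtx G) (fun n => by
    unfold Vale.Agent.P340.evenCtx; rw [if_neg (by omega)]) (evenCtx_wfc hG) hF.evenCtx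
  exact ⟨D, fun k => 2 * k, h1, h1', fun n A h => h2 _ _ (evenCtx_ren G n A h), h3⟩

end Vale.Agent.P340
end

section

/-! Classes of types, up to the final sort. -/

namespace Vale.Agent.P340.W

universe u
variable {S : Type u} {P : Spec S}

open Relation

theorem red_pi {M A B : Tm S} (h : Conv M (Tm.pi A B)) :
    ∃ A' B', Red M (Tm.pi A' B') ∧ Conv A' A ∧ Conv B' B := by
  obtain ⟨Q, h1, h2⟩ := h.cr
  obtain ⟨A', B', rfl, h3, h4⟩ := h2.pi_inv
  exact ⟨A', B', h1, h3.conv.symm, h4.conv.symm⟩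

/-- The type `T`, or a type with another final sort, has a sort of level below `i`. -/
def Lc (P : Spec S) (lv : S → ℕ) (i : ℕ) (G : Ctx S) (T : Tm S) : Prop :=
  ∃ T' c, Sib T T' ∧ J P G T' (Tm.sort c) ∧ lv c < i

variable {lv : S → ℕ} {i j : ℕ} {G D : Ctx S}

theorem Lc.sib {T T' : Tm S} (h : Lc P lv i G T) (h' : Sib T T') : Lc P lv i G T' := by
  obtain ⟨T1, c, h1, h2, h3⟩ := h
  exact ⟨T1, c, h'.symm.trans h1, h2, h3⟩

theorem Lc.conv {T T' : Tm S} (h : Lc P lv i G T) (h' : Conv T T') : Lc P lv i G T' :=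
  h.sib (.conv h')

theorem Lc.sub {T : Tm S} (h : Lc P lv i G T) {σ : ℕ → Tm S} (hσ : SubC P G D σ) :
    Lc P lv i D (T.sub σ) := by
  obtain ⟨T1, c, h1, h2, h3⟩ := h
  exact ⟨T1.sub σ, c, h1.sub σ, h2.sub hσ, h3⟩

theorem Lc.ren {T : Tm S} (h : Lc P lv i G T) {r : ℕ → ℕ} (hr : RenC G D r) :
    Lc P lv i D (T.ren r) := by
  obtain ⟨T1, c, h1, h2, h3⟩ := h
  exact ⟨T1.ren r, c, h1.ren r, h2.ren hr, h3⟩

theorem Lc.of_sort {T : Tm S} {c : S} (h : J P G T (Tm.sort c)) (hc : lv c < i) :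
    Lc P lv i G T := ⟨T, c, .refl _, h, hc⟩

/-- Levels of sorts: the components of a rule are not above the result. -/
def LvOk (P : Spec S) (lv : S → ℕ) : Prop :=
  ∀ a b c, P.rule a b c → lv a ≤ lv c ∧ lv b ≤ lv c

/-- The components of a product of low class. -/
theorem Lc.pi_inv (hlv : LvOk P lv) (hG : WFC P G) {A B : Tm S}
    (h : Lc P lv i G (Tm.pi A B)) : ∃ A1 B1 a b c, Conv A1 A ∧ Sib B1 B ∧
      J P G A1 (Tm.sort a) ∧ J P (push A1 G) B1 (Tm.sort b) ∧ P.rule a b c ∧ lv c < i ∧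
      lv a < i ∧ lv b < i := by
  obtain ⟨T, c, h1, h2, h3⟩ := h
  obtain ⟨B', h4, h5⟩ := h1.pi_inv (.refl _)
  obtain ⟨A1, B1, h6, h7, h8⟩ := red_pi h4
  obtain ⟨a, b, c', k1, k2, k3, k4⟩ := (h2.red hG h6).pi_inv
  cases k4.sort_inj
  obtain ⟨l1, l2⟩ := hlv _ _ _ k3
  exact ⟨A1, B1, a, b, _, h7, (Sib.conv h8).trans h5.symm, k1, k2, k3, h3, by omega, by omega⟩

theorem Lc.piL (hlv : LvOk P lv) (hG : WFC P G) {A B : Tm S}
    (h : Lc P lv i G (Tm.pi A B)) : Lc P lv i G A := by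
  obtain ⟨A1, B1, a, b, c, h1, h2, h3, h4, h5, h6, h7, h8⟩ := h.pi_inv hlv hG
  exact ⟨A1, a, .conv h1.symm, h3, h7⟩

theorem Lc.piR (hlv : LvOk P lv) (hG : WFC P G) {A B : Tm S} {a0 : S}
    (hA : J P G A (Tm.sort a0))
    (h : Lc P lv i G (Tm.pi A B)) : Lc P lv i (push A G) B := by
  obtain ⟨A1, B1, a, b, c, h1, h2, h3, h4, h5, h6, h7, h8⟩ := h.pi_inv hlv hG
  exact ⟨B1, b, h2.symm, h4.ctx h3 h1, h8⟩

theorem Lc.inst (hlv : LvOk P lv) (hG : WFC P G) {A B N : Tm S}
    (h : Lc P lv i G (Tm.pi A B)) (hN : J P G N A) : Lc P lv i G (Tm.inst B N) := by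
  obtain ⟨A1, B1, a, b, c, h1, h2, h3, h4, h5, h6, h7, h8⟩ := h.pi_inv hlv hG
  exact ⟨Tm.inst B1 N, b, (h2.inst (.refl _)).symm, h4.inst_sort (.conv hN h3 h1.symm), h8⟩

/-! Neutral expressions. -/

/-- Variables applied to arguments. -/
def Ne : Tm S → Prop
  | Tm.var _ => True
  | Tm.app M _ => Ne M
  | _ => False

theorem Ne.uniq {M : Tm S} (h : Ne M) : ∀ {G : Ctx S} {A B : Tm S},
    J P G M A → J P G M B → Conv A B := by
  induction M with
  | var n =>
    intro G A B h1 h2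
    obtain ⟨A1, h3, h4⟩ := h1.var_inv
    obtain ⟨B1, h5, h6⟩ := h2.var_inv
    rw [h3] at h5; cases h5
    exact h4.symm.trans h6
  | app M N ih _ =>
    intro G A B h1 h2
    obtain ⟨A1, B1, h3, _, h4⟩ := h1.app_inv
    obtain ⟨A2, B2, h5, _, h6⟩ := h2.app_inv
    exact (h4.symm.trans (((ih h h3 h5).pi_inj).2.inst (.refl _))).trans h6
  | _ => exact h.elim

theorem Ne.ren {M : Tm S} (h : Ne M) (r : ℕ → ℕ) : Ne (M.ren r) := by
  induction M with
  | var n => trivial
  | app M N ih _ => exact ih h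
  | _ => exact h.elim

theorem ne_of_pi {M : Tm S} : ∀ {G : Ctx S} {A B : Tm S}, J P G M (Tm.pi A B) → Normal M →
    (∀ A N, M ≠ Tm.lam A N) → Ne M := by
  induction M with
  | var n => intros; trivial
  | sort s =>
    intro G A B h _ _
    obtain ⟨t, -, h1⟩ := h.sort_inv
    exact h1.sort_pi.elim
  | app M N ih _ =>
    intro G A B h hn _
    obtain ⟨A1, B1, h3, _, _⟩ := h.app_inv
    exact ih h3 hn.appL fun A Q e => by subst e; exact hn _ (.beta _ _ _)
  | lam A M _ _ => intro G A' B _ _ h; exact absurd rfl (h A M)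
  | pi A M _ _ =>
    intro G A' B h _ _
    obtain ⟨_, _, _, -, -, -, h1⟩ := h.pi_inv
    exact h1.sort_pi.elim

theorem ne_of_app {M N : Tm S} {G : Ctx S} {A : Tm S} (h : J P G (Tm.app M N) A)
    (hn : Normal (Tm.app M N)) : Ne (Tm.app M N) := by
  obtain ⟨A1, B1, h3, _, _⟩ := h.app_inv
  show Ne M
  exact ne_of_pi h3 hn.appL fun A Q e => by subst e; exact hn _ (.beta _ _ _)

theorem normal_ren {M : Tm S} (h : Normal M) (r : ℕ → ℕ) : Normal (M.ren r) := by
  intro N hN
  obtain ⟨M', h1, -⟩ := hN.ren_inv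
  exact h _ h1

/-- The sorts of a normal type do not depend on the context. -/
theorem sort_of_ren {T : Tm S} : ∀ {G D : Ctx S} {r : ℕ → ℕ} {s c : S}, RenC G D r →
    Normal T → J P G T (Tm.sort s) → J P D (T.ren r) (Tm.sort c) → J P G T (Tm.sort c) := by
  induction T with
  | var n =>
    intro G D r s c hr hn h1 h2
    have e := (Ne.uniq (M := Tm.var (r n)) trivial (h1.ren hr) h2).sort_inj
    subst e; exact h1
  | sort t =>
    intro G D r s c hr hn h1 h2
    obtain ⟨t', h3, h4⟩ := h2.sort_inv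
    cases h4.sort_inj
    exact .sort h3
  | app M N _ _ =>
    intro G D r s c hr hn h1 h2
    have e := (Ne.uniq ((ne_of_app h1 hn).ren r) (h1.ren hr) h2).sort_inj
    subst e; exact h1
  | lam A M _ _ =>
    intro G D r s c hr hn h1 h2
    obtain ⟨B, s', -, -, h⟩ := h1.lam_inv
    exact absurd h.symm (fun h => h.sort_pi)
  | pi A B ihA ihB =>
    intro G D r s c hr hn h1 h2
    obtain ⟨a, b, c', k1, k2, k3, k4⟩ := h1.pi_inv
    obtain ⟨a1, b1, c1, l1, l2, l3, l4⟩ := h2.pi_inv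
    cases l4.sort_inj
    exact .pi (ihA hr hn.piL k1 l1) (ihB (hr.up A) hn.piR k2 l2) l3

theorem Ne.not_sort {M : Tm S} (h : Ne M) (hn : Normal M) {s : S} : ¬ Conv M (Tm.sort s) := by
  intro h'
  have e := hn.red h'.red_sort
  rw [← e] at h
  exact h

theorem Ne.not_pi {M : Tm S} (h : Ne M) (hn : Normal M) {A B : Tm S} :
    ¬ Conv M (Tm.pi A B) := by
  intro h'
  obtain ⟨A', B', h1, -, -⟩ := red_pi h'
  have e := hn.red h1
  rw [← e] at h
  exact h

theorem sib_of_ren {T : Tm S} : ∀ {G D : Ctx S} {r : ℕ → ℕ} {c : S} {T' : Tm S}, RenC G D r →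
    WFC P D → Normal T → ((∃ s, J P G T (Tm.sort s)) ∨ ∃ s, T = Tm.sort s) →
    Sib (T.ren r) T' → J P D T' (Tm.sort c) → ∃ T1, Sib T T1 ∧ J P G T1 (Tm.sort c) := by
  have key : ∀ {T : Tm S} {G D : Ctx S} {r : ℕ → ℕ} {c : S} {T' : Tm S}, RenC G D r →
      WFC P D → Normal T → (∃ s, J P G T (Tm.sort s)) → Ne T →
      Sib (T.ren r) T' → J P D T' (Tm.sort c) → ∃ T1, Sib T T1 ∧ J P G T1 (Tm.sort c) := by
    intro T G D r c T' hr hD hn ⟨s, hs⟩ hne h h'
    have hn' := normal_ren hn r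
    have hne' := hne.ren r
    cases h with
    | conv h =>
      obtain ⟨Q, h1, h2⟩ := h.cr
      have e := hn'.red h1
      subst e
      exact ⟨T, .refl _, sort_of_ren hr hn hs (h'.red hD h2)⟩
    | sort h _ => exact absurd h (hne'.not_sort hn')
    | pi h _ _ => exact absurd h (hne'.not_pi hn')
  induction T with
  | var n =>
    intro G D r c T' hr hD hn hs h h'
    rcases hs with hs | ⟨s, e⟩
    · exact key hr hD hn hs trivial h h'
    · cases e
  | app M N _ _ =>
    intro G D r c T' hr hD hn hs h h'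
    rcases hs with hs | ⟨s, e⟩
    · obtain ⟨s, hs⟩ := hs
      exact key hr hD hn ⟨s, hs⟩ (ne_of_app hs hn) h h'
    · cases e
  | sort t =>
    intro G D r c T' hr hD hn hs h h'
    obtain ⟨t', h1⟩ := h.sort_inv (.refl _)
    obtain ⟨c', h2, h3⟩ := (h'.red hD h1.red_sort).sort_inv
    cases h3.sort_inj
    exact ⟨Tm.sort t', .sort (.refl _) (.refl _), .sort h2⟩
  | lam A M _ _ =>
    intro G D r c T' hr hD hn hs h h'
    rcases hs with ⟨s, hs⟩ | ⟨s, e⟩
    · obtain ⟨B, s', -, -, h⟩ := hs.lam_inv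
      exact absurd h.symm (fun h => h.sort_pi)
    · cases e
  | pi A B _ ihB =>
    intro G D r c T' hr hD hn hs h h'
    rcases hs with ⟨s, hs⟩ | ⟨s, e⟩
    · obtain ⟨a, b, c', k1, k2, k3, k4⟩ := hs.pi_inv
      obtain ⟨B', h1, h2⟩ := h.pi_inv (.refl _)
      obtain ⟨A1, B1, h3, h4, h5⟩ := red_pi h1
      obtain ⟨a1, b1, c1, l1, l2, l3, l4⟩ := (h'.red hD h3).pi_inv
      cases l4.sort_inj
      obtain ⟨Q, h6, h7⟩ := h4.cr
      have e := (normal_ren hn.piL r).red h7
      subst e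
      have h8 := sort_of_ren hr hn.piL k1 (l1.red hD h6)
      have h9 := l2.ctx l1 h4
      obtain ⟨B2, h10, h11⟩ := ihB (hr.up A) (hD.push (l1.red hD h6)) hn.piR (.inl ⟨_, k2⟩)
        (h2.convR h5.symm) h9
      exact ⟨Tm.pi A B2, .mkpi (.refl _) h10, .pi h8 h11 l3⟩
    · cases e

/-- The class of a type does not depend on the context. -/
theorem Lc.of_ren (hW : WNKindVar P) {T F : Tm S} {r : ℕ → ℕ} (hr : RenC G D r) (hD : WFC P D)
    (hG : WFC P G) (hN : NCtx P G) (hF : J P G F T) (h : Lc P lv i D (T.ren r)) :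
    Lc P lv i G T := by
  obtain ⟨T', c, h1, h2, h3⟩ := h
  rcases hF.correct hG with ⟨s, rfl⟩ | ⟨s, hs⟩
  · obtain ⟨T1, h4, h5⟩ := sib_of_ren hr hD (normal_sort s) (.inr ⟨s, rfl⟩) h1 h2
    exact ⟨T1, c, h4, h5, h3⟩
  · have nT := hN.hn hW hs
    obtain ⟨T1, h4, h5⟩ := sib_of_ren hr hD nT.normal (.inl ⟨s, hs.red hG nT.red⟩)
      (h1.convL (nT.red.conv.ren r)) h2
    exact ⟨T1, c, (Sib.conv nT.red.conv).trans h4, h5, h3⟩

theorem Lc.of_rens (hW : WNKindVar P) {T : Tm S} {s : S} {r : ℕ → ℕ} (hr : RenC G D r) (hD : WFC P D)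
    (hG : WFC P G) (hN : NCtx P G) (hF : J P G T (Tm.sort s)) (h : Lc P lv i D (T.ren r)) :
    Lc P lv i G T := by
  obtain ⟨T', c, h1, h2, h3⟩ := h
  have nT := hN.hn hW hF
  obtain ⟨T1, h4, h5⟩ := sib_of_ren hr hD nT.normal (.inl ⟨s, hF.red hG nT.red⟩)
    (h1.convL (nT.red.conv.ren r)) h2
  exact ⟨T1, c, (Sib.conv nT.red.conv).trans h4, h5, h3⟩

end Vale.Agent.P340.W
end

section

/-! Labels of typed expressions, decorated expressions, blocks of sorts. -/

namespace Vale.Agent.P340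

universe u
variable {S : Type u}

open Tm

/-- Labels: product rules, and one extra label for binders of products. -/
abbrev Lb (S : Type u) := Option (S × S × S)

/-- `M` has a product type `pi A B` formed with the rule `(a, b, c)`. -/
def Lab (P : Spec S) (G : Ctx S) (M : Tm S) (a b c : S) : Prop :=
  ∃ A B, J P G M (pi A B) ∧ J P G A (sort a) ∧ J P (push A G) B (sort b) ∧ P.rule a b c

/-- Decorations of expressions in the context `G`. -/
inductive Dec (P : Spec S) : Ctx S → Tm S → LTm (Lb S) → Prop where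
  | var {G : Ctx S} (n : ℕ) : Dec P G (var n) (LTm.var n)
  | sort {G : Ctx S} (s : S) : Dec P G (sort s) LTm.con
  | app {G : Ctx S} {M N : Tm S} {M' N' : LTm (Lb S)} {a b c : S} :
      Lab P G M a b c → Dec P G M M' → Dec P G N N' →
      Dec P G (app M N) (LTm.app (some (a, b, c)) M' N')
  | lam {G : Ctx S} {A M : Tm S} {A' M' : LTm (Lb S)} {a b c : S} :
      Lab P G (lam A M) a b c → Dec P (push A G) M M' → Dec P G A A' →
      Dec P G (lam A M) (LTm.mem (LTm.lam (some (a, b, c)) M') A')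
  | pi {G : Ctx S} {A B : Tm S} {A' B' : LTm (Lb S)} :
      Dec P G A A' → Dec P (push A G) B B' →
      Dec P G (pi A B) (LTm.mem (LTm.mem LTm.con A') (LTm.lam none B'))
  | mem {G : Ctx S} {M N T : Tm S} {M' N' : LTm (Lb S)} :
      Dec P G M M' → J P G N T → Dec P G N N' → Dec P G M (LTm.mem M' N')

/-- The labels of the rules `(a, b, c)` with `c ∈ C`. -/
def labs (C : Set S) : Set (Lb S) := {l | ∃ a b c, l = some (a, b, c) ∧ c ∈ C}

/-- Edges of the sort graph. -/
def Edge (P : Spec S) (c a : S) : Prop := ∃ b, P.rule a b c ∨ P.rule b a c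

/-- Reachability in the sort graph. -/
def Reach (P : Spec S) : S → S → Prop := Relation.ReflTransGen (Edge P)

/-- The block (strongly connected component) of a sort. -/
def blk (P : Spec S) (s : S) : Set S := {t | Reach P s t ∧ Reach P t s}

end Vale.Agent.P340
end

section

/-! Candidates of labelled terms with memory. -/

namespace Vale.Agent.P340

universe u v
variable {Λ : Type u} {X : Set Λ}


open LTm

theorem SnX.of_map {M : LTm Λ} (f : LTm Λ → LTm Λ) (hf : ∀ a b, St X a b → St X (f a) (f b))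
    (h : SnX X (f M)) : SnX X M := by
  generalize e : f M = M' at h
  induction h generalizing M with
  | intro M' _ ih =>
    subst e
    exact Acc.intro _ fun N hN => ih (f N) (hf _ _ hN) rfl

theorem SnX.appL {l : Λ} {M N : LTm Λ} (h : SnX X (app l M N)) : SnX X M :=
  SnX.of_map (fun M => app l M N) (fun _ _ h => .appL _ _ h) h

theorem SnX.of_sub {M : LTm Λ} {σ : ℕ → LTm Λ} (h : SnX X (M.sub σ)) : SnX X M :=
  SnX.of_map (fun M => M.sub σ) (fun _ _ h => h.sub σ) h

theorem SnX.lam {l : Λ} {M : LTm Λ} (h : SnX X M) : SnX X (LTm.lam l M) := by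
  induction h with
  | intro M _ ih =>
    refine Acc.intro _ fun N hN => ?_
    cases hN with
    | lam _ h => exact ih _ h

theorem SnX.mem {M N : LTm Λ} (hM : SnX X M) (hN : SnX X N) : SnX X (LTm.mem M N) := by
  induction hM generalizing N with
  | intro M hM ihM =>
    induction hN with
    | intro N hN ihN =>
      refine Acc.intro _ fun Q hQ => ?_
      cases hQ with
      | memL _ h => exact ihM _ h (Acc.intro N hN)
      | memR _ h => exact ihN _ h

theorem SnX.var (n : ℕ) : SnX X (LTm.var n) := Acc.intro _ fun _ h => by cases h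

theorem SnX.con : SnX X (LTm.con : LTm Λ) := Acc.intro _ fun _ h => by cases h

theorem SnX.step {M N : LTm Λ} (h : SnX X M) (h' : St X M N) : SnX X N := Acc.inv h h'

/-- Candidates. -/
structure CR (X : Set Λ) (Y : Set (LTm Λ)) : Prop where
  sn : ∀ {M : LTm Λ}, M ∈ Y → SnX X M
  step : ∀ {M N : LTm Λ}, M ∈ Y → St X M N → N ∈ Y
  neu : ∀ {M : LTm Λ}, ¬ IsLam M → (∀ N, St X M N → N ∈ Y) → M ∈ Y
  mem : ∀ {M N : LTm Λ}, M ∈ Y → SnX X N → LTm.mem M N ∈ Y

/-- All strongly normalizing terms. -/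
def snS (X : Set Λ) : Set (LTm Λ) := {M | SnX X M}

theorem cr_sn : CR X (snS X) where
  sn h := h
  step h h' := SnX.step h h'
  neu _ h := Acc.intro _ h
  mem h h' := SnX.mem h h'

theorem CR.var {Y : Set (LTm Λ)} (h : CR X Y) (n : ℕ) : LTm.var n ∈ Y :=
  h.neu (fun h => h) fun _ h => by cases h

theorem CR.con {Y : Set (LTm Λ)} (h : CR X Y) : LTm.con ∈ Y :=
  h.neu (fun h => h) fun _ h => by cases h

/-- Intersection of a nonempty family. -/
theorem cr_inter {ι : Sort v} [Nonempty ι] {Y : ι → Set (LTm Λ)} (h : ∀ i, CR X (Y i)) :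
    CR X {M | ∀ i, M ∈ Y i} where
  sn hM := by
    obtain ⟨i⟩ := (inferInstance : Nonempty ι)
    exact (h i).sn (hM i)
  step hM h' i := (h i).step (hM i) h'
  neu hM hN i := (h i).neu hM fun N h' => hN N h' i
  mem hM hN i := (h i).mem (hM i) hN

/-- Function space. -/
def arr (l : Λ) (Y Z : Set (LTm Λ)) : Set (LTm Λ) := {T | ∀ N ∈ Y, LTm.app l T N ∈ Z}

theorem cr_arr {l : Λ} {Y Z : Set (LTm Λ)} (hY : CR X Y) (hZ : CR X Z) : CR X (arr l Y Z) where
  sn h := (hZ.sn (h _ (hY.var 0))).appL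
  step h h' N hN := hZ.step (h N hN) (.appL _ _ h')
  neu {M} hM h := by
    intro N hN
    have hs := hY.sn hN
    induction hs with
    | intro N _ ih =>
      refine hZ.neu (fun h => h) fun Q hQ => ?_
      cases hQ with
      | root _ hc => exact absurd hc.isLam hM
      | appL _ _ h' => exact h _ h' N hN
      | appR _ _ h' => exact ih _ h' (hY.step hN h')
  mem {M Q} hM hQ := by
    have hs := (hZ.sn (hM _ (hY.var 0))).appL
    induction hs generalizing Q with
    | intro M hM0 ihM =>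
      induction hQ with
      | intro Q hQ0 ihQ =>
        intro N hN
        have hs := hY.sn hN
        induction hs with
        | intro N _ ihN =>
          refine hZ.neu (fun h => h) fun R hR => ?_
          cases hR with
          | root hl hc =>
            cases hc with
            | mem _ hc => exact hZ.mem (hZ.step (hM N hN) (.root hl hc)) (Acc.intro Q hQ0)
          | appL _ _ h' =>
            cases h' with
            | memL _ h' =>
              exact ihM _ h' (fun N hN => hZ.step (hM N hN) (.appL _ _ h')) (Acc.intro Q hQ0) N hN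
            | memR _ h' => exact ihQ _ h' N hN
          | appR _ _ h' => exact ihN _ h' (hY.step hN h')

/-- Abstraction. -/
theorem lam_arr {l : Λ} {Y Z : Set (LTm Λ)} (hY : CR X Y) (hZ : CR X Z) {M : LTm Λ}
    (h : ∀ N ∈ Y, inst M N ∈ Z) : LTm.lam l M ∈ arr l Y Z := by
  have hM : SnX X M := SnX.of_sub (hZ.sn (h _ (hY.var 0)))
  induction hM with
  | intro M _ ihM =>
    intro N hN
    have hs := hY.sn hN
    induction hs with
    | intro N hN0 ihN =>
      refine hZ.neu (fun h => h) fun R hR => ?_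
      cases hR with
      | root hl hc =>
        cases hc with
        | lam _ _ => exact hZ.mem (h N hN) (Acc.intro N hN0)
      | appL _ _ h' =>
        cases h' with
        | lam _ h' => exact ihM _ h' (fun N hN => hZ.step (h N hN) (h'.sub _)) N hN
      | appR _ _ h' => exact ihN _ h' (hY.step hN h')

/-- Applications with a label outside `X` are inert. -/
theorem CR.frozen {Y : Set (LTm Λ)} (hY : CR X Y) {l : Λ} (hl : l ∉ X) {M N : LTm Λ}
    (hM : SnX X M) (hN : SnX X N) : LTm.app l M N ∈ Y := by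
  induction hM generalizing N with
  | intro M hM ihM =>
    induction hN with
    | intro N hN ihN =>
      refine hY.neu (fun h => h) fun R hR => ?_
      cases hR with
      | root hl' _ => exact absurd hl' hl
      | appL _ _ h' => exact ihM _ h' (Acc.intro N hN)
      | appR _ _ h' => exact ihN _ h'

end Vale.Agent.P340
end

section

/-! Models for one set of sorts, and soundness. -/

namespace Vale.Agent.P340

universe u v
variable {S : Type u} {P : Spec S}

open Tm

/-- Members of the interpretation `Y` of a type of sort `a`; for `a ∉ C` only strong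
normalization is required. -/
def DS (C : Set S) (a : S) (Y : Set (LTm (Lb S))) : Set (LTm (Lb S)) :=
  {T | SnX (labs C) T ∧ (a ∈ C → T ∈ Y)}

theorem DS.eq_of_mem {C : Set S} {a : S} {Y : Set (LTm (Lb S))} (ha : a ∈ C)
    (h : CR (labs C) Y) : DS C a Y = Y := by
  ext T; exact ⟨fun hT => hT.2 ha, fun hT => ⟨h.sn hT, fun _ => hT⟩⟩

theorem DS.cr {C : Set S} {a : S} {Y : Set (LTm (Lb S))} (h : a ∈ C → CR (labs C) Y) :
    CR (labs C) (DS C a Y) := by
  by_cases ha : a ∈ C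
  · rw [DS.eq_of_mem ha (h ha)]; exact h ha
  · have : DS C a Y = snS (labs C) := by
      ext T; exact ⟨fun hT => hT.1, fun hT => ⟨hT, fun h => absurd h ha⟩⟩
    rw [this]; exact cr_sn

/-- An interpretation of the types of the sorts in `C`. -/
structure Model (P : Spec S) (C : Set S) where
  /-- environments -/
  E : Type v
  Ok : Ctx S → E → Prop
  Ext : Ctx S → E → Tm S → E → Prop
  I : Ctx S → E → Tm S → Set (LTm (Lb S))
  cr : ∀ {G : Ctx S} {e : E} {A : Tm S} {c : S}, WFC P G → Ok G e → J P G A (sort c) → c ∈ C →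
    CR (labs C) (I G e A)
  conv : ∀ {G : Ctx S} {e : E} {A B : Tm S} {c : S}, WFC P G → Ok G e → J P G A (sort c) →
    J P G B (sort c) → c ∈ C → Conv A B → I G e A = I G e B
  ext_ok : ∀ {G : Ctx S} {e e' : E} {A : Tm S} {a : S}, WFC P G → Ok G e → J P G A (sort a) →
    Ext G e A e' → Ok (push A G) e'
  ext_ex : ∀ {G : Ctx S} {e : E} {A : Tm S} {a : S}, WFC P G → Ok G e → J P G A (sort a) →
    ∃ e', Ext G e A e'
  pi_app : ∀ {G : Ctx S} {e : E} {A B N : Tm S} {a b c : S}, WFC P G → Ok G e →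
    J P G A (sort a) → J P (push A G) B (sort b) → P.rule a b c → c ∈ C → J P G N A →
    ∀ T ∈ I G e (Tm.pi A B), ∀ N' ∈ DS C a (I G e A),
      LTm.app (some (a, b, c)) T N' ∈ DS C b (I G e (Tm.inst B N))
  pi_lam : ∀ {G : Ctx S} {e : E} {A B : Tm S} {a b c : S}, WFC P G → Ok G e →
    J P G A (sort a) → J P (push A G) B (sort b) → P.rule a b c → c ∈ C →
    ∀ M, SnX (labs C) M → (∀ N ∈ DS C a (I G e A), ∀ e', Ext G e A e' →
      LTm.inst M N ∈ DS C b (I (push A G) e' B)) →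
    LTm.lam (some (a, b, c)) M ∈ I G e (Tm.pi A B)
  weak : ∀ {G : Ctx S} {e e' : E} {A B : Tm S} {a b : S}, WFC P G → Ok G e → J P G A (sort a) →
    Ext G e A e' → J P G B (sort b) → b ∈ C → I (push A G) e' (Tm.wk B) = I G e B

namespace Model

variable {C : Set S} (m : Model P C)

/-- Valid realizers for the variables. -/
def Val (G : Ctx S) (e : m.E) (γ : ℕ → LTm (Lb S)) : Prop :=
  (∀ n, SnX (labs C) (γ n)) ∧
    ∀ n B b, G n = some B → J P G B (sort b) → b ∈ C → γ n ∈ m.I G e B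

theorem Val.push {m : Model P C} (hP : Functional P) {G : Ctx S} {e e' : m.E}
    {γ : ℕ → LTm (Lb S)} (hγ : m.Val G e γ)
    (hG : WFC P G) (he : m.Ok G e) {A : Tm S} {a : S} (hA : J P G A (sort a))
    (hx : m.Ext G e A e') {N : LTm (Lb S)} (hN : N ∈ DS C a (m.I G e A)) :
    m.Val (push A G) e' (LTm.scons N γ) := by
  constructor
  · intro n
    cases n with
    | zero => exact hN.1
    | succ n => exact hγ.1 n
  · intro n B b hB hb hbC
    cases n with
    | zero =>
      simp only [push_zero, Option.some.injEq] at hB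
      subst hB
      cases hP.sortJ (hA.wk A) hb
      rw [m.weak hG he hA hx hA hbC]
      exact hN.2 hbC
    | succ n =>
      rw [push_succ, Option.map_eq_some_iff] at hB
      obtain ⟨B, hB, rfl⟩ := hB
      obtain ⟨b', hb'⟩ := hG _ _ hB
      cases hP.sortJ (hb'.wk A) hb
      rw [m.weak hG he hA hx hb' hbC]
      exact hγ.2 n B _ hB hb' hbC

theorem Lab.unique (hP : Functional P) {G : Ctx S} (hG : WFC P G) {M A B : Tm S} {a b c a' b' c' : S}
    (h : Lab P G M a b c) (hM : J P G M (Tm.pi A B)) (hA : J P G A (sort a'))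
    (hB : J P (Vale.Agent.P340.push A G) B (sort b')) (hr : P.rule a' b' c') :
    a = a' ∧ b = b' ∧ c = c' := by
  obtain ⟨A1, B1, h1, h2, h3, h4⟩ := h
  have h5 := (hP.uniqueJ h1 hM).pi_inj
  have ea : a = a' := hP.conv_sortJ hG h2 hA h5.1
  subst ea
  have h6 : J P (Vale.Agent.P340.push A G) B1 (sort b) := h3.ctx h2 h5.1
  have eb : b = b' := hP.conv_sortJ (hG.push hA) h6 hB h5.2
  subst eb
  exact ⟨rfl, rfl, hP.rule h4 hr⟩

theorem sound (hP : Functional P) {G : Ctx S} {M : Tm S} {M' : LTm (Lb S)} (h : Dec P G M M') :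
    WFC P G → ∀ e, m.Ok G e → ∀ γ, m.Val G e γ → ∀ A, J P G M A →
      SnX (labs C) (M'.sub γ) ∧ ∀ s, J P G A (sort s) → s ∈ C → M'.sub γ ∈ m.I G e A := by
  induction h with
  | var n =>
    intro hG e he γ hγ A hA
    refine ⟨hγ.1 n, fun s hs hC => ?_⟩
    obtain ⟨B, h1, h2⟩ := hA.var_inv
    obtain ⟨t, ht⟩ := hG _ _ h1
    cases hP.conv_sortJ hG ht hs h2
    rw [← m.conv hG he ht hs hC h2]
    exact hγ.2 n B _ h1 ht hC
  | sort s =>
    intro hG e he γ hγ A hA
    exact ⟨SnX.con, fun s hs hC => (m.cr hG he hs hC).con⟩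
  | @app G M N M' N' a b c hl hM hN ihM ihN =>
    intro hG e he γ hγ T hT
    obtain ⟨A, B, h1, h2, h3⟩ := hT.app_inv
    have hPi : ∃ s, J P G (Tm.pi A B) (sort s) := by
      rcases h1.correct hG with ⟨s, e⟩ | h
      · cases e
      · exact h
    obtain ⟨s, hPi⟩ := hPi
    obtain ⟨a', b', c', k1, k2, k3, k4⟩ := hPi.pi_inv
    cases k4.sort_inj
    obtain ⟨rfl, rfl, rfl⟩ := Lab.unique hP hG hl h1 k1 k2 k3
    have i1 := ihM hG e he γ hγ _ h1
    have i2 := ihN hG e he γ hγ _ h2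
    have hN' : N'.sub γ ∈ DS C a (m.I G e A) := ⟨i2.1, fun ha => i2.2 _ k1 ha⟩
    have key : LTm.app (some (a, b, c)) (M'.sub γ) (N'.sub γ) ∈ DS C b (m.I G e (Tm.inst B N)) := by
      by_cases hc : c ∈ C
      · exact m.pi_app hG he k1 k2 k3 hc h2 _ (i1.2 _ hPi hc) _ hN'
      · refine (DS.cr fun hb => m.cr hG he (k2.inst_sort h2) hb).frozen ?_ i1.1 i2.1
        rintro ⟨_, _, _, h, h'⟩
        cases h
        exact hc h'
    refine ⟨key.1, fun s hs hC => ?_⟩
    have hb := k2.inst_sort h2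
    cases hP.conv_sortJ hG hb hs h3
    rw [← m.conv hG he hb hs hC h3]
    exact key.2 hC
  | @lam G A M A' M' a b c hl hM hA ihM ihA =>
    intro hG e he γ hγ T hT
    obtain ⟨B, s0, h1, h2, h3⟩ := hT.lam_inv
    obtain ⟨a', b', c', k1, k2, k3, k4⟩ := h2.pi_inv
    cases k4.sort_inj
    obtain ⟨rfl, rfl, rfl⟩ := Lab.unique hP hG hl (.lam h1 h2) k1 k2 k3
    have iA := (ihA hG e he γ hγ _ k1).1
    have cA : CR (labs C) (DS C a (m.I G e A)) := DS.cr fun ha => m.cr hG he k1 ha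
    have key : ∀ N ∈ DS C a (m.I G e A), ∀ e', m.Ext G e A e' →
        LTm.inst (M'.sub (LTm.ups γ)) N ∈ DS C b (m.I (Vale.Agent.P340.push A G) e' B) := by
      intro N hN e' hx
      rw [LTm.inst_ups]
      have := ihM (hG.push k1) e' (m.ext_ok hG he k1 hx) _ (hγ.push hP hG he k1 hx hN) _ h1
      exact ⟨this.1, fun hb => this.2 _ k2 hb⟩
    obtain ⟨e0, hx0⟩ := m.ext_ex hG he k1
    have sM : SnX (labs C) (M'.sub (LTm.ups γ)) :=
      SnX.of_sub (key _ (cA.var 0) e0 hx0).1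
    have sT : SnX (labs C) ((LTm.mem (LTm.lam (some (a, b, c)) M') A').sub γ) := sM.lam.mem iA
    refine ⟨sT, fun s hs hC => ?_⟩
    cases hP.conv_sortJ hG h2 hs h3
    rw [← m.conv hG he h2 hs hC h3]
    refine (m.cr hG he h2 hC).mem (M := LTm.lam (some (a, b, c)) (M'.sub (LTm.ups γ))) ?_ iA
    exact m.pi_lam hG he k1 k2 k3 hC _ sM key
  | @pi G A B A' B' hA hB ihA ihB =>
    intro hG e he γ hγ T hT
    obtain ⟨a, b, c, k1, k2, k3, k4⟩ := hT.pi_inv
    have iA := (ihA hG e he γ hγ _ k1).1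
    obtain ⟨e0, hx0⟩ := m.ext_ex hG he k1
    have cA : CR (labs C) (DS C a (m.I G e A)) := DS.cr fun ha => m.cr hG he k1 ha
    have iB : SnX (labs C) (B'.sub (LTm.ups γ)) := by
      refine SnX.of_sub (σ := LTm.scons (LTm.var 0) LTm.var) ?_
      have := (ihB (hG.push k1) e0 (m.ext_ok hG he k1 hx0) _
        (hγ.push hP hG he k1 hx0 (cA.var 0)) _ k2).1
      rw [← LTm.inst_ups] at this
      exact this
    have s1 : SnX (labs C) (LTm.mem LTm.con (A'.sub γ)) := SnX.con.mem iA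
    refine ⟨s1.mem iB.lam, fun s hs hC => ?_⟩
    exact (m.cr hG he hs hC).mem ((m.cr hG he hs hC).mem (m.cr hG he hs hC).con iA) iB.lam
  | @mem G M N T M' N' hM hNT hN ihM ihN =>
    intro hG e he γ hγ A hA
    have i1 := ihM hG e he γ hγ A hA
    have i2 := (ihN hG e he γ hγ T hNT).1
    exact ⟨i1.1.mem i2, fun s hs hC => (m.cr hG he hs hC).mem (i1.2 s hs hC) i2⟩

/-- All decorated typed expressions are strongly normalizing for the labels of `C`. -/
theorem sn (hP : Functional P) {G : Ctx S} {e : m.E} (hG : WFC P G) (he : m.Ok G e)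
    {M A : Tm S} {M' : LTm (Lb S)} (h : Dec P G M M') (hM : J P G M A) : SnX (labs C) M' := by
  have := (m.sound hP h hG e he LTm.var ?_ A hM).1
  · rwa [LTm.sub_var] at this
  · exact ⟨fun n => SnX.var n, fun n B b _ hb hC => (m.cr hG he hb hC).var n⟩

end Model

end Vale.Agent.P340
end

section

/-! Sorts of kinds, type families, inclusion of contexts. -/

namespace Vale.Agent.P340

universe u v
variable {S : Type u} {P : Spec S}

open Tm

/-- The sorts of the kinds of families of types of sorts in `C`. -/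
inductive KS (P : Spec S) (C : Set S) : S → Prop where
  | ax {c m : S} : c ∈ C → P.ax c m → KS P C m
  | rule {a b m : S} : KS P C b → P.rule a b m → KS P C m

/-- Types of a sort in `C` and elements of kinds. -/
def Fam (P : Spec S) (C : Set S) (G : Ctx S) (M : Tm S) : Prop :=
  ∃ T, J P G M T ∧ ((∃ c ∈ C, T = sort c) ∨ ∃ m, KS P C m ∧ J P G T (sort m))

/-- `G'` proves all declarations of `G`. -/
def CLe (P : Spec S) (G G' : Ctx S) : Prop := ∀ n A, G n = some A → J P G' (var n) A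

theorem CLe.subC {G G' : Ctx S} (h : CLe P G G') : SubC P G G' var := by
  intro n A hA; rw [sub_var]; exact h n A hA

theorem CLe.push {G G' : Ctx S} (h : CLe P G G') (A : Tm S) : CLe P (push A G) (push A G') := by
  intro n B hB
  have := h.subC.up A n B hB
  rw [sub_var, ups_var, sub_var] at this
  exact this

theorem J.le {G G' : Ctx S} {M A : Tm S} (h : J P G M A) (h' : CLe P G G') : J P G' M A := by
  have := h.sub h'.subC
  rwa [sub_var, sub_var] at this

theorem CLe.conv {G : Ctx S} {A A' : Tm S} {s : S} (hA : J P G A (sort s)) (h : Conv A A') :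
    CLe P (Vale.Agent.P340.push A G) (Vale.Agent.P340.push A' G) := by
  intro n B hB
  exact (J.var hB).ctx hA h

variable {C : Set S}

theorem Fam.var_inv (hP : Functional P) {G : Ctx S} (hG : WFC P G) {n : ℕ}
    (h : Fam P C G (var n)) : ∃ A m, G n = some A ∧ J P G A (sort m) ∧ KS P C m := by
  obtain ⟨T, h1, h2⟩ := h
  obtain ⟨A, h3, h4⟩ := h1.var_inv
  obtain ⟨s, h5⟩ := hG _ _ h3
  refine ⟨A, s, h3, h5, ?_⟩
  rcases h2 with ⟨c, hc, rfl⟩ | ⟨m, hm, h2⟩
  · obtain ⟨t, h6, h7⟩ := (h5.red hG h4.red_sort).sort_inv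
    cases h7.sort_inj
    exact .ax hc h6
  · cases hP.conv_sortJ hG h5 h2 h4
    exact hm

theorem Fam.app_inv' (hP : Functional P) {G : Ctx S} (hG : WFC P G) {M N : Tm S}
    (h : Fam P C G (app M N)) : ∃ A B a b m, J P G M (pi A B) ∧ J P G N A ∧ J P G A (sort a) ∧
      J P (push A G) B (sort b) ∧ P.rule a b m ∧ KS P C b := by
  obtain ⟨T, h1, h2⟩ := h
  obtain ⟨A, B, h3, h4, h5⟩ := h1.app_inv
  obtain ⟨s, h6⟩ := (h3.correct hG).resolve_left (by rintro ⟨s, e⟩; cases e)
  obtain ⟨a, b, c, h7, h8, h9, -⟩ := h6.pi_inv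
  refine ⟨A, B, a, b, c, h3, h4, h7, h8, h9, ?_⟩
  have h10 := h8.inst_sort h4
  rcases h2 with ⟨c, hc, rfl⟩ | ⟨m, hm, h2⟩
  · obtain ⟨t, h6, h7⟩ := (h10.red hG h5.red_sort).sort_inv
    cases h7.sort_inj
    exact .ax hc h6
  · cases hP.conv_sortJ hG h10 h2 h5
    exact hm

theorem Fam.app_inv (hP : Functional P) {G : Ctx S} (hG : WFC P G) {M N : Tm S}
    (h : Fam P C G (app M N)) : Fam P C G M := by
  obtain ⟨A, B, a, b, m, h1, h2, h3, h4, h5, h6⟩ := h.app_inv' hP hG
  exact ⟨_, h1, .inr ⟨m, .rule h6 h5, .pi h3 h4 h5⟩⟩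

theorem Fam.step {G : Ctx S} (hG : WFC P G) {M N : Tm S} (h : Fam P C G M) (h' : Step M N) :
    Fam P C G N := by
  obtain ⟨T, h1, h2⟩ := h
  exact ⟨T, h1.step hG h', h2⟩

theorem Fam.of_sort {G : Ctx S} {A : Tm S} {c : S} (h : J P G A (sort c)) (hc : c ∈ C) :
    Fam P C G A := ⟨_, h, .inl ⟨c, hc, rfl⟩⟩

/-- Typings of abstractions. -/
theorem J.lam_inv' {G : Ctx S} {A M T : Tm S} (h : J P G (Tm.lam A M) T) :
    ∃ B a b c, J P (push A G) M B ∧ J P G A (Tm.sort a) ∧ J P (push A G) B (Tm.sort b) ∧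
      P.rule a b c ∧ Conv (Tm.pi A B) T := by
  obtain ⟨B, s, h1, h2, h3⟩ := h.lam_inv
  obtain ⟨a, b, c, h4, h5, h6, -⟩ := h2.pi_inv
  exact ⟨B, a, b, c, h1, h4, h5, h6, h3⟩

/-- Intersections of families of candidates with the strongly normalizing terms. -/
theorem cr_inf {Λ : Type u} {X : Set Λ} {ι : Sort v} {Y : ι → Set (LTm Λ)}
    (h : ∀ i, CR X (Y i)) : CR X {M | SnX X M ∧ ∀ i, M ∈ Y i} where
  sn hM := hM.1
  step hM h' := ⟨hM.1.step h', fun i => (h i).step (hM.2 i) h'⟩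
  neu hM hN := ⟨Acc.intro _ fun N h' => (hN N h').1, fun i => (h i).neu hM fun N h' => (hN N h').2 i⟩
  mem hM hN := ⟨hM.1.mem hN, fun i => (h i).mem (hM.2 i) hN⟩

end Vale.Agent.P340
end

section

/-! Skeletons: expressions whose subexpressions of high level are replaced by a constant. -/

namespace Vale.Agent.P340

universe u
variable {S : Type u} {P : Spec S} {ℓ : S → ℤ}

open Tm

/-- Steps inside subexpressions of level `> j`. -/
inductive HStep (ℓ : S → ℤ) (j : ℤ) : (ℕ → ℤ) → Tm S → Tm S → Prop where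
  | here {Δ : ℕ → ℤ} {M N : Tm S} : j < lev ℓ Δ M → Step M N → HStep ℓ j Δ M N
  | appL {Δ : ℕ → ℤ} {M M' : Tm S} (N : Tm S) : HStep ℓ j Δ M M' →
      HStep ℓ j Δ (app M N) (app M' N)
  | appR {Δ : ℕ → ℤ} (M : Tm S) {N N' : Tm S} : HStep ℓ j Δ N N' →
      HStep ℓ j Δ (app M N) (app M N')
  | lamL {Δ : ℕ → ℤ} {A A' : Tm S} (M : Tm S) : HStep ℓ j Δ A A' →
      HStep ℓ j Δ (lam A M) (lam A' M)
  | lamR {Δ : ℕ → ℤ} (A : Tm S) {M M' : Tm S} : HStep ℓ j (lcons (lev ℓ Δ A - 1) Δ) M M' →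
      HStep ℓ j Δ (lam A M) (lam A M')
  | piL {Δ : ℕ → ℤ} {A A' : Tm S} (M : Tm S) : HStep ℓ j Δ A A' →
      HStep ℓ j Δ (pi A M) (pi A' M)
  | piR {Δ : ℕ → ℤ} (A : Tm S) {M M' : Tm S} : HStep ℓ j (lcons (lev ℓ Δ A - 1) Δ) M M' →
      HStep ℓ j Δ (pi A M) (pi A M')

theorem HStep.step {j : ℤ} {Δ : ℕ → ℤ} {M N : Tm S} (h : HStep ℓ j Δ M N) : Step M N := by
  induction h with
  | here _ h => exact h
  | appL N _ ih => exact .appL N ih
  | appR M _ ih => exact .appR M ih
  | lamL M _ ih => exact .lamL M ih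
  | lamR A _ ih => exact .lamR A ih
  | piL M _ ih => exact .piL M ih
  | piR A _ ih => exact .piR A ih

end Vale.Agent.P340
end

section

/-! Reduction of strong normalization to strong normalization of skeletons. -/

namespace Vale.Agent.P340

universe u
variable {S : Type u} {P : Spec S} {ℓ : S → ℤ}

open Tm

/-- Accessibility for high steps. -/
def HAcc (ℓ : S → ℤ) (j : ℤ) (Δ : ℕ → ℤ) (M : Tm S) : Prop :=
  Acc (fun a b => HStep ℓ j Δ b a) M

theorem Sn.hacc {j : ℤ} {Δ : ℕ → ℤ} {M : Tm S} (h : Sn M) : HAcc ℓ j Δ M := by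
  induction h with
  | intro M _ ih => exact Acc.intro M fun N hN => ih N hN.step

end Vale.Agent.P340
end

section

/-! Saturated sets. -/

namespace Vale.Agent.P340

universe u
variable {U : Type u}

open Tm

/-- Saturated sets of strongly normalizing expressions. -/
structure Sat (X : Set (Tm U)) : Prop where
  sn : ∀ {M : Tm U}, M ∈ X → Sn M
  neu : ∀ {M : Tm U}, Sn M → Neu M → M ∈ X
  exp : ∀ {A M N : Tm U} {l : List (Tm U)}, Sn A → Sn N → apps (inst M N) l ∈ X →
    apps (app (lam A M) N) l ∈ X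

theorem Sat.sort {X : Set (Tm U)} (h : Sat X) (s : U) : Tm.sort s ∈ X := h.neu (.sort s) (.sort s)

/-- The set of all strongly normalizing expressions. -/
def snSet : Set (Tm U) := {M | Sn M}

theorem sat_sn : Sat (snSet : Set (Tm U)) where
  sn h := h
  neu h _ := h
  exp {A M N l} hA hN h := Sn.expand (A := A) (M := M) (N := N) (l := l) hA hN h

end Vale.Agent.P340
end

section

/-! Semantic values of constructors, for systems of the shape of higher-order polymorphism. -/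

namespace Vale.Agent.P340

namespace C1

open Tm

universe u

/-- Simple kinds. -/
inductive Kd : Type where
  | star : Kd
  | unit : Kd
  | arr : Kd → Kd → Kd
  | dum : Kd → Kd

/-- Values of a simple kind. -/
def Val (S : Type u) : Kd → Type u
  | .star => ULift.{u} {X : Set (Tm Unit) // Sat X}
  | .unit => PUnit
  | .arr k k' => Val S k → Val S k'
  | .dum k => Tm S → Val S k

variable {S : Type u}

/-- The default value. -/
def dflt : (k : Kd) → Val S k
  | .star => ⟨⟨snSet, sat_sn⟩⟩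
  | .unit => ⟨⟩
  | .arr _ k' => fun _ => dflt k'
  | .dum k => fun _ => dflt k

/-- Values together with their kinds. -/
def SV (S : Type u) : Type u := Σ k : Kd, Val S k

/-- The default value of kind star. -/
def junk : SV S := ⟨.star, dflt .star⟩

open Classical in
/-- Forced change of kind. -/
noncomputable def SV.to (x : SV S) (k : Kd) : Val S k :=
  if h : x.1 = k then h ▸ x.2 else dflt k

theorem SV.to_self (k : Kd) (v : Val S k) : SV.to ⟨k, v⟩ k = v := by
  unfold SV.to; rw [dif_pos rfl]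

theorem SV.mk_to (x : SV S) {k : Kd} (h : x.1 = k) : (⟨k, x.to k⟩ : SV S) = x := by
  subst h
  obtain ⟨k, v⟩ := x
  rw [SV.to_self]

/-- Application. -/
noncomputable def SV.app : SV S → SV S → SV S
  | ⟨.arr k k', f⟩, x => ⟨k', f (x.to k)⟩
  | _, _ => junk

/-- Application to an expression. -/
def SV.appD : SV S → Tm S → SV S
  | ⟨.dum k', f⟩, N => ⟨k', f N⟩
  | _, _ => junk

/-- The saturated set of a value. -/
def SV.set : SV S → Set (Tm Unit)
  | ⟨.star, X⟩ => X.down.1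
  | _ => snSet

theorem SV.sat (x : SV S) : Sat x.set := by
  obtain ⟨k, v⟩ := x
  cases k with
  | star => exact v.down.2
  | unit => exact sat_sn
  | arr => exact sat_sn
  | dum => exact sat_sn

/-! Normal forms. -/

theorem sn_nf {M : Tm S} (h : Sn M) : ∃ N, Red M N ∧ Normal N := by
  induction h with
  | intro M _ ih =>
    by_cases hM : Normal M
    · exact ⟨M, .refl M, hM⟩
    · have : ∃ N, Step M N := by
        by_contra hc
        exact hM fun N hN => hc ⟨N, hN⟩
      obtain ⟨N, hN⟩ := this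
      obtain ⟨Q, h1, h2⟩ := ih N hN
      exact ⟨Q, (Red.step hN).trans h1, h2⟩

/-- The representative of a conversion class. -/
noncomputable def rep (N : Tm S) : Tm S := Classical.choose (⟨N, .refl N⟩ : ∃ M, Conv N M)

theorem rep_conv (N : Tm S) : Conv N (rep N) :=
  Classical.choose_spec (⟨N, .refl N⟩ : ∃ M, Conv N M)

theorem rep_eq {N N' : Tm S} (h : Conv N N') : rep N = rep N' := by
  have e : (fun M => Conv N M) = (fun M => Conv N' M) := by
    funext M; exact propext ⟨fun h' => h.symm.trans h', fun h' => h.trans h'⟩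
  unfold rep
  congr

theorem conv_subs (M : Tm S) : ∀ {θ θ' : ℕ → Tm S}, (∀ n, Conv (θ n) (θ' n)) →
    Conv (M.sub θ) (M.sub θ') := by
  induction M with
  | var n => intro θ θ' h; exact h n
  | sort s => intro θ θ' h; exact .refl _
  | app M N ihM ihN => intro θ θ' h; exact Conv.app (ihM h) (ihN h)
  | lam A M ihA ihM =>
    intro θ θ' h
    refine Conv.lam (ihA h) (ihM ?_)
    intro n; cases n with
    | zero => exact .refl _
    | succ n => exact (h n).ren _
  | pi A M ihA ihM =>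
    intro θ θ' h
    refine Conv.pi (ihA h) (ihM ?_)
    intro n; cases n with
    | zero => exact .refl _
    | succ n => exact (h n).ren _

/-! Codes of kinds. -/

open Classical in
/-- The code of a kind in normal form; `m` is the level of kinds. -/
noncomputable def kdn (ℓ : S → ℤ) (m : ℤ) : (ℕ → ℤ) → Tm S → Kd
  | _, sort _ => .star
  | Δ, pi A B =>
    if lev ℓ Δ A = m then .arr (kdn ℓ m Δ A) (kdn ℓ m (lcons (lev ℓ Δ A - 1) Δ) B)
    else .dum (kdn ℓ m (lcons (lev ℓ Δ A - 1) Δ) B)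
  | _, _ => .unit

/-- Expressions with a variable in head position. -/
inductive HV (p : ℕ → Prop) : Tm S → Prop where
  | var {n : ℕ} : p n → HV p (var n)
  | app {M : Tm S} (N : Tm S) : HV p M → HV p (app M N)

theorem HV.step {p : ℕ → Prop} {M N : Tm S} (h : HV p M) (h' : Step M N) : HV p N := by
  induction h generalizing N with
  | var => cases h'
  | app N hM ih =>
    cases h' with
    | beta _ _ _ => cases hM
    | appL _ h' => exact .app _ (ih h')
    | appR _ h' => exact .app _ hM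

end C1

end Vale.Agent.P340
end

section

/-! Interpretation of constructors and its untyped properties. -/

namespace Vale.Agent.P340

namespace C1

open Tm

universe u
variable {S : Type u}

/-- `N` has a type convertible to `L`. -/
def TyD (P : Spec S) (D : Ctx S) (N L : Tm S) : Prop := ∃ L', J P D N L' ∧ Conv L' L

/-- `N` is convertible to an expression with a type convertible to `L`. -/
def TyC (P : Spec S) (D : Ctx S) (N L : Tm S) : Prop := ∃ N', Conv N N' ∧ TyD P D N' L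

open Classical in
/-- A chosen element. -/
noncomputable def pickP (p : Tm S → Prop) : Tm S := if h : ∃ N, p N then h.choose else var 0

/-- A chosen inhabitant. -/
noncomputable def pick (P : Spec S) (D : Ctx S) (L : Tm S) : Tm S := pickP fun N => TyD P D N L

theorem tyD_conv {P : Spec S} {D : Ctx S} {N L L' : Tm S} (h : Conv L L') :
    TyD P D N L ↔ TyD P D N L' :=
  ⟨fun ⟨K, h1, h2⟩ => ⟨K, h1, h2.trans h⟩, fun ⟨K, h1, h2⟩ => ⟨K, h1, h2.trans h.symm⟩⟩

theorem tyC_conv {P : Spec S} {D : Ctx S} {N L L' : Tm S} (h : Conv L L') :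
    TyC P D N L ↔ TyC P D N L' :=
  ⟨fun ⟨K, h1, h2⟩ => ⟨K, h1, (tyD_conv h).1 h2⟩, fun ⟨K, h1, h2⟩ => ⟨K, h1, (tyD_conv h).2 h2⟩⟩

theorem pick_conv {P : Spec S} {D : Ctx S} {L L' : Tm S} (h : Conv L L') :
    pick P D L = pick P D L' := by
  have e : (fun N => TyD P D N L) = (fun N => TyD P D N L') := by
    funext N; exact propext (tyD_conv h)
  unfold pick
  rw [e]

theorem pick_spec {P : Spec S} {D : Ctx S} {L : Tm S} (h : ∃ N, TyD P D N L) :
    TyD P D (pick P D L) L := by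
  unfold pick pickP
  rw [dif_pos h]
  exact h.choose_spec

section
variable (P : Spec S) (ℓ : S → ℤ) (j : ℤ) (D : Ctx S) (E : ℕ → ℤ)

end

section
variable {P : Spec S} {ℓ : S → ℤ} {j : ℤ} {D : Ctx S} {E : ℕ → ℤ}

theorem scons_up (N : Tm S) (θ : ℕ → Tm S) (r : ℕ → ℕ) :
    (fun n => scons N θ (up r n)) = scons N (fun n => θ (r n)) := by
  funext n; cases n <;> rfl

theorem scons_ups (N : Tm S) (θ : ℕ → Tm S) (σ : ℕ → Tm S) :
    (fun n => (ups σ n).sub (scons N θ)) = scons N (fun n => (σ n).sub θ) := by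
  funext n; cases n with
  | zero => rfl
  | succ n => exact sub_scons_wk _ _ _

theorem conv_scons {N : Tm S} {θ θ' : ℕ → Tm S} (h : ∀ n, Conv (θ n) (θ' n)) :
    ∀ n, Conv (scons N θ n) (scons N θ' n) := by
  intro n; cases n with
  | zero => exact .refl _
  | succ n => exact h n

end

end C1

end Vale.Agent.P340
end

section

/-! Semantic values with dependent and universal codes. -/

namespace Vale.Agent.P340

namespace PolR

open Tm

universe u
variable {S : Type u} {C : Set S}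

/-- Codes of kinds. -/
inductive Kd (S : Type u) : Type u where
  | star : Kd S
  | unit : Kd S
  | arr : Kd S → (Tm S → Kd S) → Kd S
  | univ : (Tm S → Kd S) → Kd S

/-- Candidates. -/
abbrev Cd (C : Set S) : Type u := {X : Set (LTm (Lb S)) // CR (labs C) X}

/-- The largest candidate. -/
def cdSn : Cd C := ⟨snS (labs C), cr_sn⟩

/-- Values of a code. -/
def Val (C : Set S) : Kd S → Type u
  | .star => Cd C
  | .unit => PUnit
  | .arr k f => (N : Tm S) → Val C k → Val C (f N)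
  | .univ h => List (Tm S × ((K : Tm S) × Val C (h K))) → Cd C

/-- The default value. -/
def dflt : (k : Kd S) → Val C k
  | .star => cdSn
  | .unit => ⟨⟩
  | .arr _ f => fun N _ => dflt (f N)
  | .univ _ => fun _ => cdSn

/-- Values together with their codes. -/
def SV (C : Set S) : Type u := Σ k : Kd S, Val C k

/-- The default value of a code. -/
def dfl (k : Kd S) : SV C := ⟨k, dflt k⟩

/-- The value of code unit. -/
def uv : SV C := dfl .unit

open Classical in
/-- Forced change of code. -/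
noncomputable def SV.to (x : SV C) (k : Kd S) : Val C k :=
  if h : x.1 = k then h ▸ x.2 else dflt k

theorem SV.to_self (k : Kd S) (v : Val C k) : SV.to ⟨k, v⟩ k = v := by
  unfold SV.to; rw [dif_pos rfl]

theorem SV.mk_to (x : SV C) {k : Kd S} (h : x.1 = k) : (⟨k, x.to k⟩ : SV C) = x := by
  subst h
  obtain ⟨k, v⟩ := x
  rw [SV.to_self]

/-- The candidate of a value. -/
def SV.set : SV C → Set (LTm (Lb S))
  | ⟨.star, X⟩ => X.1
  | ⟨.univ _, w⟩ => (w []).1
  | _ => snS (labs C)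

theorem SV.cr (x : SV C) : CR (labs C) x.set := by
  obtain ⟨k, v⟩ := x
  cases k with
  | star => exact v.2
  | unit => exact cr_sn
  | arr => exact cr_sn
  | univ h => exact (v []).2

open Classical in
/-- The argument as stored in lists. -/
noncomputable def down (h : Tm S → Kd S) (x : SV C) : (K : Tm S) × Val C (h K) :=
  if hx : ∃ y : (K : Tm S) × Val C (h K), (⟨h y.1, y.2⟩ : SV C) = x then hx.choose
  else ⟨var 0, dflt _⟩

/-- Application to an expression and a value. -/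
noncomputable def SV.app : SV C → Tm S → SV C → SV C
  | ⟨.arr k f, g⟩, N, x => ⟨f N, g N (x.to k)⟩
  | ⟨.univ h, w⟩, N, x => ⟨.univ h, fun l => w ((N, down h x) :: l)⟩
  | _, _, _ => uv

/-- The value of a type. -/
def mkT : Kd S → Cd C → SV C
  | .star, X => ⟨.star, X⟩
  | .univ h, X => ⟨.univ h, fun l => match l with
    | [] => X
    | _ => cdSn⟩
  | k, _ => dfl k

/-- Codes of the kinds that are sorts. -/
def SCode (k : Kd S) : Prop := k = .star ∨ ∃ h, k = .univ h

open Classical in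
/-- Abstraction. -/
noncomputable def mkL (k : Kd S) (k0 : Kd S) (p : Tm S → Prop) (f : Tm S → SV C → SV C) : SV C :=
  match k with
  | .arr k' g => ⟨.arr k' g, fun N v =>
      if p N ∧ k' = k0 then (f N ⟨k', v⟩).to (g N) else dflt (g N)⟩
  | .univ h => ⟨.univ h, fun l => match l with
    | [] => cdSn
    | (N, y) :: l =>
      if p N ∧ h y.1 = k0 then (show Val C (.univ h) from (f N ⟨h y.1, y.2⟩).to (.univ h)) l
      else cdSn⟩
  | k => dfl k

end PolR

end Vale.Agent.P340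
end

section

/-! Codes of kinds for ranked blocks. -/

namespace Vale.Agent.P340

namespace PolR

open Tm
open C1 (rep rep_conv rep_eq conv_subs TyD TyC pick tyD_conv tyC_conv pick_conv pick_spec)

universe u
variable {S : Type u}

/-- The data of a model: a specification, a set `C` of sorts, a set `Q` of sorts of kinds whose
elements have values, a set `U` of sorts with universal codes, ranks, and a context. -/
structure Par (S : Type u) where
  P : Spec S
  C : Set S
  Q : Set S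
  U : Set S
  rk : S → ℕ
  D : Ctx S

variable {P : Spec S}

/-- Sorts of kinds whose elements have values. -/
def Par.QK (X : Par S) (m : S) : Prop := KS X.P X.C m ∧ m ∈ X.Q

/-- `K` is convertible to a type of sort `a`. -/
def TyS (P : Spec S) (G : Ctx S) (K : Tm S) (a : S) : Prop := ∃ Q, Conv K Q ∧ J P G Q (sort a)

theorem tyS_conv {G : Ctx S} {Q Q' : Tm S} {a : S} (h : Conv Q Q') :
    TyS P G Q a ↔ TyS P G Q' a :=
  ⟨fun ⟨R, h1, h2⟩ => ⟨R, h.symm.trans h1, h2⟩, fun ⟨R, h1, h2⟩ => ⟨R, h.trans h1, h2⟩⟩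

theorem tyS_le {G G' : Ctx S} (h : CLe P G G') {K : Tm S} {a : S} (hK : TyS P G K a) :
    TyS P G' K a := by
  obtain ⟨Q, h1, h2⟩ := hK
  exact ⟨Q, h1, h2.le h⟩

theorem tyS_iff (hP : Functional P) {D : Ctx S} (hD : WFC P D) {Q : Tm S} {a a' : S}
    (h : J P D Q (sort a)) : TyS P D Q a' ↔ a' = a := by
  constructor
  · rintro ⟨Q', h1, h2⟩
    exact (hP.conv_sortJ hD h h2 h1).symm
  · rintro rfl; exact ⟨Q, .refl _, h⟩

/-- `K` is convertible to a type of a sort with the property `p`. -/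
def SP (P : Spec S) (p : S → Prop) (G : Ctx S) (K : Tm S) : Prop := ∃ a, p a ∧ TyS P G K a

theorem sp_conv {p : S → Prop} {G : Ctx S} {Q Q' : Tm S} (h : Conv Q Q') :
    SP P p G Q ↔ SP P p G Q' := exists_congr fun _ => and_congr Iff.rfl (tyS_conv h)

theorem sp_le {p : S → Prop} {G G' : Ctx S} (h : CLe P G G') {K : Tm S} (hK : SP P p G K) :
    SP P p G' K := by
  obtain ⟨a, h1, h2⟩ := hK
  exact ⟨a, h1, tyS_le h h2⟩

theorem sp_iff (hP : Functional P) {p : S → Prop} {D : Ctx S} (hD : WFC P D) {Q : Tm S} {a : S}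
    (h : J P D Q (sort a)) : SP P p D Q ↔ p a := by
  constructor
  · rintro ⟨a', h1, h2⟩
    rw [tyS_iff hP hD h] at h2
    subst h2; exact h1
  · intro h1; exact ⟨a, h1, Q, .refl _, h⟩

/-- Kinds whose elements have values. -/
def Par.IsQ (X : Par S) : Ctx S → Tm S → Prop := SP X.P X.QK

/-- Kinds. -/
def Par.IsK (X : Par S) : Ctx S → Tm S → Prop := SP X.P (KS X.P X.C)

/-- Kinds of lower rank. -/
def Par.LowQ (X : Par S) (r : ℕ) : Tm S → Prop := SP X.P (fun a => X.QK a ∧ X.rk a < r) X.D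

/-- Kinds with a universal code. -/
def Par.UQ (X : Par S) (r : ℕ) : Tm S → Prop :=
  SP X.P (fun a => X.QK a ∧ a ∈ X.U ∧ X.rk a = r) X.D

/-- The codes on which the code of a kind depends. -/
def Par.Pr (X : Par S) (K' K : Tm S) : Prop :=
  (∃ r K1, X.UQ r K ∧ X.LowQ r K1 ∧ K' = nf K1) ∨
  ∃ A B, K = pi A B ∧ X.IsQ X.D K ∧ (∀ r, ¬ X.UQ r K) ∧ X.IsK (push A X.D) B ∧
    ((X.IsQ X.D A ∧ K' = nf A) ∨ ∃ N, TyC X.P X.D N A ∧ K' = nf (inst B N))

theorem Par.wf (X : Par S) : WellFounded fun K' K => X.Pr K' K ∧ Acc X.Pr K := by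
  refine ⟨fun K => Acc.intro K fun K' h => ?_⟩
  obtain ⟨h1, h2⟩ := h
  have h3 := h2.inv h1
  clear h1 h2
  induction h3 with
  | intro K _ ih => exact Acc.intro K fun K' h => ih K' h.1

open Classical in
/-- One unfolding of the code of a kind. -/
noncomputable def Par.kdF (X : Par S) (K : Tm S)
    (rec : (K' : Tm S) → (X.Pr K' K ∧ Acc X.Pr K) → Kd S) : Kd S :=
  if h : ∃ r, X.UQ r K then .univ fun K1 =>
    if hl : X.LowQ h.choose K1 ∧ Acc X.Pr K then
      rec (nf K1) ⟨.inl ⟨_, _, h.choose_spec, hl.1, rfl⟩, hl.2⟩ else .unit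
  else match K, rec, h with
  | sort _, _, _ => .star
  | pi A B, rec, h =>
    if hQ : X.IsQ X.D (pi A B) ∧ X.IsK (push A X.D) B ∧ Acc X.Pr (pi A B) then
      .arr (if hA : X.IsQ X.D A then rec (nf A)
          ⟨.inr ⟨A, B, rfl, hQ.1, fun r hr => h ⟨r, hr⟩, hQ.2.1, .inl ⟨hA, rfl⟩⟩, hQ.2.2⟩
        else .unit)
        (fun N => if hN : TyC X.P X.D N A then rec (nf (inst B N))
          ⟨.inr ⟨A, B, rfl, hQ.1, fun r hr => h ⟨r, hr⟩, hQ.2.1, .inr ⟨N, hN, rfl⟩⟩, hQ.2.2⟩
        else .unit)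
    else .unit
  | _, _, _ => .unit

/-- The code of a normal kind. -/
noncomputable def Par.kd0 (X : Par S) : Tm S → Kd S := X.wf.fix X.kdF

theorem Par.kd0_eq (X : Par S) (K : Tm S) : X.kd0 K = X.kdF K fun K' _ => X.kd0 K' :=
  X.wf.fix_eq X.kdF K

open Classical in
/-- The code of a kind. -/
noncomputable def Par.kd (X : Par S) (K : Tm S) : Kd S := if HN K then X.kd0 (nf K) else .unit

open Classical in
/-- The coding of the kinds of lower rank. -/
noncomputable def Par.hh (X : Par S) (r : ℕ) (K : Tm S) : Kd S :=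
  if X.LowQ r K then X.kd K else .unit

open Classical in
/-- The code of the values of an argument. -/
noncomputable def Par.kdv (X : Par S) (A : Tm S) : Kd S := if X.IsQ X.D A then X.kd A else .unit

theorem Par.kd_conv (X : Par S) {K K' : Tm S} (h : Conv K K') : X.kd K = X.kd K' := by
  unfold Par.kd
  by_cases h1 : HN K
  · rw [if_pos h1, if_pos (h1.of_conv h), h1.eq_of_conv h]
  · rw [if_neg h1, if_neg fun h2 => h1 (h2.of_conv h.symm)]

theorem Par.kd_sort (X : Par S) (s : S) : SCode (X.kd (sort s)) := by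
  classical
  unfold Par.kd
  rw [if_pos (HN.of_normal (normal_sort s)), nf_normal (normal_sort s), X.kd0_eq]
  unfold Par.kdF
  by_cases h : ∃ r, X.UQ r (sort s)
  · rw [dif_pos h]; exact .inr ⟨_, rfl⟩
  · rw [dif_neg h]; exact .inl rfl

/-! Sizes of kinds. -/

open Classical in
/-- The number of products of rank `r` in the skeleton of a normal kind. -/
noncomputable def Par.skl (X : Par S) (r : ℕ) : Tm S → Ctx S → ℕ
  | pi A B, G => 1 +
    (if SP X.P (fun a => X.QK a ∧ a ∉ X.U ∧ X.rk a = r) G A then X.skl r A G else 0) +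
    (if SP X.P (fun a => X.QK a ∧ a ∉ X.U ∧ X.rk a = r) (push A G) B then
      X.skl r B (push A G) else 0)
  | _, _ => 0

theorem Par.skl_ctx (X : Par S) (r : ℕ) (M : Tm S) : ∀ {G G' : Ctx S}, CLe X.P G G' →
    CLe X.P G' G → X.skl r M G = X.skl r M G' := by
  classical
  induction M with
  | pi A B ihA ihB =>
    intro G G' h h'
    unfold Par.skl
    rw [ihA h h', ihB (h.push A) (h'.push A)]
    have e1 : SP X.P (fun a => X.QK a ∧ a ∉ X.U ∧ X.rk a = r) G A ↔
        SP X.P (fun a => X.QK a ∧ a ∉ X.U ∧ X.rk a = r) G' A := ⟨sp_le h, sp_le h'⟩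
    have e2 : SP X.P (fun a => X.QK a ∧ a ∉ X.U ∧ X.rk a = r) (push A G) B ↔
        SP X.P (fun a => X.QK a ∧ a ∉ X.U ∧ X.rk a = r) (push A G') B :=
      ⟨sp_le (h.push A), sp_le (h'.push A)⟩
    rw [propext e1, propext e2]
  | _ => intros; rfl

/-- The variables whose types have a sort in `KS P C0` are replaced by variables. -/
def VarOk (P : Spec S) (p : S → Prop) (G : Ctx S) (σ : ℕ → Tm S) : Prop :=
  ∀ n A q, G n = some A → J P G A (sort q) → p q → ∃ k, σ n = var k

theorem VarOk.up (hP : Functional P) {p : S → Prop} {G : Ctx S} {σ : ℕ → Tm S}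
    (h : VarOk P p G σ) (hG : WFC P G) (A : Tm S) : VarOk P p (push A G) (ups σ) := by
  intro n B m hB hm hK
  cases n with
  | zero => exact ⟨0, rfl⟩
  | succ n =>
    rw [push_succ, Option.map_eq_some_iff] at hB
    obtain ⟨B, hB, rfl⟩ := hB
    obtain ⟨m', hm'⟩ := hG _ _ hB
    cases hP.sortJ (hm'.wk A) hm
    obtain ⟨k, hk⟩ := h n B _ hB hm' hK
    exact ⟨k + 1, by show wk (σ n) = _; rw [hk]; rfl⟩

theorem neu_sub (hP : Functional P) {C0 : Set S} {p : S → Prop} {G : Ctx S} (hG : WFC P G)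
    {σ : ℕ → Tm S} (hσ : VarOk P p G σ) (hp : ∀ q, KS P C0 q → p q) {M A B : Tm S}
    (hn : Normal M) (hl : ∀ Q R, M ≠ lam Q R) (hf : Fam P C0 G M) (hM : J P G M (pi A B)) :
    Neu (M.sub σ) := by
  induction M generalizing A B with
  | var n =>
    obtain ⟨A', m, h1, h2, h3⟩ := hf.var_inv hP hG
    obtain ⟨k, hk⟩ := hσ n A' m h1 h2 (hp m h3)
    show Neu (σ n)
    rw [hk]; exact Neu.var k
  | sort s =>
    obtain ⟨t, -, h⟩ := hM.sort_inv
    exact absurd h (fun h => h.sort_pi)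
  | app F N ih _ =>
    obtain ⟨A', B', a, b, m, h1, h2, h3, h4, h5, h6⟩ := hf.app_inv' hP hG
    refine Neu.app (ih hn.appL ?_ (hf.app_inv hP hG) h1) _
    rintro Q R rfl
    exact hn _ (.beta _ _ _)
  | lam A1 M _ _ => exact absurd rfl (hl _ _)
  | pi A' B' _ _ =>
    obtain ⟨_, _, _, -, -, -, h⟩ := hM.pi_inv
    exact absurd h (fun h => h.sort_pi)

/-- Stability of sizes. -/
theorem Par.skl_sub (X : Par S) (hP : Functional X.P) (hW : WNKindVar X.P) (r : ℕ) (M : Tm S) :
    ∀ {G D : Ctx S} {σ : ℕ → Tm S} {m : S}, WFC X.P G → WFC X.P D → NCtx X.P D →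
      SubC X.P G D σ →
      VarOk X.P (fun q => ∃ k, (X.QK k ∧ k ∉ X.U ∧ X.rk k = r) ∧ KS X.P {k} q) G σ →
      Normal M → J X.P G M (sort m) → (X.QK m ∧ m ∉ X.U ∧ X.rk m = r) →
      X.skl r (nf (M.sub σ)) D = X.skl r M G := by
  classical
  induction M with
  | var n =>
    intro G D σ m hG hD hN hσ hv hn hM hm
    obtain ⟨A', q, h1, h2, h3⟩ := (Fam.of_sort (C := {m}) hM rfl).var_inv hP hG
    obtain ⟨k, hk⟩ := hv n A' q h1 h2 ⟨m, hm, h3⟩
    show X.skl r (nf (σ n)) D = _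
    rw [hk, nf_normal (normal_var k)]; rfl
  | sort s =>
    intro G D σ m hG hD hN hσ hv hn hM hm
    show X.skl r (nf (sort s)) D = _
    rw [nf_normal (normal_sort s)]; rfl
  | app F N _ _ =>
    intro G D σ m hG hD hN hσ hv hn hM hm
    have hf := Fam.of_sort (C := {m}) hM rfl
    obtain ⟨A', B', a, b, m', h1, h2, h3, h4, h5, h6⟩ := hf.app_inv' hP hG
    have h7 : Neu (F.sub σ) := by
      refine neu_sub hP hG hv (C0 := {m}) (fun q hq => ⟨m, hm, hq⟩) hn.appL ?_
        (hf.app_inv hP hG) h1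
      rintro Q R rfl
      exact hn _ (.beta _ _ _)
    have h8 : HN ((app F N).sub σ) := hN.hn hW (hM.sub hσ)
    obtain ⟨M', N', h9, -, -⟩ := h7.app_red h8.red
    rw [h9]; rfl
  | lam A M _ _ =>
    intro G D σ m hG hD hN hσ hv hn hM hm
    obtain ⟨B, a, b, c, -, -, -, -, h⟩ := hM.lam_inv'
    exact absurd h.symm (fun h => h.sort_pi)
  | pi A B ihA ihB =>
    intro G D σ m hG hD hN hσ hv hn hM hm
    obtain ⟨a, b, c', h1, h2, h3, -⟩ := hM.pi_inv
    have kA : J X.P D (A.sub σ) (sort a) := h1.sub hσ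
    have hD' := hD.push kA
    have kB : J X.P (push (A.sub σ) D) (B.sub (ups σ)) (sort b) := h2.sub (hσ.up A)
    have nA : HN (A.sub σ) := hN.hn hW kA
    have nB : HN (B.sub (ups σ)) := (hN.push kA).hn hW kB
    have kA' := kA.red hD nA.red
    have l1 : CLe X.P (push (A.sub σ) D) (push (nf (A.sub σ)) D) := CLe.conv kA nA.red.conv
    have l2 : CLe X.P (push (nf (A.sub σ)) D) (push (A.sub σ) D) :=
      CLe.conv kA' nA.red.conv.symm
    have kB' := kB.red hD' nB.red
    show X.skl r (nf (pi (A.sub σ) (B.sub (ups σ)))) D = _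
    rw [nA.nf_pi nB]
    unfold Par.skl
    rw [← X.skl_ctx r (nf (B.sub (ups σ))) l1 l2]
    have e1 : SP X.P (fun a => X.QK a ∧ a ∉ X.U ∧ X.rk a = r) D (nf (A.sub σ)) ↔
        SP X.P (fun a => X.QK a ∧ a ∉ X.U ∧ X.rk a = r) G A := by
      rw [sp_iff hP hD kA', sp_iff hP hG h1]
    have e2 : SP X.P (fun a => X.QK a ∧ a ∉ X.U ∧ X.rk a = r) (push (nf (A.sub σ)) D)
        (nf (B.sub (ups σ))) ↔
        SP X.P (fun a => X.QK a ∧ a ∉ X.U ∧ X.rk a = r) (push A G) B := by
      rw [sp_iff hP (hD.push kA') (kB'.le l1), sp_iff hP (hG.push h1) h2]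
    rw [propext e1, propext e2]
    have eA : (if SP X.P (fun a => X.QK a ∧ a ∉ X.U ∧ X.rk a = r) G A then
        X.skl r (nf (A.sub σ)) D else 0) =
        if SP X.P (fun a => X.QK a ∧ a ∉ X.U ∧ X.rk a = r) G A then X.skl r A G else 0 := by
      by_cases ha : SP X.P (fun a => X.QK a ∧ a ∉ X.U ∧ X.rk a = r) G A
      · rw [if_pos ha, if_pos ha, ihA hG hD hN hσ hv hn.piL h1 ((sp_iff hP hG h1).1 ha)]
      · rw [if_neg ha, if_neg ha]
    have eB : (if SP X.P (fun a => X.QK a ∧ a ∉ X.U ∧ X.rk a = r) (push A G) B then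
        X.skl r (nf (B.sub (ups σ))) (push (A.sub σ) D) else 0) =
        if SP X.P (fun a => X.QK a ∧ a ∉ X.U ∧ X.rk a = r) (push A G) B then
          X.skl r B (push A G) else 0 := by
      by_cases hb : SP X.P (fun a => X.QK a ∧ a ∉ X.U ∧ X.rk a = r) (push A G) B
      · rw [if_pos hb, if_pos hb, ihB (hG.push h1) hD' (hN.push kA) (hσ.up A)
          (hv.up hP hG A) hn.piR h2 ((sp_iff hP (hG.push h1) h2).1 hb)]
      · rw [if_neg hb, if_neg hb]
    rw [eA, eB]

variable {X : Par S}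

end PolR

end Vale.Agent.P340
end

section

set_option linter.unusedSectionVars false

/-! Values of elements of kinds: ranked values, functions, functions with small support. -/

namespace Vale.Agent.P340

namespace NM

open Tm
open PolR (Kd)

universe u
variable {S : Type u} {α : Type u} [Inhabited α]

/-- Ranked values of a code. -/
def Val (α : Type u) : Kd S → Type u
  | .star => α
  | .unit => PUnit
  | .arr k f => (N : Tm S) → Val α k → Val α (f N)
  | .univ h => List (Tm S × ((K : Tm S) × Val α (h K))) → α × ((K : Tm S) × Val α (h K))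

/-- The default value. -/
def dflt : (k : Kd S) → Val α k
  | .star => (default : α)
  | .unit => ⟨⟩
  | .arr _ f => fun N _ => dflt (f N)
  | .univ h => fun _ => (default, ⟨var 0, dflt (h (var 0))⟩)

/-- The default pair. -/
def dpr (h : Tm S → Kd S) : α × ((K : Tm S) × Val α (h K)) :=
  (default, ⟨var 0, dflt (h (var 0))⟩)

/-- Ranked values together with their codes. -/
def SV (S α : Type u) : Type u := Σ k : Kd S, Val α k

/-- The default value of a code. -/
def dfl (k : Kd S) : SV S α := ⟨k, dflt k⟩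

/-- The value of code unit. -/
def uv : SV S α := dfl .unit

theorem eq_uv {x : SV S α} (h : x.1 = .unit) : x = uv := by
  obtain ⟨k, v⟩ := x
  cases h
  rfl

open Classical in
/-- Forced change of code. -/
noncomputable def SV.to (x : SV S α) (k : Kd S) : Val α k :=
  if h : x.1 = k then h ▸ x.2 else dflt k

theorem SV.to_self (k : Kd S) (v : Val α k) : SV.to ⟨k, v⟩ k = v := by
  unfold SV.to; rw [dif_pos rfl]

theorem SV.mk_to (x : SV S α) {k : Kd S} (h : x.1 = k) : (⟨k, x.to k⟩ : SV S α) = x := by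
  subst h
  obtain ⟨k, v⟩ := x
  rw [SV.to_self]

/-- The candidate of a value. -/
def SV.set : SV S α → α
  | ⟨.star, X⟩ => X
  | ⟨.univ _, w⟩ => (w []).1
  | _ => default

open Classical in
/-- The argument as stored in lists. -/
noncomputable def down (h : Tm S → Kd S) (x : SV S α) : (K : Tm S) × Val α (h K) :=
  if hx : ∃ y : (K : Tm S) × Val α (h K), (⟨h y.1, y.2⟩ : SV S α) = x then hx.choose
  else ⟨var 0, dflt _⟩

theorem down_spec {h : Tm S → Kd S} {x : SV S α} {K : Tm S} (hx : x.1 = h K) :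
    (⟨h (down h x).1, (down h x).2⟩ : SV S α) = x := by
  have hex : ∃ y : (K : Tm S) × Val α (h K), (⟨h y.1, y.2⟩ : SV S α) = x :=
    ⟨⟨K, x.to (h K)⟩, SV.mk_to x hx⟩
  unfold down
  rw [dif_pos hex]
  exact hex.choose_spec

open Classical in
/-- The value of code `k` given by a function. -/
noncomputable def lowC (h : Tm S → Kd S) (k : Kd S)
    (w : List (Tm S × ((K : Tm S) × Val α (h K))) → α × ((K : Tm S) × Val α (h K))) : SV S α :=
  if k = .univ h then ⟨.univ h, w⟩ else ⟨k, SV.to ⟨h (w []).2.1, (w []).2.2⟩ k⟩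

open Classical in
/-- The function given by a value. -/
noncomputable def upC (h : Tm S → Kd S) (z : SV S α) :
    List (Tm S × ((K : Tm S) × Val α (h K))) → α × ((K : Tm S) × Val α (h K)) :=
  if z.1 = .univ h then (show Val α (.univ h) from z.to (.univ h)) else
    fun l => match l with
    | [] => (default, down h z)
    | _ => dpr h

theorem lowC_pos {h : Tm S → Kd S} {k : Kd S} (hk : k = .univ h)
    (w : List (Tm S × ((K : Tm S) × Val α (h K))) → α × ((K : Tm S) × Val α (h K))) :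
    lowC h k w = ⟨.univ h, w⟩ := if_pos hk

theorem lowC_neg {h : Tm S → Kd S} {k : Kd S} (hk : k ≠ .univ h)
    (w : List (Tm S × ((K : Tm S) × Val α (h K))) → α × ((K : Tm S) × Val α (h K))) :
    lowC h k w = ⟨k, SV.to ⟨h (w []).2.1, (w []).2.2⟩ k⟩ := if_neg hk

theorem upC_pos {h : Tm S → Kd S} {z : SV S α} (hz : z.1 = .univ h) :
    upC h z = z.to (.univ h) := if_pos hz

theorem upC_neg {h : Tm S → Kd S} {z : SV S α} (hz : z.1 ≠ .univ h) :
    (upC h z []).2 = down h z := by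
  have e : upC h z = fun l => match l with
    | [] => (default, down h z)
    | _ => dpr h := if_neg hz
  rw [e]

theorem low_up {h : Tm S → Kd S} {z : SV S α} {k : Kd S} (hz : z.1 = k)
    (hk : k = .univ h ∨ ∃ K, h K = k) : lowC h k (upC h z) = z := by
  subst hz
  by_cases h1 : z.1 = .univ h
  · rw [lowC_pos h1, upC_pos h1]
    exact SV.mk_to z h1
  · obtain ⟨K, hK⟩ := hk.resolve_left h1
    rw [lowC_neg h1, upC_neg h1, down_spec (h := h) (x := z) hK.symm]
    exact SV.mk_to z rfl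

/-- Application to an expression and a value; `c` is the code of the result. -/
noncomputable def SV.app (c : Kd S) : SV S α → Tm S → SV S α → SV S α
  | ⟨.arr k f, g⟩, N, x => ⟨f N, g N (x.to k)⟩
  | ⟨.univ h, w⟩, N, x => lowC h c fun l => w ((N, down h x) :: l)
  | _, _, _ => uv

/-- The value of a type. -/
def mkTb : Kd S → α → SV S α
  | .star, X => ⟨.star, X⟩
  | .univ h, X => ⟨.univ h, fun l => match l with
    | [] => (X, ⟨var 0, dflt (h (var 0))⟩)
    | _ => dpr h⟩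
  | k, _ => dfl k

theorem mkTb_fst (k : Kd S) (X : α) : (mkTb k X).1 = k := by
  cases k <;> rfl

/-- Codes of the kinds that are sorts. -/
def SCodeb (k : Kd S) : Prop := k = .star ∨ ∃ h, k = .univ h

theorem mkTb_set {k : Kd S} (h : SCodeb k) (X : α) : (mkTb k X).set = X := by
  rcases h with rfl | ⟨h, rfl⟩ <;> rfl

open Classical in
/-- Abstraction. -/
noncomputable def mkLb (k : Kd S) (k0 : Kd S) (p : Tm S → Prop) (f : Tm S → SV S α → SV S α) : SV S α :=
  match k with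
  | .arr k' g => ⟨.arr k' g, fun N v =>
      if p N ∧ k' = k0 then (f N ⟨k', v⟩).to (g N) else dflt (g N)⟩
  | .univ h => ⟨.univ h, fun l => match l with
    | [] => dpr h
    | (N, y) :: l => if p N ∧ h y.1 = k0 then upC h (f N ⟨h y.1, y.2⟩) l else dpr h⟩
  | k => dfl k

theorem mkLb_fst (k k0 : Kd S) (p : Tm S → Prop) (f : Tm S → SV S α → SV S α) :
    (mkLb k k0 p f).1 = k := by
  cases k <;> rfl

theorem mkLb_arr {k0 c : Kd S} {g : Tm S → Kd S} {p : Tm S → Prop} {f : Tm S → SV S α → SV S α}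
    {N : Tm S} {x : SV S α} (hN : p N) (hx : x.1 = k0) (hf : (f N x).1 = g N) :
    (mkLb (.arr k0 g) k0 p f).app c N x = f N x := by
  classical
  show (⟨g N, if p N ∧ k0 = k0 then (f N ⟨k0, x.to k0⟩).to (g N) else dflt (g N)⟩ : SV S α) = f N x
  rw [if_pos ⟨hN, rfl⟩, SV.mk_to x hx, SV.mk_to _ hf]

theorem mkLb_univ {k0 c : Kd S} {h : Tm S → Kd S} {p : Tm S → Prop} {f : Tm S → SV S α → SV S α}
    {N K : Tm S} {x : SV S α} (hN : p N) (hx : x.1 = k0) (hK : h K = k0)
    (hf : (f N x).1 = c) (hc : c = .univ h ∨ ∃ K, h K = c) :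
    (mkLb (.univ h) k0 p f).app c N x = f N x := by
  classical
  have h1 := down_spec (x := x) (h := h) (K := K) (by rw [hx, hK])
  have h2 : h (down h x).1 = k0 := by
    have := congrArg Sigma.fst h1
    exact this.trans hx
  show lowC h c (fun l => if p N ∧ h (down h x).1 = k0 then
    upC h (f N ⟨h (down h x).1, (down h x).2⟩) l else dpr h) = f N x
  have h3 : (fun l => if p N ∧ h (down h x).1 = k0 then
      upC h (f N ⟨h (down h x).1, (down h x).2⟩) l else dpr h) = upC h (f N x) := by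
    funext l
    rw [if_pos ⟨hN, h2⟩, h1]
  rw [h3]
  exact low_up hf hc

theorem mkLb_congr {k k' k0 k0' : Kd S} {p p' : Tm S → Prop} {f f' : Tm S → SV S α → SV S α}
    (hk : k = k') (hk0 : k0 = k0') (hp : ∀ N, p N ↔ p' N)
    (hf : ∀ N, p N → ∀ x, x.1 = k0 → f N x = f' N x) : mkLb k k0 p f = mkLb k' k0' p' f' := by
  classical
  subst hk hk0
  have e : p = p' := by funext N; exact propext (hp N)
  subst e
  cases k with
  | star => rfl
  | unit => rfl
  | arr k' g =>
    show (⟨_, _⟩ : SV S α) = ⟨_, _⟩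
    congr 1
    funext N v
    by_cases h : p N ∧ k' = k0
    · rw [if_pos h, if_pos h]
      exact congrArg (fun z : SV S α => z.to _) (hf N h.1 ⟨k', v⟩ h.2)
    · rw [if_neg h, if_neg h]
  | univ h =>
    show (⟨_, _⟩ : SV S α) = ⟨_, _⟩
    congr 1
    funext l
    rcases l with _ | ⟨⟨N, y⟩, l⟩
    · rfl
    · show (if _ then _ else _) = (if _ then _ else _)
      by_cases h' : p N ∧ h y.1 = k0
      · rw [if_pos h', if_pos h']
        have := hf N h'.1 ⟨h y.1, y.2⟩ h'.2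
        rw [this]
      · rw [if_neg h', if_neg h']

/-- Codes of the values of odd kinds. -/
inductive V1 (S α : Type u) : Type (u + 1) where
  | mk (I : Type u) (n : I → ℕ) (t : (i : I) → Fin (n i) → Tm S × Option (SV S α))
      (k : (i : I) → Fin (n i) → V1 S α)
      (F : List (Tm S × ((I → SV S α) ⊕ SV S α)) → SV S α) : V1 S α

/-- Arguments of the values of even kinds. -/
abbrev A0 (S α : Type u) : Type (u + 1) := List (Tm S × (V1 S α ⊕ SV S α))

/-- Values of even kinds. -/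
abbrev V0 (S α : Type u) : Type (u + 1) := A0 S α → SV S α

/-- Arguments of the values of odd kinds. -/
abbrev A1 (S α : Type u) : Type (u + 1) := List (Tm S × (V0 S α ⊕ SV S α))

/-- Agreement of arguments on a set of coordinates. -/
inductive AgA (W : Set (A0 S α)) : V0 S α ⊕ SV S α → V0 S α ⊕ SV S α → Prop where
  | inl {g g' : V0 S α} : (∀ k ∈ W, g k = g' k) → AgA W (.inl g) (.inl g')
  | inr (y : SV S α) : AgA W (.inr y) (.inr y)

theorem AgA.refl (W : Set (A0 S α)) (a : V0 S α ⊕ SV S α) : AgA W a a := by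
  cases a with
  | inl g => exact .inl fun _ _ => rfl
  | inr y => exact .inr y

theorem AgA.mono {W W' : Set (A0 S α)} (h : W ⊆ W') {a a' : V0 S α ⊕ SV S α} (ha : AgA W' a a') :
    AgA W a a' := by
  cases ha with
  | inl h' => exact .inl fun k hk => h' k (h hk)
  | inr y => exact .inr y

/-- Agreement of lists of arguments. -/
def AgL (W : Set (A0 S α)) (l l' : A1 S α) : Prop :=
  List.Forall₂ (fun p p' => p.1 = p'.1 ∧ AgA W p.2 p'.2) l l'

theorem AgL.refl (W : Set (A0 S α)) : ∀ l : A1 S α, AgL W l l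
  | [] => .nil
  | p :: l => .cons ⟨rfl, .refl W p.2⟩ (AgL.refl W l)

theorem AgL.mono {W W' : Set (A0 S α)} (h : W ⊆ W') {l l' : A1 S α} (hl : AgL W' l l') :
    AgL W l l' := List.Forall₂.imp (fun _ _ h' => ⟨h'.1, h'.2.mono h⟩) hl

/-- `F` only depends on the coordinates in `W`. -/
def SupOn (W : Set (A0 S α)) (F : A1 S α → SV S α) : Prop := ∀ l l', AgL W l l' → F l = F l'

/-- Functions with small support. -/
def Sup (F : A1 S α → SV S α) : Prop := ∃ W : Set (A0 S α), Small.{u} W ∧ SupOn W F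

theorem SupOn.mono {W W' : Set (A0 S α)} (h : W ⊆ W') {F : A1 S α → SV S α} (hF : SupOn W F) :
    SupOn W' F := fun l l' hl => hF l l' (hl.mono h)

/-- Values of odd kinds. -/
abbrev VO (S α : Type u) : Type (u + 1) := {F : A1 S α → SV S α // Sup F}

/-- Restriction of an argument to the coordinates `key`. -/
def resA {I : Type u} (key : I → A0 S α) : V0 S α ⊕ SV S α → (I → SV S α) ⊕ SV S α
  | .inl g => .inl fun i => g (key i)
  | .inr y => .inr y

/-- Restriction of a list of arguments. -/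
def resL {I : Type u} (key : I → A0 S α) (l : A1 S α) : List (Tm S × ((I → SV S α) ⊕ SV S α)) :=
  l.map fun p => (p.1, resA key p.2)

theorem AgA.res {I : Type u} {key : I → A0 S α} {a a' : V0 S α ⊕ SV S α}
    (h : AgA (Set.range key) a a') : resA key a = resA key a' := by
  cases h with
  | inl h => exact congrArg Sum.inl (funext fun i => h _ ⟨i, rfl⟩)
  | inr y => rfl

theorem AgA.of_res {I : Type u} {key : I → A0 S α} {a a' : V0 S α ⊕ SV S α}
    (h : resA key a = resA key a') : AgA (Set.range key) a a' := by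
  cases a with
  | inl g =>
    cases a' with
    | inl g' =>
      refine .inl ?_
      rintro _ ⟨i, rfl⟩
      exact congrFun (Sum.inl.inj h) i
    | inr y => cases h
  | inr y =>
    cases a' with
    | inl g' => cases h
    | inr y' =>
      cases (Sum.inr.inj h)
      exact .inr y

theorem AgL.res {I : Type u} {key : I → A0 S α} {l l' : A1 S α}
    (h : AgL (Set.range key) l l') : resL key l = resL key l' := by
  induction h with
  | nil => rfl
  | @cons q q' t t' h _ ih =>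
    show ((q.1, resA key q.2) :: resL key t) = ((q'.1, resA key q'.2) :: resL key t')
    rw [h.1, h.2.res, ih]

theorem AgL.of_res {I : Type u} {key : I → A0 S α} : ∀ {l l' : A1 S α},
    resL key l = resL key l' → AgL (Set.range key) l l'
  | [], [], _ => .nil
  | [], _ :: _, h => by cases h
  | _ :: _, [], h => by cases h
  | p :: l, p' :: l', h => by
    have h1 := List.head_eq_of_cons_eq h
    have h2 := List.tail_eq_of_cons_eq h
    have h3 := congrArg Prod.fst h1
    have h4 := congrArg Prod.snd h1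
    exact .cons ⟨h3, .of_res h4⟩ (AgL.of_res h2)

/-- A value or a code. -/
def arg1 : Option (SV S α) → V1 S α → V1 S α ⊕ SV S α
  | some y, _ => .inr y
  | none, v => .inl v

/-- The keys stored in a code. -/
def keyOf {I : Type u} (n : I → ℕ) (t : (i : I) → Fin (n i) → Tm S × Option (SV S α))
    (k : (i : I) → Fin (n i) → V1 S α) (i : I) : A0 S α :=
  List.ofFn fun j => ((t i j).1, arg1 (t i j).2 (k i j))

theorem v1_nonempty : Nonempty (V1 S α) :=
  ⟨.mk PEmpty.{u + 1} (fun i => i.elim) (fun i => i.elim) (fun i => i.elim) fun _ => uv⟩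

theorem keyOf_surj {I : Type u} (key : I → A0 S α) : ∃ n t k, keyOf n t k = key := by
  obtain ⟨v0⟩ := v1_nonempty (S := S) (α := α)
  have h : ∀ a : V1 S α ⊕ SV S α, ∃ o v, arg1 o v = a := fun a => by
    cases a with
    | inl v => exact ⟨none, v, rfl⟩
    | inr y => exact ⟨some y, v0, rfl⟩
  choose o v ho using h
  refine ⟨fun i => (key i).length, fun i j => (((key i).get j).1, o ((key i).get j).2),
    fun i j => v ((key i).get j).2, funext fun i => ?_⟩
  show List.ofFn (fun j => (((key i).get j).1, arg1 (o ((key i).get j).2)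
    (v ((key i).get j).2))) = key i
  simp only [ho]
  exact List.ofFn_get (key i)

/-- The value with a given code. -/
def dec : V1 S α → VO S α
  | .mk _ n t k F => ⟨fun l => F (resL (keyOf n t k) l), Set.range (keyOf n t k), small_range _,
      fun _ _ h => congrArg F h.res⟩

open Classical in
theorem dec_surj (F : VO S α) : ∃ v : V1 S α, dec v = F := by
  obtain ⟨F, W, hW, hF⟩ := F
  let key : Shrink.{u} W → A0 S α := fun i => ((equivShrink W).symm i).1
  have hr : Set.range key = W := by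
    ext x
    constructor
    · rintro ⟨i, rfl⟩; exact ((equivShrink W).symm i).2
    · intro hx
      exact ⟨equivShrink W ⟨x, hx⟩, by show ((equivShrink W).symm _).1 = _; simp⟩
  obtain ⟨n, t, k, hk⟩ := keyOf_surj key
  refine ⟨.mk (Shrink.{u} W) n t k fun t =>
    if h : ∃ l, resL key l = t then F h.choose else uv, ?_⟩
  refine Subtype.ext ?_
  funext l
  show (if h : ∃ l', resL key l' = resL (keyOf n t k) l then F h.choose else uv) = F l
  rw [hk]
  show (if h : ∃ l', resL key l' = resL key l then F h.choose else uv) = F l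
  have hex : ∃ l', resL key l' = resL key l := ⟨l, rfl⟩
  rw [dif_pos hex]
  have := AgL.of_res hex.choose_spec
  rw [hr] at this
  exact hF _ _ this

/-- A code of a value. -/
noncomputable def enc (F : VO S α) : V1 S α := (dec_surj F).choose

theorem dec_enc (F : VO S α) : dec (enc F) = F := (dec_surj F).choose_spec

theorem sup_const (x : SV S α) : Sup (fun _ : A1 S α => x) := ⟨∅, inferInstance, fun _ _ _ => rfl⟩

open Classical in
/-- The value given by a function. -/
noncomputable def mkO (F : A1 S α → SV S α) : VO S α :=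
  if h : Sup F then ⟨F, h⟩ else ⟨fun _ => uv, sup_const _⟩

theorem mkO_eq {F : A1 S α → SV S α} (h : Sup F) : mkO F = ⟨F, h⟩ := dif_pos h

/-- Values. -/
inductive GV (S α : Type u) : Type (u + 1) where
  | b (x : SV S α) : GV S α
  | e (g : V0 S α) : GV S α
  | o (F : VO S α) : GV S α

/-- Codes of kinds. -/
inductive Cl (S : Type u) : Type u where
  | b (k : Kd S) : Cl S
  | e : Cl S
  | o : Cl S

/-- The code of a value. -/
def GV.cl : GV S α → Cl S
  | .b x => .b x.1
  | .e _ => .e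
  | .o _ => .o

/-- The default value of a code. -/
def dfg : Cl S → GV S α
  | .b k => .b (dfl k)
  | .e => .e fun _ => uv
  | .o => .o ⟨fun _ => uv, sup_const _⟩

theorem dfg_cl (c : Cl S) : (dfg c : GV S α).cl = c := by cases c <;> rfl

/-- The candidate of a value. -/
def GV.set : GV S α → α
  | .b x => x.set
  | .e g => (g []).set
  | .o F => (F.1 []).set

/-- Coercions. -/
noncomputable def GV.a0 : GV S α → V1 S α ⊕ SV S α
  | .b x => .inr x
  | .e _ => .inr uv
  | .o F => .inl (enc F)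

/-- Coercions. -/
def GV.a1 : GV S α → V0 S α ⊕ SV S α
  | .b x => .inr x
  | .e g => .inl g
  | .o _ => .inr uv

/-- Coercions. -/
def of0 : V1 S α ⊕ SV S α → GV S α
  | .inl v => .o (dec v)
  | .inr x => .b x

/-- Coercions. -/
def of1 : V0 S α ⊕ SV S α → GV S α
  | .inl g => .e g
  | .inr x => .b x

/-- A value as a function. -/
def one (x : SV S α) {T : Type*} : List T → SV S α
  | [] => x
  | _ => uv

/-- Coercions. -/
def GV.tb : GV S α → SV S α
  | .b x => x
  | _ => uv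

/-- Coercions. -/
def GV.te : GV S α → V0 S α
  | .e g => g
  | .b x => one x
  | .o _ => fun _ => uv

/-- Coercions. -/
def GV.to : GV S α → A1 S α → SV S α
  | .o F => F.1
  | .b x => one x
  | .e _ => fun _ => uv

theorem of0_a0 {x : GV S α} (h : x.cl ≠ .e) : of0 x.a0 = x := by
  cases x with
  | b x => rfl
  | e g => exact absurd rfl h
  | o F => show GV.o (dec (enc F)) = _; rw [dec_enc]

theorem of1_a1 {x : GV S α} (h : x.cl ≠ .o) : of1 x.a1 = x := by
  cases x with
  | b x => rfl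
  | e g => rfl
  | o F => exact absurd rfl h

theorem cl_b {x : GV S α} {k : Kd S} (h : x.cl = .b k) : ∃ y : SV S α, x = .b y ∧ y.1 = k := by
  cases x with
  | b x => exact ⟨x, rfl, Cl.b.inj h⟩
  | e g => cases h
  | o F => cases h

theorem cl_e {x : GV S α} (h : x.cl = .e) : ∃ g, x = .e g := by
  cases x with
  | b x => cases h
  | e g => exact ⟨g, rfl⟩
  | o F => cases h

theorem cl_o {x : GV S α} (h : x.cl = .o) : ∃ F, x = .o F := by
  cases x with
  | b x => cases h
  | e g => cases h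
  | o F => exact ⟨F, rfl⟩

theorem sup_one (x : SV S α) : SupOn ∅ (one x : A1 S α → SV S α) := by
  intro l l' h
  cases h <;> rfl

theorem sup_tail {F : A1 S α → SV S α} (h : Sup F) (p : Tm S × (V0 S α ⊕ SV S α)) :
    Sup fun l => F (p :: l) := by
  obtain ⟨W, h1, h2⟩ := h
  exact ⟨W, h1, fun l l' hl => h2 _ _ (.cons ⟨rfl, .refl W p.2⟩ hl)⟩

/-- The ranked code. -/
def Cl.kd : Cl S → Kd S
  | .b k => k
  | _ => .unit

/-- Results of functions of even kinds. -/
noncomputable def resE (c : Cl S) (g : V0 S α) : GV S α :=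
  match c with
  | .b k => .b ⟨k, (g []).to k⟩
  | _ => .e g

/-- Results of functions of odd kinds. -/
noncomputable def resO (c : Cl S) (F : VO S α) : GV S α :=
  match c with
  | .b k => .b ⟨k, (F.1 []).to k⟩
  | _ => .o F

/-- Application; `c` is the code of the result. -/
noncomputable def GV.app (c : Cl S) : GV S α → Tm S → GV S α → GV S α
  | .b x, N, y => .b (x.app c.kd N y.tb)
  | .e g, N, y => resE c fun l => g ((N, y.a0) :: l)
  | .o F, N, y => resO c ⟨fun l => F.1 ((N, y.a1) :: l), sup_tail F.2 _⟩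

/-- The value given by a candidate. -/
def tsv (X : α) : SV S α := ⟨.star, (show Val α .star from X)⟩

/-- The value of a type. -/
noncomputable def mkT : Cl S → α → GV S α
  | .b k, X => .b (mkTb k X)
  | .e, X => .e (one (tsv X))
  | .o, X => .o (mkO (one (tsv X)))

theorem mkT_cl (c : Cl S) (X : α) : (mkT c X).cl = c := by
  cases c with
  | b k => show Cl.b _ = _; rw [mkTb_fst]
  | e => rfl
  | o => rfl

/-- Codes of the kinds that are sorts. -/
def SCode : Cl S → Prop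
  | .b k => SCodeb k
  | _ => True

theorem mkT_set {c : Cl S} (h : SCode c) (X : α) : (mkT c X).set = X := by
  cases c with
  | b k => exact mkTb_set h X
  | e => rfl
  | o =>
    show ((mkO (one (tsv X))).1 []).set = _
    rw [mkO_eq ⟨∅, inferInstance, sup_one _⟩]; rfl

open Classical in
/-- Functions of even kinds. -/
noncomputable def lamE (c0 : Cl S) (p : Tm S → Prop) (f : Tm S → GV S α → GV S α) : V0 S α
  | [] => uv
  | (N, a) :: l => if p N ∧ (of0 a).cl = c0 then (f N (of0 a)).te l else uv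

open Classical in
/-- Functions of odd kinds. -/
noncomputable def lamO (c0 : Cl S) (p : Tm S → Prop) (f : Tm S → GV S α → GV S α) : A1 S α → SV S α
  | [] => uv
  | (N, a) :: l => if p N ∧ (of1 a).cl = c0 then (f N (of1 a)).to l else uv

/-- Abstractions of ranked values. -/
noncomputable def lamB (k : Kd S) (c0 : Cl S) (p : Tm S → Prop) (f : Tm S → GV S α → GV S α) : SV S α :=
  match c0 with
  | .b k0 => mkLb k k0 p fun N x => (f N (.b x)).tb
  | _ => dfl k

/-- Abstraction. -/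
noncomputable def mkL (c c0 : Cl S) (p : Tm S → Prop) (f : Tm S → GV S α → GV S α) : GV S α :=
  match c with
  | .b k => .b (lamB k c0 p f)
  | .e => .e (lamE c0 p f)
  | .o => .o (mkO (lamO c0 p f))

theorem mkL_cl (c c0 : Cl S) (p : Tm S → Prop) (f : Tm S → GV S α → GV S α) :
    (mkL c c0 p f).cl = c := by
  cases c with
  | b k =>
    cases c0 with
    | b k0 => show Cl.b (mkLb _ _ _ _).1 = _; rw [mkLb_fst]
    | e => rfl
    | o => rfl
  | e => rfl
  | o => rfl

theorem mkL_arr {k0 : Kd S} {c : Cl S} {g : Tm S → Kd S} {p : Tm S → Prop}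
    {f : Tm S → GV S α → GV S α} {N : Tm S} {x : GV S α} (hN : p N) (hx : x.cl = .b k0)
    (hf : (f N x).cl = .b (g N)) :
    (mkL (.b (.arr k0 g)) (.b k0) p f).app c N x = f N x := by
  obtain ⟨y, rfl, hy⟩ := cl_b hx
  obtain ⟨z, hz, hz'⟩ := cl_b hf
  show GV.b (SV.app _ (mkLb (.arr k0 g) k0 p fun N x => (f N (.b x)).tb) N y) = _
  rw [mkLb_arr (f := fun N x => (f N (.b x)).tb) hN hy (by rw [hz]; exact hz'), hz]
  rfl

theorem mkL_univ {k0 c : Kd S} {h : Tm S → Kd S} {p : Tm S → Prop} {f : Tm S → GV S α → GV S α}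
    {N K : Tm S} {x : GV S α} (hN : p N) (hx : x.cl = .b k0) (hK : h K = k0)
    (hf : (f N x).cl = .b c) (hc : c = .univ h ∨ ∃ K, h K = c) :
    (mkL (.b (.univ h)) (.b k0) p f).app (.b c) N x = f N x := by
  obtain ⟨y, rfl, hy⟩ := cl_b hx
  obtain ⟨z, hz, hz'⟩ := cl_b hf
  show GV.b (SV.app c (mkLb (.univ h) k0 p fun N x => (f N (.b x)).tb) N y) = _
  rw [mkLb_univ (f := fun N x => (f N (.b x)).tb) (K := K) hN hy hK (by rw [hz]; exact hz') hc,
    hz]
  rfl

theorem mkL_e {c c0 : Cl S} {p : Tm S → Prop} {f : Tm S → GV S α → GV S α} {N : Tm S} {x : GV S α}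
    (hN : p N) (hx : x.cl = c0) (h0 : c0 ≠ .e) (hf : (f N x).cl = c) (hc : c ≠ .o) :
    (mkL .e c0 p f).app c N x = f N x := by
  classical
  subst hx
  show resE c (fun l => lamE x.cl p f ((N, x.a0) :: l)) = _
  have e : (fun l => lamE x.cl p f ((N, x.a0) :: l)) = (f N x).te := by
    funext l
    show (if _ then _ else _) = _
    rw [of0_a0 h0, if_pos ⟨hN, rfl⟩]
  rw [e]
  cases c with
  | b k =>
    obtain ⟨z, hz, hz'⟩ := cl_b hf
    rw [hz]
    show GV.b ⟨k, SV.to z k⟩ = _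
    rw [SV.mk_to z hz']
  | e =>
    obtain ⟨g, hg⟩ := cl_e hf
    rw [hg]; rfl
  | o => exact absurd rfl hc

theorem mkL_o {c c0 : Cl S} {p : Tm S → Prop} {f : Tm S → GV S α → GV S α} {N : Tm S} {x : GV S α}
    (hs : Sup (lamO c0 p f)) (hN : p N) (hx : x.cl = c0) (h0 : c0 ≠ .o)
    (hf : (f N x).cl = c) (hc : c ≠ .e) : (mkL .o c0 p f).app c N x = f N x := by
  classical
  subst hx
  show resO c ⟨fun l => (mkO (lamO x.cl p f)).1 ((N, x.a1) :: l), _⟩ = _
  have e : (fun l => (mkO (lamO x.cl p f)).1 ((N, x.a1) :: l)) = (f N x).to := by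
    funext l
    rw [mkO_eq hs]
    show (if _ then _ else _) = _
    rw [of1_a1 h0, if_pos ⟨hN, rfl⟩]
  cases c with
  | b k =>
    obtain ⟨z, hz, hz'⟩ := cl_b hf
    show GV.b ⟨k, SV.to ((fun l => (mkO (lamO x.cl p f)).1 ((N, x.a1) :: l)) []) k⟩ = _
    rw [e, hz]
    show GV.b ⟨k, SV.to z k⟩ = _
    rw [SV.mk_to z hz']
  | o =>
    obtain ⟨F, hF⟩ := cl_o hf
    rw [hF] at e ⊢
    show GV.o _ = _
    congr 1
    exact Subtype.ext e
  | e => exact absurd rfl hc

theorem mkL_congr {c c' c0 c0' : Cl S} {p p' : Tm S → Prop} {f f' : Tm S → GV S α → GV S α}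
    (hc : c = c') (hc0 : c0 = c0') (hp : ∀ N, p N ↔ p' N)
    (hf : ∀ N, p N → ∀ x, x.cl = c0 → f N x = f' N x) : mkL c c0 p f = mkL c' c0' p' f' := by
  classical
  subst hc hc0
  have e : p = p' := by funext N; exact propext (hp N)
  subst e
  cases c with
  | b k =>
    show GV.b _ = GV.b _
    congr 1
    cases c0 with
    | b k0 =>
      simp only [lamB]
      refine mkLb_congr rfl rfl (fun _ => Iff.rfl) fun N hN x hx => ?_
      rw [hf N hN (.b x) (by show Cl.b _ = _; rw [hx])]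
    | e => rfl
    | o => rfl
  | e =>
    show GV.e _ = GV.e _
    congr 1
    funext l
    rcases l with _ | ⟨⟨N, a⟩, l⟩
    · rfl
    · show (if _ then _ else _) = (if _ then _ else _)
      by_cases h : p N ∧ (of0 a).cl = c0
      · rw [if_pos h, if_pos h, hf N h.1 _ h.2]
      · rw [if_neg h, if_neg h]
  | o =>
    show GV.o (mkO _) = GV.o (mkO _)
    congr 2
    funext l
    rcases l with _ | ⟨⟨N, a⟩, l⟩
    · rfl
    · show (if _ then _ else _) = (if _ then _ else _)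
      by_cases h : p N ∧ (of1 a).cl = c0
      · rw [if_pos h, if_pos h, hf N h.1 _ h.2]
      · rw [if_neg h, if_neg h]

open Classical in
/-- Forced change of code. -/
noncomputable def castV (c : Cl S) (x : GV S α) : GV S α := if x.cl = c then x else dfg c

theorem castV_cl (c : Cl S) (x : GV S α) : (castV c x).cl = c := by
  unfold castV
  by_cases h : x.cl = c
  · rw [if_pos h, h]
  · rw [if_neg h, dfg_cl]

theorem castV_self {c : Cl S} {x : GV S α} (h : x.cl = c) : castV c x = x := if_pos h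

theorem castV_unit (x : GV S α) : castV (.b .unit) x = .b uv := by
  obtain ⟨y, h1, h2⟩ := cl_b (castV_cl (.b .unit) x)
  rw [h1, eq_uv h2]

/-- Extension of an assignment of values. -/
def vcons (x : GV S α) (ρ : ℕ → GV S α) : ℕ → GV S α
  | 0 => x
  | n + 1 => ρ n

end NM

end Vale.Agent.P340
end

section

/-! Sorts of kinds up to their final sorts. -/

namespace Vale.Agent.P340

namespace NM

open Tm
open W (Ne)
open PolR (TyS tyS_conv tyS_le)

universe u
variable {S : Type u} {P : Spec S} {C : Set S}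

/-- The sorts of a normal kind, up to its final sort. -/
def VwN (P : Spec S) (C : Set S) : Tm S → Ctx S → S → Prop
  | var n, G, m => J P G (var n) (sort m) ∧ KS P C m
  | app F N, G, m => J P G (app F N) (sort m) ∧ KS P C m
  | sort s, _, m => s ∈ C ∧ ∃ c ∈ C, P.ax c m
  | pi A B, G, m => ∃ a b, J P G A (sort a) ∧ VwN P C B (push A G) b ∧ P.rule a b m
  | lam _ _, _, _ => False

theorem VwN.ks {K : Tm S} : ∀ {G : Ctx S} {m : S}, VwN P C K G m → KS P C m := by
  induction K with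
  | var n => intro G m h; exact h.2
  | app F N _ _ => intro G m h; exact h.2
  | sort s => intro G m h; obtain ⟨-, c, h1, h2⟩ := h; exact .ax h1 h2
  | pi A B _ ih =>
    intro G m h
    obtain ⟨a, b, -, h1, h2⟩ := h
    exact .rule (ih h1) h2
  | lam A M _ _ => intro G m h; exact h.elim

theorem VwN.le {K : Tm S} : ∀ {G G' : Ctx S} {m : S}, CLe P G G' → VwN P C K G m →
    VwN P C K G' m := by
  induction K with
  | var n => intro G G' m h h'; exact ⟨h'.1.le h, h'.2⟩
  | app F N _ _ => intro G G' m h h'; exact ⟨h'.1.le h, h'.2⟩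
  | sort s => intro G G' m h h'; exact h'
  | pi A B _ ih =>
    intro G G' m h h'
    obtain ⟨a, b, h1, h2, h3⟩ := h'
    exact ⟨a, b, h1.le h, ih (h.push A) h2, h3⟩
  | lam A M _ _ => intro G G' m h h'; exact h'.elim

theorem VwN.typed {K : Tm S} : ∀ {G : Ctx S} {m : S}, Normal K →
    ((∃ s ∈ C, K = sort s) ∨ ∃ m, VwN P C K G m) → J P G K (sort m) → VwN P C K G m := by
  induction K with
  | var n =>
    intro G m hn h h'
    rcases h with ⟨s, -, e⟩ | ⟨m', h1, h2⟩
    · cases e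
    · cases (Ne.uniq (M := var n) trivial h1 h').sort_inj
      exact ⟨h1, h2⟩
  | app F N _ _ =>
    intro G m hn h h'
    rcases h with ⟨s, -, e⟩ | ⟨m', h1, h2⟩
    · cases e
    · cases (Ne.uniq (W.ne_of_app h1 hn) h1 h').sort_inj
      exact ⟨h1, h2⟩
  | sort s =>
    intro G m hn h h'
    obtain ⟨t, h1, h2⟩ := h'.sort_inv
    cases h2.sort_inj
    have hs : s ∈ C := by
      rcases h with ⟨s', h3, e⟩ | ⟨m', h3, -⟩
      · cases e; exact h3
      · exact h3
    exact ⟨hs, s, hs, h1⟩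
  | pi A B _ ih =>
    intro G m hn h h'
    rcases h with ⟨s, -, e⟩ | ⟨m', a, b, h1, h2, h3⟩
    · cases e
    · obtain ⟨a', b', c', k1, k2, k3, k4⟩ := h'.pi_inv
      cases k4.sort_inj
      exact ⟨a', b', k1, ih hn.piR (.inr ⟨b, h2⟩) k2, k3⟩
  | lam A M _ _ =>
    intro G m hn h h'
    obtain ⟨B, s', -, -, h⟩ := h'.lam_inv
    exact absurd h.symm (fun h => h.sort_pi)

/-- The sorts of a kind, up to its final sort. -/
def Vw (P : Spec S) (C : Set S) (G : Ctx S) (K : Tm S) (m : S) : Prop :=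
  HN K ∧ VwN P C (nf K) G m

/-- Kinds of families of types of sorts in `C`. -/
def Rl (P : Spec S) (C : Set S) (G : Ctx S) (K : Tm S) : Prop :=
  (∃ s ∈ C, Conv K (sort s)) ∨ ∃ m, Vw P C G K m

variable {G D : Ctx S} {K K' : Tm S} {m : S}

theorem Vw.conv (h : Vw P C G K m) (h' : Conv K K') : Vw P C G K' m :=
  ⟨h.1.of_conv h', by rw [← h.1.eq_of_conv h']; exact h.2⟩

theorem vw_conv (h : Conv K K') : Vw P C G K m ↔ Vw P C G K' m :=
  ⟨fun h' => h'.conv h, fun h' => h'.conv h.symm⟩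

theorem Rl.conv (h : Rl P C G K) (h' : Conv K K') : Rl P C G K' := by
  rcases h with ⟨s, h1, h2⟩ | ⟨m, h1⟩
  · exact .inl ⟨s, h1, h'.symm.trans h2⟩
  · exact .inr ⟨m, h1.conv h'⟩

theorem rl_conv (h : Conv K K') : Rl P C G K ↔ Rl P C G K' :=
  ⟨fun h' => h'.conv h, fun h' => h'.conv h.symm⟩

theorem Vw.ks (h : Vw P C G K m) : KS P C m := h.2.ks

theorem Vw.rl (h : Vw P C G K m) : Rl P C G K := .inr ⟨m, h⟩

theorem Vw.le {G' : Ctx S} (h : Vw P C G K m) (h' : CLe P G G') : Vw P C G' K m :=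
  ⟨h.1, h.2.le h'⟩

theorem Rl.le {G' : Ctx S} (h : Rl P C G K) (h' : CLe P G G') : Rl P C G' K := by
  rcases h with h | ⟨m, h1⟩
  · exact .inl h
  · exact .inr ⟨m, h1.le h'⟩

theorem Rl.hn (h : Rl P C G K) : HN K := by
  rcases h with ⟨s, -, h⟩ | ⟨m, h⟩
  · exact (HN.of_normal (normal_sort s)).of_conv h.symm
  · exact h.1

theorem Rl.nf (h : Rl P C G K) : (∃ s ∈ C, nf K = sort s) ∨ ∃ m, VwN P C (nf K) G m := by
  rcases h with ⟨s, h1, h⟩ | ⟨m, h⟩
  · refine .inl ⟨s, h1, ?_⟩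
    rw [((HN.of_normal (normal_sort s)).of_conv h.symm).eq_of_conv h, nf_normal (normal_sort s)]
  · exact .inr ⟨m, h.2⟩

theorem TyS.nf (hG : WFC P G) (hK : HN K) {a : S} (h : TyS P G K a) :
    J P G (nf K) (sort a) := by
  obtain ⟨Q, h1, h2⟩ := h
  rw [hK.eq_of_conv h1]
  exact h2.red hG (hK.of_conv h1).red

/-- Sorts of kinds are sorts up to the final sort. -/
theorem Rl.vw (hG : WFC P G) (h : Rl P C G K) (h' : TyS P G K m) : Vw P C G K m :=
  ⟨h.hn, VwN.typed h.hn.normal h.nf (TyS.nf hG h.hn h')⟩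

theorem Rl.vwj (hG : WFC P G) (h : Rl P C G K) (h' : J P G K (sort m)) : Vw P C G K m :=
  h.vw hG ⟨K, .refl _, h'⟩

/-! Products. -/

theorem vw_pi (hG : WFC P G) {A B : Tm S} {a0 : S} (hA0 : J P G A (sort a0)) (hA : HN A)
    (hB : HN B) : Vw P C G (pi A B) m ↔
      ∃ a b, TyS P G A a ∧ Vw P C (push A G) B b ∧ P.rule a b m := by
  have l1 : CLe P (push A G) (push (nf A) G) := CLe.conv hA0 hA.red.conv
  have l2 : CLe P (push (nf A) G) (push A G) :=
    CLe.conv (hA0.red hG hA.red) hA.red.conv.symm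
  constructor
  · rintro ⟨h1, h2⟩
    rw [hA.nf_pi hB] at h2
    obtain ⟨a, b, h3, h4, h5⟩ := h2
    exact ⟨a, b, ⟨_, hA.red.conv, h3⟩, ⟨hB, h4.le l2⟩, h5⟩
  · rintro ⟨a, b, h1, h2, h3⟩
    refine ⟨hA.pi hB, ?_⟩
    rw [hA.nf_pi hB]
    exact ⟨a, b, TyS.nf hG hA h1, h2.2.le l1, h3⟩

theorem rl_pi (hG : WFC P G) {A B : Tm S} {c : S} (h : J P G (pi A B) (sort c)) (hA : HN A)
    (hB : HN B) : Rl P C G (pi A B) ↔ Rl P C (push A G) B := by
  obtain ⟨a, b, c', k1, k2, k3, k4⟩ := h.pi_inv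
  cases k4.sort_inj
  constructor
  · rintro (⟨s, -, h1⟩ | ⟨m, h1⟩)
    · exact absurd h1.symm (fun h => h.sort_pi)
    · obtain ⟨a', b', -, h2, -⟩ := (vw_pi hG k1 hA hB).1 h1
      exact h2.rl
  · intro h1
    exact .inr ⟨_, (vw_pi hG k1 hA hB).2
      ⟨a, b, ⟨_, .refl _, k1⟩, h1.vwj (hG.push k1) k2, k3⟩⟩

/-! Substitution. -/

/-- `K` is convertible to a type or a sort. -/
def TyE (P : Spec S) (G : Ctx S) (K : Tm S) : Prop :=
  (∃ s, TyS P G K s) ∨ ∃ s, Conv K (sort s)

theorem tyE_conv (h : Conv K K') : TyE P G K ↔ TyE P G K' :=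
  or_congr (exists_congr fun _ => tyS_conv h)
    (exists_congr fun _ => ⟨fun h' => h.symm.trans h', fun h' => h.trans h'⟩)

theorem tyE_of_j (hG : WFC P G) {M : Tm S} (h : J P G M K) : TyE P G K := by
  rcases h.correct hG with ⟨s, rfl⟩ | ⟨s, hs⟩
  · exact .inr ⟨s, .refl _⟩
  · exact .inl ⟨s, _, .refl _, hs⟩

theorem TyE.of_sort {s : S} (h : J P G K (sort s)) : TyE P G K := .inl ⟨s, _, .refl _, h⟩

theorem TyE.hn (hW : WNKindVar P) (hN : NCtx P G) (h : TyE P G K) : HN K := by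
  rcases h with ⟨s, Q, h1, h2⟩ | ⟨s, h⟩
  · exact (hN.hn hW h2).of_conv h1.symm
  · exact (HN.of_normal (normal_sort s)).of_conv h.symm

theorem TyE.nf (hW : WNKindVar P) (hG : WFC P G) (hN : NCtx P G) (h : TyE P G K) :
    (∃ s, J P G (nf K) (sort s)) ∨ ∃ s, nf K = sort s := by
  have hn := h.hn hW hN
  rcases h with ⟨s, h⟩ | ⟨s, h⟩
  · exact .inl ⟨s, TyS.nf hG hn h⟩
  · refine .inr ⟨s, ?_⟩
    rw [hn.eq_of_conv h, nf_normal (normal_sort s)]

theorem tyS_sub {σ : ℕ → Tm S} (hσ : SubC P G D σ) {a : S} (h : TyS P G K a) :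
    TyS P D (K.sub σ) a := by
  obtain ⟨Q, h1, h2⟩ := h
  exact ⟨_, h1.sub σ, h2.sub hσ⟩

theorem rl_subN (hW : WNKindVar P) {K : Tm S} : ∀ {G D : Ctx S} {σ : ℕ → Tm S}, WFC P G → NCtx P G →
    WFC P D → NCtx P D → SubC P G D σ → Normal K →
    ((∃ s, J P G K (sort s)) ∨ ∃ s, K = sort s) → Rl P C D (K.sub σ) →
    ((∃ s ∈ C, K = sort s) ∨ ∃ m, VwN P C K G m) ∧
      ∀ m, VwN P C K G m → Vw P C D (K.sub σ) m := by
  have neu : ∀ {K : Tm S} {G D : Ctx S} {σ : ℕ → Tm S}, WFC P D → SubC P G D σ →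
      (∀ m, VwN P C K G m ↔ J P G K (sort m) ∧ KS P C m) →
      (∃ s, J P G K (sort s)) → Rl P C D (K.sub σ) →
      ((∃ s ∈ C, K = sort s) ∨ ∃ m, VwN P C K G m) ∧
      ∀ m, VwN P C K G m → Vw P C D (K.sub σ) m := by
    intro K G D σ hD hσ h1 ⟨s, h2⟩ h3
    have h4 := h3.vwj hD (h2.sub hσ)
    refine ⟨.inr ⟨s, (h1 s).2 ⟨h2, h4.ks⟩⟩, fun m hm => ?_⟩
    exact h3.vwj hD (((h1 m).1 hm).1.sub hσ)
  induction K with
  | var n =>
    intro G D σ hG hNG hD hND hσ hn hK h
    rcases hK with hK | ⟨s, e⟩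
    · exact neu hD hσ (fun _ => Iff.rfl) hK h
    · cases e
  | app F N _ _ =>
    intro G D σ hG hNG hD hND hσ hn hK h
    rcases hK with hK | ⟨s, e⟩
    · exact neu hD hσ (fun _ => Iff.rfl) hK h
    · cases e
  | sort s =>
    intro G D σ hG hNG hD hND hσ hn hK h
    have hs : s ∈ C := by
      rcases h with ⟨s', h1, h2⟩ | ⟨m, -, h2⟩
      · cases h2.sort_inj; exact h1
      · have e : nf (Tm.sub σ (sort s)) = sort s := nf_normal (normal_sort s)
        rw [e] at h2; exact h2.1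
    refine ⟨.inl ⟨s, hs, rfl⟩, fun m hm => ⟨HN.of_normal (normal_sort s), ?_⟩⟩
    have e : nf (Tm.sub σ (sort s)) = sort s := nf_normal (normal_sort s)
    rw [e]; exact hm
  | pi A B _ ih =>
    intro G D σ hG hNG hD hND hσ hn hK h
    rcases hK with ⟨c, hK⟩ | ⟨s, e⟩
    · obtain ⟨a, b, c', k1, k2, k3, k4⟩ := hK.pi_inv
      cases k4.sort_inj
      have kA : J P D (A.sub σ) (sort a) := k1.sub hσ
      have kB : J P (push (A.sub σ) D) (B.sub (ups σ)) (sort b) := k2.sub (hσ.up A)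
      have nA : HN (A.sub σ) := hND.hn hW kA
      have nB : HN (B.sub (ups σ)) := (hND.push kA).hn hW kB
      have h1 : Rl P C (push (A.sub σ) D) (B.sub (ups σ)) := (rl_pi hD (hK.sub hσ) nA nB).1 h
      obtain ⟨h2, h3⟩ := ih (hG.push k1) (hNG.push k1) (hD.push kA) (hND.push kA) (hσ.up A)
        hn.piR (.inl ⟨b, k2⟩) h1
      refine ⟨.inr ⟨_, a, b, k1, VwN.typed hn.piR h2 k2, k3⟩, ?_⟩
      rintro m ⟨a', b', h4, h5, h6⟩
      exact (vw_pi hD kA nA nB).2 ⟨a', b', ⟨_, .refl _, h4.sub hσ⟩, h3 _ h5, h6⟩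
    · cases e
  | lam A M _ _ =>
    intro G D σ hG hNG hD hND hσ hn hK h
    rcases hK with ⟨c, hK⟩ | ⟨s, e⟩
    · obtain ⟨B, s', -, -, h⟩ := hK.lam_inv
      exact absurd h.symm (fun h => h.sort_pi)
    · cases e

variable {σ : ℕ → Tm S}

/-- Kinds are stable under inverse substitution. -/
theorem Rl.of_sub (hW : WNKindVar P) (hG : WFC P G) (hNG : NCtx P G) (hD : WFC P D) (hND : NCtx P D)
    (hσ : SubC P G D σ) (hK : TyE P G K) (h : Rl P C D (K.sub σ)) : Rl P C G K := by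
  have hn := hK.hn hW hNG
  obtain ⟨h1, -⟩ := rl_subN hW hG hNG hD hND hσ hn.normal (hK.nf hW hG hNG)
    (h.conv (hn.red.conv.sub σ))
  rcases h1 with ⟨s, h2, h3⟩ | ⟨m, h2⟩
  · refine .inl ⟨s, h2, ?_⟩
    rw [← h3]; exact hn.red.conv
  · exact .inr ⟨m, hn, h2⟩

theorem Vw.sub (hW : WNKindVar P) (hG : WFC P G) (hNG : NCtx P G) (hD : WFC P D) (hND : NCtx P D)
    (hσ : SubC P G D σ) (hK : TyE P G K) (h : Rl P C D (K.sub σ)) (hm : Vw P C G K m) :
    Vw P C D (K.sub σ) m := by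
  have hn := hK.hn hW hNG
  obtain ⟨-, h1⟩ := rl_subN hW hG hNG hD hND hσ hn.normal (hK.nf hW hG hNG)
    (h.conv (hn.red.conv.sub σ))
  exact (h1 m hm.2).conv (hn.red.conv.symm.sub σ)

theorem _root_.Vale.Agent.P340.KS.kindSort {m : S} (h : KS P C m) : KindSort P m := by
  induction h with
  | ax _ h => exact .ax h
  | rule _ h ih => exact .rule h ih

/-- The elements of kinds have normal forms. -/
theorem VwN.hnm (hW : WNKindVar P) {K : Tm S} : ∀ {G : Ctx S} {m : S} {M : Tm S}, WFC P G →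
    NCtx P G → VwN P C K G m → J P G M K → HN M := by
  induction K with
  | var n =>
    intro G m M hG hN h hM
    exact hN.hnk hW hM h.1 h.2.kindSort
  | app F N _ _ =>
    intro G m M hG hN h hM
    exact hN.hnk hW hM h.1 h.2.kindSort
  | sort s =>
    intro G m M hG hN h hM
    exact hN.hn hW hM
  | pi A B _ ih =>
    intro G m M hG hN h hM
    obtain ⟨a, b, h1, h2, h3⟩ := h
    exact (ih (hG.push h1) (hN.push h1) h2 hM.app_var).of_app_var hW hG hN hM rfl
  | lam A M _ _ => intro G m M' hG hN h hM; exact h.elim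

theorem Rl.hnm (hW : WNKindVar P) (hG : WFC P G) (hN : NCtx P G) {M : Tm S} (hM : J P G M K)
    (h : Rl P C G K) : HN M := by
  have hK : TyE P G K := tyE_of_j hG hM
  have h1 := hK.hn hW hN
  have h2 : J P G M (Vale.Agent.P340.nf K) := by
    rcases hM.correct hG with ⟨s, rfl⟩ | ⟨s, hs⟩
    · rw [nf_normal (normal_sort s)]; exact hM
    · exact .conv hM (hs.red hG h1.red) h1.red.conv
  rcases h.nf with ⟨s, -, e⟩ | ⟨m, h3⟩
  · rw [e] at h2
    exact hN.hn hW h2
  · exact h3.hnm hW hG hN h2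

/-! Siblings. -/

theorem tyE_pi (hW : WNKindVar P) (hG : WFC P G) (hNG : NCtx P G) (hK : TyE P G K) {A B : Tm S}
    (h : Conv K (pi A B)) : ∃ A' B' c, Conv K (pi A' B') ∧ Conv A' A ∧ Conv B' B ∧
      J P G (pi A' B') (sort c) ∧ HN A' ∧ HN B' := by
  rcases hK with ⟨s, Q, h1, h2⟩ | ⟨s, h1⟩
  · obtain ⟨A', B', h3, h4, h5⟩ := W.red_pi (h1.symm.trans h)
    have h6 := h2.red hG h3
    obtain ⟨a, b, c', k1, k2, k3, k4⟩ := h6.pi_inv
    exact ⟨A', B', s, h1.trans h3.conv, h4, h5, h6, hNG.hn hW k1, (hNG.push k1).hn hW k2⟩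
  · exact absurd (h1.symm.trans h) (fun h => h.sort_pi)

theorem sib_rl (hW : WNKindVar P) {K K' : Tm S} (hs : Sib K K') : ∀ {G D : Ctx S} {σ : ℕ → Tm S},
    WFC P G → NCtx P G → WFC P D → NCtx P D → SubC P G D σ → TyE P G K → TyE P G K' →
    Rl P C G K → Rl P C G K' → (Rl P C D (K.sub σ) → Rl P C D (K'.sub σ)) ∧
      ∀ m, Vw P C G K m → Vw P C G K' m := by
  induction hs with
  | conv h =>
    intro G D σ _ _ _ _ _ _ _ _ _
    exact ⟨fun h' => h'.conv (h.sub σ), fun m h' => h'.conv h⟩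
  | @sort A B s t hA hB =>
    intro G D σ _ _ _ _ _ _ _ h1 h2
    have key : ∀ {K : Tm S} {s : S}, Conv K (sort s) → Rl P C G K → s ∈ C := by
      intro K s hK h
      rcases h with ⟨s', h3, h4⟩ | ⟨m, h3, h4⟩
      · cases (hK.symm.trans h4).sort_inj; exact h3
      · rw [h3.eq_of_conv hK, nf_normal (normal_sort s)] at h4; exact h4.1
    have ht := key hB h2
    refine ⟨fun _ => .inl ⟨t, ht, hB.sub σ⟩, fun m h3 => ?_⟩
    have h4 := (h3.conv hA).2
    rw [nf_normal (normal_sort s)] at h4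
    refine (show Vw P C G (sort t) m from ⟨HN.of_normal (normal_sort t), ?_⟩).conv hB.symm
    rw [nf_normal (normal_sort t)]
    exact ⟨ht, h4.2⟩
  | @pi A B C0 D1 D2 hA hB _ ih =>
    intro G D σ hG hNG hD hND hσ eA eB h1 h2
    obtain ⟨A1, B1, c1, k1, k2, k3, k4, k5, k6⟩ := tyE_pi hW hG hNG eA hA
    obtain ⟨A2, B2, c2, l1, l2, l3, l4, l5, l6⟩ := tyE_pi hW hG hNG eB hB
    obtain ⟨a1, b1, c1', m1, m2, m3, m4⟩ := k4.pi_inv
    obtain ⟨a2, b2, c2', n1, n2, n3, n4⟩ := l4.pi_inv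
    have r1 := (rl_pi hG k4 k5 k6).1 (h1.conv k1)
    have r2 := (rl_pi hG l4 l5 l6).1 (h2.conv l1)
    have hcc : Conv A2 A1 := l2.trans k2.symm
    have le : CLe P (push A2 G) (push A1 G) := CLe.conv n1 hcc
    obtain ⟨ih1, ih2⟩ := ih (hG.push m1) (hNG.push m1) (hD.push (m1.sub hσ))
      (hND.push (m1.sub hσ)) (hσ.up A1) ((tyE_conv k3).1 (.of_sort m2))
      ((tyE_conv l3).1 (.of_sort (n2.le le))) (r1.conv k3) ((r2.le le).conv l3)
    constructor
    · intro h3
      have nA1 := hND.hn hW (m1.sub hσ)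
      have nB1 := (hND.push (m1.sub hσ)).hn hW (m2.sub (hσ.up A1))
      have nA2 := hND.hn hW (n1.sub hσ)
      have nB2 := (hND.push (n1.sub hσ)).hn hW (n2.sub (hσ.up A2))
      have h4 := (rl_pi hD (k4.sub hσ) nA1 nB1).1 (h3.conv (k1.sub σ))
      have h5 := (ih1 (h4.conv (k3.sub _))).conv (l3.symm.sub _)
      have le' : CLe P (push (A1.sub σ) D) (push (A2.sub σ) D) :=
        CLe.conv (m1.sub hσ) (hcc.symm.sub σ)
      exact ((rl_pi hD (l4.sub hσ) nA2 nB2).2 (h5.le le')).conv (l1.symm.sub σ)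
    · intro m h3
      obtain ⟨a, b, h4, h5, h6⟩ := (vw_pi hG m1 k5 k6).1 (h3.conv k1)
      have h7 := (ih2 _ (h5.conv k3)).conv l3.symm
      have le' : CLe P (push A1 G) (push A2 G) := CLe.conv m1 hcc.symm
      exact ((vw_pi hG n1 l5 l6).2 ⟨a, b, (tyS_conv hcc.symm).1 h4, h7.le le', h6⟩).conv l1.symm

/-- The sorts of relevant siblings. -/
theorem Sib.vw (hW : WNKindVar P) (hG : WFC P G) (hNG : NCtx P G) (hs : Sib K K') (hK : TyE P G K)
    (hK' : TyE P G K') (h : Rl P C G K) (h' : Rl P C G K') : Vw P C G K m ↔ Vw P C G K' m :=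
  ⟨(sib_rl hW hs hG hNG hG hNG (subC_var G) hK hK' h h').2 m,
    (sib_rl hW hs.symm hG hNG hG hNG (subC_var G) hK' hK h' h).2 m⟩

end NM

end Vale.Agent.P340
end

section

/-! Semantics of types and families for ranked blocks. -/

namespace Vale.Agent.P340

namespace PolR

open Tm
open C1 (rep rep_conv rep_eq conv_subs TyD TyC pick tyD_conv tyC_conv pick_conv pick_spec
  scons_up scons_ups conv_scons)

universe u
variable {S : Type u}

/-- `Q` is convertible to a term with a type of a sort with the property `p`. -/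
def TP (P : Spec S) (p : S → Prop) (G : Ctx S) (Q : Tm S) : Prop :=
  ∃ Q' L a, Conv Q Q' ∧ J P G Q' L ∧ J P G L (sort a) ∧ p a

theorem tp_conv {P : Spec S} {p : S → Prop} {G : Ctx S} {Q Q' : Tm S} (h : Conv Q Q') :
    TP P p G Q ↔ TP P p G Q' :=
  ⟨fun ⟨R, L, a, h1, h2⟩ => ⟨R, L, a, h.symm.trans h1, h2⟩,
    fun ⟨R, L, a, h1, h2⟩ => ⟨R, L, a, h.trans h1, h2⟩⟩

theorem tp_iff {P : Spec S} (hP : Functional P) {p : S → Prop} {G : Ctx S} (hG : WFC P G)
    {Q L : Tm S} {a : S} (h : J P G Q L) (h' : J P G L (sort a)) : TP P p G Q ↔ p a := by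
  constructor
  · rintro ⟨Q', L', a', h1, h2, h3, h4⟩
    obtain ⟨R, r1, r2⟩ := h1.cr
    have h5 := hP.uniqueJ (h.red hG r1) (h2.red hG r2)
    cases hP.conv_sortJ hG h' h3 h5
    exact h4
  · intro h1; exact ⟨Q, L, a, .refl _, h, h', h1⟩

theorem tp_le {P : Spec S} {p : S → Prop} {G G' : Ctx S} (h : CLe P G G') {Q : Tm S}
    (hQ : TP P p G Q) : TP P p G' Q := by
  obtain ⟨Q', L, a, h1, h2, h3, h4⟩ := hQ
  exact ⟨Q', L, a, h1, h2.le h, h3.le h, h4⟩

/-- `T` is a type of an expression convertible to `Q`. -/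
def TyOf (P : Spec S) (D : Ctx S) (Q T : Tm S) : Prop := ∃ Q', Conv Q Q' ∧ J P D Q' T

variable {X : Par S}

end PolR

end Vale.Agent.P340
end

section

/-! Normality above a level, candidates, models. -/

namespace Vale.Agent.P340.W

universe u v
variable {S : Type u}

open Relation

/-- All memories are typed. -/
inductive Ok (P : Spec S) : Ctx S → MTm S → Prop where
  | var {G : Ctx S} (n : ℕ) : Ok P G (.var n)
  | sort {G : Ctx S} (s : S) : Ok P G (.sort s)
  | app {G : Ctx S} {M N : MTm S} : Ok P G M → Ok P G N → Ok P G (.app M N)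
  | lam {G : Ctx S} {A M : MTm S} : Ok P G A → Ok P (push A.er G) M → Ok P G (.lam A M)
  | pi {G : Ctx S} {A M : MTm S} : Ok P G A → Ok P (push A.er G) M → Ok P G (.pi A M)
  | mem {G : Ctx S} {M N : MTm S} {T : Tm S} : Ok P G M → Ok P G N → J P G N.er T →
      Ok P G (.mem M N)

/-- All redexes have types of class below `i`. -/
inductive Nm (P : Spec S) (lv : S → ℕ) (i : ℕ) : Ctx S → MTm S → Prop where
  | var {G : Ctx S} (n : ℕ) : Nm P lv i G (.var n)
  | sort {G : Ctx S} (s : S) : Nm P lv i G (.sort s)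
  | app {G : Ctx S} {M N : MTm S} : Nm P lv i G M → Nm P lv i G N →
      (MTm.IsLam M → ∃ T, J P G M.er T ∧ Lc P lv i G T) → Nm P lv i G (.app M N)
  | lam {G : Ctx S} {A M : MTm S} : Nm P lv i G A → Nm P lv i (push A.er G) M →
      Nm P lv i G (.lam A M)
  | pi {G : Ctx S} {A M : MTm S} : Nm P lv i G A → Nm P lv i (push A.er G) M →
      Nm P lv i G (.pi A M)
  | mem {G : Ctx S} {M N : MTm S} : Nm P lv i G M → Nm P lv i G N → Nm P lv i G (.mem M N)

/-- Typed expressions with memory. -/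
def Ty (P : Spec S) (G : Ctx S) (M : MTm S) (A : Tm S) : Prop := Ok P G M ∧ J P G M.er A

/-- Typed expressions that reduce to one with redexes of class below `i` only. -/
def Wn (P : Spec S) (lv : S → ℕ) (i : ℕ) (G : Ctx S) (M : MTm S) : Prop :=
  (∃ A, Ty P G M A) ∧ ∃ N, Sts M N ∧ Nm P lv i G N

/-- The same, and the reduct is not an abstraction. -/
def Wo (P : Spec S) (lv : S → ℕ) (i : ℕ) (G : Ctx S) (M : MTm S) : Prop :=
  (∃ A, Ty P G M A) ∧ ∃ N, Sts M N ∧ Nm P lv i G N ∧ ¬ N.IsLam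

/-- Insertion of the memory `Q` at the head. -/
inductive Ins (Q : MTm S) : MTm S → MTm S → Prop where
  | here (M : MTm S) : Ins Q M (.mem M Q)
  | app {M M' : MTm S} (N : MTm S) : Ins Q M M' → Ins Q (.app M N) (.app M' N)
  | mem {M M' : MTm S} (N : MTm S) : Ins Q M M' → Ins Q (.mem M N) (.mem M' N)

/-- Candidates. -/
structure CR (P : Spec S) (lv : S → ℕ) (i : ℕ) (D : Ctx S) (X : Set (MTm S)) : Prop where
  wn : ∀ {M : MTm S}, M ∈ X → Wn P lv i D M
  wo : ∀ {M : MTm S}, Wo P lv i D M → M ∈ X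
  exp : ∀ {M M' : MTm S}, St M M' → (∃ A, Ty P D M A) → M' ∈ X → M ∈ X
  ins : ∀ {M M' Q : MTm S}, Ins Q M M' → Wn P lv i D Q → M ∈ X → M' ∈ X

/-- Members of the interpretation `X` of the type `A` of the context `G`, under `θ`: for
types that are not of class at most `i` in `G`, or of class below `i` under `θ`, only `Wn` is
required. (Soundness is only claimed for types `A` with a sort.) -/
def DS (P : Spec S) (lv : S → ℕ) (i : ℕ) (D G : Ctx S) (θ : ℕ → Tm S) (A : Tm S)
    (X : Set (MTm S)) : Set (MTm S) :=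
  {r | Wn P lv i D r ∧ Ty P D r (A.sub θ) ∧
    (Lc P lv (i + 1) G A → ¬ Lc P lv i D (A.sub θ) → r ∈ X)}

/-- Interpretations of the types of class `i`. The context `D` is fixed, `th e` is a
substitution from `G` to `D`. -/
structure Mod (P : Spec S) (lv : S → ℕ) (i : ℕ) (D : Ctx S) where
  E : Type v
  th : E → ℕ → Tm S
  /-- valid environments for `G` -/
  Val : Ctx S → E → Prop
  /-- `Ext G e A Q e'`: the environment `e'` extends `e` by `Q` for a new variable of type `A` -/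
  Ext : Ctx S → E → Tm S → Tm S → E → Prop
  I : Ctx S → E → Tm S → Set (MTm S)
  sub : ∀ {G : Ctx S} {e : E}, Val G e → SubC P G D (th e)
  cr : ∀ {G : Ctx S} {e : E} {A : Tm S} {a : S}, WFC P G → NCtx P G → Val G e →
    J P G A (Tm.sort a) → Lc P lv (i + 1) G A → ¬ Lc P lv i D (A.sub (th e)) →
    CR P lv i D (I G e A)
  sib : ∀ {G : Ctx S} {e : E} {A B : Tm S} {a b : S}, WFC P G → NCtx P G → Val G e →
    J P G A (Tm.sort a) → J P G B (Tm.sort b) → Lc P lv (i + 1) G A →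
    ¬ Lc P lv i D (A.sub (th e)) → Sib A B → I G e A = I G e B
  ext_th : ∀ {G : Ctx S} {e e' : E} {A Q : Tm S}, Ext G e A Q e' → th e' = Tm.scons Q (th e)
  ext_val : ∀ {G : Ctx S} {e e' : E} {A Q : Tm S} {a : S}, WFC P G → NCtx P G → Val G e →
    J P G A (Tm.sort a) → J P D Q (A.sub (th e)) →
    (Lc P lv (i + 1) G A ∨ ∃ d, Q = Tm.var d) → Ext G e A Q e' → Val (push A G) e'
  ext_ex : ∀ {G : Ctx S} {e : E} {A Q : Tm S} {a : S}, WFC P G → NCtx P G → Val G e →
    J P G A (Tm.sort a) → J P D Q (A.sub (th e)) →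
    (Lc P lv (i + 1) G A ∨ ∃ d, Q = Tm.var d) → ∃ e', Ext G e A Q e'
  weak : ∀ {G : Ctx S} {e e' : E} {A B Q : Tm S} {a b : S}, WFC P G → NCtx P G → Val G e →
    J P G A (Tm.sort a) → J P D Q (A.sub (th e)) →
    (Lc P lv (i + 1) G A ∨ ∃ d, Q = Tm.var d) → Ext G e A Q e' → J P G B (Tm.sort b) →
    Lc P lv (i + 1) G B → ¬ Lc P lv i D (B.sub (th e)) →
    I (push A G) e' (Tm.wk B) = I G e B
  pi_app : ∀ {G : Ctx S} {e : E} {A B N : Tm S} {c : S}, WFC P G → NCtx P G → Val G e →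
    J P G (Tm.pi A B) (Tm.sort c) → Lc P lv (i + 1) G (Tm.pi A B) →
    ¬ Lc P lv i D ((Tm.pi A B).sub (th e)) → J P G N A →
    ∀ r, Ty P D r ((Tm.pi A B).sub (th e)) → r ∈ I G e (Tm.pi A B) →
    ∀ q ∈ DS P lv i D G (th e) A (I G e A), q.er = N.sub (th e) →
      MTm.app r q ∈ DS P lv i D G (th e) (Tm.inst B N) (I G e (Tm.inst B N))
  pi_lam : ∀ {G : Ctx S} {e : E} {A B : Tm S} {c : S}, WFC P G → NCtx P G → Val G e →
    J P G (Tm.pi A B) (Tm.sort c) → Lc P lv (i + 1) G (Tm.pi A B) →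
    ¬ Lc P lv i D ((Tm.pi A B).sub (th e)) → ∀ r, Wn P lv i D r →
    Ty P D r ((Tm.pi A B).sub (th e)) →
    (∀ q ∈ DS P lv i D G (th e) A (I G e A), ∀ e', Ext G e A q.er e' →
      MTm.app r q ∈ DS P lv i D (push A G) (th e') B (I (push A G) e' B)) →
    r ∈ I G e (Tm.pi A B)

end Vale.Agent.P340.W
end

section

/-! Closure properties. -/

namespace Vale.Agent.P340.W

universe u
variable {S : Type u} {P : Spec S} {lv : S → ℕ} {i : ℕ} {G D : Ctx S}

open Relation

/-- Substitutions by variables. -/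
theorem RenC.subC {r : ℕ → ℕ} (h : RenC G D r) : SubC P G D (fun n => Tm.var (r n)) := by
  intro n A hA
  have h1 := h n A hA
  rw [Tm.ren_eq_sub] at h1
  exact .var h1

theorem subC_up {r : ℕ → ℕ} (h : SubC P G D (fun n => Tm.var (r n))) (A : Tm S) :
    SubC P (push A G) (push (A.ren r) D) (fun n => Tm.var (Tm.up r n)) := by
  have h1 := h.up A
  rw [Tm.ups_varr, ← Tm.ren_eq_sub] at h1
  exact h1

theorem J.vren {M A : Tm S} (h : J P G M A) {r : ℕ → ℕ}
    (hr : SubC P G D (fun n => Tm.var (r n))) : J P D (M.ren r) (A.ren r) := by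
  rw [Tm.ren_eq_sub, Tm.ren_eq_sub]; exact h.sub hr

theorem Ok.vren {M : MTm S} (h : Ok P G M) : ∀ {D : Ctx S} {r : ℕ → ℕ},
    SubC P G D (fun n => Tm.var (r n)) → Ok P D (M.ren r) := by
  induction h with
  | var n => intros; exact .var _
  | sort s => intros; exact .sort _
  | app _ _ ih ih' => intro D r hr; exact .app (ih hr) (ih' hr)
  | lam _ _ ih ih' =>
    intro D r hr
    refine .lam (ih hr) ?_
    rw [MTm.er_ren]; exact ih' (subC_up hr _)
  | pi _ _ ih ih' =>
    intro D r hr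
    refine .pi (ih hr) ?_
    rw [MTm.er_ren]; exact ih' (subC_up hr _)
  | @mem G M N T _ _ hT ih ih' =>
    intro D r hr
    refine .mem (T := T.ren r) (ih hr) (ih' hr) ?_
    rw [MTm.er_ren]; exact J.vren hT hr

theorem Ok.ren {M : MTm S} (h : Ok P G M) {r : ℕ → ℕ} (hr : RenC G D r) : Ok P D (M.ren r) :=
  h.vren (RenC.subC hr)

theorem Ok.sub {M : MTm S} (h : Ok P G M) : ∀ {D : Ctx S} {σ : ℕ → MTm S},
    SubC P G D (fun n => (σ n).er) → (∀ n, Ok P D (σ n)) → Ok P D (M.sub σ) := by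
  have up : ∀ {G : Ctx S} {σ : ℕ → MTm S} (A : Tm S), (∀ n, Ok P G (σ n)) →
      ∀ n, Ok P (push A G) (MTm.ups σ n) := by
    intro G σ A h n
    cases n with
    | zero => exact .var 0
    | succ n => exact (h n).ren (renC_wk _ _)
  induction h with
  | var n => intro D σ _ h; exact h n
  | sort s => intros; exact .sort _
  | app _ _ ih ih' => intro D σ hσ hσ'; exact .app (ih hσ hσ') (ih' hσ hσ')
  | @lam G A M _ _ ih ih' =>
    intro D σ hσ hσ'
    refine .lam (ih hσ hσ') ?_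
    rw [MTm.er_sub]
    refine ih' ?_ (up _ hσ')
    rw [MTm.er_ups]; exact hσ.up _
  | @pi G A M _ _ ih ih' =>
    intro D σ hσ hσ'
    refine .pi (ih hσ hσ') ?_
    rw [MTm.er_sub]
    refine ih' ?_ (up _ hσ')
    rw [MTm.er_ups]; exact hσ.up _
  | @mem G M N T _ _ hT ih ih' =>
    intro D σ hσ hσ'
    refine .mem (T := T.sub fun n => (σ n).er) (ih hσ hσ') (ih' hσ hσ') ?_
    rw [MTm.er_sub]; exact hT.sub hσ

theorem Ok.inst {A : Tm S} {M N : MTm S} (h : Ok P (push A G) M) (hN : J P G N.er A)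
    (hN' : Ok P G N) : Ok P G (MTm.inst M N) := by
  refine h.sub ?_ fun n => ?_
  · rw [MTm.er_scons]
    exact (subC_var G).scons (by rw [Tm.sub_var]; exact hN)
  · cases n with
    | zero => exact hN'
    | succ n => exact .var n

theorem subC_ctx {A A' : Tm S} {s : S} (hA : J P G A (Tm.sort s)) (hc : Conv A A') :
    SubC P (push A G) (push A' G) (fun n => Tm.var n) := by
  intro n C hC
  show J P _ _ (C.sub Tm.var)
  rw [Tm.sub_var]
  cases n with
  | zero =>
    simp only [push_zero, Option.some.injEq] at hC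
    subst hC
    exact .conv (.var rfl) (hA.wk _) (hc.symm.ren _)
  | succ n => exact .var hC

theorem MTm.ren_id (M : MTm S) : M.ren (fun n => n) = M := by
  rw [MTm.ren_eq_sub]; exact MTm.sub_var M

theorem Ok.ctx {A A' : Tm S} {s : S} {M : MTm S} (h : Ok P (push A G) M)
    (hA : J P G A (Tm.sort s)) (hc : Conv A A') : Ok P (push A' G) M := by
  have := h.vren (r := fun n => n) (subC_ctx hA hc)
  rwa [MTm.ren_id] at this

theorem Ctr.ok {F N R : MTm S} (h : Ctr F N R) {A B : Tm S} (hF : Ok P G F)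
    (hT : J P G F.er (Tm.pi A B)) (hN : Ok P G N) (hNT : J P G N.er A) : Ok P G R := by
  induction h with
  | lam A' M N =>
    obtain ⟨B', s, h3, h4, h5⟩ := hT.lam_inv
    obtain ⟨h6, h7⟩ := h5.pi_inj
    obtain ⟨s1, s2, s3, h8, h9, -, -⟩ := h4.pi_inv
    have h10 : J P G N.er A'.er := .conv hNT h8 h6.symm
    cases hF with
    | lam k1 k2 => exact .mem (.mem (k2.inst h10 hN) hN hNT) k1 h8
  | mem Q _ ih =>
    cases hF with
    | mem k1 k2 k3 => exact .mem (ih k1 hT hN hNT) k2 k3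

theorem St.ok {M N : MTm S} (h : St M N) : ∀ {G : Ctx S} {T : Tm S}, WFC P G → Ok P G M →
    J P G M.er T → Ok P G N := by
  induction h with
  | root h =>
    intro G T hG hM hT
    obtain ⟨A, B, h1, h2, h3⟩ := hT.app_inv
    cases hM with
    | app k1 k2 => exact h.ok k1 h1 k2 h2
  | appL N _ ih =>
    intro G T hG hM hT
    obtain ⟨A, B, h1, h2, h3⟩ := hT.app_inv
    cases hM with
    | app k1 k2 => exact .app (ih hG k1 h1) k2
  | appR N _ ih =>
    intro G T hG hM hT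
    obtain ⟨A, B, h1, h2, h3⟩ := hT.app_inv
    cases hM with
    | app k1 k2 => exact .app k1 (ih hG k2 h2)
  | lamL M h ih =>
    intro G T hG hM hT
    obtain ⟨B, s, h1, h2, h3⟩ := hT.lam_inv
    obtain ⟨s1, s2, s3, h8, h9, -, -⟩ := h2.pi_inv
    cases hM with
    | lam k1 k2 => exact .lam (ih hG k1 h8) (k2.ctx h8 h.er.conv)
  | lamR A h ih =>
    intro G T hG hM hT
    obtain ⟨B, s, h1, h2, h3⟩ := hT.lam_inv
    obtain ⟨s1, s2, s3, h8, h9, -, -⟩ := h2.pi_inv
    cases hM with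
    | lam k1 k2 => exact .lam k1 (ih (hG.push h8) k2 h1)
  | piL M h ih =>
    intro G T hG hM hT
    obtain ⟨s1, s2, s3, h8, h9, -, -⟩ := hT.pi_inv
    cases hM with
    | pi k1 k2 => exact .pi (ih hG k1 h8) (k2.ctx h8 h.er.conv)
  | piR A h ih =>
    intro G T hG hM hT
    obtain ⟨s1, s2, s3, h8, h9, -, -⟩ := hT.pi_inv
    cases hM with
    | pi k1 k2 => exact .pi k1 (ih (hG.push h8) k2 h9)
  | memL N _ ih =>
    intro G T hG hM hT
    cases hM with
    | mem k1 k2 k3 => exact .mem (ih hG k1 hT) k2 k3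
  | memR M h ih =>
    intro G T hG hM hT
    cases hM with
    | mem k1 k2 k3 => exact .mem k1 (ih hG k2 k3) (k3.red hG h.er)

theorem Ty.st {M N : MTm S} {T : Tm S} (h : Ty P G M T) (hG : WFC P G) (h' : St M N) :
    Ty P G N T := ⟨h'.ok hG h.1 h.2, h.2.red hG h'.er⟩

theorem Ty.sts {M N : MTm S} {T : Tm S} (h : Ty P G M T) (hG : WFC P G) (h' : Sts M N) :
    Ty P G N T := by
  induction h' with
  | refl => exact h
  | tail _ h' ih => exact ih.st hG h'

theorem Ty.conv {M : MTm S} {A B : Tm S} {s : S} (h : Ty P G M A) (hB : J P G B (Tm.sort s))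
    (hc : Conv A B) : Ty P G M B := ⟨h.1, .conv h.2 hB hc⟩

/-! Normality. -/

theorem Nm.vren {M : MTm S} (h : Nm P lv i G M) : ∀ {D : Ctx S} {r : ℕ → ℕ},
    SubC P G D (fun n => Tm.var (r n)) → Nm P lv i D (M.ren r) := by
  induction h with
  | var n => intros; exact .var _
  | sort s => intros; exact .sort _
  | app _ _ hl ih ih' =>
    intro D r hr
    refine .app (ih hr) (ih' hr) fun hl' => ?_
    obtain ⟨T, h1, h2⟩ := hl (MTm.isLam_ren.1 hl')
    refine ⟨T.ren r, ?_, ?_⟩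
    · rw [MTm.er_ren]; exact J.vren h1 hr
    · rw [Tm.ren_eq_sub]; exact h2.sub hr
  | lam _ _ ih ih' =>
    intro D r hr
    refine .lam (ih hr) ?_
    rw [MTm.er_ren]; exact ih' (subC_up hr _)
  | pi _ _ ih ih' =>
    intro D r hr
    refine .pi (ih hr) ?_
    rw [MTm.er_ren]; exact ih' (subC_up hr _)
  | mem _ _ ih ih' => intro D r hr; exact .mem (ih hr) (ih' hr)

theorem Nm.ctx {A A' : Tm S} {s : S} {M : MTm S} (h : Nm P lv i (push A G) M)
    (hA : J P G A (Tm.sort s)) (hc : Conv A A') : Nm P lv i (push A' G) M := by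
  have := h.vren (r := fun n => n) (subC_ctx hA hc)
  rwa [MTm.ren_id] at this

theorem Nm.of_ren (hW : WNKindVar P) {M : MTm S} : ∀ {G D : Ctx S} {r : ℕ → ℕ} {T : Tm S},
    RenC G D r → WFC P D → WFC P G → NCtx P G → Ok P G M → J P G M.er T →
    Nm P lv i D (M.ren r) → Nm P lv i G M := by
  induction M with
  | var n => intros; exact .var _
  | sort s => intros; exact .sort _
  | app M N ihM ihN =>
    intro G D r T hr hD hG hN hM hT h
    obtain ⟨A, B, h1, h2, h3⟩ := hT.app_inv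
    cases hM with
    | app k1 k2 =>
      cases h with
      | app l1 l2 l3 =>
        refine .app (ihM hr hD hG hN k1 h1 l1) (ihN hr hD hG hN k2 h2 l2) fun hl => ?_
        obtain ⟨T1, m1, m2⟩ := l3 (MTm.isLam_ren.2 hl)
        rw [MTm.er_ren] at m1
        exact ⟨_, h1, Lc.of_ren hW hr hD hG hN h1 (m2.sib (m1.sib (h1.ren hr)))⟩
  | lam A M ihA ihM =>
    intro G D r T hr hD hG hN hM hT h
    obtain ⟨B, s, h1, h2, h3⟩ := hT.lam_inv
    obtain ⟨s1, s2, s3, h8, h9, -, -⟩ := h2.pi_inv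
    cases hM with
    | lam k1 k2 =>
      cases h with
      | lam l1 l2 =>
        rw [MTm.er_ren] at l2
        exact .lam (ihA hr hD hG hN k1 h8 l1)
          (ihM (hr.up _) (hD.push (h8.ren hr)) (hG.push h8) (hN.push h8) k2 h1 l2)
  | pi A M ihA ihM =>
    intro G D r T hr hD hG hN hM hT h
    obtain ⟨s1, s2, s3, h8, h9, -, -⟩ := hT.pi_inv
    cases hM with
    | pi k1 k2 =>
      cases h with
      | pi l1 l2 =>
        rw [MTm.er_ren] at l2
        exact .pi (ihA hr hD hG hN k1 h8 l1)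
          (ihM (hr.up _) (hD.push (h8.ren hr)) (hG.push h8) (hN.push h8) k2 h9 l2)
  | mem M N ihM ihN =>
    intro G D r T hr hD hG hN hM hT h
    cases hM with
    | mem k1 k2 k3 =>
      cases h with
      | mem l1 l2 => exact .mem (ihM hr hD hG hN k1 hT l1) (ihN hr hD hG hN k2 k3 l2)

theorem Ctr.isLam {F N R : MTm S} (h : Ctr F N R) : F.IsLam := by
  induction h with
  | lam => trivial
  | mem _ _ ih => exact ih

theorem Nm.nf {M : MTm S} (h : Nm P lv 0 G M) : ∀ Q, ¬ St M Q := by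
  induction h with
  | var n => intro Q h; cases h
  | sort s => intro Q h; cases h
  | app _ _ hl ih ih' =>
    intro Q h
    cases h with
    | root h =>
      obtain ⟨T, -, T', c, -, -, h3⟩ := hl h.isLam
      exact absurd h3 (Nat.not_lt_zero _)
    | appL _ h => exact ih _ h
    | appR _ h => exact ih' _ h
  | lam _ _ ih ih' =>
    intro Q h
    cases h with
    | lamL _ h => exact ih _ h
    | lamR _ h => exact ih' _ h
  | pi _ _ ih ih' =>
    intro Q h
    cases h with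
    | piL _ h => exact ih _ h
    | piR _ h => exact ih' _ h
  | mem _ _ ih ih' =>
    intro Q h
    cases h with
    | memL _ h => exact ih _ h
    | memR _ h => exact ih' _ h

theorem nm_top (hlv : ∀ s, lv s < i) {M : MTm S} : ∀ {G : Ctx S} {T : Tm S}, WFC P G →
    Ok P G M → J P G M.er T → Nm P lv i G M := by
  induction M with
  | var n => intros; exact .var _
  | sort s => intros; exact .sort _
  | app M N ihM ihN =>
    intro G T hG hM hT
    obtain ⟨A, B, h1, h2, h3⟩ := hT.app_inv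
    cases hM with
    | app k1 k2 =>
      refine .app (ihM hG k1 h1) (ihN hG k2 h2) fun _ => ⟨_, h1, ?_⟩
      rcases h1.correct hG with ⟨s, e⟩ | ⟨s, h⟩
      · cases e
      · exact .of_sort h (hlv _)
  | lam A M ihA ihM =>
    intro G T hG hM hT
    obtain ⟨B, s, h1, h2, h3⟩ := hT.lam_inv
    obtain ⟨s1, s2, s3, h8, h9, -, -⟩ := h2.pi_inv
    cases hM with
    | lam k1 k2 => exact .lam (ihA hG k1 h8) (ihM (hG.push h8) k2 h1)
  | pi A M ihA ihM =>
    intro G T hG hM hT
    obtain ⟨s1, s2, s3, h8, h9, -, -⟩ := hT.pi_inv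
    cases hM with
    | pi k1 k2 => exact .pi (ihA hG k1 h8) (ihM (hG.push h8) k2 h9)
  | mem M N ihM ihN =>
    intro G T hG hM hT
    cases hM with
    | mem k1 k2 k3 => exact .mem (ihM hG k1 hT) (ihN hG k2 k3)

/-! Insertion of memories. -/

theorem Ins.er {Q M M' : MTm S} (h : Ins Q M M') : M'.er = M.er := by
  induction h with
  | here M => rfl
  | app N _ ih => show Tm.app _ _ = Tm.app _ _; rw [ih]
  | mem N _ ih => exact ih

theorem Ins.ok {Q M M' : MTm S} (h : Ins Q M M') {T : Tm S} (hM : Ok P G M)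
    (hQ : Ty P G Q T) : Ok P G M' := by
  induction h with
  | here M => exact .mem hM hQ.1 hQ.2
  | app N _ ih => cases hM with
    | app k1 k2 => exact .app (ih k1) k2
  | mem N _ ih => cases hM with
    | mem k1 k2 k3 => exact .mem (ih k1) k2 k3

theorem Ins.ty {Q M M' : MTm S} (h : Ins Q M M') {T A : Tm S} (hM : Ty P G M A)
    (hQ : Ty P G Q T) : Ty P G M' A := ⟨h.ok hM.1 hQ, by rw [h.er]; exact hM.2⟩

theorem Ins.ctr {Q F F' : MTm S} (h : Ins Q F F') : ∀ {N R : MTm S}, Ctr F N R →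
    ∃ R', Ctr F' N R' ∧ Ins Q R R' := by
  induction h with
  | here M => intro N R h; exact ⟨_, .mem _ h, .here _⟩
  | app N _ ih => intro N R h; cases h
  | mem N _ ih =>
    intro N' R h
    cases h with
    | mem _ h =>
      obtain ⟨R', h1, h2⟩ := ih h
      exact ⟨_, .mem _ h1, .mem _ h2⟩

theorem Ins.st {Q M M' : MTm S} (h : Ins Q M M') : ∀ {N : MTm S}, St M N →
    ∃ N', St M' N' ∧ Ins Q N N' := by
  induction h with
  | here M => intro N h; exact ⟨_, .memL _ h, .here _⟩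
  | app N h ih =>
    intro N' h'
    cases h' with
    | root h' =>
      obtain ⟨R', h1, h2⟩ := h.ctr h'
      exact ⟨_, .root h1, h2⟩
    | appL _ h' =>
      obtain ⟨R', h1, h2⟩ := ih h'
      exact ⟨_, .appL _ h1, .app _ h2⟩
    | appR _ h' => exact ⟨_, .appR _ h', .app _ h⟩
  | mem N h ih =>
    intro N' h'
    cases h' with
    | memL _ h' =>
      obtain ⟨R', h1, h2⟩ := ih h'
      exact ⟨_, .memL _ h1, .mem _ h2⟩
    | memR _ h' => exact ⟨_, .memR _ h', .mem _ h⟩

theorem Ins.sts {Q M M' N : MTm S} (h : Ins Q M M') (h' : Sts M N) :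
    ∃ N', Sts M' N' ∧ Ins Q N N' := by
  induction h' with
  | refl => exact ⟨M', .refl _, h⟩
  | tail _ h' ih =>
    obtain ⟨N', h1, h2⟩ := ih
    obtain ⟨N'', h3, h4⟩ := h2.st h'
    exact ⟨N'', h1.trans h3.sts, h4⟩

theorem Ins.nm {Q Q' M M' : MTm S} (h : Ins Q M M') (hM : Nm P lv i G M) (hQ : Sts Q Q')
    (hQ' : Nm P lv i G Q') : ∃ N, Sts M' N ∧ Nm P lv i G N ∧ (N.IsLam ↔ M.IsLam) ∧
      N.er = M.er := by
  induction h with
  | here M => exact ⟨_, (Sts.refl M).mem hQ, .mem hM hQ', Iff.rfl, rfl⟩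
  | app N _ ih =>
    cases hM with
    | app k1 k2 k3 =>
      obtain ⟨N', h1, h2, h3, h4⟩ := ih k1
      refine ⟨_, h1.app (.refl N), .app h2 k2 fun hl => ?_, Iff.rfl, ?_⟩
      · obtain ⟨T, h5, h6⟩ := k3 (h3.1 hl)
        exact ⟨T, by rw [h4]; exact h5, h6⟩
      · show Tm.app _ _ = Tm.app _ _
        rw [h4]
  | mem N _ ih =>
    cases hM with
    | mem k1 k2 =>
      obtain ⟨N', h1, h2, h3, h4⟩ := ih k1
      exact ⟨_, h1.mem (.refl N), .mem h2 k2, h3, h4⟩

/-! Weak normalizability. -/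

theorem Wo.wn {M : MTm S} (h : Wo P lv i G M) : Wn P lv i G M := by
  obtain ⟨h1, N, h2, h3, -⟩ := h
  exact ⟨h1, N, h2, h3⟩

theorem Wn.exp {M M' : MTm S} (h : Wn P lv i G M') (h' : St M M') (hM : ∃ A, Ty P G M A) :
    Wn P lv i G M := by
  obtain ⟨-, N, h2, h3⟩ := h
  exact ⟨hM, N, h'.sts.trans h2, h3⟩

theorem Wn.ins {Q M M' : MTm S} (h : Wn P lv i G M) (h' : Ins Q M M') (hQ : Wn P lv i G Q) :
    Wn P lv i G M' := by
  obtain ⟨⟨A, h1⟩, N, h2, h3⟩ := h
  obtain ⟨⟨B, k1⟩, Q', k2, k3⟩ := hQ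
  obtain ⟨N', h4, h5⟩ := h'.sts h2
  obtain ⟨N'', h6, h7, -, -⟩ := h5.nm h3 k2 k3
  exact ⟨⟨A, h'.ty h1 k1⟩, N'', h4.trans h6, h7⟩

theorem Wo.ins {Q M M' : MTm S} (h : Wo P lv i G M) (h' : Ins Q M M') (hQ : Wn P lv i G Q) :
    Wo P lv i G M' := by
  obtain ⟨⟨A, h1⟩, N, h2, h3, h0⟩ := h
  obtain ⟨⟨B, k1⟩, Q', k2, k3⟩ := hQ
  obtain ⟨N', h4, h5⟩ := h'.sts h2
  obtain ⟨N'', h6, h7, h8, -⟩ := h5.nm h3 k2 k3
  exact ⟨⟨A, h'.ty h1 k1⟩, N'', h4.trans h6, h7, fun hl => h0 (h8.1 hl)⟩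

theorem cr_wn : CR P lv i D {M | Wn P lv i D M} where
  wn h := h
  wo h := h.wn
  exp h hM h' := Wn.exp h' h hM
  ins h hQ h' := Wn.ins h' h hQ

theorem Wn.app_low {F N : MTm S} (hG : WFC P G) (hF : Wn P lv i G F) (hN : Wn P lv i G N)
    (hT : ∃ A, Ty P G (MTm.app F N) A) {T : Tm S} (h : J P G F.er T) (hl : Lc P lv i G T) :
    Wn P lv i G (MTm.app F N) := by
  obtain ⟨-, F', h1, h2⟩ := hF
  obtain ⟨-, N', h3, h4⟩ := hN
  exact ⟨hT, _, h1.app h3, .app h2 h4 fun _ => ⟨T, h.red hG h1.er, hl⟩⟩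

theorem Wo.app {F N : MTm S} (hF : Wo P lv i G F) (hN : Wn P lv i G N)
    (hT : ∃ A, Ty P G (MTm.app F N) A) : Wo P lv i G (MTm.app F N) := by
  obtain ⟨-, F', h1, h2, h0⟩ := hF
  obtain ⟨-, N', h3, h4⟩ := hN
  exact ⟨hT, _, h1.app h3, .app h2 h4 fun h => absurd h h0, fun h => h.elim⟩

theorem wo_var {n : ℕ} {A : Tm S} (h : J P G (Tm.var n) A) : Wo P lv i G (MTm.var n) :=
  ⟨⟨A, .var n, h⟩, _, .refl _, .var n, fun h => h.elim⟩

theorem wo_sort {s : S} {A : Tm S} (h : J P G (Tm.sort s) A) : Wo P lv i G (MTm.sort s) :=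
  ⟨⟨A, .sort s, h⟩, _, .refl _, .sort s, fun h => h.elim⟩

/-- Generic instances. -/
def r0 (d : ℕ) : ℕ → ℕ
  | 0 => d
  | n + 1 => n

theorem renC_r0 {A : Tm S} {d : ℕ} (hd : G d = some A) : RenC (push A G) G (r0 d) := by
  intro n B hB
  cases n with
  | zero =>
    simp only [push_zero, Option.some.injEq] at hB
    subst hB
    show G d = _
    rw [hd, Tm.wk, Tm.ren_ren]
    congr 1
    exact (Tm.ren_id A).symm
  | succ n =>
    rw [push_succ, Option.map_eq_some_iff] at hB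
    obtain ⟨C, hC, rfl⟩ := hB
    show G n = _
    rw [hC, Tm.wk, Tm.ren_ren]
    congr 1
    exact (Tm.ren_id C).symm

theorem ren_r0 (M : MTm S) (d : ℕ) : M.ren (r0 d) = MTm.inst M (MTm.var d) := by
  rw [MTm.ren_eq_sub]
  unfold MTm.inst
  congr 1
  funext n; cases n <;> rfl

/-- Weak normalizability of a body from a generic instance. -/
theorem wn_body (hW : WNKindVar P) (hG : WFC P G) (hN : NCtx P G) {A : Tm S} {a : S}
    (hA : J P G A (Tm.sort a)) {d : ℕ} (hd : G d = some A) {M : MTm S} {B : Tm S}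
    (hM : Ty P (push A G) M B) (h : Wn P lv i G (MTm.inst M (MTm.var d))) :
    Wn P lv i (push A G) M := by
  obtain ⟨-, N, h1, h2⟩ := h
  rw [← ren_r0] at h1
  obtain ⟨N', h3, rfl⟩ := h1.ren_inv
  have h4 := hM.sts (hG.push hA) h3
  exact ⟨⟨B, hM⟩, N', h3, h2.of_ren hW (renC_r0 hd) hG (hG.push hA) (hN.push hA) h4.1 h4.2⟩

theorem Wn.lam {A M : MTm S} (hG : WFC P G) (hA : Wn P lv i G A)
    (hM : Wn P lv i (push A.er G) M) {T : Tm S} (hT : Ty P G (MTm.lam A M) T) :
    Wn P lv i G (MTm.lam A M) := by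
  obtain ⟨-, A', h1, h2⟩ := hA
  obtain ⟨-, M', h3, h4⟩ := hM
  obtain ⟨B, s, k1, k2, k3⟩ := hT.2.lam_inv
  obtain ⟨s1, s2, s3, k4, -, -, -⟩ := k2.pi_inv
  exact ⟨⟨T, hT⟩, _, h1.lam h3, .lam h2 (h4.ctx k4 h1.er.conv)⟩

theorem Wo.pi {A M : MTm S} (hG : WFC P G) (hA : Wn P lv i G A)
    (hM : Wn P lv i (push A.er G) M) {T : Tm S} (hT : Ty P G (MTm.pi A M) T) :
    Wo P lv i G (MTm.pi A M) := by
  obtain ⟨-, A', h1, h2⟩ := hA
  obtain ⟨-, M', h3, h4⟩ := hM
  obtain ⟨s1, s2, s3, k4, -, -, -⟩ := hT.2.pi_inv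
  exact ⟨⟨T, hT⟩, _, h1.pi h3, .pi h2 (h4.ctx k4 h1.er.conv), fun h => h.elim⟩

/-! Members of interpretations. -/

theorem DS.exp {θ : ℕ → Tm S} {A : Tm S} {X : Set (MTm S)}
    (hX : Lc P lv (i + 1) G A → ¬ Lc P lv i D (A.sub θ) → CR P lv i D X) {M M' : MTm S}
    (h : St M M') (hM : Ty P D M (A.sub θ)) (h' : M' ∈ DS P lv i D G θ A X) :
    M ∈ DS P lv i D G θ A X :=
  ⟨h'.1.exp h ⟨_, hM⟩, hM, fun h1 h2 => (hX h1 h2).exp h ⟨_, hM⟩ (h'.2.2 h1 h2)⟩

theorem DS.ins {θ : ℕ → Tm S} {A : Tm S} {X : Set (MTm S)}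
    (hX : Lc P lv (i + 1) G A → ¬ Lc P lv i D (A.sub θ) → CR P lv i D X) {M M' Q : MTm S}
    (h : Ins Q M M') (hQ : Wn P lv i D Q) (h' : M ∈ DS P lv i D G θ A X) :
    M' ∈ DS P lv i D G θ A X := by
  obtain ⟨T, hT⟩ := hQ.1
  exact ⟨h'.1.ins h hQ, h.ty h'.2.1 hT, fun h1 h2 => (hX h1 h2).ins h hQ (h'.2.2 h1 h2)⟩

theorem DS.wo {θ : ℕ → Tm S} {A : Tm S} {X : Set (MTm S)}
    (hX : Lc P lv (i + 1) G A → ¬ Lc P lv i D (A.sub θ) → CR P lv i D X) {M : MTm S}
    (h : Wo P lv i D M) (hM : Ty P D M (A.sub θ)) : M ∈ DS P lv i D G θ A X :=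
  ⟨h.wn, hM, fun h1 h2 => (hX h1 h2).wo h⟩

end Vale.Agent.P340.W
end

section

/-! Closure properties of candidates: intersections, function spaces. -/

namespace Vale.Agent.P340.W

universe u v
variable {S : Type u} {P : Spec S} {lv : S → ℕ} {i : ℕ} {D : Ctx S}

theorem Ins.ok_inv {Q M M' : MTm S} (h : Ins Q M M') {G : Ctx S} (h' : Ok P G M') :
    Ok P G M := by
  induction h with
  | here M => cases h' with
    | mem h1 _ _ => exact h1
  | app N _ ih => cases h' with
    | app h1 h2 => exact .app (ih h1) h2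
  | mem N _ ih => cases h' with
    | mem h1 h2 h3 => exact .mem (ih h1) h2 h3

/-- Function spaces: `Q j` are the arguments, `Y j` the sets of the results. -/
theorem cr_arr {ι : Sort v} (hD : WFC P D) {Q : ι → MTm S} {Y : ι → Set (MTm S)}
    (hQ : ∀ j, Wn P lv i D (Q j)) (hY : ∀ j, CR P lv i D (Y j)) :
    CR P lv i D {r | Wn P lv i D r ∧
      ∀ j, (∃ A, Ty P D (.app r (Q j)) A) → MTm.app r (Q j) ∈ Y j} where
  wn h := h.1
  wo h := ⟨h.wn, fun j hj => (hY j).wo (h.app (hQ j) hj)⟩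
  exp h hM h' := by
    refine ⟨Wn.exp h'.1 h hM, fun j hj => ?_⟩
    obtain ⟨A, hA⟩ := hj
    exact (hY j).exp (.appL _ h) ⟨A, hA⟩ (h'.2 j ⟨A, hA.st hD (.appL _ h)⟩)
  ins h hQ' h' := by
    refine ⟨Wn.ins h'.1 h hQ', fun j hj => ?_⟩
    obtain ⟨A, h1, h2⟩ := hj
    refine (hY j).ins (.app _ h) hQ' (h'.2 j ⟨A, ?_, ?_⟩)
    · cases h1 with
      | app k1 k2 => exact .app (h.ok_inv k1) k2
    · have h3 : J P D (Tm.app (MTm.er _) (MTm.er _)) A := h2
      rw [h.er] at h3
      exact h3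

end Vale.Agent.P340.W
end

section

/-! Definitions of the model with ranked values for arbitrary specifications. -/

namespace Vale.Agent.P340

namespace NM

open Tm
open W (Ne MTm Lc Wn Ty LvOk)
open PolR (Kd TyS TyOf)
open C1 (rep TyD TyC)

universe u
variable {S : Type u}

/-- The data of a model of the types of class `i`: sets `Q`, `E`, `O` of sorts of kinds with
ranked values, with arbitrary functions and with functions of small support, the set `U` of
sorts of kinds with universal codes, ranks below `R`, and a context. -/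
structure Par (S : Type u) where
  P : Spec S
  lv : S → ℕ
  i : ℕ
  Q : Set S
  U : Set S
  E : Set S
  O : Set S
  rk : S → ℕ
  R : ℕ
  D : Ctx S
  wf : WFC P D

/-- The sorts of level `i`. -/
def Par.C (X : Par S) : Set S := {c | X.lv c = X.i}

/-- Sorts of kinds. -/
def Par.K (X : Par S) (m : S) : Prop := KS X.P X.C m

/-- The sorts of a kind up to its final sort. -/
abbrev Par.Vw (X : Par S) (G : Ctx S) (K : Tm S) (m : S) : Prop := NM.Vw X.P X.C G K m

/-- Kinds. -/
abbrev Par.Rl (X : Par S) (G : Ctx S) (K : Tm S) : Prop := NM.Rl X.P X.C G K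

/-- Kinds with a sort in `Q`. -/
def Par.HQ (X : Par S) (G : Ctx S) (K : Tm S) : Prop := ∃ m ∈ X.Q, X.Vw G K m

/-- Kinds with a sort in `E`. -/
def Par.HE (X : Par S) (G : Ctx S) (K : Tm S) : Prop := ∃ m ∈ X.E, X.Vw G K m

/-- Kinds with a sort in `O`. -/
def Par.HO (X : Par S) (G : Ctx S) (K : Tm S) : Prop := ∃ m ∈ X.O, X.Vw G K m

/-- Kinds whose elements have ranked values. -/
def Par.DQ (X : Par S) (G : Ctx S) (K : Tm S) : Prop := X.HQ G K ∨ (X.HE G K ∧ X.HO G K)

/-- Kinds whose elements have values. -/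
def Par.Vd (X : Par S) (G : Ctx S) (K : Tm S) : Prop := X.HQ G K ∨ X.HE G K ∨ X.HO G K

/-- Kinds of rank below `r`. -/
def Par.Low (X : Par S) (G : Ctx S) (r : ℕ) (K : Tm S) : Prop :=
  ∃ m ∈ X.Q, X.Vw G K m ∧ X.rk m < r

/-- Kinds of rank `r` with universal codes. -/
def Par.UQ (X : Par S) (G : Ctx S) (r : ℕ) (K : Tm S) : Prop :=
  (∃ m ∈ X.Q, m ∈ X.U ∧ X.Vw G K m ∧ X.rk m = r) ∧ ¬ X.Low G r K

/-- Kinds of rank `r` without universal codes. -/
def Par.NQ (X : Par S) (G : Ctx S) (r : ℕ) (K : Tm S) : Prop :=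
  ((∃ m ∈ X.Q, m ∉ X.U ∧ X.Vw G K m ∧ X.rk m = r) ∨ (r = X.R ∧ X.HE G K ∧ X.HO G K)) ∧
    ¬ X.Low G r K

/-- The codes on which the code of a kind depends. -/
def Par.Pr (X : Par S) (K' K : Tm S) : Prop :=
  (∃ r K1, X.UQ X.D r K ∧ (TyE X.P X.D K1 ∧ X.Low X.D r K1) ∧ K' = nf K1) ∨
  ∃ A B, K = pi A B ∧ X.DQ X.D K ∧ (∀ r, ¬ X.UQ X.D r K) ∧
    ((X.Rl X.D A ∧ K' = nf A) ∨
      ∃ N, TyC X.P X.D N A ∧ X.Rl X.D (inst B N) ∧ K' = nf (inst B N))

theorem Par.wff (X : Par S) : WellFounded fun K' K => X.Pr K' K ∧ Acc X.Pr K := by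
  refine ⟨fun K => Acc.intro K fun K' h => ?_⟩
  obtain ⟨h1, h2⟩ := h
  have h3 := h2.inv h1
  clear h1 h2
  induction h3 with
  | intro K _ ih => exact Acc.intro K fun K' h => ih K' h.1

open Classical in
/-- One unfolding of the code of a kind. -/
noncomputable def Par.kdF (X : Par S) (K : Tm S)
    (rec : (K' : Tm S) → (X.Pr K' K ∧ Acc X.Pr K) → Kd S) : Kd S :=
  if h : ∃ r, X.UQ X.D r K then .univ fun K1 =>
    if hl : (TyE X.P X.D K1 ∧ X.Low X.D h.choose K1) ∧ Acc X.Pr K then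
      rec (nf K1) ⟨.inl ⟨_, _, h.choose_spec, hl.1, rfl⟩, hl.2⟩ else .unit
  else match K, rec, h with
  | sort s, _, _ => if s ∈ X.C then .star else .unit
  | pi A B, rec, h =>
    if hQ : X.DQ X.D (pi A B) ∧ Acc X.Pr (pi A B) then
      .arr (if hA : X.Rl X.D A then rec (nf A)
          ⟨.inr ⟨A, B, rfl, hQ.1, fun r hr => h ⟨r, hr⟩, .inl ⟨hA, rfl⟩⟩, hQ.2⟩
        else .unit)
        (fun N => if hN : TyC X.P X.D N A ∧ X.Rl X.D (inst B N) then rec (nf (inst B N))
          ⟨.inr ⟨A, B, rfl, hQ.1, fun r hr => h ⟨r, hr⟩, .inr ⟨N, hN.1, hN.2, rfl⟩⟩, hQ.2⟩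
        else .unit)
    else .unit
  | _, _, _ => .unit

/-- The code of a normal kind. -/
noncomputable def Par.kd0 (X : Par S) : Tm S → Kd S := X.wff.fix X.kdF

theorem Par.kd0_eq (X : Par S) (K : Tm S) : X.kd0 K = X.kdF K fun K' _ => X.kd0 K' :=
  X.wff.fix_eq X.kdF K

open Classical in
/-- The code of a kind. -/
noncomputable def Par.kd (X : Par S) (K : Tm S) : Kd S := if HN K then X.kd0 (nf K) else .unit

open Classical in
/-- The coding of the kinds of lower rank. -/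
noncomputable def Par.hh (X : Par S) (r : ℕ) (K : Tm S) : Kd S :=
  if TyE X.P X.D K ∧ X.Low X.D r K then X.kd K else .unit

open Classical in
/-- The code of the values of the elements of a kind; `.b .unit` for other types. -/
noncomputable def Par.ek (X : Par S) (K : Tm S) : Cl S :=
  if X.DQ X.D K then .b (X.kd K) else if X.HE X.D K then .e else if X.HO X.D K then .o
  else .b (X.kd K)

open Classical in
/-- The code of an expression. -/
noncomputable def Par.cd (X : Par S) (Q : Tm S) : Cl S :=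
  if h : ∃ T, TyOf X.P X.D Q T ∧ X.Rl X.D T then X.ek h.choose else .b .unit

/-- Expressions with values. -/
def Par.TQ (X : Par S) (Q : Tm S) : Prop := ∃ T, TyOf X.P X.D Q T ∧ X.Vd X.D T

open Classical in
/-- The code of the arguments. -/
noncomputable def Par.dm (X : Par S) (Q : Tm S) : Cl S :=
  if h : ∃ A B, TyOf X.P X.D Q (pi A B) then X.ek h.choose else .b .unit

open Classical in
/-- The code of the result for the argument `N`. -/
noncomputable def Par.rg (X : Par S) (Q N : Tm S) : Cl S :=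
  if h : ∃ B A, TyOf X.P X.D Q (pi A B) ∧ X.Rl X.D (pi A B) then X.ek (inst h.choose N)
  else .b .unit

/-- The candidates. -/
abbrev Par.α (X : Par S) : Type u := {Y : Set (MTm S) // W.CR X.P X.lv X.i X.D Y}

instance (X : Par S) : Inhabited X.α := ⟨⟨_, W.cr_wn⟩⟩

/-- The set of a product. -/
def Par.piS (X : Par S) (A : Tm S) (B : Tm S → Tm S) (Y : X.α)
    (f : Tm S → GV S X.α → X.α) : Set (MTm S) :=
  {r | Wn X.P X.lv X.i X.D r ∧ ∀ q, Wn X.P X.lv X.i X.D q → TyD X.P X.D q.er A →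
    (¬ Lc X.P X.lv X.i X.D A → q ∈ Y.1) → ∀ x : GV S X.α, x.cl = X.ek A →
      (∃ T, Ty X.P X.D (MTm.app r q) T) → Wn X.P X.lv X.i X.D (MTm.app r q) ∧
        (¬ Lc X.P X.lv X.i X.D (B q.er) → MTm.app r q ∈ (f q.er x).1)}

theorem cr_if {P : Spec S} {lv : S → ℕ} {i : ℕ} {D : Ctx S} {Y : Set (MTm S)} {p : Prop}
    (h : W.CR P lv i D Y) : W.CR P lv i D {r | Wn P lv i D r ∧ (p → r ∈ Y)} where
  wn h := h.1
  wo h' := ⟨h'.wn, fun _ => h.wo h'⟩
  exp h1 hM h' := ⟨W.Wn.exp h'.1 h1 hM, fun h2 => h.exp h1 hM (h'.2 h2)⟩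
  ins h1 hQ h' := ⟨W.Wn.ins h'.1 h1 hQ, fun h2 => h.ins h1 hQ (h'.2 h2)⟩

theorem cr_piS (X : Par S) (A : Tm S) (B : Tm S → Tm S) (Y : X.α)
    (f : Tm S → GV S X.α → X.α) : W.CR X.P X.lv X.i X.D (X.piS A B Y f) := by
  have h := W.cr_arr (P := X.P) (lv := X.lv) (i := X.i) (D := X.D) X.wf
    (ι := {j : MTm S × GV S X.α // Wn X.P X.lv X.i X.D j.1 ∧ TyD X.P X.D j.1.er A ∧
      (¬ Lc X.P X.lv X.i X.D A → j.1 ∈ Y.1) ∧ j.2.cl = X.ek A})
    (Q := fun j => j.1.1)
    (Y := fun j => {r | Wn X.P X.lv X.i X.D r ∧ (¬ Lc X.P X.lv X.i X.D (B j.1.1.er) →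
      r ∈ (f j.1.1.er j.1.2).1)})
    (fun j => j.2.1) (fun j => cr_if (f j.1.1.er j.1.2).2)
  have e : X.piS A B Y f = {r | Wn X.P X.lv X.i X.D r ∧
      ∀ j : {j : MTm S × GV S X.α // Wn X.P X.lv X.i X.D j.1 ∧ TyD X.P X.D j.1.er A ∧
      (¬ Lc X.P X.lv X.i X.D A → j.1 ∈ Y.1) ∧ j.2.cl = X.ek A},
      (∃ T, Ty X.P X.D (MTm.app r j.1.1) T) → MTm.app r j.1.1 ∈
        {r | Wn X.P X.lv X.i X.D r ∧ (¬ Lc X.P X.lv X.i X.D (B j.1.1.er) →
      r ∈ (f j.1.1.er j.1.2).1)}} := by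
    ext r
    exact ⟨fun h => ⟨h.1, fun j => h.2 _ j.2.1 j.2.2.1 j.2.2.2.1 _ j.2.2.2.2⟩,
      fun h => ⟨h.1, fun q h1 h2 h3 x h4 => h.2 ⟨(q, x), h1, h2, h3, h4⟩⟩⟩
  rw [e]; exact h

/-- The candidate of a product. -/
def Par.piC (X : Par S) (A : Tm S) (B : Tm S → Tm S) (Y : X.α)
    (f : Tm S → GV S X.α → X.α) : X.α := ⟨X.piS A B Y f, cr_piS X A B Y f⟩

open Classical in
/-- Case distinction. -/
noncomputable def cif {α : Type u} (p : Prop) (x y : GV S α) : GV S α := if p then x else y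

theorem cif_pos {α : Type u} {p : Prop} (h : p) (x y : GV S α) : cif p x y = x := if_pos h

theorem cif_neg {α : Type u} {p : Prop} (h : ¬ p) (x y : GV S α) : cif p x y = y := if_neg h

/-- The value of an application. -/
noncomputable def Par.apV (X : Par S) (F N : Tm S) (u v : GV S X.α) : GV S X.α :=
  cif (X.TQ F) (castV (X.rg F N) (u.app (X.rg F N) (rep N) (castV (X.dm F) v)))
    (dfg (X.rg F N))

/-- The value of an abstraction `Q` with domain `A`. -/
noncomputable def Par.lmV (X : Par S) (A Q : Tm S) (f : Tm S → GV S X.α → GV S X.α) :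
    GV S X.α :=
  cif (X.TQ Q) (mkL (X.cd Q) (X.ek A) (fun N => TyC X.P X.D N A)
    (fun N x => castV (X.rg Q N) (f N x))) (dfg (X.cd Q))

/-- Interpretation of families (first component) and types (second component). -/
noncomputable def Par.sm (X : Par S) : (ℕ → Tm S) → (ℕ → GV S X.α) → Tm S → GV S X.α × X.α
  | _, ρ, var n => (ρ n, (ρ n).set)
  | θ, _, sort s => (mkT (X.cd ((sort s).sub θ)) default, default)
  | θ, ρ, app F N =>
    (X.apV (F.sub θ) (N.sub θ) (X.sm θ ρ F).1 (X.sm θ ρ N).1,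
      (X.apV (F.sub θ) (N.sub θ) (X.sm θ ρ F).1 (X.sm θ ρ N).1).set)
  | θ, ρ, lam A M =>
    (X.lmV (A.sub θ) ((lam A M).sub θ) (fun N x => (X.sm (scons N θ) (vcons x ρ) M).1),
      (X.lmV (A.sub θ) ((lam A M).sub θ) (fun N x => (X.sm (scons N θ) (vcons x ρ) M).1)).set)
  | θ, ρ, pi A B =>
    (mkT (X.cd ((pi A B).sub θ)) (X.piC (A.sub θ) (fun N => B.sub (scons N θ)) (X.sm θ ρ A).2
        (fun N x => (X.sm (scons N θ) (vcons x ρ) B).2)),
      X.piC (A.sub θ) (fun N => B.sub (scons N θ)) (X.sm θ ρ A).2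
        (fun N x => (X.sm (scons N θ) (vcons x ρ) B).2))

/-- Values of families. -/
noncomputable def Par.sem (X : Par S) (θ : ℕ → Tm S) (ρ : ℕ → GV S X.α) (M : Tm S) :
    GV S X.α := (X.sm θ ρ M).1

/-- Candidates of types. -/
noncomputable def Par.tc (X : Par S) (θ : ℕ → Tm S) (ρ : ℕ → GV S X.α) (M : Tm S) :
    X.α := (X.sm θ ρ M).2

section
variable {X : Par S} {θ : ℕ → Tm S} {ρ : ℕ → GV S X.α}

theorem sem_sort (s : S) : X.sem θ ρ (sort s) = mkT (X.cd ((sort s).sub θ)) default := rfl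

theorem sem_app (F N : Tm S) : X.sem θ ρ (app F N) =
    X.apV (F.sub θ) (N.sub θ) (X.sem θ ρ F) (X.sem θ ρ N) := rfl

theorem sem_lam (A M : Tm S) : X.sem θ ρ (lam A M) = X.lmV (A.sub θ) ((lam A M).sub θ)
    (fun N x => X.sem (scons N θ) (vcons x ρ) M) := rfl

theorem sem_pi (A B : Tm S) : X.sem θ ρ (pi A B) =
    mkT (X.cd ((pi A B).sub θ)) (X.tc θ ρ (pi A B)) := rfl

theorem tc_pi (A B : Tm S) : X.tc θ ρ (pi A B) =
    X.piC (A.sub θ) (fun N => B.sub (scons N θ)) (X.tc θ ρ A)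
      (fun N x => X.tc (scons N θ) (vcons x ρ) B) := rfl

end

/-- The conditions on the sorts. -/
structure Par.Ranked (X : Par S) : Prop where
  q1 : ∀ a b m, X.P.rule a b m → X.K b → m ∈ X.Q → b ∈ X.Q ∧ (X.K a → a ∈ X.Q)
  u1 : ∀ a b m, X.P.rule a b m → X.K b → m ∈ X.Q → m ∈ X.U →
    (X.rk b < X.rk m ∨ (X.rk b = X.rk m ∧ b ∈ X.U)) ∧ (X.K a → X.rk a < X.rk m)
  u2 : ∀ a b m, X.P.rule a b m → X.K b → m ∈ X.Q → m ∉ X.U →
    (X.K a → X.rk a < X.rk m ∨ (X.rk a = X.rk m ∧ a ∉ X.U)) ∧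
    (X.rk b < X.rk m ∨ (X.rk b = X.rk m ∧ b ∉ X.U ∧
      ∀ k, X.K k → k ∈ X.Q → k ∉ X.U → X.rk k = X.rk m → ¬ KS X.P {k} a))
  e1 : ∀ a b m, X.P.rule a b m → X.K b → m ∈ X.E →
    (b ∈ X.E ∨ b ∈ X.Q) ∧ (X.K a → a ∈ X.O ∨ a ∈ X.Q)
  o1 : ∀ a b m, X.P.rule a b m → X.K b → m ∈ X.O →
    (b ∈ X.O ∨ b ∈ X.Q) ∧ (X.K a → a ∈ X.E ∨ a ∈ X.Q)
  q2 : ∀ a b c, X.P.rule a b c → X.K a → b ∈ X.C → c ∈ X.C → a ∈ X.Q ∨ a ∈ X.E
  dqe : ∀ a, a ∈ X.Q → a ∉ X.E
  dqo : ∀ a, a ∈ X.Q → a ∉ X.O
  deo : ∀ a, a ∈ X.E → a ∉ X.O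
  uc : ∀ m m', X.rk m = X.rk m' → (m ∈ X.U ↔ m' ∈ X.U)
  rb : ∀ m, X.rk m < X.R

/-- The assumptions of the model. -/
structure Par.Setup (X : Par S) : Prop where
  wn : WNKindVar X.P
  rnk : X.Ranked
  nc : NCtx X.P X.D
  lvok : LvOk X.P X.lv
  inh : ∀ {L : Tm S} {s : S}, J X.P X.D L (sort s) → ∃ N, J X.P X.D N L

/-- Compatible environments. -/
structure Env (X : Par S) (G : Ctx S) (θ : ℕ → Tm S) (ρ : ℕ → GV S X.α) : Prop where
  wf : WFC X.P G
  nc : NCtx X.P G
  sub : SubC X.P G X.D θ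
  val : ∀ n A, G n = some A → (ρ n).cl = X.ek (A.sub θ)

/-- Expressions with a kind as type. -/
def Par.TR (X : Par S) (G : Ctx S) (M : Tm S) : Prop := ∃ T, J X.P G M T ∧ X.Rl G T

/-- Expressions with a kind whose elements have values as type. -/
def Par.TV (X : Par S) (G : Ctx S) (M : Tm S) : Prop := ∃ T, J X.P G M T ∧ X.Vd G T

/-- No redexes of kinds without values in the relevant positions. -/
def Par.Cln (X : Par S) : Tm S → Ctx S → Prop
  | app F N, G => X.TR G F → X.Cln F G ∧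
    (∀ A B, J X.P G F (pi A B) → X.Rl G A → X.Cln N G) ∧ (¬ X.TV G F → Ne F)
  | lam A M, G => X.TR G (lam A M) → X.Cln M (push A G)
  | pi A B, G => ∀ a b c, J X.P G A (sort a) → J X.P (push A G) B (sort b) →
    X.P.rule a b c → c ∈ X.C → (¬ Lc X.P X.lv X.i G A → X.Cln A G) ∧
      (¬ Lc X.P X.lv X.i (push A G) B → X.Cln B (push A G))
  | _, _ => True

end NM

end Vale.Agent.P340
end

section

/-! Basic properties of the classification of kinds and of the codes. -/

namespace Vale.Agent.P340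

namespace NM

open Tm
open W (Ne MTm Lc Wn Ty LvOk)
open PolR (Kd TyS TyOf tyS_conv tyS_le)
open C1 (rep TyD TyC tyD_conv tyC_conv rep_conv rep_eq conv_subs)

universe u
variable {S : Type u} {X : Par S} {G D : Ctx S} {K K' : Tm S}

theorem hq_conv (h : Conv K K') : X.HQ G K ↔ X.HQ G K' :=
  exists_congr fun _ => and_congr Iff.rfl (vw_conv h)

theorem he_conv (h : Conv K K') : X.HE G K ↔ X.HE G K' :=
  exists_congr fun _ => and_congr Iff.rfl (vw_conv h)

theorem ho_conv (h : Conv K K') : X.HO G K ↔ X.HO G K' :=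
  exists_congr fun _ => and_congr Iff.rfl (vw_conv h)

theorem dq_conv (h : Conv K K') : X.DQ G K ↔ X.DQ G K' :=
  or_congr (hq_conv h) (and_congr (he_conv h) (ho_conv h))

theorem vd_conv (h : Conv K K') : X.Vd G K ↔ X.Vd G K' :=
  or_congr (hq_conv h) (or_congr (he_conv h) (ho_conv h))

theorem low_conv (h : Conv K K') {r : ℕ} : X.Low G r K ↔ X.Low G r K' :=
  exists_congr fun _ => and_congr Iff.rfl (and_congr (vw_conv h) Iff.rfl)

theorem uq_conv (h : Conv K K') {r : ℕ} : X.UQ G r K ↔ X.UQ G r K' :=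
  and_congr (exists_congr fun _ => and_congr Iff.rfl (and_congr Iff.rfl
    (and_congr (vw_conv h) Iff.rfl))) (not_congr (low_conv h))

theorem Par.DQ.vd (h : X.DQ G K) : X.Vd G K := by
  rcases h with h | ⟨h, -⟩
  · exact .inl h
  · exact .inr (.inl h)

theorem Par.Vd.rl (h : X.Vd G K) : X.Rl G K := by
  rcases h with ⟨m, -, h⟩ | ⟨m, -, h⟩ | ⟨m, -, h⟩
  · exact h.rl
  · exact h.rl
  · exact h.rl

theorem Par.DQ.rl (h : X.DQ G K) : X.Rl G K := h.vd.rl

theorem Par.Low.hq {r : ℕ} (h : X.Low G r K) : X.HQ G K := by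
  obtain ⟨m, h1, h2, -⟩ := h
  exact ⟨m, h1, h2⟩

theorem Par.UQ.hq {r : ℕ} (h : X.UQ G r K) : X.HQ G K := by
  obtain ⟨⟨m, h1, -, h2, -⟩, -⟩ := h
  exact ⟨m, h1, h2⟩

theorem Par.UQ.dq {r : ℕ} (h : X.UQ G r K) : X.DQ G K := .inl h.hq

theorem Par.Low.dq {r : ℕ} (h : X.Low G r K) : X.DQ G K := .inl h.hq

/-! Convertible arguments of the codes. -/

theorem kd_conv (h : Conv K K') : X.kd K = X.kd K' := by
  unfold Par.kd
  by_cases h1 : HN K
  · rw [if_pos h1, if_pos (h1.of_conv h), h1.eq_of_conv h]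
  · rw [if_neg h1, if_neg fun h2 => h1 (h2.of_conv h.symm)]

theorem ek_dq (h : X.DQ X.D K) : X.ek K = .b (X.kd K) := if_pos h

theorem ek_he (h : ¬ X.DQ X.D K) (h' : X.HE X.D K) : X.ek K = .e :=
  (if_neg h).trans (if_pos h')

theorem ek_ho (h : ¬ X.DQ X.D K) (h' : X.HO X.D K) : X.ek K = .o :=
  (if_neg h).trans ((if_neg fun h1 => h (.inr ⟨h1, h'⟩)).trans (if_pos h'))

theorem ek_n (h : ¬ X.Vd X.D K) : X.ek K = .b (X.kd K) :=
  (if_neg fun h1 => h h1.vd).trans ((if_neg fun h1 => h (.inr (.inl h1))).trans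
    (if_neg fun h1 => h (.inr (.inr h1))))

theorem ek_conv (h : Conv K K') : X.ek K = X.ek K' := by
  have e1 : X.DQ X.D K ↔ X.DQ X.D K' := dq_conv h
  have e2 : X.HE X.D K ↔ X.HE X.D K' := he_conv h
  have e3 : X.HO X.D K ↔ X.HO X.D K' := ho_conv h
  by_cases h1 : X.DQ X.D K
  · rw [ek_dq h1, ek_dq (e1.1 h1), kd_conv h]
  · by_cases h2 : X.HE X.D K
    · rw [ek_he h1 h2, ek_he (fun h => h1 (e1.2 h)) (e2.1 h2)]
    · by_cases h3 : X.HO X.D K
      · rw [ek_ho h1 h3, ek_ho (fun h => h1 (e1.2 h)) (e3.1 h3)]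
      · have h4 : ¬ X.Vd X.D K := by
          rintro (h | h | h)
          · exact h1 (.inl h)
          · exact h2 h
          · exact h3 h
        rw [ek_n h4, ek_n (fun h' => h4 ((vd_conv h).2 h')), kd_conv h]

theorem tyOf_eq {P : Spec S} {D : Ctx S} {Q Q' : Tm S} (h : Conv Q Q') :
    TyOf P D Q = TyOf P D Q' := by
  funext T
  exact propext ⟨fun ⟨R, h1, h2⟩ => ⟨R, h.symm.trans h1, h2⟩,
    fun ⟨R, h1, h2⟩ => ⟨R, h.trans h1, h2⟩⟩

theorem cd_conv {Q Q' : Tm S} (h : Conv Q Q') : X.cd Q = X.cd Q' := by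
  unfold Par.cd; rw [tyOf_eq h]

theorem tq_conv {Q Q' : Tm S} (h : Conv Q Q') : X.TQ Q ↔ X.TQ Q' := by
  unfold Par.TQ; rw [tyOf_eq h]

theorem dm_conv {Q Q' : Tm S} (h : Conv Q Q') : X.dm Q = X.dm Q' := by
  unfold Par.dm; rw [tyOf_eq h]

theorem rg_conv {Q Q' N N' : Tm S} (h : Conv Q Q') (hN : Conv N N') : X.rg Q N = X.rg Q' N' := by
  classical
  unfold Par.rg; rw [tyOf_eq h]
  by_cases hx : ∃ B A, TyOf X.P X.D Q' (pi A B) ∧ X.Rl X.D (pi A B)
  · rw [dif_pos hx, dif_pos hx]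
    exact ek_conv (Conv.inst (.refl _) hN)
  · rw [dif_neg hx, dif_neg hx]

theorem apV_conv {F F' N N' : Tm S} {u v : GV S X.α} (hF : Conv F F') (hN : Conv N N') :
    X.apV F N u v = X.apV F' N' u v := by
  have e : X.TQ F = X.TQ F' := propext (tq_conv hF)
  unfold Par.apV
  rw [e, rg_conv hF hN, rep_eq hN, dm_conv hF]

theorem lmV_conv {A A' Q Q' : Tm S} {f : Tm S → GV S X.α → GV S X.α} (hA : Conv A A')
    (hQ : Conv Q Q') : X.lmV A Q f = X.lmV A' Q' f := by
  have e : X.TQ Q = X.TQ Q' := propext (tq_conv hQ)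
  unfold Par.lmV
  rw [e, cd_conv hQ]
  refine congrArg (fun z => cif _ z _) ?_
  refine mkL_congr rfl (ek_conv hA) (fun N => tyC_conv hA) fun N _ x _ => ?_
  rw [rg_conv hQ (.refl N)]

theorem lmV_congr {A A' Q Q' : Tm S} {f f' : Tm S → GV S X.α → GV S X.α} (hA : Conv A A')
    (hQ : Conv Q Q') (hf : X.TQ Q → ∀ N, TyC X.P X.D N A → ∀ x : GV S X.α, x.cl = X.ek A →
      castV (X.rg Q N) (f N x) = castV (X.rg Q N) (f' N x)) :
    X.lmV A Q f = X.lmV A' Q' f' := by
  rw [← lmV_conv hA hQ]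
  unfold Par.lmV
  by_cases h : X.TQ Q
  · rw [cif_pos h, cif_pos h]
    exact mkL_congr rfl rfl (fun _ => Iff.rfl) (hf h)
  · rw [cif_neg h, cif_neg h]

theorem lc_conv {P : Spec S} {lv : S → ℕ} {i : ℕ} (h : Conv K K') :
    Lc P lv i G K ↔ Lc P lv i G K' := ⟨fun h' => h'.conv h, fun h' => h'.conv h.symm⟩

/-- Equality of product candidates. -/
theorem piC_congr {A A' : Tm S} {B B' : Tm S → Tm S} {Y Y' : X.α}
    {f f' : Tm S → GV S X.α → X.α} (hA : Conv A A')
    (hY : ¬ Lc X.P X.lv X.i X.D A → Y = Y')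
    (hB : ∀ N, TyD X.P X.D N A → (Lc X.P X.lv X.i X.D (B N) ↔ Lc X.P X.lv X.i X.D (B' N)))
    (hf : ∀ N, TyD X.P X.D N A → ¬ Lc X.P X.lv X.i X.D (B N) → ∀ x, x.cl = X.ek A →
      f N x = f' N x) : X.piC A B Y f = X.piC A' B' Y' f' := by
  refine Subtype.ext ?_
  have hL : Lc X.P X.lv X.i X.D A ↔ Lc X.P X.lv X.i X.D A' := lc_conv hA
  show X.piS A B Y f = X.piS A' B' Y' f'
  ext r
  refine and_congr Iff.rfl (forall_congr' fun q => forall_congr' fun _ => ?_)
  constructor
  · intro h h1 h2 x hx hT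
    have h1' := (tyD_conv hA).2 h1
    obtain ⟨h3, h4⟩ := h h1' (fun h3 => by rw [hY h3]; exact h2 fun h4 => h3 (hL.2 h4)) x
      (by rw [hx, ek_conv hA]) hT
    refine ⟨h3, fun h5 => ?_⟩
    have h6 : ¬ Lc X.P X.lv X.i X.D (B q.er) := fun h7 => h5 ((hB _ h1').1 h7)
    rw [← hf _ h1' h6 x (by rw [hx, ek_conv hA])]
    exact h4 h6
  · intro h h1 h2 x hx hT
    obtain ⟨h3, h4⟩ := h ((tyD_conv hA).1 h1) (fun h3 => by
      rw [← hY fun h4 => h3 (hL.1 h4)]; exact h2 fun h4 => h3 (hL.1 h4)) x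
      (by rw [hx, ek_conv hA]) hT
    refine ⟨h3, fun h5 => ?_⟩
    rw [hf _ h1 h5 x hx]
    exact h4 fun h6 => h5 ((hB _ h1).2 h6)

/-! Types that are not kinds. -/

theorem kd_irr (h : ¬ X.Rl X.D K) : X.kd K = .unit := by
  classical
  unfold Par.kd
  by_cases h1 : HN K
  · rw [if_pos h1, X.kd0_eq]
    have h2 : ¬ X.Rl X.D (nf K) := fun h' => h (h'.conv h1.red.conv.symm)
    generalize nf K = K0 at h2
    unfold Par.kdF
    have h3 : ¬ ∃ r, X.UQ X.D r K0 := fun ⟨r, hr⟩ => h2 hr.dq.rl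
    rw [dif_neg h3]
    cases K0 with
    | sort s =>
      have h4 : s ∉ X.C := fun hs => h2 (.inl ⟨s, hs, .refl _⟩)
      exact if_neg h4
    | pi A B =>
      show dite _ _ _ = _
      exact dif_neg fun h' => h2 h'.1.rl
    | _ => rfl
  · rw [if_neg h1]

theorem ek_irr (h : ¬ X.Rl X.D K) : X.ek K = .b .unit := by
  rw [ek_n fun h' => h h'.rl, kd_irr h]

/-! Substitution. -/

variable {σ : ℕ → Tm S}

theorem hq_sub (H : X.Setup) (hG : WFC X.P G) (hNG : NCtx X.P G) (hD : WFC X.P D)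
    (hND : NCtx X.P D) (hσ : SubC X.P G D σ) (hK : TyE X.P G K) (h : X.Rl D (K.sub σ))
    (h' : X.HQ G K) : X.HQ D (K.sub σ) := by
  obtain ⟨m, h1, h2⟩ := h'
  exact ⟨m, h1, Vw.sub H.wn hG hNG hD hND hσ hK h h2⟩

theorem he_sub (H : X.Setup) (hG : WFC X.P G) (hNG : NCtx X.P G) (hD : WFC X.P D)
    (hND : NCtx X.P D) (hσ : SubC X.P G D σ) (hK : TyE X.P G K) (h : X.Rl D (K.sub σ))
    (h' : X.HE G K) : X.HE D (K.sub σ) := by
  obtain ⟨m, h1, h2⟩ := h'
  exact ⟨m, h1, Vw.sub H.wn hG hNG hD hND hσ hK h h2⟩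

theorem ho_sub (H : X.Setup) (hG : WFC X.P G) (hNG : NCtx X.P G) (hD : WFC X.P D)
    (hND : NCtx X.P D) (hσ : SubC X.P G D σ) (hK : TyE X.P G K) (h : X.Rl D (K.sub σ))
    (h' : X.HO G K) : X.HO D (K.sub σ) := by
  obtain ⟨m, h1, h2⟩ := h'
  exact ⟨m, h1, Vw.sub H.wn hG hNG hD hND hσ hK h h2⟩

theorem dq_sub (H : X.Setup) (hG : WFC X.P G) (hNG : NCtx X.P G) (hD : WFC X.P D)
    (hND : NCtx X.P D) (hσ : SubC X.P G D σ) (hK : TyE X.P G K) (h : X.Rl D (K.sub σ))
    (h' : X.DQ G K) : X.DQ D (K.sub σ) := by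
  rcases h' with h1 | ⟨h1, h2⟩
  · exact .inl (hq_sub H hG hNG hD hND hσ hK h h1)
  · exact .inr ⟨he_sub H hG hNG hD hND hσ hK h h1, ho_sub H hG hNG hD hND hσ hK h h2⟩

theorem vd_sub (H : X.Setup) (hG : WFC X.P G) (hNG : NCtx X.P G) (hD : WFC X.P D)
    (hND : NCtx X.P D) (hσ : SubC X.P G D σ) (hK : TyE X.P G K) (h : X.Rl D (K.sub σ))
    (h' : X.Vd G K) : X.Vd D (K.sub σ) := by
  rcases h' with h1 | h1 | h1
  · exact .inl (hq_sub H hG hNG hD hND hσ hK h h1)
  · exact .inr (.inl (he_sub H hG hNG hD hND hσ hK h h1))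
  · exact .inr (.inr (ho_sub H hG hNG hD hND hσ hK h h1))

theorem low_sub (H : X.Setup) (hG : WFC X.P G) (hNG : NCtx X.P G) (hD : WFC X.P D)
    (hND : NCtx X.P D) (hσ : SubC X.P G D σ) (hK : TyE X.P G K) (h : X.Rl D (K.sub σ))
    {r : ℕ} (h' : X.Low G r K) : X.Low D r (K.sub σ) := by
  obtain ⟨m, h1, h2, h3⟩ := h'
  exact ⟨m, h1, Vw.sub H.wn hG hNG hD hND hσ hK h h2, h3⟩

/-! Products. -/

theorem Par.Setup.hnA (H : X.Setup) (hNG : NCtx X.P G) {A B c : Tm S}
    (h : J X.P G (pi A B) c) : HN A ∧ HN B ∧ ∃ a, J X.P G A (sort a) := by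
  obtain ⟨a, b, c', k1, k2, k3, k4⟩ := h.pi_inv
  exact ⟨hNG.hn H.wn k1, (hNG.push k1).hn H.wn k2, a, k1⟩

theorem vw_piJ (H : X.Setup) (hG : WFC X.P G) (hNG : NCtx X.P G) {A B c : Tm S} {m : S}
    (h : J X.P G (pi A B) c) : X.Vw G (pi A B) m ↔
      ∃ a b, TyS X.P G A a ∧ X.Vw (push A G) B b ∧ X.P.rule a b m := by
  obtain ⟨h1, h2, a, h3⟩ := H.hnA hNG h
  exact vw_pi hG h3 h1 h2

theorem rl_piJ (H : X.Setup) (hG : WFC X.P G) (hNG : NCtx X.P G) {A B : Tm S} {c : S}
    (h : J X.P G (pi A B) (sort c)) : X.Rl G (pi A B) ↔ X.Rl (push A G) B := by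
  obtain ⟨h1, h2, a, h3⟩ := H.hnA hNG h
  exact rl_pi hG h h1 h2

theorem hq_pi (H : X.Setup) (hG : WFC X.P G) (hNG : NCtx X.P G) {A B c : Tm S}
    (h : J X.P G (pi A B) c) (h' : X.HQ G (pi A B)) :
    X.HQ (push A G) B ∧ (X.Rl G A → X.HQ G A) := by
  obtain ⟨m, h1, h2⟩ := h'
  obtain ⟨a, b, h3, h4, h5⟩ := (vw_piJ H hG hNG h).1 h2
  obtain ⟨h6, h7⟩ := H.rnk.q1 a b m h5 h4.ks h1
  exact ⟨⟨b, h6, h4⟩, fun hA => ⟨a, h7 (hA.vw hG h3).ks, hA.vw hG h3⟩⟩

theorem he_pi (H : X.Setup) (hG : WFC X.P G) (hNG : NCtx X.P G) {A B c : Tm S}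
    (h : J X.P G (pi A B) c) (h' : X.HE G (pi A B)) :
    (X.HE (push A G) B ∨ X.HQ (push A G) B) ∧ (X.Rl G A → X.HO G A ∨ X.HQ G A) := by
  obtain ⟨m, h1, h2⟩ := h'
  obtain ⟨a, b, h3, h4, h5⟩ := (vw_piJ H hG hNG h).1 h2
  obtain ⟨h6, h7⟩ := H.rnk.e1 a b m h5 h4.ks h1
  refine ⟨h6.imp (fun h => ⟨b, h, h4⟩) (fun h => ⟨b, h, h4⟩), fun hA => ?_⟩
  have h8 := hA.vw hG h3
  exact (h7 h8.ks).imp (fun h => ⟨a, h, h8⟩) (fun h => ⟨a, h, h8⟩)

theorem ho_pi (H : X.Setup) (hG : WFC X.P G) (hNG : NCtx X.P G) {A B c : Tm S}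
    (h : J X.P G (pi A B) c) (h' : X.HO G (pi A B)) :
    (X.HO (push A G) B ∨ X.HQ (push A G) B) ∧ (X.Rl G A → X.HE G A ∨ X.HQ G A) := by
  obtain ⟨m, h1, h2⟩ := h'
  obtain ⟨a, b, h3, h4, h5⟩ := (vw_piJ H hG hNG h).1 h2
  obtain ⟨h6, h7⟩ := H.rnk.o1 a b m h5 h4.ks h1
  refine ⟨h6.imp (fun h => ⟨b, h, h4⟩) (fun h => ⟨b, h, h4⟩), fun hA => ?_⟩
  have h8 := hA.vw hG h3
  exact (h7 h8.ks).imp (fun h => ⟨a, h, h8⟩) (fun h => ⟨a, h, h8⟩)

theorem dq_pi (H : X.Setup) (hG : WFC X.P G) (hNG : NCtx X.P G) {A B c : Tm S}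
    (h : J X.P G (pi A B) c) (h' : X.DQ G (pi A B)) :
    X.DQ (push A G) B ∧ (X.Rl G A → X.DQ G A) := by
  rcases h' with h1 | ⟨h1, h2⟩
  · obtain ⟨h3, h4⟩ := hq_pi H hG hNG h h1
    exact ⟨.inl h3, fun hA => .inl (h4 hA)⟩
  · obtain ⟨h3, h4⟩ := he_pi H hG hNG h h1
    obtain ⟨h5, h6⟩ := ho_pi H hG hNG h h2
    constructor
    · rcases h3 with h3 | h3
      · rcases h5 with h5 | h5
        · exact .inr ⟨h3, h5⟩
        · exact .inl h5
      · exact .inl h3
    · intro hA
      rcases h4 hA with h4 | h4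
      · rcases h6 hA with h6 | h6
        · exact .inr ⟨h6, h4⟩
        · exact .inl h6
      · exact .inl h4

end NM

end Vale.Agent.P340
end

section

/-! Substitution and conversion for the interpretation. -/

namespace Vale.Agent.P340

namespace NM

open Tm
open W (Ne MTm Lc Wn Ty LvOk)
open PolR (Kd TyS TyOf tyS_conv tyS_le)
open C1 (rep TyD TyC tyD_conv tyC_conv rep_conv rep_eq conv_subs scons_up scons_ups conv_scons)

universe u
variable {S : Type u}

/-- Extension of an assignment of pairs. -/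
def pcons {α : Type u} (x : GV S α × α) (ρ : ℕ → GV S α × α) : ℕ → GV S α × α
  | 0 => x
  | n + 1 => ρ n

/-- The pair given by a value. -/
def pr {α : Type u} [Inhabited α] (x : GV S α) : GV S α × α := (x, x.set)

/-- Interpretation of families and types for assignments of values and candidates. -/
noncomputable def Par.sm2 (X : Par S) :
    (ℕ → Tm S) → (ℕ → GV S X.α × X.α) → Tm S → GV S X.α × X.α
  | _, ρ, var n => ρ n
  | θ, _, sort s => (mkT (X.cd ((sort s).sub θ)) default, default)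
  | θ, ρ, app F N =>
    (X.apV (F.sub θ) (N.sub θ) (X.sm2 θ ρ F).1 (X.sm2 θ ρ N).1,
      (X.apV (F.sub θ) (N.sub θ) (X.sm2 θ ρ F).1 (X.sm2 θ ρ N).1).set)
  | θ, ρ, lam A M =>
    (X.lmV (A.sub θ) ((lam A M).sub θ) (fun N x => (X.sm2 (scons N θ) (pcons (pr x) ρ) M).1),
      (X.lmV (A.sub θ) ((lam A M).sub θ)
        (fun N x => (X.sm2 (scons N θ) (pcons (pr x) ρ) M).1)).set)
  | θ, ρ, pi A B =>
    (mkT (X.cd ((pi A B).sub θ)) (X.piC (A.sub θ) (fun N => B.sub (scons N θ)) (X.sm2 θ ρ A).2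
        (fun N x => (X.sm2 (scons N θ) (pcons (pr x) ρ) B).2)),
      X.piC (A.sub θ) (fun N => B.sub (scons N θ)) (X.sm2 θ ρ A).2
        (fun N x => (X.sm2 (scons N θ) (pcons (pr x) ρ) B).2))

variable {X : Par S}

theorem pr_vcons (x : GV S X.α) (ρ : ℕ → GV S X.α) :
    (fun n => pr (vcons x ρ n)) = pcons (pr x) (fun n => pr (ρ n)) := by
  funext n; cases n <;> rfl

/-- The interpretation for assignments of values is a special case. -/
theorem sm_eq (M : Tm S) : ∀ {θ : ℕ → Tm S} {ρ : ℕ → GV S X.α},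
    X.sm θ ρ M = X.sm2 θ (fun n => pr (ρ n)) M := by
  induction M with
  | var n => intros; rfl
  | sort s => intros; rfl
  | app F N ihF ihN =>
    intro θ ρ
    simp only [Par.sm, ihF, ihN, Par.sm2]
  | lam A M ihA ihM =>
    intro θ ρ
    simp only [Par.sm, Par.sm2, ihM, pr_vcons]
  | pi A M ihA ihM =>
    intro θ ρ
    simp only [Par.sm, Par.sm2, ihA, ihM, pr_vcons]

/-! Renaming. -/

theorem pcons_up {α : Type u} (x : GV S α × α) (ρ : ℕ → GV S α × α) (r : ℕ → ℕ) :
    (fun n => pcons x ρ (up r n)) = pcons x (fun n => ρ (r n)) := by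
  funext n; cases n <;> rfl

theorem sm2_ren (M : Tm S) : ∀ (θ : ℕ → Tm S) (ρ : ℕ → GV S X.α × X.α) (r : ℕ → ℕ),
    X.sm2 θ ρ (M.ren r) = X.sm2 (fun n => θ (r n)) (fun n => ρ (r n)) M := by
  induction M with
  | var n => intros; rfl
  | sort s => intros; rfl
  | app M N ihM ihN =>
    intro θ ρ r
    simp only [ren, Par.sm2, sub_ren, ihM, ihN]
  | lam A M ihA ihM =>
    intro θ ρ r
    simp only [Tm.ren, Par.sm2, ihM, Tm.sub, sub_ren, scons_up, pcons_up, ups_up]
  | pi A M ihA ihM =>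
    intro θ ρ r
    simp only [Tm.ren, Par.sm2, ihA, ihM, Tm.sub, sub_ren, scons_up, pcons_up, ups_up]

theorem sm_ren (M : Tm S) (θ : ℕ → Tm S) (ρ : ℕ → GV S X.α) (r : ℕ → ℕ) :
    X.sm θ ρ (M.ren r) = X.sm (fun n => θ (r n)) (fun n => ρ (r n)) M := by
  rw [sm_eq, sm_eq, sm2_ren]

theorem sm_wk (M N : Tm S) (θ : ℕ → Tm S) (x : GV S X.α) (ρ : ℕ → GV S X.α) :
    X.sm (scons N θ) (vcons x ρ) (wk M) = X.sm θ ρ M := by
  unfold wk; rw [sm_ren]; rfl

theorem sem_wk (M N : Tm S) (θ : ℕ → Tm S) (x : GV S X.α) (ρ : ℕ → GV S X.α) :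
    X.sem (scons N θ) (vcons x ρ) (wk M) = X.sem θ ρ M := congrArg Prod.fst (sm_wk M N θ x ρ)

theorem tc_wk (M N : Tm S) (θ : ℕ → Tm S) (x : GV S X.α) (ρ : ℕ → GV S X.α) :
    X.tc (scons N θ) (vcons x ρ) (wk M) = X.tc θ ρ M := congrArg Prod.snd (sm_wk M N θ x ρ)

/-! Substitution. -/

/-! Conversion. -/

/-- The interpretation only depends on the conversion classes of the syntactic assignment. -/
theorem sm2_conv (M : Tm S) : ∀ {θ θ' : ℕ → Tm S} {ρ : ℕ → GV S X.α × X.α},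
    (∀ n, Conv (θ n) (θ' n)) → X.sm2 θ ρ M = X.sm2 θ' ρ M := by
  induction M with
  | var n => intros; rfl
  | sort s => intros; rfl
  | app M N ihM ihN =>
    intro θ θ' ρ h
    have hM := conv_subs M h
    have hN := conv_subs N h
    simp only [Par.sm2, ihM h, ihN h]
    rw [apV_conv hM hN]
  | lam A M ihA ihM =>
    intro θ θ' ρ h
    have hA := conv_subs A h
    have hAM := conv_subs (lam A M) h
    have key : ∀ (N : Tm S) (x : GV S X.α × X.α),
        X.sm2 (scons N θ) (pcons x ρ) M = X.sm2 (scons N θ') (pcons x ρ) M := by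
      intro N x
      exact ihM (conv_scons h)
    simp only [Par.sm2, key]
    rw [lmV_conv hA hAM]
  | pi A M ihA ihM =>
    intro θ θ' ρ h
    have hA := conv_subs A h
    have hAM := conv_subs (pi A M) h
    have key : ∀ (N : Tm S) (x : GV S X.α × X.α),
        X.sm2 (scons N θ) (pcons x ρ) M = X.sm2 (scons N θ') (pcons x ρ) M := by
      intro N x
      exact ihM (conv_scons h)
    have e : X.piC (A.sub θ) (fun N => M.sub (scons N θ)) (X.sm2 θ ρ A).2
        (fun N x => (X.sm2 (scons N θ) (pcons (pr x) ρ) M).2) =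
        X.piC (A.sub θ') (fun N => M.sub (scons N θ')) (X.sm2 θ' ρ A).2
        (fun N x => (X.sm2 (scons N θ') (pcons (pr x) ρ) M).2) :=
      piC_congr hA (fun _ => by rw [ihA h]) (fun N _ => lc_conv (conv_subs M (conv_scons h)))
        (fun N _ _ x _ => by rw [key])
    show (_, _) = (_, _)
    rw [e, cd_conv hAM]

theorem sm_conv (M : Tm S) {θ θ' : ℕ → Tm S} {ρ : ℕ → GV S X.α}
    (h : ∀ n, Conv (θ n) (θ' n)) : X.sm θ ρ M = X.sm θ' ρ M := by
  rw [sm_eq, sm_eq, sm2_conv M h]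

theorem sem_conv (M : Tm S) {θ θ' : ℕ → Tm S} {ρ : ℕ → GV S X.α}
    (h : ∀ n, Conv (θ n) (θ' n)) : X.sem θ ρ M = X.sem θ' ρ M :=
  congrArg Prod.fst (sm_conv M h)

theorem tc_conv (M : Tm S) {θ θ' : ℕ → Tm S} {ρ : ℕ → GV S X.α}
    (h : ∀ n, Conv (θ n) (θ' n)) : X.tc θ ρ M = X.tc θ' ρ M :=
  congrArg Prod.snd (sm_conv M h)

end NM

end Vale.Agent.P340
end

section

/-! Codes of kinds for arbitrary specifications. -/

namespace Vale.Agent.P340

namespace NM

open Tm
open W (Ne MTm Lc Wn Ty LvOk)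
open PolR (Kd TyS TyOf tyS_conv tyS_le)
open C1 (rep TyD TyC tyD_conv tyC_conv rep_conv rep_eq conv_subs)

universe u
variable {S : Type u} {X : Par S} {G D : Ctx S} {K K' : Tm S} {r r' : ℕ}

/-! Ranks. -/

theorem uq_unique (h : X.UQ G r K) (h' : X.UQ G r' K) : r = r' := by
  obtain ⟨⟨m, h1, h2, h3, h4⟩, h5⟩ := h
  obtain ⟨⟨m', k1, k2, k3, k4⟩, k5⟩ := h'
  have h6 : ¬ r' < r := fun hl => h5 ⟨m', k1, k3, by omega⟩
  have h7 : ¬ r < r' := fun hl => k5 ⟨m, h1, h3, by omega⟩
  omega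

theorem uq_nq (H : X.Setup) (h : X.UQ G r K) : ¬ X.NQ G r' K := by
  obtain ⟨⟨m, h1, h2, h3, h4⟩, h5⟩ := h
  rintro ⟨⟨m', k1, k2, k3, k4⟩ | ⟨rfl, -, -⟩, k5⟩
  · have h6 : ¬ r' < r := fun hl => h5 ⟨m', k1, k3, by omega⟩
    have h7 : ¬ r < r' := fun hl => k5 ⟨m, h1, h3, by omega⟩
    exact k2 ((H.rnk.uc m m' (by omega)).1 h2)
  · exact k5 ⟨m, h1, h3, H.rnk.rb m⟩

theorem dq_rank (h : X.DQ G K) : (∃ r, X.UQ G r K) ∨ ∃ r, X.NQ G r K := by
  classical
  by_cases hq : X.HQ G K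
  · have hex : ∃ r, ∃ m ∈ X.Q, X.Vw G K m ∧ X.rk m = r := by
      obtain ⟨m, h1, h2⟩ := hq
      exact ⟨_, m, h1, h2, rfl⟩
    obtain ⟨m, h1, h2, h3⟩ := Nat.find_spec hex
    have h4 : ¬ X.Low G (Nat.find hex) K := by
      rintro ⟨m', k1, k2, k3⟩
      exact Nat.find_min hex k3 ⟨m', k1, k2, rfl⟩
    by_cases hu : m ∈ X.U
    · exact .inl ⟨_, ⟨m, h1, hu, h2, h3⟩, h4⟩
    · exact .inr ⟨_, .inl ⟨m, h1, hu, h2, h3⟩, h4⟩
  · refine .inr ⟨X.R, .inr ⟨rfl, (h.resolve_left hq).1, (h.resolve_left hq).2⟩,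
      fun h' => hq h'.hq⟩

theorem Par.NQ.dq (h : X.NQ G r K) : X.DQ G K := by
  rcases h.1 with ⟨m, h1, -, h2, -⟩ | ⟨-, h1, h2⟩
  · exact .inl ⟨m, h1, h2⟩
  · exact .inr ⟨h1, h2⟩

theorem nq_conv (h : Conv K K') : X.NQ G r K ↔ X.NQ G r K' :=
  and_congr (or_congr (exists_congr fun _ => and_congr Iff.rfl (and_congr Iff.rfl
    (and_congr (vw_conv h) Iff.rfl))) (and_congr Iff.rfl (and_congr (he_conv h) (ho_conv h))))
    (not_congr (low_conv h))

theorem nq_ctx {G' : Ctx S} (h : CLe X.P G G') (h' : CLe X.P G' G) :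
    X.NQ G r K ↔ X.NQ G' r K := by
  have e : ∀ m, X.Vw G K m ↔ X.Vw G' K m := fun m => ⟨fun h1 => h1.le h, fun h1 => h1.le h'⟩
  unfold Par.NQ Par.HE Par.HO Par.Low
  simp only [e]

/-- Rank of the domain. -/
theorem nq_dom (H : X.Setup) (hG : WFC X.P G) (hNG : NCtx X.P G) {A B c : Tm S}
    (h : J X.P G (pi A B) c) (h' : X.NQ G r (pi A B)) (hA : X.Rl G A) :
    X.Low G r A ∨ X.NQ G r A := by
  by_cases hl : X.Low G r A
  · exact .inl hl
  right
  rcases h'.1 with ⟨m, h1, h2, h3, h4⟩ | ⟨rfl, h1, h2⟩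
  · obtain ⟨a, b, k1, k2, k3⟩ := (vw_piJ H hG hNG h).1 h3
    have hv := hA.vw hG k1
    obtain ⟨-, q1⟩ := H.rnk.q1 a b m k3 k2.ks h1
    obtain ⟨u1, -⟩ := H.rnk.u2 a b m k3 k2.ks h1 h2
    rcases u1 hv.ks with u | ⟨u, u'⟩
    · exact absurd ⟨a, q1 hv.ks, hv, by omega⟩ hl
    · exact ⟨.inl ⟨a, q1 hv.ks, u', hv, by omega⟩, hl⟩
  · obtain ⟨-, h3⟩ := he_pi H hG hNG h h1
    obtain ⟨-, h4⟩ := ho_pi H hG hNG h h2
    have hq : ¬ X.HQ G A := fun ⟨m, h5, h6⟩ => hl ⟨m, h5, h6, H.rnk.rb m⟩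
    exact ⟨.inr ⟨rfl, (h4 hA).resolve_right hq, (h3 hA).resolve_right hq⟩, hl⟩

/-- Rank of the codomain. -/
theorem nq_cod (H : X.Setup) (hG : WFC X.P G) (hNG : NCtx X.P G) {A B c : Tm S}
    (h : J X.P G (pi A B) c) (h' : X.NQ G r (pi A B)) :
    X.Low (push A G) r B ∨ (X.NQ (push A G) r B ∧
      ∀ k, X.K k → k ∈ X.Q → k ∉ X.U → X.rk k = r → ¬ NM.Rl X.P {k} G A) := by
  by_cases hl : X.Low (push A G) r B
  · exact .inl hl
  right
  rcases h'.1 with ⟨m, h1, h2, h3, h4⟩ | ⟨rfl, h1, h2⟩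
  · obtain ⟨a, b, k1, k2, k3⟩ := (vw_piJ H hG hNG h).1 h3
    obtain ⟨q1, -⟩ := H.rnk.q1 a b m k3 k2.ks h1
    obtain ⟨-, u1⟩ := H.rnk.u2 a b m k3 k2.ks h1 h2
    rcases u1 with u | ⟨u, u', u''⟩
    · exact absurd ⟨b, q1, k2, by omega⟩ hl
    · refine ⟨⟨.inl ⟨b, q1, u', k2, by omega⟩, hl⟩, fun k l1 l2 l3 l4 l5 => ?_⟩
      exact u'' k l1 l2 l3 (by omega) (Rl.vw hG l5 k1).ks
  · obtain ⟨h3, -⟩ := he_pi H hG hNG h h1
    obtain ⟨h4, -⟩ := ho_pi H hG hNG h h2
    have hq : ¬ X.HQ (push A G) B := fun ⟨m, h5, h6⟩ => hl ⟨m, h5, h6, H.rnk.rb m⟩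
    refine ⟨⟨.inr ⟨rfl, h3.resolve_right hq, h4.resolve_right hq⟩, hl⟩, fun k _ _ _ l4 _ => ?_⟩
    have := H.rnk.rb k
    omega

/-! Skeletons. -/

open Classical in
/-- The number of products of rank `r` in the skeleton of a normal kind. -/
noncomputable def Par.skl (X : Par S) (r : ℕ) : Tm S → Ctx S → ℕ
  | pi A B, G => 1 + (if X.NQ G r A then X.skl r A G else 0) +
    (if X.NQ (push A G) r B then X.skl r B (push A G) else 0)
  | _, _ => 0

theorem skl_ctx (r : ℕ) (M : Tm S) : ∀ {G G' : Ctx S}, CLe X.P G G' →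
    CLe X.P G' G → X.skl r M G = X.skl r M G' := by
  classical
  induction M with
  | pi A B ihA ihB =>
    intro G G' h h'
    unfold Par.skl
    rw [ihA h h', ihB (h.push A) (h'.push A)]
    have e1 : X.NQ G r A ↔ X.NQ G' r A := nq_ctx h h'
    have e2 : X.NQ (push A G) r B ↔ X.NQ (push A G') r B := nq_ctx (h.push A) (h'.push A)
    simp only [e1, e2]
  | _ => intros; rfl

/-- Variables for families of rank `r` are replaced by variables. -/
def VOk (X : Par S) (r : ℕ) (G : Ctx S) (σ : ℕ → Tm S) : Prop :=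
  ∀ n A k, G n = some A → X.K k → k ∈ X.Q → k ∉ X.U → X.rk k = r → NM.Rl X.P {k} G A →
    ∃ j, σ n = var j

theorem VOk.up (H : X.Setup) {σ : ℕ → Tm S} (h : VOk X r G σ) (hG : WFC X.P G)
    (hNG : NCtx X.P G) {A : Tm S} {a : S} (hA : J X.P G A (sort a)) :
    VOk X r (push A G) (ups σ) := by
  intro n B k hB h1 h2 h3 h4 h5
  cases n with
  | zero => exact ⟨0, rfl⟩
  | succ n =>
    rw [push_succ, Option.map_eq_some_iff] at hB
    obtain ⟨B, hB, rfl⟩ := hB
    obtain ⟨s, hs⟩ := hG _ _ hB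
    have h6 : NM.Rl X.P {k} G B := by
      have e : wk B = B.sub (fun n => var (n + 1)) := ren_eq_sub B Nat.succ
      rw [e] at h5
      exact Rl.of_sub H.wn hG hNG (hG.push hA) (hNG.push hA)
        (W.RenC.subC (r := Nat.succ) (renC_wk G A)) (.of_sort hs) h5
    obtain ⟨j, hj⟩ := h n B k hB h1 h2 h3 h4 h6
    exact ⟨j + 1, by show wk (σ n) = _; rw [hj]; rfl⟩

theorem ne_step {M N : Tm S} (h : Ne M) (hs : Step M N) : Ne N := by
  induction hs with
  | beta A M N => exact h.elim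
  | appL N _ ih => exact ih h
  | appR M _ _ => exact h
  | lamL _ _ _ => exact h.elim
  | lamR _ _ _ => exact h.elim
  | piL _ _ _ => exact h.elim
  | piR _ _ _ => exact h.elim

theorem ne_red {M N : Tm S} (h : Ne M) (hs : Red M N) : Ne N := by
  induction hs with
  | refl => exact h
  | tail _ hs ih => exact ne_step ih hs

theorem skl_ne {M : Tm S} (h : Ne M) (r : ℕ) (G : Ctx S) : X.skl r M G = 0 := by
  cases M with
  | pi A B => exact h.elim
  | _ => rfl

theorem ne_sub (H : X.Setup) {k : S} (h1 : X.K k) (h2 : k ∈ X.Q) (h3 : k ∉ X.U)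
    (h4 : X.rk k = r) {σ : ℕ → Tm S} (hG : WFC X.P G) (hNG : NCtx X.P G) (hv : VOk X r G σ)
    {M : Tm S} : ∀ {T : Tm S}, Ne M → J X.P G M T → NM.Rl X.P {k} G T → Ne (M.sub σ) := by
  induction M with
  | var n =>
    intro T _ hM hT
    obtain ⟨A, h5, h6⟩ := hM.var_inv
    obtain ⟨j, hj⟩ := hv n A k h5 h1 h2 h3 h4 (hT.conv h6.symm)
    show Ne (σ n)
    rw [hj]; trivial
  | app F N ih _ =>
    intro T hn hM hT
    obtain ⟨A, B, h5, h6, h7⟩ := hM.app_inv
    obtain ⟨s, h8⟩ := (h5.correct hG).resolve_left (by rintro ⟨s, e⟩; cases e)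
    obtain ⟨a, b, c, k1, k2, k3, -⟩ := h8.pi_inv
    obtain ⟨n1, n2, -⟩ := H.hnA hNG h8
    have h9 : NM.Rl X.P {k} (push A G) B :=
      Rl.of_sub H.wn (hG.push k1) (hNG.push k1) hG hNG (subC_single h6) (.of_sort k2)
        (hT.conv h7.symm)
    exact ih hn h5 ((rl_pi hG h8 n1 n2).2 h9)
  | sort s => intro T h; exact h.elim
  | lam A M _ _ => intro T h; exact h.elim
  | pi A M _ _ => intro T h; exact h.elim

theorem nq_ne (H : X.Setup) {σ : ℕ → Tm S} (hG : WFC X.P G) (hNG : NCtx X.P G)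
    (hv : VOk X r G σ) {M : Tm S} (hn : Ne M) (hnm : Normal M) {s : S}
    (hs : J X.P G M (sort s))
    (hvw : ∀ m, X.Vw G M m → J X.P G M (sort m) ∧ X.K m) (h : X.NQ G r M) :
    Ne (M.sub σ) := by
  rcases h.1 with ⟨m, h1, h2, h3, h4⟩ | ⟨-, ⟨m1, h1, h2⟩, ⟨m2, h3, h4⟩⟩
  · obtain ⟨h5, h6⟩ := hvw m h3
    exact ne_sub H h6 h1 h2 h4 hG hNG hv hn h5 (.inl ⟨m, rfl, .refl _⟩)
  · have e := (Ne.uniq hn (hvw _ h2).1 (hvw _ h4).1).sort_inj
    subst e
    exact absurd h3 (H.rnk.deo _ h1)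

theorem skl_sub (H : X.Setup) (r : ℕ) (M : Tm S) : ∀ {G D : Ctx S} {σ : ℕ → Tm S} {s : S},
    WFC X.P G → NCtx X.P G → WFC X.P D → NCtx X.P D → SubC X.P G D σ → VOk X r G σ →
    Normal M → J X.P G M (sort s) → X.NQ G r M →
    X.skl r (nf (M.sub σ)) D ≤ X.skl r M G := by
  classical
  induction M with
  | var n =>
    intro G D σ s hG hNG hD hND hσ hv hn hM hm
    have h1 : Ne ((var n).sub σ) := nq_ne H hG hNG hv (M := var n) trivial hn hM (fun m h => by
      have h2 := h.2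
      rw [nf_normal hn] at h2
      exact h2) hm
    have h2 := hND.hn H.wn (hM.sub hσ)
    rw [skl_ne (ne_red h1 h2.red)]
    exact Nat.zero_le _
  | sort s =>
    intro G D σ _ hG hNG hD hND hσ hv hn hM hm
    have e : nf ((sort s).sub σ) = sort s := nf_normal (normal_sort s)
    rw [e]
    exact Nat.le_refl _
  | app F N _ _ =>
    intro G D σ s hG hNG hD hND hσ hv hn hM hm
    have h1 : Ne ((app F N).sub σ) := nq_ne H hG hNG hv (W.ne_of_app hM hn) hn hM (fun m h => by
      have h2 := h.2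
      rw [nf_normal hn] at h2
      exact h2) hm
    have h2 := hND.hn H.wn (hM.sub hσ)
    rw [skl_ne (ne_red h1 h2.red)]
    exact Nat.zero_le _
  | lam A M _ _ =>
    intro G D σ s hG hNG hD hND hσ hv hn hM hm
    obtain ⟨B, s', -, -, h⟩ := hM.lam_inv
    exact absurd h.symm (fun h => h.sort_pi)
  | pi A B ihA ihB =>
    intro G D σ s hG hNG hD hND hσ hv hn hM hm
    obtain ⟨a, b, c', h1, h2, h3, -⟩ := hM.pi_inv
    have kA : J X.P D (A.sub σ) (sort a) := h1.sub hσ
    have hG' := hG.push h1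
    have hNG' := hNG.push h1
    have hD' := hD.push kA
    have hND' := hND.push kA
    have kB : J X.P (push (A.sub σ) D) (B.sub (ups σ)) (sort b) := h2.sub (hσ.up A)
    have nA : HN (A.sub σ) := hND.hn H.wn kA
    have nB : HN (B.sub (ups σ)) := hND'.hn H.wn kB
    have l1 : CLe X.P (push (A.sub σ) D) (push (nf (A.sub σ)) D) := CLe.conv kA nA.red.conv
    have l2 : CLe X.P (push (nf (A.sub σ)) D) (push (A.sub σ) D) :=
      CLe.conv (kA.red hD nA.red) nA.red.conv.symm
    show X.skl r (nf (pi (A.sub σ) (B.sub (ups σ)))) D ≤ _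
    rw [nA.nf_pi nB]
    unfold Par.skl
    have e2 : X.NQ (push (nf (A.sub σ)) D) r (nf (B.sub (ups σ))) →
        X.NQ (push (A.sub σ) D) r (B.sub (ups σ)) := fun h =>
      (nq_conv nB.red.conv).2 ((nq_ctx l2 l1).1 h)
    have eA : (if X.NQ D r (nf (A.sub σ)) then X.skl r (nf (A.sub σ)) D else 0) ≤
        if X.NQ G r A then X.skl r A G else 0 := by
      by_cases ha : X.NQ D r (nf (A.sub σ))
      · have ha' : X.NQ D r (A.sub σ) := (nq_conv nA.red.conv).2 ha
        have hRl : X.Rl G A := Rl.of_sub H.wn hG hNG hD hND hσ (.of_sort h1) ha'.dq.rl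
        have h4 : X.NQ G r A := (nq_dom H hG hNG hM hm hRl).resolve_left fun hl =>
          ha'.2 (low_sub H hG hNG hD hND hσ (.of_sort h1) ha'.dq.rl hl)
        rw [if_pos ha, if_pos h4]
        exact ihA hG hNG hD hND hσ hv hn.piL h1 h4
      · rw [if_neg ha]; exact Nat.zero_le _
    have eB : (if X.NQ (push (nf (A.sub σ)) D) r (nf (B.sub (ups σ))) then
        X.skl r (nf (B.sub (ups σ))) (push (nf (A.sub σ)) D) else 0) ≤
        if X.NQ (push A G) r B then X.skl r B (push A G) else 0 := by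
      by_cases hb : X.NQ (push (nf (A.sub σ)) D) r (nf (B.sub (ups σ)))
      · have hb' := e2 hb
        have h4 : X.NQ (push A G) r B :=
          ((nq_cod H hG hNG hM hm).resolve_left fun hl => hb'.2
            (low_sub H hG' hNG' hD' hND' (hσ.up A) (.of_sort h2) hb'.dq.rl hl)).1
        rw [if_pos hb, if_pos h4, ← skl_ctx r (nf (B.sub (ups σ))) l1 l2]
        exact ihB hG' hNG' hD' hND' (hσ.up A) (hv.up H hG hNG h1) hn.piR h2 h4
      · rw [if_neg hb]; exact Nat.zero_le _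
    omega

/-! Termination of the codes. -/

theorem acc_n {K : Tm S} (h : ¬ X.DQ X.D K) : Acc X.Pr K := by
  refine Acc.intro K fun K' hK' => ?_
  rcases hK' with ⟨r, K1, h1, -, -⟩ | ⟨A, B, -, h1, -, -⟩
  · exact absurd h1.dq h
  · exact absurd h1 h

theorem tyE_nfn (hG : WFC X.P G) (hn : Normal K) (h : TyE X.P G K) :
    (∃ s, J X.P G K (sort s)) ∨ ∃ s, K = sort s := by
  rcases h with ⟨s, h⟩ | ⟨s, h⟩
  · have := TyS.nf hG (HN.of_normal hn) h
    rw [nf_normal hn] at this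
    exact .inl ⟨s, this⟩
  · right
    refine ⟨s, ?_⟩
    have := (HN.of_normal hn).eq_of_conv h
    rwa [nf_normal hn, nf_normal (normal_sort s)] at this

theorem tyE_piJ (hG : WFC X.P G) {A B : Tm S} (hn : Normal (pi A B))
    (h : TyE X.P G (pi A B)) : ∃ c, J X.P G (pi A B) (sort c) := by
  rcases tyE_nfn hG hn h with h | ⟨s, e⟩
  · exact h
  · cases e

theorem acc_aux (H : X.Setup) : ∀ (r : ℕ) {K : Tm S}, TyE X.P X.D K →
    (X.UQ X.D r K ∨ X.NQ X.D r K) → Acc X.Pr (nf K) := by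
  classical
  intro r
  induction r using Nat.strong_induction_on with
  | _ r ihr =>
    have hlow : ∀ {K : Tm S}, TyE X.P X.D K → X.Low X.D r K → Acc X.Pr (nf K) := by
      intro K hK hl
      have hle : ∀ {r'}, ¬ X.Low X.D r' K → r' < r := by
        intro r' h
        obtain ⟨m, h1, h2, h3⟩ := hl
        by_contra h4
        exact h ⟨m, h1, h2, by omega⟩
      rcases dq_rank hl.dq with ⟨r', h⟩ | ⟨r', h⟩
      · exact ihr r' (hle h.2) hK (.inl h)
      · exact ihr r' (hle h.2) hK (.inr h)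
    have main : ∀ (n : ℕ) {K : Tm S}, Normal K → TyE X.P X.D K → X.NQ X.D r K →
        X.skl r K X.D = n → Acc X.Pr K := by
      intro n
      induction n using Nat.strong_induction_on with
      | _ n ihn =>
        intro K hn hK hm hs
        refine Acc.intro K fun K' hK' => ?_
        rcases hK' with ⟨r', K1, h1, -, -⟩ | ⟨A, B, rfl, h1, h2, h3⟩
        · exact absurd hm (uq_nq H h1)
        · obtain ⟨c, hc⟩ := tyE_piJ X.wf hn hK
          obtain ⟨a, b, c', k1, k2, k3, -⟩ := hc.pi_inv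
          rcases h3 with ⟨h3, rfl⟩ | ⟨N, ⟨N', hcN, L, hL, hLc⟩, h3, rfl⟩
          · rcases nq_dom H X.wf H.nc hc hm h3 with h4 | h4
            · exact hlow (.of_sort k1) h4
            · rw [nf_normal hn.piL]
              refine ihn (X.skl r A X.D) ?_ hn.piL (.of_sort k1) h4 rfl
              rw [← hs]
              show _ < 1 + _ + _
              rw [if_pos h4]
              omega
          · have hNA : J X.P X.D N' A := .conv hL k1 hLc
            have k5 := k2.inst_sort hNA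
            have e0 : Conv (inst B N) (inst B N') := Conv.inst (.refl _) hcN
            have n5 := H.nc.hn H.wn k5
            have e1 : nf (inst B N) = nf (inst B N') := (n5.eq_of_conv e0.symm).symm
            have h3' : X.Rl X.D (inst B N') := h3.conv e0
            rw [e1]
            rcases nq_cod H X.wf H.nc hc hm with h4 | ⟨h4, h5⟩
            · exact hlow (.of_sort k5) (low_sub H (X.wf.push k1) (H.nc.push k1) X.wf H.nc
                (subC_single hNA) (.of_sort k2) h3' h4)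
            · by_cases hl : X.Low X.D r (inst B N')
              · exact hlow (.of_sort k5) hl
              · have hnq : X.NQ X.D r (inst B N') := by
                  refine ⟨?_, hl⟩
                  rcases h4.1 with ⟨m, l1, l2, l3, l4⟩ | ⟨l1, l2, l3⟩
                  · exact .inl ⟨m, l1, l2, Vw.sub H.wn (X.wf.push k1) (H.nc.push k1) X.wf H.nc
                      (subC_single hNA) (.of_sort k2) h3' l3, l4⟩
                  · exact .inr ⟨l1, he_sub H (X.wf.push k1) (H.nc.push k1) X.wf H.nc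
                      (subC_single hNA) (.of_sort k2) h3' l2,
                      ho_sub H (X.wf.push k1) (H.nc.push k1) X.wf H.nc
                      (subC_single hNA) (.of_sort k2) h3' l3⟩
                have hv : VOk X r (push A X.D) (single N') := by
                  intro n E k hE l1 l2 l3 l4 l5
                  cases n with
                  | zero =>
                    simp only [push_zero, Option.some.injEq] at hE
                    subst hE
                    refine absurd ?_ (h5 k l1 l2 l3 l4)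
                    have e : wk A = A.sub (fun n => var (n + 1)) := ren_eq_sub A Nat.succ
                    rw [e] at l5
                    exact Rl.of_sub H.wn X.wf H.nc (X.wf.push k1) (H.nc.push k1)
                      (W.RenC.subC (r := Nat.succ) (renC_wk X.D A)) (.of_sort k1) l5
                  | succ n => exact ⟨n, rfl⟩
                have e2 := skl_sub H r B (X.wf.push k1) (H.nc.push k1) X.wf H.nc
                  (subC_single hNA) hv hn.piR k2 h4
                refine ihn (X.skl r (nf (inst B N')) X.D) ?_ n5.normal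
                  ((tyE_conv n5.red.conv).1 (.of_sort k5)) ((nq_conv n5.red.conv).1 hnq) rfl
                rw [← hs]
                show X.skl r (nf (B.sub (single N'))) X.D < 1 + _ + _
                rw [if_pos h4]
                omega
    intro K hK hr
    have hn := hK.hn H.wn H.nc
    have hK' := (tyE_conv hn.red.conv).1 hK
    rcases hr with hr | hr
    · refine Acc.intro _ fun K' hK' => ?_
      have hr' := (uq_conv hn.red.conv).1 hr
      rcases hK' with ⟨r', K1, h3, ⟨h4, h4'⟩, rfl⟩ | ⟨A, B, h3, h4, h5, h6⟩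
      · rw [← uq_unique hr' h3] at h4'
        exact hlow h4 h4'
      · exact absurd hr' (h5 r)
    · exact main _ hn.normal hK' ((nq_conv hn.red.conv).1 hr) rfl

theorem acc (H : X.Setup) {K : Tm S} (hK : TyE X.P X.D K) : Acc X.Pr (nf K) := by
  by_cases h : X.DQ X.D K
  · rcases dq_rank h with ⟨r, h⟩ | ⟨r, h⟩
    · exact acc_aux H r hK (.inl h)
    · exact acc_aux H r hK (.inr h)
  · exact acc_n fun h' => h ((dq_conv (hK.hn H.wn H.nc).red.conv).2 h')

theorem kd_univ (H : X.Setup) (hK : TyE X.P X.D K) (hU : X.UQ X.D r K) :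
    X.kd K = .univ (X.hh r) := by
  classical
  have nK := hK.hn H.wn H.nc
  have hU' := (uq_conv nK.red.conv).1 hU
  have hacc := acc H hK
  unfold Par.kd
  rw [if_pos nK, X.kd0_eq]
  unfold Par.kdF
  have hex : ∃ r, X.UQ X.D r (nf K) := ⟨_, hU'⟩
  have hr : hex.choose = r := uq_unique hex.choose_spec hU'
  rw [dif_pos hex]
  congr 1
  funext K1
  unfold Par.hh
  have e : X.Low X.D hex.choose K1 ↔ X.Low X.D r K1 := by rw [hr]
  by_cases hl : TyE X.P X.D K1 ∧ X.Low X.D r K1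
  · rw [dif_pos ⟨⟨hl.1, e.2 hl.2⟩, hacc⟩, if_pos hl]
    unfold Par.kd
    rw [if_pos (hl.1.hn H.wn H.nc)]
  · rw [dif_neg (fun h => hl ⟨h.1.1, e.1 h.1.2⟩), if_neg hl]

open Classical in
theorem kd_arr (H : X.Setup) {A B : Tm S} {c : S} (hK : J X.P X.D (pi A B) (sort c))
    (hq : X.DQ X.D (pi A B)) (hU : ∀ r, ¬ X.UQ X.D r (pi A B)) :
    X.kd (pi A B) = .arr (X.kd A)
      (fun N => if TyC X.P X.D N A then X.kd (inst B N) else .unit) := by
  have nK := H.nc.hn H.wn hK
  obtain ⟨nA, nB, a, hA⟩ := H.hnA H.nc hK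
  obtain ⟨a, b, c', k1, k2, k3, -⟩ := hK.pi_inv
  have hacc := acc H (.of_sort hK)
  have hcv : Conv (pi A B) (pi (nf A) (nf B)) := Conv.pi nA.red.conv nB.red.conv
  unfold Par.kd
  rw [if_pos nK, nA.nf_pi nB, X.kd0_eq]
  rw [nA.nf_pi nB] at hacc
  unfold Par.kdF
  have hnex : ¬ ∃ r, X.UQ X.D r (pi (nf A) (nf B)) := fun ⟨r, hr⟩ => hU r ((uq_conv hcv).2 hr)
  have hQ : X.DQ X.D (pi (nf A) (nf B)) ∧ Acc X.Pr (pi (nf A) (nf B)) :=
    ⟨(dq_conv hcv).1 hq, hacc⟩
  rw [dif_neg hnex]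
  show dite _ _ _ = _
  rw [dif_pos hQ]
  congr 1
  · rw [if_pos nA]
    have e : X.Rl X.D (nf A) ↔ X.Rl X.D A := rl_conv nA.red.conv.symm
    by_cases h : X.Rl X.D A
    · rw [dif_pos (e.2 h)]
      show X.kd0 (nf (nf A)) = _
      rw [nf_normal nA.normal]
    · rw [dif_neg (fun h' => h (e.1 h'))]
      have := kd_irr h
      unfold Par.kd at this
      rw [if_pos nA] at this
      exact this.symm
  · funext N
    have e : TyC X.P X.D N (nf A) ↔ TyC X.P X.D N A := tyC_conv nA.red.conv.symm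
    have ec : Conv (inst (nf B) N) (inst B N) := Conv.inst nB.red.conv.symm (.refl _)
    by_cases h : TyC X.P X.D N A
    · rw [if_pos h]
      obtain ⟨N', hc, L, hL, hLc⟩ := h
      have hNA : J X.P X.D N' A := .conv hL k1 hLc
      have n1 : HN (inst B N') := H.nc.hn H.wn (k2.inst_sort hNA)
      have n2 : HN (inst B N) := n1.of_conv (Conv.inst (.refl _) hc.symm)
      rw [if_pos n2]
      by_cases h' : X.Rl X.D (inst B N)
      · rw [dif_pos ⟨e.2 ⟨N', hc, L, hL, hLc⟩, h'.conv ec.symm⟩]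
        show X.kd0 (nf (inst (nf B) N)) = _
        rw [n2.eq_of_conv ec.symm]
      · rw [dif_neg (fun h'' => h' (h''.2.conv ec))]
        have := kd_irr h'
        unfold Par.kd at this
        rw [if_pos n2] at this
        exact this.symm
    · rw [dif_neg (fun h' => h (e.1 h'.1)), if_neg h]

/-- Product kinds whose elements have no ranked values. -/
theorem kd_pi_n {A B : Tm S} (hA : HN A) (hB : HN B) (h : ¬ X.DQ X.D (pi A B)) :
    X.kd (pi A B) = .unit := by
  classical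
  have hcv : Conv (pi A B) (pi (nf A) (nf B)) := Conv.pi hA.red.conv hB.red.conv
  unfold Par.kd
  rw [if_pos (hA.pi hB), hA.nf_pi hB, X.kd0_eq]
  unfold Par.kdF
  have h1 : ¬ X.DQ X.D (pi (nf A) (nf B)) := fun h' => h ((dq_conv hcv).2 h')
  have hnex : ¬ ∃ r, X.UQ X.D r (pi (nf A) (nf B)) := fun ⟨r, hr⟩ => h1 hr.dq
  rw [dif_neg hnex]
  show dite _ _ _ = _
  rw [dif_neg fun h' => h1 h'.1]

theorem kd_sort_n {s : S} (hs : s ∈ X.C) (hU : ∀ r, ¬ X.UQ X.D r (sort s)) :
    X.kd (sort s) = .star := by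
  classical
  unfold Par.kd
  rw [if_pos (HN.of_normal (normal_sort s)), nf_normal (normal_sort s), X.kd0_eq]
  unfold Par.kdF
  have hnex : ¬ ∃ r, X.UQ X.D r (sort s) := fun ⟨r, hr⟩ => hU r hr
  rw [dif_neg hnex]
  exact if_pos hs

/-- Siblings have the same codes. -/
theorem kd_sib (H : X.Setup) {K K' : Tm S} (hs : Sib K K') : ∀ {G : Ctx S} {σ : ℕ → Tm S},
    WFC X.P G → NCtx X.P G → SubC X.P G X.D σ → TyE X.P G K → TyE X.P G K' →
    X.Rl G K → X.Rl G K' → X.kd (K.sub σ) = X.kd (K'.sub σ) := by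
  classical
  induction hs with
  | conv h =>
    intro G σ _ _ _ _ _ _ _
    exact kd_conv (h.sub σ)
  | @sort A B s t hA hB =>
    intro G σ hG hNG hσ eA eB h1 h2
    have hs' : Sib A B := .sort hA hB
    have key : ∀ {K : Tm S} {s : S}, Conv K (sort s) → X.Rl G K → s ∈ X.C := by
      intro K s hK h
      rcases h with ⟨s', h3, h4⟩ | ⟨m, h3, h4⟩
      · cases (hK.symm.trans h4).sort_inj; exact h3
      · rw [h3.eq_of_conv hK, nf_normal (normal_sort s)] at h4; exact h4.1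
    have hs1 := key hA h1
    have ht1 := key hB h2
    rw [kd_conv (hA.sub σ), kd_conv (hB.sub σ)]
    show X.kd (sort s) = X.kd (sort t)
    have ev : ∀ m, X.Vw X.D (sort s) m ↔ X.Vw X.D (sort t) m := fun m =>
      Sib.vw H.wn X.wf H.nc (.sort (.refl _) (.refl _)) (.inr ⟨s, .refl _⟩) (.inr ⟨t, .refl _⟩)
        (.inl ⟨s, hs1, .refl _⟩) (.inl ⟨t, ht1, .refl _⟩)
    have eu : ∀ r, X.UQ X.D r (sort s) ↔ X.UQ X.D r (sort t) := fun r => by
      unfold Par.UQ Par.Low
      simp only [ev]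
    by_cases hU : ∃ r, X.UQ X.D r (sort s)
    · obtain ⟨r, hr⟩ := hU
      rw [kd_univ H (.inr ⟨s, .refl _⟩) hr, kd_univ H (.inr ⟨t, .refl _⟩) ((eu r).1 hr)]
    · rw [kd_sort_n hs1 fun r hr => hU ⟨r, hr⟩, kd_sort_n ht1 fun r hr => hU ⟨r, (eu r).2 hr⟩]
  | @pi A B C0 D1 D2 hA hB hs12 ih =>
    intro G σ hG hNG hσ eA eB h1 h2
    have hsAB : Sib A B := .pi hA hB hs12
    obtain ⟨A1, B1, c1, k1, k2, k3, k4, k5, k6⟩ := tyE_pi H.wn hG hNG eA hA
    obtain ⟨A2, B2, c2, l1, l2, l3, l4, l5, l6⟩ := tyE_pi H.wn hG hNG eB hB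
    obtain ⟨a1, b1, c1', m1, m2, m3, m4⟩ := k4.pi_inv
    obtain ⟨a2, b2, c2', n1, n2, n3, n4⟩ := l4.pi_inv
    have r1 := (rl_pi hG k4 k5 k6).1 (h1.conv k1)
    have r2 := (rl_pi hG l4 l5 l6).1 (h2.conv l1)
    have hcc : Conv A2 A1 := l2.trans k2.symm
    have le : CLe X.P (push A2 G) (push A1 G) := CLe.conv n1 hcc
    rw [kd_conv (k1.sub σ), kd_conv (l1.sub σ)]
    have j1 : J X.P X.D (Tm.pi (A1.sub σ) (B1.sub (ups σ))) (sort c1) := k4.sub hσ
    have j2 : J X.P X.D (Tm.pi (A2.sub σ) (B2.sub (ups σ))) (sort c2) := l4.sub hσ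
    show X.kd (Tm.pi (A1.sub σ) (B1.sub (ups σ))) = X.kd (Tm.pi (A2.sub σ) (B2.sub (ups σ)))
    have hsib : Sib (Tm.pi (A1.sub σ) (B1.sub (ups σ))) (Tm.pi (A2.sub σ) (B2.sub (ups σ))) :=
      ((hsAB.convL k1).convR l1).sub σ
    by_cases hR : X.Rl X.D (Tm.pi (A1.sub σ) (B1.sub (ups σ)))
    · have hR2 : X.Rl X.D (Tm.pi (A2.sub σ) (B2.sub (ups σ))) := by
        refine ((sib_rl H.wn hsAB hG hNG X.wf H.nc hσ eA eB h1 h2).1 ?_).conv (l1.sub σ)
        exact hR.conv (k1.symm.sub σ)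
      have ev : ∀ m, X.Vw X.D (Tm.pi (A1.sub σ) (B1.sub (ups σ))) m ↔
          X.Vw X.D (Tm.pi (A2.sub σ) (B2.sub (ups σ))) m := fun m =>
        Sib.vw H.wn X.wf H.nc hsib (.of_sort j1) (.of_sort j2) hR hR2
      have eu : ∀ r, X.UQ X.D r (Tm.pi (A1.sub σ) (B1.sub (ups σ))) ↔
          X.UQ X.D r (Tm.pi (A2.sub σ) (B2.sub (ups σ))) := fun r => by
        unfold Par.UQ Par.Low
        simp only [ev]
      have ed : X.DQ X.D (Tm.pi (A1.sub σ) (B1.sub (ups σ))) ↔
          X.DQ X.D (Tm.pi (A2.sub σ) (B2.sub (ups σ))) := by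
        unfold Par.DQ Par.HQ Par.HE Par.HO
        simp only [ev]
      by_cases hU : ∃ r, X.UQ X.D r (Tm.pi (A1.sub σ) (B1.sub (ups σ)))
      · obtain ⟨r, hr⟩ := hU
        rw [kd_univ H (.of_sort j1) hr, kd_univ H (.of_sort j2) ((eu r).1 hr)]
      · by_cases hq : X.DQ X.D (Tm.pi (A1.sub σ) (B1.sub (ups σ)))
        · rw [kd_arr H j1 hq fun r hr => hU ⟨r, hr⟩,
            kd_arr H j2 (ed.1 hq) fun r hr => hU ⟨r, (eu r).2 hr⟩, kd_conv (hcc.sub σ)]
          congr 1
          funext N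
          have et : TyC X.P X.D N (A1.sub σ) ↔ TyC X.P X.D N (A2.sub σ) :=
            tyC_conv (hcc.symm.sub σ)
          by_cases hN : TyC X.P X.D N (A1.sub σ)
          · rw [if_pos hN, if_pos (et.1 hN)]
            obtain ⟨N', hcN, L, hL, hLc⟩ := hN
            have hNA : J X.P X.D N' (A1.sub σ) := .conv hL (m1.sub hσ) hLc
            have ih1 := ih (hG.push m1) (hNG.push m1) (hσ.scons hNA)
              ((tyE_conv k3).1 (.of_sort m2)) ((tyE_conv l3).1 (.of_sort (n2.le le)))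
              (r1.conv k3) ((r2.le le).conv l3)
            rw [← kd_conv (k3.sub _), ← kd_conv (l3.sub _)] at ih1
            have e1 : Conv (inst (B1.sub (ups σ)) N) (B1.sub (scons N' σ)) := by
              rw [← inst_ups]; exact Conv.inst (.refl _) hcN
            have e2 : Conv (inst (B2.sub (ups σ)) N) (B2.sub (scons N' σ)) := by
              rw [← inst_ups]; exact Conv.inst (.refl _) hcN
            rw [kd_conv e1, kd_conv e2, ih1]
          · rw [if_neg hN, if_neg fun h => hN (et.2 h)]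
        · obtain ⟨x1, x2, -⟩ := H.hnA H.nc j1
          obtain ⟨y1, y2, -⟩ := H.hnA H.nc j2
          rw [kd_pi_n x1 x2 hq, kd_pi_n y1 y2 fun h => hq (ed.2 h)]
    · have hR2 : ¬ X.Rl X.D (Tm.pi (A2.sub σ) (B2.sub (ups σ))) := by
        intro h
        refine hR (((sib_rl H.wn hsAB.symm hG hNG X.wf H.nc hσ eB eA h2 h1).1 ?_).conv
          (k1.sub σ))
        exact h.conv (l1.symm.sub σ)
      rw [kd_irr hR, kd_irr hR2]

theorem rl_sib (H : X.Setup) {K K' : Tm S} (hs : Sib K K') {G : Ctx S} {σ : ℕ → Tm S}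
    (hG : WFC X.P G) (hNG : NCtx X.P G) (hσ : SubC X.P G X.D σ) (hK : TyE X.P G K)
    (hK' : TyE X.P G K') (h1 : X.Rl G K) (h2 : X.Rl G K') :
    X.Rl X.D (K.sub σ) ↔ X.Rl X.D (K'.sub σ) :=
  ⟨(sib_rl H.wn hs hG hNG X.wf H.nc hσ hK hK' h1 h2).1,
    (sib_rl H.wn hs.symm hG hNG X.wf H.nc hσ hK' hK h2 h1).1⟩

theorem tyE_sub {σ : ℕ → Tm S} (hσ : SubC X.P G D σ) (hK : TyE X.P G K) :
    TyE X.P D (K.sub σ) := by
  rcases hK with ⟨s, h⟩ | ⟨s, h⟩
  · exact .inl ⟨s, tyS_sub hσ h⟩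
  · exact .inr ⟨s, h.sub σ⟩

theorem ek_sib (H : X.Setup) {K K' : Tm S} (hs : Sib K K') {G : Ctx S} {σ : ℕ → Tm S}
    (hG : WFC X.P G) (hNG : NCtx X.P G) (hσ : SubC X.P G X.D σ) (hK : TyE X.P G K)
    (hK' : TyE X.P G K') (h1 : X.Rl G K) (h2 : X.Rl G K') :
    X.ek (K.sub σ) = X.ek (K'.sub σ) := by
  have e := rl_sib H hs hG hNG hσ hK hK' h1 h2
  by_cases hR : X.Rl X.D (K.sub σ)
  · have ev : ∀ m, X.Vw X.D (K.sub σ) m ↔ X.Vw X.D (K'.sub σ) m := fun m =>
      Sib.vw H.wn X.wf H.nc (hs.sub σ) (tyE_sub hσ hK) (tyE_sub hσ hK') hR (e.1 hR)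
    have ed : X.DQ X.D (K.sub σ) ↔ X.DQ X.D (K'.sub σ) := by
      unfold Par.DQ Par.HQ Par.HE Par.HO
      simp only [ev]
    have ee : X.HE X.D (K.sub σ) ↔ X.HE X.D (K'.sub σ) := by
      unfold Par.HE
      simp only [ev]
    have eo : X.HO X.D (K.sub σ) ↔ X.HO X.D (K'.sub σ) := by
      unfold Par.HO
      simp only [ev]
    have ek := kd_sib H hs hG hNG hσ hK hK' h1 h2
    by_cases g1 : X.DQ X.D (K.sub σ)
    · rw [ek_dq g1, ek_dq (ed.1 g1), ek]
    · by_cases g2 : X.HE X.D (K.sub σ)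
      · rw [ek_he g1 g2, ek_he (fun h => g1 (ed.2 h)) (ee.1 g2)]
      · by_cases g3 : X.HO X.D (K.sub σ)
        · rw [ek_ho g1 g3, ek_ho (fun h => g1 (ed.2 h)) (eo.1 g3)]
        · have g4 : ¬ X.Vd X.D (K.sub σ) := by
            rintro (h | h | h)
            · exact g1 (.inl h)
            · exact g2 h
            · exact g3 h
          have g5 : ¬ X.Vd X.D (K'.sub σ) := by
            rintro (h | h | h)
            · exact g1 (ed.2 (.inl h))
            · exact g2 (ee.2 h)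
            · exact g3 (eo.2 h)
          rw [ek_n g4, ek_n g5, ek]
  · rw [ek_irr hR, ek_irr fun h => hR (e.2 h)]

/-! Codes of expressions. -/

theorem tyOf_sib {Q T T' : Tm S} (h : TyOf X.P X.D Q T) (h' : J X.P X.D Q T') : Sib T T' := by
  obtain ⟨Q', h1, h2⟩ := h
  exact J.sib_conv X.wf h2 h' h1.symm

theorem tyOf_tyE {Q T : Tm S} (h : TyOf X.P X.D Q T) : TyE X.P X.D T := by
  obtain ⟨Q', h1, h2⟩ := h
  exact tyE_of_j X.wf h2

theorem ek_sib0 (H : X.Setup) {K K' : Tm S} (hs : Sib K K') (hK : TyE X.P X.D K)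
    (hK' : TyE X.P X.D K') (h1 : X.Rl X.D K) (h2 : X.Rl X.D K') : X.ek K = X.ek K' := by
  have := ek_sib H hs X.wf H.nc (subC_var X.D) hK hK' h1 h2
  rwa [sub_var, sub_var] at this

theorem cd_eq (H : X.Setup) {Q T : Tm S} (h : J X.P X.D Q T) (hT : X.Rl X.D T) :
    X.cd Q = X.ek T := by
  classical
  have hex : ∃ T, TyOf X.P X.D Q T ∧ X.Rl X.D T := ⟨T, ⟨Q, .refl _, h⟩, hT⟩
  unfold Par.cd
  rw [dif_pos hex]
  obtain ⟨h1, h2⟩ := hex.choose_spec
  exact ek_sib0 H (tyOf_sib h1 h) (tyOf_tyE h1) (tyE_of_j X.wf h) h2 hT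

theorem tq_iff (H : X.Setup) {Q T : Tm S} (h : J X.P X.D Q T) (hT : X.Rl X.D T) :
    X.TQ Q ↔ X.Vd X.D T := by
  constructor
  · rintro ⟨T', h1, h2⟩
    have ev : ∀ m, X.Vw X.D T' m ↔ X.Vw X.D T m := fun m =>
      Sib.vw H.wn X.wf H.nc (tyOf_sib h1 h) (tyOf_tyE h1) (tyE_of_j X.wf h) h2.rl hT
    unfold Par.Vd Par.HQ Par.HE Par.HO at h2 ⊢
    simp only [← ev]
    exact h2
  · exact fun h' => ⟨T, ⟨Q, .refl _, h⟩, h'⟩

theorem dm_eq {F A B : Tm S} (h : J X.P X.D F (pi A B)) : X.dm F = X.ek A := by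
  classical
  have hex : ∃ A B, TyOf X.P X.D F (pi A B) := ⟨A, B, F, .refl _, h⟩
  unfold Par.dm
  rw [dif_pos hex]
  obtain ⟨B', h1⟩ := hex.choose_spec
  exact ek_conv (tyOf_sib h1 h).pi_inj.1

theorem rg_eq (H : X.Setup) {F A B N : Tm S} (h : J X.P X.D F (pi A B))
    (hR : X.Rl X.D (pi A B)) (hN : J X.P X.D N A) : X.rg F N = X.ek (inst B N) := by
  classical
  have hex : ∃ B A, TyOf X.P X.D F (pi A B) ∧ X.Rl X.D (pi A B) :=
    ⟨B, A, ⟨F, .refl _, h⟩, hR⟩
  unfold Par.rg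
  rw [dif_pos hex]
  obtain ⟨A', h1, h2⟩ := hex.choose_spec
  obtain ⟨e1, e2⟩ := (tyOf_sib h1 h).pi_inj
  obtain ⟨c, hc⟩ := (h.correct X.wf).resolve_left (by rintro ⟨s, e⟩; cases e)
  obtain ⟨F', h3, h4⟩ := h1
  obtain ⟨c', hc'⟩ := (h4.correct X.wf).resolve_left (by rintro ⟨s, e⟩; cases e)
  obtain ⟨a, b, -, k1, k2, -, -⟩ := hc.pi_inv
  obtain ⟨a', b', -, k1', k2', -, -⟩ := hc'.pi_inv
  have le : CLe X.P (push A' X.D) (push A X.D) := CLe.conv k1' e1
  have r1 := (rl_piJ H X.wf H.nc hc).1 hR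
  have r2 := ((rl_piJ H X.wf H.nc hc').1 h2).le le
  exact ek_sib H e2 (X.wf.push k1) (H.nc.push k1) (subC_single hN) (.of_sort (k2'.le le))
    (.of_sort k2) r2 r1

end NM

end Vale.Agent.P340
end

section

/-! Families of realizers indexed by types: largest solutions, alternating fixed points,
ambiguous types. -/

namespace Vale.Agent.P340.W

universe u v

/-- Types `T` and realizers `R`: `base t` are the admissible realizers of the type `t`, `arg t`
the admissible arguments, `rel t` holds for the types that are interpreted, `ar t a b` means that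
`t` is a product with domain `a` and codomain `b q` at the argument `q`. -/
structure Fam (R : Type u) (T : Type v) where
  base : T → Set R
  arg : T → Set R
  rel : T → Prop
  ar : T → T → (R → T) → Prop
  app : R → R → R

namespace Fam

variable {R : Type u} {T : Type v} (F : Fam R T)

/-- Members of a type: only types with `rel` are interpreted by the family `Z`. -/
def DS (Z : T → Set R) (t : T) : Set R := {r | r ∈ F.base t ∧ (F.rel t → r ∈ Z t)}

/-- The realizers of `t` that map `Y`-members of the domain to `Z`-members of the codomain. -/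
def Op (Y Z : T → Set R) (t : T) : Set R :=
  {r | r ∈ F.base t ∧ ∀ a b, F.ar t a b → ∀ q ∈ F.DS Y a, q ∈ F.arg a → F.app r q ∈ F.DS Z (b q)}

/-- The largest solution of `Z ≤ Op Y Z`. -/
def Phi (Y : T → Set R) (t : T) : Set R := {r | ∃ Z : T → Set R, Z ≤ F.Op Y Z ∧ r ∈ Z t}

variable {F}

theorem ds_mono {Y Z : T → Set R} {t : T} (h : F.rel t → Y t ⊆ Z t) : F.DS Y t ⊆ F.DS Z t :=
  fun _ hr => ⟨hr.1, fun ht => h ht (hr.2 ht)⟩

theorem ds_congr {Y Z : T → Set R} {t : T} (h : F.rel t → Y t = Z t) : F.DS Y t = F.DS Z t :=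
  Set.Subset.antisymm (ds_mono fun ht => (h ht).subset) (ds_mono fun ht => (h ht).symm.subset)

theorem op_mono {Y Y' Z Z' : T → Set R} (h : Y' ≤ Y) (h' : Z ≤ Z') : F.Op Y Z ≤ F.Op Y' Z' :=
  fun _ _ hr => ⟨hr.1, fun a b hb q hq hg =>
    ds_mono (fun _ => h' _) (hr.2 a b hb q (ds_mono (fun _ => h _) hq) hg)⟩

theorem phi_le_op (Y : T → Set R) : F.Phi Y ≤ F.Op Y (F.Phi Y) := by
  rintro t r ⟨Z, hZ, hr⟩
  have h : Z ≤ F.Phi Y := fun t r hr => ⟨Z, hZ, hr⟩
  exact op_mono le_rfl h t (hZ t hr)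

theorem le_phi {Y Z : T → Set R} (h : Z ≤ F.Op Y Z) : Z ≤ F.Phi Y :=
  fun _ _ hr => ⟨Z, h, hr⟩

theorem phi_eq (Y : T → Set R) (t : T) : F.Phi Y t = F.Op Y (F.Phi Y) t :=
  Set.Subset.antisymm (phi_le_op Y t) (le_phi (op_mono le_rfl (phi_le_op Y)) t)

theorem phi_anti {Y Y' : T → Set R} (h : Y ≤ Y') : F.Phi Y' ≤ F.Phi Y :=
  le_phi (le_trans (phi_le_op Y') (op_mono h le_rfl))

variable (F)

/-- `Phi ∘ Phi`. -/
def Phi2 : (T → Set R) →o (T → Set R) where
  toFun Y := F.Phi (F.Phi Y)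
  monotone' _ _ h := phi_anti (phi_anti h)

/-- The two alternating families. -/
def Lo : T → Set R := F.Phi2.lfp

/-- The other family. -/
def Hi : T → Set R := F.Phi F.Lo

variable {F}

theorem lo_eq : F.Phi F.Hi = F.Lo := F.Phi2.map_lfp

/-- Types on which both families agree by recursion. -/
inductive Amb (F : Fam R T) : T → Prop where
  | mk {t : T} : (∀ a b, F.ar t a b → F.rel a → Amb F a) →
      (∀ a b, F.ar t a b → ∀ q ∈ F.arg a, F.rel (b q) → Amb F (b q)) → Amb F t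

theorem amb_eq {t : T} (h : F.Amb t) : F.Lo t = F.Hi t := by
  induction h with
  | @mk t _ _ ih1 ih2 =>
    have e1 : F.Lo t = F.Op F.Hi F.Lo t := by
      conv_lhs => rw [← lo_eq, phi_eq, lo_eq]
    have e2 : F.Hi t = F.Op F.Lo F.Hi t := phi_eq _ _
    rw [e1, e2]
    ext r
    refine and_congr Iff.rfl (forall_congr' fun a => forall_congr' fun b =>
      forall_congr' fun hb => ?_)
    have h1 : F.DS F.Hi a = F.DS F.Lo a := ds_congr fun ha => (ih1 a b hb ha).symm
    rw [h1]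
    refine forall_congr' fun q => forall_congr' fun hq => forall_congr' fun hg => ?_
    have h2 : F.DS F.Lo (b q) = F.DS F.Hi (b q) := ds_congr fun ha => ih2 a b hb q hg ha
    rw [h2]

/-- Colours: domains have the other colour, codomains the same colour; types with both colours
are rigid. -/
structure Colour (F : Fam R T) (col : T → Bool → Prop) : Prop where
  ex : ∀ t, F.rel t → ∃ k, col t k
  dom : ∀ t a b k, F.rel t → F.ar t a b → col t k → F.rel a → col a (!k)
  cod : ∀ t a b k, F.rel t → F.ar t a b → col t k → ∀ q ∈ F.arg a, F.rel (b q) → col (b q) k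
  amb : ∀ t, F.rel t → col t true → col t false → F.Amb t

variable (F)

open Classical in
/-- The interpretation of the types. -/
noncomputable def PX (col : T → Bool → Prop) (t : T) : Set R :=
  if col t true then F.Lo t else F.Hi t

variable {F}
variable {col : T → Bool → Prop}

theorem px_true (_ : F.Colour col) {t : T} (_ : F.rel t) (h : col t true) :
    F.PX col t = F.Lo t := if_pos h

theorem px_false (hc : F.Colour col) {t : T} (ht : F.rel t) (h : col t false) :
    F.PX col t = F.Hi t := by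
  by_cases h' : col t true
  · rw [px_true hc ht h', amb_eq (hc.amb t ht h' h)]
  · exact if_neg h'

theorem px_eq (hc : F.Colour col) {t : T} (ht : F.rel t) :
    F.PX col t = F.Op (F.PX col) (F.PX col) t := by
  obtain ⟨k, hk⟩ := hc.ex t ht
  cases k with
  | true =>
    rw [px_true hc ht hk]
    have e1 : F.Lo t = F.Op F.Hi F.Lo t := by
      conv_lhs => rw [← lo_eq, phi_eq, lo_eq]
    rw [e1]
    ext r
    refine and_congr Iff.rfl (forall_congr' fun a => forall_congr' fun b =>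
      forall_congr' fun hb => ?_)
    have h1 : F.DS F.Hi a = F.DS (F.PX col) a :=
      ds_congr fun ha => (px_false hc ha (hc.dom t a b true ht hb hk ha)).symm
    rw [h1]
    refine forall_congr' fun q => forall_congr' fun hq => forall_congr' fun hg => ?_
    have h2 : F.DS F.Lo (b q) = F.DS (F.PX col) (b q) :=
      ds_congr fun ha => (px_true hc ha (hc.cod t a b true ht hb hk q hg ha)).symm
    rw [h2]
  | false =>
    rw [px_false hc ht hk]
    have e1 : F.Hi t = F.Op F.Lo F.Hi t := phi_eq _ _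
    rw [e1]
    ext r
    refine and_congr Iff.rfl (forall_congr' fun a => forall_congr' fun b =>
      forall_congr' fun hb => ?_)
    have h1 : F.DS F.Lo a = F.DS (F.PX col) a :=
      ds_congr fun ha => (px_true hc ha (hc.dom t a b false ht hb hk ha)).symm
    rw [h1]
    refine forall_congr' fun q => forall_congr' fun hq => forall_congr' fun hg => ?_
    have h2 : F.DS F.Hi (b q) = F.DS (F.PX col) (b q) :=
      ds_congr fun ha => (px_false hc ha (hc.cod t a b false ht hb hk q hg ha)).symm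
    rw [h2]

/-- Closure of the largest solution under a compatible relation. -/
theorem phi_rel {Y : T → Set R} {Rl : T → R → R → Prop}
    (h1 : ∀ t r r0, Rl t r r0 → r0 ∈ F.base t → r ∈ F.base t)
    (h2 : ∀ t r r0 a b q, Rl t r r0 → F.ar t a b → q ∈ F.base a → q ∈ F.arg a →
      Rl (b q) (F.app r q) (F.app r0 q)) {t : T} {r r0 : R} (hr : Rl t r r0)
    (h0 : r0 ∈ F.Phi Y t) : r ∈ F.Phi Y t := by
  refine le_phi (Z := fun t => {r | ∃ r0, Rl t r r0 ∧ r0 ∈ F.Phi Y t}) ?_ t ⟨r0, hr, h0⟩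
  rintro t r ⟨r0, h3, h4⟩
  rw [phi_eq] at h4
  refine ⟨h1 t r r0 h3 h4.1, fun a b hb q hq hg => ?_⟩
  have h5 := h4.2 a b hb q hq hg
  have h6 := h2 t r r0 a b q h3 hb hq.1 hg
  exact ⟨h1 _ _ _ h6 h5.1, fun hrel => ⟨_, h6, h5.2 hrel⟩⟩

/-- The largest solution contains every family closed under application. -/
theorem phi_neu {Y : T → Set R} {N : T → Set R} (h1 : ∀ t, N t ⊆ F.base t)
    (h2 : ∀ t r a b q, r ∈ N t → F.ar t a b → q ∈ F.base a → q ∈ F.arg a →
      F.app r q ∈ N (b q)) {t : T} :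
    N t ⊆ F.Phi Y t := by
  refine le_phi (Z := N) ?_ t
  intro t r hr
  exact ⟨h1 t hr, fun a b hb q hq hg => ⟨h1 _ (h2 t r a b q hr hb hq.1 hg), fun _ =>
    h2 t r a b q hr hb hq.1 hg⟩⟩

/-- Invariance. -/
theorem phi_inv {Y : T → Set R} {t t' : T} (h1 : F.base t = F.base t')
    (h2 : ∀ a b, F.ar t a b ↔ F.ar t' a b) : F.Phi Y t = F.Phi Y t' := by
  rw [phi_eq, phi_eq]
  ext r
  show _ ∧ _ ↔ _ ∧ _
  rw [h1]
  exact and_congr Iff.rfl (forall_congr' fun a => forall_congr' fun b => by rw [h2])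

theorem px_rel (hc : F.Colour col) {Rl : T → R → R → Prop}
    (h1 : ∀ t r r0, Rl t r r0 → r0 ∈ F.base t → r ∈ F.base t)
    (h2 : ∀ t r r0 a b q, Rl t r r0 → F.ar t a b → q ∈ F.base a → q ∈ F.arg a →
      Rl (b q) (F.app r q) (F.app r0 q)) {t : T} (ht : F.rel t) {r r0 : R} (hr : Rl t r r0)
    (h0 : r0 ∈ F.PX col t) : r ∈ F.PX col t := by
  obtain ⟨k, hk⟩ := hc.ex t ht
  cases k with
  | true =>
    rw [px_true hc ht hk, ← lo_eq] at *
    exact phi_rel h1 h2 hr h0
  | false =>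
    rw [px_false hc ht hk] at *
    exact phi_rel h1 h2 hr h0

theorem px_neu (hc : F.Colour col) {N : T → Set R} (h1 : ∀ t, N t ⊆ F.base t)
    (h2 : ∀ t r a b q, r ∈ N t → F.ar t a b → q ∈ F.base a → q ∈ F.arg a →
      F.app r q ∈ N (b q)) {t : T} (ht : F.rel t) : N t ⊆ F.PX col t := by
  obtain ⟨k, hk⟩ := hc.ex t ht
  cases k with
  | true =>
    rw [px_true hc ht hk, ← lo_eq]
    exact phi_neu h1 h2
  | false =>
    rw [px_false hc ht hk]
    exact phi_neu h1 h2

theorem px_inv {t t' : T} (h1 : F.base t = F.base t') (h2 : ∀ a b, F.ar t a b ↔ F.ar t' a b)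
    (h3 : col t true ↔ col t' true) : F.PX col t = F.PX col t' := by
  have e1 : F.Lo t = F.Lo t' := by
    rw [← lo_eq]; exact phi_inv h1 h2
  have e2 : F.Hi t = F.Hi t' := phi_inv h1 h2
  unfold PX
  rw [e1, e2]
  by_cases h : col t true
  · rw [if_pos h, if_pos (h3.1 h)]
  · rw [if_neg h, if_neg fun h' => h (h3.2 h')]

end Fam

end Vale.Agent.P340.W
end

section

/-! The model of a two-colourable block, for arbitrary specifications. -/

namespace Vale.Agent.P340.W

universe u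
variable {S : Type u} {P : Spec S} {lv : S → ℕ} {i : ℕ} {G D : Ctx S}

namespace ME

/-! Insertion of memory. -/

theorem ins_er {Q M M' : MTm S} (h : Ins Q M M') : M'.er = M.er := by
  induction h with
  | here M => rfl
  | app N _ ih => show Tm.app _ _ = Tm.app _ _; rw [ih]
  | mem N _ ih => exact ih

theorem ins_isLam {Q M M' : MTm S} (h : Ins Q M M') : M'.IsLam ↔ M.IsLam := by
  induction h with
  | here M => exact Iff.rfl
  | app N _ ih => exact Iff.rfl
  | mem N _ ih => exact ih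

theorem ins_ok {Q M M' : MTm S} {T : Tm S} (h : Ins Q M M') (hQ : Ok P G Q)
    (hT : J P G Q.er T) : Ok P G M → Ok P G M' := by
  induction h with
  | here M => exact fun hM => .mem hM hQ hT
  | app N _ ih => intro hM; cases hM with | app h1 h2 => exact .app (ih h1) h2
  | mem N _ ih => intro hM; cases hM with | mem h1 h2 h3 => exact .mem (ih h1) h2 h3

theorem ins_nm {Q M M' : MTm S} (h : Ins Q M M') (hQ : Nm P lv i G Q) :
    Nm P lv i G M → Nm P lv i G M' := by
  induction h with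
  | here M => exact fun hM => .mem hM hQ
  | app N h ih =>
    intro hM
    cases hM with
    | app h1 h2 h3 =>
      refine .app (ih h1) h2 fun hl => ?_
      rw [ins_er h]
      exact h3 ((ins_isLam h).1 hl)
  | mem N _ ih => intro hM; cases hM with | mem h1 h2 => exact .mem (ih h1) h2

theorem ins_ctr {Q F F' : MTm S} (h : Ins Q F F') : ∀ {N R : MTm S}, Ctr F N R →
    ∃ R', Ctr F' N R' ∧ Ins Q R R' := by
  induction h with
  | here M => intro N R hc; exact ⟨_, .mem _ hc, .here _⟩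
  | app N _ ih => intro N R hc; cases hc
  | mem N _ ih =>
    intro N' R hc
    cases hc with
    | mem _ hc =>
      obtain ⟨R', h1, h2⟩ := ih hc
      exact ⟨_, .mem _ h1, .mem _ h2⟩

theorem ins_step {Q M M' : MTm S} (h : Ins Q M M') : ∀ {N : MTm S}, St M N →
    ∃ N', St M' N' ∧ Ins Q N N' := by
  induction h with
  | here M => intro N hs; exact ⟨_, .memL _ hs, .here _⟩
  | app N h ih =>
    intro R hs
    cases hs with
    | root hc =>
      obtain ⟨R', h1, h2⟩ := ins_ctr h hc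
      exact ⟨R', .root h1, h2⟩
    | appL _ hs =>
      obtain ⟨R', h1, h2⟩ := ih hs
      exact ⟨_, .appL _ h1, .app _ h2⟩
    | appR _ hs => exact ⟨_, .appR _ hs, .app _ h⟩
  | mem N h ih =>
    intro R hs
    cases hs with
    | memL _ hs =>
      obtain ⟨R', h1, h2⟩ := ih hs
      exact ⟨_, .memL _ h1, .mem _ h2⟩
    | memR _ hs => exact ⟨_, .memR _ hs, .mem _ h⟩

theorem ins_steps {Q M M' N : MTm S} (h : Ins Q M M') (hs : Sts M N) :
    ∃ N', Sts M' N' ∧ Ins Q N N' := by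
  induction hs with
  | refl => exact ⟨M', .refl _, h⟩
  | tail _ hs ih =>
    obtain ⟨N1, h1, h2⟩ := ih
    obtain ⟨N2, h3, h4⟩ := ins_step h2 hs
    exact ⟨N2, h1.trans h3.sts, h4⟩

theorem ins_red {Q Q0 M M' : MTm S} (h : Ins Q M M') (hs : Sts Q Q0) :
    ∃ M'', Sts M' M'' ∧ Ins Q0 M M'' := by
  induction h with
  | here M => exact ⟨_, .mem (.refl _) hs, .here _⟩
  | app N _ ih =>
    obtain ⟨M'', h1, h2⟩ := ih
    exact ⟨_, .app h1 (.refl _), .app _ h2⟩
  | mem N _ ih =>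
    obtain ⟨M'', h1, h2⟩ := ih
    exact ⟨_, .mem h1 (.refl _), .mem _ h2⟩

theorem wn_ins {Q M M' : MTm S} (h : Ins Q M M') (hQ : Wn P lv i G Q) (hM : Wn P lv i G M) :
    Wn P lv i G M' := by
  obtain ⟨⟨T, h1, h2⟩, Q0, h3, h4⟩ := hQ
  obtain ⟨⟨A, h5, h6⟩, N, h7, h8⟩ := hM
  refine ⟨⟨A, ins_ok h h1 h2 h5, by rw [ins_er h]; exact h6⟩, ?_⟩
  obtain ⟨N', k1, k2⟩ := ins_steps h h7
  obtain ⟨N'', k3, k4⟩ := ins_red k2 h3
  exact ⟨N'', k1.trans k3, ins_nm k4 h4 h8⟩

theorem wn_exp {M M' : MTm S} (h : St M M') (hT : ∃ A, Ty P G M A) (hM : Wn P lv i G M') :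
    Wn P lv i G M := by
  obtain ⟨_, N, h7, h8⟩ := hM
  exact ⟨hT, N, h.sts.trans h7, h8⟩

theorem wo_wn {M : MTm S} (h : Wo P lv i G M) : Wn P lv i G M := by
  obtain ⟨h1, N, h2, h3, _⟩ := h
  exact ⟨h1, N, h2, h3⟩

theorem wo_app {M N : MTm S} (h : Wo P lv i G M) (h' : Wn P lv i G N) {A : Tm S}
    (hT : Ty P G (MTm.app M N) A) : Wo P lv i G (MTm.app M N) := by
  obtain ⟨_, M', h2, h3, h4⟩ := h
  obtain ⟨_, N', h6, h7⟩ := h'
  exact ⟨⟨A, hT⟩, _, h2.app h6, .app h3 h7 fun hl => absurd hl h4, fun hl => hl⟩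

/-! Typing up to siblings. -/

/-- Realizers of the type `t`, up to the final sort. -/
def Td (P : Spec S) (D : Ctx S) (t : Tm S) (r : MTm S) : Prop := ∃ t', Sib t t' ∧ Ty P D r t'

theorem Td.sib {t t' : Tm S} {r : MTm S} (h : Td P D t r) (h' : Sib t t') : Td P D t' r := by
  obtain ⟨t1, h1, h2⟩ := h
  exact ⟨t1, h'.symm.trans h1, h2⟩

/-- The views of a type. -/
def Vw (P : Spec S) (D : Ctx S) (t : Tm S) (c : S) : Prop :=
  ∃ t', Sib t t' ∧ J P D t' (Tm.sort c)

theorem Vw.sib {t t' : Tm S} {c : S} (h : Vw P D t c) (h' : Sib t t') : Vw P D t' c := by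
  obtain ⟨t1, h1, h2⟩ := h
  exact ⟨t1, h'.symm.trans h1, h2⟩

theorem Vw.lc {t : Tm S} {c : S} (h : Vw P D t c) (hc : lv c < i) : Lc P lv i D t := by
  obtain ⟨t1, h1, h2⟩ := h
  exact ⟨t1, c, h1, h2, hc⟩

theorem Vw.sub {t : Tm S} {c : S} (h : Vw P G t c) {σ : ℕ → Tm S} (hσ : SubC P G D σ) :
    Vw P D (t.sub σ) c := by
  obtain ⟨t1, h1, h2⟩ := h
  exact ⟨t1.sub σ, h1.sub σ, h2.sub hσ⟩

theorem Vw.pi {t A B : Tm S} {c : S} (hD : WFC P D) (h : Vw P D t c)
    (h' : Sib t (Tm.pi A B)) : ∃ A' B' a b, Conv A' A ∧ Sib B' B ∧ J P D A' (Tm.sort a) ∧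
      J P (push A' D) B' (Tm.sort b) ∧ P.rule a b c := by
  obtain ⟨t1, h1, h2⟩ := h
  obtain ⟨B1, h3, h4⟩ := (h'.symm.trans h1).pi_inv (.refl _)
  obtain ⟨A', B', h5, h6, h7⟩ := red_pi h3
  obtain ⟨a, b, c', k1, k2, k3, k4⟩ := (h2.red hD h5).pi_inv
  cases k4.sort_inj
  exact ⟨A', B', a, b, h6, (Sib.conv h7).trans h4.symm, k1, k2, k3⟩

/-- Types of class `i`. -/
def Rl (P : Spec S) (lv : S → ℕ) (i : ℕ) (D : Ctx S) (t : Tm S) : Prop :=
  Lc P lv (i + 1) D t ∧ ¬ Lc P lv i D t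

theorem Rl.sib {t t' : Tm S} (h : Rl P lv i D t) (h' : Sib t t') : Rl P lv i D t' :=
  ⟨h.1.sib h', fun hl => h.2 (hl.sib h'.symm)⟩

/-- The family of the types of `D`. -/
def fam (P : Spec S) (lv : S → ℕ) (i : ℕ) (D : Ctx S) : Fam (MTm S) (Tm S) where
  base t := {r | Wn P lv i D r ∧ Td P D t r}
  arg t := {r | ∃ t' a, Conv t t' ∧ J P D t' (Tm.sort a) ∧ J P D r.er t'}
  rel t := Rl P lv i D t
  ar t a b := ∃ B, Sib t (Tm.pi a B) ∧ b = fun q => Tm.inst B q.er
  app := MTm.app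

/-- Colours of a type. -/
def col (P : Spec S) (lv : S → ℕ) (i : ℕ) (D : Ctx S) (χ : S → Bool) (t : Tm S) (k : Bool) :
    Prop := ∃ c, Vw P D t c ∧ lv c = i ∧ χ c = k

theorem col_sib {χ : S → Bool} {t t' : Tm S} {k : Bool} (h : Sib t t') :
    col P lv i D χ t k ↔ col P lv i D χ t' k :=
  ⟨fun ⟨c, h1, h2⟩ => ⟨c, h1.sib h, h2⟩, fun ⟨c, h1, h2⟩ => ⟨c, h1.sib h.symm, h2⟩⟩

/-- Two-colourability of the rules of level `i`. -/
def Ev (P : Spec S) (lv : S → ℕ) (i : ℕ) (χ : S → Bool) : Prop :=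
  ∀ a b c, P.rule a b c → lv c = i → (lv a = i → χ a ≠ χ c) ∧ (lv b = i → χ b = χ c)

theorem normal_sib {N T : Tm S} (hn : Normal N) (hN : Ne N) (h : Sib N T) : Red T N := by
  cases h with
  | conv h =>
    obtain ⟨Q, h1, h2⟩ := h.cr
    rw [hn.red h1] at h2
    exact h2
  | sort h _ => exact absurd h (hN.not_sort hn)
  | pi h _ _ => exact absurd h (hN.not_pi hn)

/-- Normal types with two colours are rigid. -/
theorem amb_static (hlv : LvOk P lv) {χ : S → Bool} (hχ : Ev P lv i χ) (hD : WFC P D) (N : Tm S) :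
    ∀ {G : Ctx S} {θ : ℕ → Tm S} {c c' : S}, WFC P G → Normal N → Vw P G N c → Vw P G N c' →
      lv c = i → lv c' = i → χ c ≠ χ c' → SubC P G D θ → ∀ t, Sib t (N.sub θ) →
      (fam P lv i D).Amb t := by
  have neu : ∀ {N : Tm S} {G : Ctx S} {c c' : S}, Ne N → WFC P G → Normal N → Vw P G N c →
      Vw P G N c' → c = c' := by
    rintro N G c c' hN hG hn ⟨T, h1, h2⟩ ⟨T', h3, h4⟩
    exact (Ne.uniq hN (h2.red hG (normal_sib hn hN h1)) (h4.red hG (normal_sib hn hN h3))).sort_inj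
  induction N with
  | var n =>
    intro G θ c c' hG hn h1 h2 _ _ h3 _ t _
    exact absurd (congrArg χ (neu (N := Tm.var n) trivial hG hn h1 h2)) h3
  | app F Q _ _ =>
    intro G θ c c' hG hn h1 h2 _ _ h3 _ t _
    have hN : Ne (Tm.app F Q) := by
      obtain ⟨T, h4, h5⟩ := h1
      cases h4 with
      | conv h4 =>
        obtain ⟨R, h6, h7⟩ := h4.cr
        rw [hn.red h6] at h7
        exact ne_of_app (h5.red hG h7) hn
      | sort h _ => have := h.red_sort; have e := hn.red this; cases e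
      | pi h _ _ =>
        obtain ⟨A', B', h8, -, -⟩ := red_pi h
        have e := hn.red h8; cases e
    exact absurd (congrArg χ (neu hN hG hn h1 h2)) h3
  | sort s =>
    intro G θ c c' hG hn h1 h2 _ _ h3 _ t ht
    refine .mk ?_ ?_
    · rintro a b ⟨B, h4, -⟩ _
      obtain ⟨t', h5⟩ := (ht.symm.trans h4).sort_inv (.refl _)
      exact h5.symm.sort_pi.elim
    · rintro a b ⟨B, h4, -⟩ q _ _
      obtain ⟨t', h5⟩ := (ht.symm.trans h4).sort_inv (.refl _)
      exact h5.symm.sort_pi.elim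
  | lam A M _ _ =>
    intro G θ c c' hG hn h1 _ _ _ _ _ t _
    exfalso
    obtain ⟨T, h4, h5⟩ := h1
    cases h4 with
    | conv h4 =>
      obtain ⟨R, h6, h7⟩ := h4.cr
      rw [hn.red h6] at h7
      obtain ⟨B, s', -, -, h⟩ := (h5.red hG h7).lam_inv
      exact h.symm.sort_pi
    | sort h _ => have := h.red_sort; have e := hn.red this; cases e
    | pi h _ _ =>
      obtain ⟨A', B', h8, -, -⟩ := red_pi h
      have e := hn.red h8; cases e
  | pi A B ihA ihB =>
    intro G θ c c' hG hn h1 h2 hc hc' h3 hθ t ht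
    obtain ⟨A1, B1, a, b, e1, e2, e3, e4, e5⟩ := h1.pi hG (.refl _)
    obtain ⟨A2, B2, a', b', f1, f2, f3, f4, f5⟩ := h2.pi hG (.refl _)
    have g1 : J P G A (Tm.sort a) := by
      obtain ⟨Q, h, h'⟩ := e1.cr
      rw [hn.piL.red h'] at h
      exact e3.red hG h
    have g2 : J P G A (Tm.sort a') := by
      obtain ⟨Q, h, h'⟩ := f1.cr
      rw [hn.piL.red h'] at h
      exact f3.red hG h
    have g3 : Vw P (push A G) B b := ⟨B1, e2.symm, e4.ctx e3 e1⟩
    have g4 : Vw P (push A G) B b' := ⟨B2, f2.symm, f4.ctx f3 f1⟩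
    obtain ⟨l1, l2⟩ := hlv _ _ _ e5
    obtain ⟨l3, l4⟩ := hlv _ _ _ f5
    obtain ⟨x1, x2⟩ := hχ _ _ _ e5 hc
    obtain ⟨x3, x4⟩ := hχ _ _ _ f5 hc'
    refine .mk ?_ ?_
    · rintro a0 b0 ⟨B0, h4, -⟩ hr
      have h5 : Conv a0 (A.sub θ) := (h4.symm.trans ht).pi_inj.1
      have k1 : lv a = i := by
        by_contra hne
        exact hr.2 ((Lc.of_sort (g1.sub hθ) (by omega)).conv h5.symm)
      have k2 : lv a' = i := by
        by_contra hne
        exact hr.2 ((Lc.of_sort (g2.sub hθ) (by omega)).conv h5.symm)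
      refine ihA hG hn.piL ⟨A, .refl _, g1⟩ ⟨A, .refl _, g2⟩ k1 k2 ?_ hθ a0 (.conv h5)
      intro e
      have y1 := x1 k1
      have y2 := x3 k2
      rw [e] at y1
      cases h6 : χ c <;> cases h7 : χ c' <;> cases h8 : χ a' <;> simp_all
    · rintro a0 b0 ⟨B0, h4, rfl⟩ q hq hr
      have h5 := (h4.symm.trans ht).pi_inj
      have hq' : J P D q.er (A.sub θ) := by
        obtain ⟨a1, s1, q1, q2, q3⟩ := hq
        exact .conv q3 (g1.sub hθ) (q1.symm.trans h5.1)
      have hs := hθ.scons hq'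
      have h6 : Sib (Tm.inst B0 q.er) (B.sub (Tm.scons q.er θ)) := by
        have := h5.2.inst (.refl q.er)
        rwa [Tm.inst_ups] at this
      have k1 : lv b = i := by
        by_contra hne
        exact hr.2 (((g3.sub hs).lc (by omega)).sib h6.symm)
      have k2 : lv b' = i := by
        by_contra hne
        exact hr.2 (((g4.sub hs).lc (by omega)).sib h6.symm)
      refine ihB (hG.push g1) hn.piR g3 g4 k1 k2 ?_ hs _ h6
      rw [x2 k1, x4 k2]; exact h3

theorem colour (hW : WNKindVar P) (hlv : LvOk P lv) {χ : S → Bool} (hχ : Ev P lv i χ) (hD : WFC P D)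
    (hN : NCtx P D) : (fam P lv i D).Colour (col P lv i D χ) where
  ex := by
    rintro t ⟨⟨t', c, h1, h2, h3⟩, h4⟩
    refine ⟨χ c, c, ⟨t', h1, h2⟩, ?_, rfl⟩
    by_contra hne
    exact h4 ⟨t', c, h1, h2, by omega⟩
  dom := by
    rintro t a b k ht ⟨B, h1, -⟩ ⟨c, h2, h3, h4⟩ ha
    obtain ⟨A', B', s1, s2, e1, e2, e3, e4, e5⟩ := h2.pi hD h1
    obtain ⟨l1, l2⟩ := hlv _ _ _ e5
    have k1 : lv s1 = i := by
      by_contra hne
      exact ha.2 ((Lc.of_sort e3 (by omega)).conv e1)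
    refine ⟨s1, ⟨A', .conv e1.symm, e3⟩, k1, ?_⟩
    have := (hχ _ _ _ e5 h3).1 k1
    subst h4
    cases h6 : χ c <;> cases h7 : χ s1 <;> simp_all
  cod := by
    rintro t a b k ht ⟨B, h1, rfl⟩ ⟨c, h2, h3, h4⟩ q ⟨a1, s0, q1, q2, q3⟩ ha
    obtain ⟨A', B', s1, s2, e1, e2, e3, e4, e5⟩ := h2.pi hD h1
    obtain ⟨l1, l2⟩ := hlv _ _ _ e5
    have hq : J P D q.er A' := .conv q3 e3 (q1.symm.trans e1.symm)
    have hv : Vw P D (Tm.inst B q.er) s2 :=
      ⟨Tm.inst B' q.er, (e2.inst (.refl _)).symm, e4.inst_sort hq⟩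
    have k1 : lv s2 = i := by
      by_contra hne
      exact ha.2 (hv.lc (by omega))
    exact ⟨s2, hv, k1, ((hχ _ _ _ e5 h3).2 k1).trans h4⟩
  amb := by
    rintro t _ ⟨c, ⟨t', h1, h2⟩, h3, h4⟩ ⟨c', h5, h6, h7⟩
    have hn : HN t' := hN.hn hW h2
    have h8 : Sib t (nf t') := h1.trans (.conv hn.red.conv)
    refine amb_static hlv hχ hD (nf t') hD hn.normal ⟨t', .conv hn.red.conv.symm, h2⟩
      (h5.sib h8) h3 h6 (by rw [h4, h7]; simp) (subC_var D) t ?_
    rw [Tm.sub_var]; exact h8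

/-- The interpretation of a type of `D`. -/
def IE (P : Spec S) (lv : S → ℕ) (i : ℕ) (D : Ctx S) (χ : S → Bool) (t : Tm S) : Set (MTm S) :=
  {r | Wn P lv i D r ∧ (Td P D t r → r ∈ (fam P lv i D).PX (col P lv i D χ) t)}

theorem px_sib {χ : S → Bool} {t t' : Tm S} (h : Sib t t') :
    (fam P lv i D).PX (col P lv i D χ) t = (fam P lv i D).PX (col P lv i D χ) t' := by
  refine Fam.px_inv ?_ ?_ (col_sib h)
  · ext r
    exact and_congr Iff.rfl ⟨fun h1 => h1.sib h, fun h1 => h1.sib h.symm⟩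
  · intro a b
    exact ⟨fun ⟨B, h1, h2⟩ => ⟨B, h.symm.trans h1, h2⟩, fun ⟨B, h1, h2⟩ => ⟨B, h.trans h1, h2⟩⟩

theorem ie_sib {χ : S → Bool} {t t' : Tm S} (h : Sib t t') :
    IE P lv i D χ t = IE P lv i D χ t' := by
  ext r
  refine and_congr Iff.rfl (imp_congr ⟨fun h1 => h1.sib h, fun h1 => h1.sib h.symm⟩ ?_)
  rw [px_sib h]

theorem ty_app (hD : WFC P D) {t a B : Tm S} {r q : MTm S} (h : Td P D t r)
    (h' : Sib t (Tm.pi a B)) (hq : Ok P D q) (hg : q ∈ (fam P lv i D).arg a) :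
    Td P D (Tm.inst B q.er) (MTm.app r q) := by
  obtain ⟨t', h1, h2, h3⟩ := h
  obtain ⟨a1, s0, q1, q2, q3⟩ := hg
  obtain ⟨B1, h4, h5⟩ := (h'.symm.trans h1).pi_inv (.refl _)
  rcases h3.correct hD with ⟨s, rfl⟩ | ⟨s, hs⟩
  · exact h4.sort_pi.elim
  · obtain ⟨A', B', h6, h7, h8⟩ := red_pi h4
    have k1 := hs.red hD h6
    obtain ⟨s1, s2, s3, k2, k3, k4, k5⟩ := k1.pi_inv
    have hq' : J P D q.er A' := .conv q3 k2 (q1.symm.trans h7.symm)
    refine ⟨Tm.inst B' q.er, (h5.convR h8.symm).inst (.refl _), .app h2 hq, ?_⟩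
    exact .app (.conv h3 k1 h6.conv) hq'

theorem ie_cr {χ : S → Bool} (hD : WFC P D)
    (hc : (fam P lv i D).Colour (col P lv i D χ)) {t : Tm S} (ht : Rl P lv i D t) :
    CR P lv i D (IE P lv i D χ t) where
  wn h := h.1
  wo {M} h := by
    refine ⟨wo_wn h, fun hT => ?_⟩
    refine Fam.px_neu (N := fun t => {r | Wo P lv i D r ∧ Td P D t r}) hc ?_ ?_ ht ⟨h, hT⟩
    · intro t r hr; exact ⟨wo_wn hr.1, hr.2⟩
    · rintro t r a b q ⟨h1, h2⟩ ⟨B, h3, rfl⟩ hq hg
      obtain ⟨t1, h4, h5⟩ := hq.2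
      have h6 := ty_app (lv := lv) (i := i) hD h2 h3 h5.1 hg
      obtain ⟨t2, h7, h8⟩ := h6
      exact ⟨wo_app h1 hq.1 h8, ⟨t2, h7, h8⟩⟩
  exp {M M'} h hT hM := by
    refine ⟨wn_exp h hT hM.1, fun hTd => ?_⟩
    have hTd' : Td P D t M' := by
      obtain ⟨t', h1, h2⟩ := hTd
      obtain ⟨A, h3⟩ := hM.1.1
      exact ⟨t', h1, h3.1, h2.2.red hD h.er⟩
    refine Fam.px_rel (Rl := fun t r r0 => Td P D t r ∧ St r r0 ∧ Ok P D r0) hc ?_ ?_ ht
      ⟨hTd, h, hM.1.1.choose_spec.1⟩ (hM.2 hTd')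
    · rintro t r r0 ⟨h1, h2, _⟩ h3
      exact ⟨wn_exp h2 ⟨_, h1.choose_spec.2⟩ h3.1, h1⟩
    · rintro t r r0 a b q ⟨h1, h2, h2'⟩ ⟨B, h3, rfl⟩ hq hg
      exact ⟨ty_app (lv := lv) (i := i) hD h1 h3 hq.2.choose_spec.2.1 hg, .appL _ h2,
        .app h2' hq.2.choose_spec.2.1⟩
  ins {M M' Q} h hQ hM := by
    refine ⟨wn_ins h hQ hM.1, fun hTd => ?_⟩
    have hTd' : Td P D t M := by
      obtain ⟨t', h1, h2⟩ := hTd
      obtain ⟨A, h3⟩ := hM.1.1
      exact ⟨t', h1, h3.1, by rw [← ins_er h]; exact h2.2⟩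
    refine Fam.px_rel (Rl := fun t r r0 => Td P D t r ∧ Ins Q r0 r) hc ?_ ?_ ht
      ⟨hTd, h⟩ (hM.2 hTd')
    · rintro t r r0 ⟨h1, h2⟩ h3
      exact ⟨wn_ins h2 hQ h3.1, h1⟩
    · rintro t r r0 a b q ⟨h1, h2⟩ ⟨B, h3, rfl⟩ hq hg
      exact ⟨ty_app (lv := lv) (i := i) hD h1 h3 hq.2.choose_spec.2.1 hg, .app _ h2⟩

/-- The model of a two-colourable block. -/
def model (hW : WNKindVar P) (hlv : LvOk P lv) {χ : S → Bool} (hχ : Ev P lv i χ) (hD : WFC P D)
    (hN : NCtx P D) : Mod.{u, u} P lv i D where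
  E := ℕ → Tm S
  th e := e
  Val G e := SubC P G D e
  Ext _ e _ Q e' := e' = Tm.scons Q e
  I _ e A := IE P lv i D χ (A.sub e)
  sub h := h
  cr {G e A a} _ _ he _ hl hn := ie_cr hD (colour hW hlv hχ hD hN) ⟨hl.sub he, hn⟩
  sib {G e A B a b} _ _ _ _ _ _ _ h := ie_sib (h.sub _)
  ext_th h := h
  ext_val {G e e' A Q a} _ _ he _ hQ _ h := by subst h; exact he.scons hQ
  ext_ex _ _ _ _ _ _ := ⟨_, rfl⟩
  weak {G e e' A B Q a b} _ _ _ _ _ _ h _ _ _ := by
    subst h
    show IE P lv i D χ ((Tm.wk B).sub (Tm.scons Q e)) = IE P lv i D χ (B.sub e)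
    rw [Tm.sub_scons_wk]
  pi_app {G e A B N c} hG _ he hPi hl hn hNA := by
    intro r hr hI q hq hqN
    have hrel : Rl P lv i D ((Tm.pi A B).sub e) := ⟨hl.sub he, hn⟩
    have hc := colour hW hlv hχ hD hN
    have h1 := hI.2 ⟨_, .refl _, hr⟩
    rw [Fam.px_eq hc hrel] at h1
    obtain ⟨s1, s2, s3, k1, k2, k3, k4⟩ := hPi.pi_inv
    have hNA' : J P D q.er (A.sub e) := hq.2.1.2
    have h2 := h1.2 (A.sub e) (fun q => Tm.inst (B.sub (Tm.ups e)) q.er) ⟨_, .refl _, rfl⟩ q
      ⟨⟨hq.1, ⟨_, .refl _, hq.2.1⟩⟩, fun ha =>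
        (hq.2.2 (hl.piL hlv hG) ha.2).2 ⟨_, .refl _, hq.2.1⟩⟩
      ⟨_, s1, .refl _, k1.sub he, hNA'⟩
    have e1 : Tm.inst (B.sub (Tm.ups e)) q.er = (Tm.inst B N).sub e := by
      rw [hqN, Tm.sub_inst]
    have hty : Ty P D (MTm.app r q) ((Tm.inst B N).sub e) := by
      rw [← e1]
      exact ⟨.app hr.1 hq.2.1.1, .app hr.2 hNA'⟩
    refine ⟨h2.1.1, hty, fun hl' hn' => ⟨h2.1.1, fun _ => ?_⟩⟩
    have h3 := h2.2 (by
      show Rl P lv i D (Tm.inst (B.sub (Tm.ups e)) q.er)
      rw [e1]; exact ⟨hl'.sub he, hn'⟩)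
    show _ ∈ (fam P lv i D).PX (col P lv i D χ) ((Tm.inst B N).sub e)
    rw [← e1]
    exact h3
  pi_lam {G e A B c} hG _ he hPi hl hn := by
    intro r hWr hr h
    have hrel : Rl P lv i D ((Tm.pi A B).sub e) := ⟨hl.sub he, hn⟩
    have hc := colour hW hlv hχ hD hN
    obtain ⟨s1, s2, s3, k1, k2, k3, k4⟩ := hPi.pi_inv
    refine ⟨hWr, fun _ => ?_⟩
    rw [Fam.px_eq hc hrel]
    refine ⟨⟨hWr, ⟨_, .refl _, hr⟩⟩, ?_⟩
    rintro a b ⟨B0, h1, rfl⟩ q hq hg
    have h2 : Conv (A.sub e) a ∧ Sib (B.sub (Tm.ups e)) B0 := h1.pi_inj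
    have hqA : J P D q.er (A.sub e) := by
      obtain ⟨a1, s0, q1, q2, q3⟩ := hg
      exact .conv q3 (k1.sub he) (q1.symm.trans h2.1.symm)
    have hqT : Ty P D q (A.sub e) := ⟨hq.1.2.choose_spec.2.1, hqA⟩
    have h3 := h q ⟨hq.1.1, hqT, fun _ hn' => ⟨hq.1.1, fun _ => by
      have hra : Rl P lv i D a := Rl.sib ⟨(hl.piL hlv hG).sub he, hn'⟩ (.conv h2.1)
      show _ ∈ (fam P lv i D).PX (col P lv i D χ) (A.sub e)
      rw [px_sib (.conv h2.1)]
      exact hq.2 hra⟩⟩ _ rfl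
    have h4 : Sib (B.sub (Tm.scons q.er e)) (Tm.inst B0 q.er) := by
      have := h2.2.inst (.refl q.er)
      rwa [Tm.inst_ups] at this
    refine ⟨⟨h3.1, ⟨_, h4.symm, h3.2.1⟩⟩, fun hrB => ?_⟩
    show _ ∈ (fam P lv i D).PX (col P lv i D χ) (Tm.inst B0 q.er)
    rw [← px_sib h4]
    exact (h3.2.2 (hl.piR hlv hG k1) (hrB.sib h4.symm).2).2 ⟨_, .refl _, h3.2.1⟩

end ME

end Vale.Agent.P340.W
end

section

/-! Environments, codes of values, the typed substitution lemma. -/

namespace Vale.Agent.P340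

namespace NM

open Tm
open W (Ne MTm Lc Wn Ty LvOk)
open PolR (Kd TyS TyOf tyS_conv tyS_le)
open C1 (rep TyD TyC tyD_conv tyC_conv rep_conv rep_eq conv_subs scons_ups)

universe u
variable {S : Type u} {X : Par S} {G D : Ctx S} {K K' : Tm S}

/-- The codes of the kinds that are sorts. -/
theorem scodeH (H : X.Setup) {c : S} (hc : c ∈ X.C) : SCode (X.ek (sort c)) := by
  have hkd : SCodeb (X.kd (sort c)) := by
    by_cases h : ∃ r, X.UQ X.D r (sort c)
    · obtain ⟨r, hr⟩ := h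
      exact .inr ⟨_, kd_univ H (.inr ⟨c, .refl _⟩) hr⟩
    · exact .inl (kd_sort_n hc fun r hr => h ⟨r, hr⟩)
  by_cases h1 : X.DQ X.D (sort c)
  · rw [ek_dq h1]; exact hkd
  · by_cases h2 : X.HE X.D (sort c)
    · rw [ek_he h1 h2]; trivial
    · by_cases h3 : X.HO X.D (sort c)
      · rw [ek_ho h1 h3]; trivial
      · have h4 : ¬ X.Vd X.D (sort c) := by
          rintro (h | h | h)
          · exact h1 (.inl h)
          · exact h2 h
          · exact h3 h
        rw [ek_n h4]; exact hkd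

theorem of_tyD {P : Spec S} {D : Ctx S} {A N : Tm S} {s : S} (hA : J P D A (sort s))
    (hN : TyD P D N A) : J P D N A := by
  obtain ⟨L, h1, h2⟩ := hN
  exact .conv h1 hA h2

theorem rl_sort {s : S} : X.Rl G (sort s) ↔ s ∈ X.C := by
  constructor
  · rintro (⟨s', h1, h2⟩ | ⟨m, -, h2⟩)
    · cases h2.sort_inj; exact h1
    · rw [nf_normal (normal_sort s)] at h2; exact h2.1
  · intro h; exact .inl ⟨s, h, .refl _⟩

/-- If an instance of a codomain is a kind then so is the product. -/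
theorem rl_of_inst (H : X.Setup) (hG : WFC X.P G) (hNG : NCtx X.P G) {A B N T : Tm S}
    (h : J X.P G (pi A B) T) (hN : J X.P G N A) (h' : X.Rl G (inst B N)) :
    X.Rl G (pi A B) := by
  obtain ⟨a, b, c, k1, k2, k3, -⟩ := h.pi_inv
  exact (rl_piJ H hG hNG (.pi k1 k2 k3)).2 (Rl.of_sub H.wn (hG.push k1) (hNG.push k1) hG hNG
    (subC_single hN) (.of_sort k2) h')

theorem Env.push {θ : ℕ → Tm S} {ρ : ℕ → GV S X.α} (he : Env X G θ ρ) {A : Tm S} {a : S}
    (hA : J X.P G A (sort a)) {N : Tm S} {x : GV S X.α} (hN : J X.P X.D N (A.sub θ))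
    (hx : x.cl = X.ek (A.sub θ)) :
    Env X (push A G) (scons N θ) (vcons x ρ) where
  wf := he.wf.push hA
  nc := he.nc.push hA
  sub := he.sub.scons hN
  val := by
    intro n B hB
    cases n with
    | zero =>
      simp only [push_zero, Option.some.injEq] at hB
      subst hB
      rw [sub_scons_wk]
      exact hx
    | succ n =>
      rw [push_succ, Option.map_eq_some_iff] at hB
      obtain ⟨B, hB, rfl⟩ := hB
      rw [sub_scons_wk]
      exact he.val n B hB

theorem apV_cl (F N : Tm S) (u v : GV S X.α) : (X.apV F N u v).cl = X.rg F N := by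
  classical
  unfold Par.apV
  by_cases h : X.TQ F
  · rw [cif_pos h, castV_cl]
  · rw [cif_neg h, dfg_cl]

theorem lmV_cl (A Q : Tm S) (f : Tm S → GV S X.α → GV S X.α) : (X.lmV A Q f).cl = X.cd Q := by
  classical
  unfold Par.lmV
  by_cases h : X.TQ Q
  · rw [cif_pos h, mkL_cl]
  · rw [cif_neg h, dfg_cl]

/-- The code of the value of a family is the code of its kind. -/
theorem code (H : X.Setup) {θ : ℕ → Tm S} {ρ : ℕ → GV S X.α}
    (he : Env X G θ ρ) {F K : Tm S} (hF : J X.P G F K) (hK : X.Rl X.D (K.sub θ)) :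
    (X.sem θ ρ F).cl = X.ek (K.sub θ) := by
  cases F with
  | var n =>
    obtain ⟨A, h1, h2⟩ := hF.var_inv
    rw [← ek_conv (h2.sub θ)]
    exact he.val n A h1
  | sort s => rw [sem_sort, mkT_cl]; exact cd_eq H (hF.sub he.sub) hK
  | pi A B => rw [sem_pi, mkT_cl]; exact cd_eq H (hF.sub he.sub) hK
  | lam A M => rw [sem_lam, lmV_cl]; exact cd_eq H (hF.sub he.sub) hK
  | app F N =>
    obtain ⟨A, B, h1, h2, h3⟩ := hF.app_inv
    have hK' := hK.conv (h3.symm.sub θ)
    rw [sub_inst] at hK'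
    obtain ⟨s, hP⟩ := (h1.correct he.wf).resolve_left (by rintro ⟨s, e⟩; cases e)
    have hr := rl_of_inst H X.wf H.nc (hP.sub he.sub) (h2.sub he.sub) hK'
    rw [sem_app, apV_cl, rg_eq H (h1.sub he.sub) hr (h2.sub he.sub)]
    refine ek_conv ?_
    have := h3.sub θ
    rwa [sub_inst] at this

/-- The candidate of a type of the class. -/
theorem tc_set (H : X.Setup) {θ : ℕ → Tm S} {ρ : ℕ → GV S X.α}
    (hθ : SubC X.P G X.D θ) {M : Tm S} {c : S} (hM : J X.P G M (sort c)) (hc : c ∈ X.C) :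
    X.tc θ ρ M = (X.sem θ ρ M).set := by
  have h1 : X.cd (M.sub θ) = X.ek (sort c) := cd_eq H (hM.sub hθ) (rl_sort.2 hc)
  cases M with
  | var n => rfl
  | app F N => rfl
  | lam A N => rfl
  | sort s => rw [sem_sort, h1, mkT_set (scodeH H hc)]; rfl
  | pi A B => rw [sem_pi, h1, mkT_set (scodeH H hc)]

theorem lc_of_sort {P : Spec S} {lv : S → ℕ} {i : ℕ} {T : Tm S} {c : S}
    (h : J P G T (sort c)) (hc : lv c < i) : Lc P lv i G T := ⟨T, c, .refl _, h, hc⟩

/-- A sort of level at most `i` of a type that is not of class below `i`. -/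
theorem mem_C {T : Tm S} {c : S} (h : J X.P G T (sort c)) (hc : X.lv c ≤ X.i)
    (h' : ¬ Lc X.P X.lv X.i G T) : c ∈ X.C := by
  by_contra hne
  have hne' : X.lv c ≠ X.i := hne
  exact h' (lc_of_sort h (by omega))

/-- The typed substitution lemma. -/
theorem sem_subT (H : X.Setup) (M : Tm S) :
    ∀ {G G' : Ctx S} {σ θ θ' : ℕ → Tm S} {ρ ρ' : ℕ → GV S X.α}, WFC X.P G → WFC X.P G' →
      SubC X.P G G' σ → SubC X.P G' X.D θ' → (∀ n, (σ n).sub θ' = θ n) →
      (∀ n A, G n = some A → X.Rl X.D (A.sub θ) → ρ n = X.sem θ' ρ' (σ n)) →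
      (∀ K, J X.P G M K → X.Rl X.D (K.sub θ) → X.sem θ' ρ' (M.sub σ) = X.sem θ ρ M) ∧
      (∀ s, J X.P G M (sort s) → X.lv s ≤ X.i → ¬ Lc X.P X.lv X.i X.D (M.sub θ) →
        X.tc θ' ρ' (M.sub σ) = X.tc θ ρ M) := by
  have eθ : ∀ {σ θ θ' : ℕ → Tm S}, (∀ n, (σ n).sub θ' = θ n) → ∀ M : Tm S,
      (M.sub σ).sub θ' = M.sub θ := by
    intro σ θ θ' h M
    rw [sub_sub]; congr 1; funext n; exact h n
  have hup : ∀ {σ θ θ' : ℕ → Tm S} (N : Tm S), (∀ n, (σ n).sub θ' = θ n) →
      ∀ n, (ups σ n).sub (scons N θ') = scons N θ n := by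
    intro σ θ θ' N h n
    cases n with
    | zero => rfl
    | succ n =>
      show (wk (σ n)).sub (scons N θ') = θ n
      rw [sub_scons_wk]; exact h n
  have hρu : ∀ {G : Ctx S} {σ θ θ' : ℕ → Tm S} {ρ ρ' : ℕ → GV S X.α} {A : Tm S} (N : Tm S)
      (x : GV S X.α),
      (∀ n A, G n = some A → X.Rl X.D (A.sub θ) → ρ n = X.sem θ' ρ' (σ n)) →
      ∀ n E, Vale.Agent.P340.push A G n = some E → X.Rl X.D (E.sub (scons N θ)) →
        vcons x ρ n = X.sem (scons N θ') (vcons x ρ') (ups σ n) := by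
    intro G σ θ θ' ρ ρ' A N x h n E hE hr
    cases n with
    | zero => rfl
    | succ n =>
      rw [push_succ, Option.map_eq_some_iff] at hE
      obtain ⟨E, hE, rfl⟩ := hE
      rw [sub_scons_wk] at hr
      show ρ n = X.sem (scons N θ') (vcons x ρ') (wk (σ n))
      rw [sem_wk]
      exact h n E hE hr
  -- the second part follows from the first one for terms whose candidate is the set of the value
  have toset : ∀ {G G' : Ctx S} {σ θ θ' : ℕ → Tm S} {ρ ρ' : ℕ → GV S X.α} {M : Tm S},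
      SubC X.P G G' σ → SubC X.P G' X.D θ' → (∀ n, (σ n).sub θ' = θ n) →
      SubC X.P G X.D θ →
      (∀ K, J X.P G M K → X.Rl X.D (K.sub θ) → X.sem θ' ρ' (M.sub σ) = X.sem θ ρ M) →
      ∀ s, J X.P G M (sort s) → X.lv s ≤ X.i → ¬ Lc X.P X.lv X.i X.D (M.sub θ) →
        X.tc θ' ρ' (M.sub σ) = X.tc θ ρ M := by
    intro G G' σ θ θ' ρ ρ' M hσ hθ' hc hθ h s hs hl hn
    have hsC : s ∈ X.C := mem_C (hs.sub hθ) hl hn
    rw [tc_set H hθ hs hsC, tc_set H hθ' (hs.sub hσ) hsC,
      h _ hs (rl_sort.2 hsC)]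
  induction M with
  | var n =>
    intro G G' σ θ θ' ρ ρ' hG hG' hσ hθ' hc hρ
    have hθ : SubC X.P G X.D θ := by
      intro n A hA
      have := (hσ n A hA).sub hθ'
      rwa [hc, eθ hc] at this
    have h1 : ∀ K, J X.P G (var n) K → X.Rl X.D (K.sub θ) →
        X.sem θ' ρ' ((var n).sub σ) = X.sem θ ρ (var n) := by
      intro K hK hr
      obtain ⟨A, h1, h2⟩ := hK.var_inv
      exact (hρ n A h1 (hr.conv (h2.symm.sub θ))).symm
    exact ⟨h1, toset hσ hθ' hc hθ h1⟩
  | sort s =>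
    intro G G' σ θ θ' ρ ρ' hG hG' hσ hθ' hc hρ
    exact ⟨fun _ _ _ => rfl, fun _ _ _ _ => rfl⟩
  | app F N ihF ihN =>
    intro G G' σ θ θ' ρ ρ' hG hG' hσ hθ' hc hρ
    have hθ : SubC X.P G X.D θ := by
      intro n A hA
      have := (hσ n A hA).sub hθ'
      rwa [hc, eθ hc] at this
    have h1 : ∀ K, J X.P G (app F N) K → X.Rl X.D (K.sub θ) →
        X.sem θ' ρ' ((app F N).sub σ) = X.sem θ ρ (app F N) := by
      intro K hK hr
      obtain ⟨A, B, k1, k2, k3⟩ := hK.app_inv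
      have hr' := hr.conv (k3.symm.sub θ)
      rw [sub_inst] at hr'
      obtain ⟨s, hP⟩ := (k1.correct hG).resolve_left (by rintro ⟨s, e⟩; cases e)
      have hrP := rl_of_inst H X.wf H.nc (hP.sub hθ) (k2.sub hθ) hr'
      obtain ⟨i1, -⟩ := ihF hG hG' hσ hθ' hc hρ
      obtain ⟨i2, -⟩ := ihN hG hG' hσ hθ' hc hρ
      show X.sem θ' ρ' (app (F.sub σ) (N.sub σ)) = _
      rw [sem_app, sem_app, eθ hc, eθ hc, i1 _ k1 hrP]
      unfold Par.apV
      have e : castV (X.dm (F.sub θ)) (X.sem θ' ρ' (N.sub σ)) =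
          castV (X.dm (F.sub θ)) (X.sem θ ρ N) := by
        rw [dm_eq (k1.sub hθ)]
        by_cases hA : X.Rl X.D (A.sub θ)
        · rw [i2 _ k2 hA]
        · rw [ek_irr hA, castV_unit, castV_unit]
      rw [e]
    exact ⟨h1, toset hσ hθ' hc hθ h1⟩
  | lam A M ihA ihM =>
    intro G G' σ θ θ' ρ ρ' hG hG' hσ hθ' hc hρ
    have hθ : SubC X.P G X.D θ := by
      intro n A hA
      have := (hσ n A hA).sub hθ'
      rwa [hc, eθ hc] at this
    have h1 : ∀ K, J X.P G (lam A M) K → X.Rl X.D (K.sub θ) →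
        X.sem θ' ρ' ((lam A M).sub σ) = X.sem θ ρ (lam A M) := by
      intro K hK hr
      obtain ⟨B, s, k1, k2, k3⟩ := hK.lam_inv
      obtain ⟨a, b, c, k4, k5, k6, -⟩ := k2.pi_inv
      have hrP : X.Rl X.D ((pi A B).sub θ) := hr.conv (k3.symm.sub θ)
      have hlam : J X.P X.D ((lam A M).sub θ) ((pi A B).sub θ) := (J.lam k1 k2).sub hθ
      show X.sem θ' ρ' (lam (A.sub σ) (M.sub (ups σ))) = _
      rw [sem_lam, sem_lam]
      have eA : (A.sub σ).sub θ' = A.sub θ := eθ hc A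
      have eL : (lam (A.sub σ) (M.sub (ups σ))).sub θ' = (lam A M).sub θ := eθ hc (lam A M)
      rw [eA, eL]
      refine lmV_congr (.refl _) (.refl _) fun _ N hN x hx => ?_
      obtain ⟨N', hNc, hN'⟩ := hN
      have hNt : J X.P X.D N' (A.sub θ) := of_tyD (k4.sub hθ) hN'
      have hcs : ∀ (τ : ℕ → Tm S) n, Conv (scons N τ n) (scons N' τ n) := by
        intro τ n; cases n with
        | zero => exact hNc
        | succ n => exact .refl _
      rw [sem_conv _ (hcs θ'), sem_conv _ (hcs θ), rg_conv (.refl _) hNc,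
        rg_eq H (B := B.sub (ups θ)) hlam hrP hNt]
      have hσ' := hσ.up A
      have hθ'' : SubC X.P (Vale.Agent.P340.push (A.sub σ) G') X.D (scons N' θ') :=
        hθ'.scons (by rw [eA]; exact hNt)
      obtain ⟨i1, -⟩ := ihM (hG.push k4) (hG'.push (k4.sub hσ)) hσ' hθ'' (hup N' hc)
        (hρu N' x hρ)
      rw [inst_ups]
      by_cases hB : X.Rl X.D (B.sub (scons N' θ))
      · rw [i1 _ k1 hB]
      · rw [ek_irr hB, castV_unit, castV_unit]
    exact ⟨h1, toset hσ hθ' hc hθ h1⟩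
  | pi A B ihA ihB =>
    intro G G' σ θ θ' ρ ρ' hG hG' hσ hθ' hc hρ
    have hθ : SubC X.P G X.D θ := by
      intro n A hA
      have := (hσ n A hA).sub hθ'
      rwa [hc, eθ hc] at this
    have eA : (A.sub σ).sub θ' = A.sub θ := eθ hc A
    have h2 : ∀ s, J X.P G (pi A B) (sort s) → X.lv s ≤ X.i →
        X.tc θ' ρ' ((pi A B).sub σ) = X.tc θ ρ (pi A B) := by
      intro s hs hl
      obtain ⟨a, b, c, k1, k2, k3, k4⟩ := hs.pi_inv
      cases k4.sort_inj
      obtain ⟨l1, l2⟩ := H.lvok _ _ _ k3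
      show X.tc θ' ρ' (pi (A.sub σ) (B.sub (ups σ))) = _
      rw [tc_pi, tc_pi, eA]
      obtain ⟨-, i1⟩ := ihA hG hG' hσ hθ' hc hρ
      refine piC_congr (.refl _) (fun hn => i1 a k1 (by omega) hn) (fun N hN => ?_)
        (fun N hN hn x hx => ?_)
      · have e : (B.sub (ups σ)).sub (scons N θ') = B.sub (scons N θ) := eθ (hup N hc) B
        rw [e]
      · have hNt : J X.P X.D N (A.sub θ) := of_tyD (k1.sub hθ) hN
        have e : (B.sub (ups σ)).sub (scons N θ') = B.sub (scons N θ) := eθ (hup N hc) B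
        rw [e] at hn
        obtain ⟨-, i2⟩ := ihB (hG.push k1) (hG'.push (k1.sub hσ)) (hσ.up A)
          (hθ'.scons (by rw [eA]; exact hNt)) (hup N hc) (hρu N x hρ)
        exact i2 b k2 (by omega) hn
    refine ⟨fun K hK hr => ?_, fun s hs hl _ => h2 s hs hl⟩
    obtain ⟨a, b, c, k1, k2, k3, k4⟩ := hK.pi_inv
    have hc' : c ∈ X.C := rl_sort.1 (hr.conv (k4.symm.sub θ))
    have hcl : X.lv c ≤ X.i := le_of_eq hc'
    show X.sem θ' ρ' (pi (A.sub σ) (B.sub (ups σ))) = _
    have eP : (pi (A.sub σ) (B.sub (ups σ))).sub θ' = (pi A B).sub θ := eθ hc (pi A B)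
    rw [sem_pi, sem_pi, eP]
    congr 1
    exact h2 c (.pi k1 k2 k3) hcl

/-- The same for normal types up to siblings. -/
theorem tc_subN (H : X.Setup) (M : Tm S) :
    ∀ {G G' : Ctx S} {σ θ θ' : ℕ → Tm S} {ρ ρ' : ℕ → GV S X.α} {t : S}, WFC X.P G →
      WFC X.P G' → SubC X.P G G' σ → SubC X.P G' X.D θ' → (∀ n, (σ n).sub θ' = θ n) →
      (∀ n A, G n = some A → X.Rl X.D (A.sub θ) → ρ n = X.sem θ' ρ' (σ n)) →
      Normal M → J X.P G M (sort t) → Lc X.P X.lv (X.i + 1) G M →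
      ¬ Lc X.P X.lv X.i X.D (M.sub θ) → X.tc θ' ρ' (M.sub σ) = X.tc θ ρ M := by
  have neu : ∀ {M : Tm S} {G G' : Ctx S} {σ θ θ' : ℕ → Tm S} {ρ ρ' : ℕ → GV S X.α}, WFC X.P G →
      WFC X.P G' → SubC X.P G G' σ → SubC X.P G' X.D θ' → (∀ n, (σ n).sub θ' = θ n) →
      (∀ n A, G n = some A → X.Rl X.D (A.sub θ) → ρ n = X.sem θ' ρ' (σ n)) →
      Normal M → Ne M → Lc X.P X.lv (X.i + 1) G M →
      ¬ Lc X.P X.lv X.i X.D (M.sub θ) → X.tc θ' ρ' (M.sub σ) = X.tc θ ρ M := by
    intro M G G' σ θ θ' ρ ρ' hG hG' hσ hθ' hc hρ hn hne hl hnl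
    obtain ⟨T, c, h1, h2, h3⟩ := hl
    have h4 := h2.red hG (W.ME.normal_sib hn hne h1)
    exact (sem_subT H M hG hG' hσ hθ' hc hρ).2 c h4 (by omega) hnl
  induction M with
  | var n =>
    intro G G' σ θ θ' ρ ρ' t hG hG' hσ hθ' hc hρ hn _ hl hnl
    exact neu hG hG' hσ hθ' hc hρ hn trivial hl hnl
  | app F N _ _ =>
    intro G G' σ θ θ' ρ ρ' t hG hG' hσ hθ' hc hρ hn ht hl hnl
    exact neu hG hG' hσ hθ' hc hρ hn (W.ne_of_app ht hn) hl hnl
  | sort s => intros; rfl
  | lam A M _ _ =>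
    intro G G' σ θ θ' ρ ρ' t hG hG' hσ hθ' hc hρ hn ht hl hnl
    obtain ⟨B, s, -, -, h⟩ := ht.lam_inv
    exact absurd h.symm (fun h => h.sort_pi)
  | pi A B ihA ihB =>
    intro G G' σ θ θ' ρ ρ' t hG hG' hσ hθ' hc hρ hn ht hl hnl
    have eθ : ∀ {σ θ θ' : ℕ → Tm S}, (∀ n, (σ n).sub θ' = θ n) → ∀ M : Tm S,
        (M.sub σ).sub θ' = M.sub θ := by
      intro σ θ θ' h M
      rw [sub_sub]; congr 1; funext n; exact h n
    have hup : ∀ {σ θ θ' : ℕ → Tm S} (N : Tm S), (∀ n, (σ n).sub θ' = θ n) →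
        ∀ n, (ups σ n).sub (scons N θ') = scons N θ n := by
      intro σ θ θ' N h n
      cases n with
      | zero => rfl
      | succ n =>
        show (wk (σ n)).sub (scons N θ') = θ n
        rw [sub_scons_wk]; exact h n
    have hθ : SubC X.P G X.D θ := by
      intro n A hA
      have := (hσ n A hA).sub hθ'
      rwa [hc, eθ hc] at this
    obtain ⟨a, b, c, k1, k2, k3, k4⟩ := ht.pi_inv
    have eA : (A.sub σ).sub θ' = A.sub θ := eθ hc A
    show X.tc θ' ρ' (pi (A.sub σ) (B.sub (ups σ))) = _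
    rw [tc_pi, tc_pi, eA]
    refine piC_congr (.refl _)
      (fun hn' => ihA hG hG' hσ hθ' hc hρ hn.piL k1 (hl.piL H.lvok hG) hn')
      (fun N hN => ?_) (fun N hN hn' x hx => ?_)
    · have e : (B.sub (ups σ)).sub (scons N θ') = B.sub (scons N θ) := eθ (hup N hc) B
      rw [e]
    · have hNt : J X.P X.D N (A.sub θ) := of_tyD (k1.sub hθ) hN
      have e : (B.sub (ups σ)).sub (scons N θ') = B.sub (scons N θ) := eθ (hup N hc) B
      rw [e] at hn'
      refine ihB (hG.push k1) (hG'.push (k1.sub hσ)) (hσ.up A)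
        (hθ'.scons (by rw [eA]; exact hNt)) (hup N hc) ?_ hn.piR k2 (hl.piR H.lvok hG k1) hn'
      intro n E hE hr
      cases n with
      | zero => rfl
      | succ n =>
        rw [push_succ, Option.map_eq_some_iff] at hE
        obtain ⟨E, hE, rfl⟩ := hE
        rw [sub_scons_wk] at hr
        show ρ n = X.sem (scons N θ') (vcons x ρ') (wk (σ n))
        rw [sem_wk]
        exact hρ n E hE hr

variable {θ : ℕ → Tm S} {ρ ρ' : ℕ → GV S X.α}

theorem inst_env (H : X.Setup) (he : Env X G θ ρ) {A N : Tm S}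
    (hN : J X.P G N A) : ∀ n E, push A G n = some E → X.Rl X.D (E.sub (scons (N.sub θ) θ)) →
    vcons (castV (X.ek (A.sub θ)) (X.sem θ ρ N)) ρ n = X.sem θ ρ (single N n) := by
  intro n E hE hr
  cases n with
  | zero =>
    simp only [push_zero, Option.some.injEq] at hE
    subst hE
    rw [sub_scons_wk] at hr
    exact castV_self (code H he hN hr)
  | succ n => rfl

theorem single_sub (N : Tm S) (θ : ℕ → Tm S) : ∀ n, (single N n).sub θ =
    scons (N.sub θ) θ n := by
  intro n; cases n <;> rfl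

/-- Interpretation of an instance. -/
theorem sem_instT (H : X.Setup) (he : Env X G θ ρ) {A N M : Tm S} {a : S}
    (hA : J X.P G A (sort a)) (hN : J X.P G N A) (hM : J X.P (push A G) M K)
    (hK : X.Rl X.D (K.sub (scons (N.sub θ) θ))) :
    X.sem θ ρ (inst M N) = X.sem (scons (N.sub θ) θ)
      (vcons (castV (X.ek (A.sub θ)) (X.sem θ ρ N)) ρ) M :=
  (sem_subT H M (σ := single N) (he.wf.push hA) he.wf (subC_single hN) he.sub
    (single_sub N θ) (inst_env H he hN)).1 K hM hK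

theorem tc_instT (H : X.Setup) (he : Env X G θ ρ) {A N M : Tm S} {a t : S}
    (hA : J X.P G A (sort a)) (hN : J X.P G N A) (hn : Normal M)
    (hM : J X.P (push A G) M (sort t)) (hl : Lc X.P X.lv (X.i + 1) (push A G) M)
    (hnl : ¬ Lc X.P X.lv X.i X.D (M.sub (scons (N.sub θ) θ))) :
    X.tc θ ρ (inst M N) = X.tc (scons (N.sub θ) θ)
      (vcons (castV (X.ek (A.sub θ)) (X.sem θ ρ N)) ρ) M :=
  tc_subN H M (σ := single N) (he.wf.push hA) he.wf (subC_single hN) he.sub
    (single_sub N θ) (inst_env H he hN) hn hM hl hnl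

end NM

end Vale.Agent.P340
end

section

/-! Terms without redexes of kinds whose elements have no values. -/

namespace Vale.Agent.P340

namespace PolR

open Tm
open C1 (rep rep_conv rep_eq conv_subs TyD TyC pick tyD_conv tyC_conv pick_conv pick_spec
  scons_up scons_ups conv_scons HV)

universe u
variable {S : Type u}

/-- A variable in head position. -/
abbrev HdV : Tm S → Prop := HV fun _ => True

theorem hdv_ren {M : Tm S} (h : HdV M) (r : ℕ → ℕ) : HdV (M.ren r) := by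
  induction h with
  | var _ => exact .var trivial
  | app N _ ih => exact .app _ ih

theorem hdv_normal {P : Spec S} {G : Ctx S} (M : Tm S) : ∀ {A B : Tm S}, J P G M (pi A B) →
    Normal M → (∀ Q R, M ≠ lam Q R) → HdV M := by
  induction M with
  | var n => intro A B _ _ _; exact .var trivial
  | sort s =>
    intro A B h _ _
    obtain ⟨t, -, h⟩ := h.sort_inv
    exact absurd h (fun h => h.sort_pi)
  | app F N ih _ =>
    intro A B h hn _
    obtain ⟨A', B', h1, -, -⟩ := h.app_inv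
    refine .app _ (ih h1 hn.appL ?_)
    rintro Q R rfl
    exact hn _ (.beta _ _ _)
  | lam A M _ _ => intro _ _ _ _ h; exact absurd rfl (h _ _)
  | pi A M _ _ =>
    intro _ _ h _ _
    obtain ⟨_, _, _, -, -, -, h⟩ := h.pi_inv
    exact absurd h (fun h => h.sort_pi)

variable {X : Par S}

theorem tp_ctx {P : Spec S} {p : S → Prop} {G G' : Ctx S} (h : CLe P G G') (h' : CLe P G' G)
    (Q : Tm S) : TP P p G Q ↔ TP P p G' Q := ⟨tp_le h, tp_le h'⟩

theorem tyS_ctx {P : Spec S} {G G' : Ctx S} (h : CLe P G G') (h' : CLe P G' G)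
    (Q : Tm S) (a : S) : TyS P G Q a ↔ TyS P G' Q a := ⟨tyS_le h, tyS_le h'⟩

/-- Typings of applications. -/
theorem J.app_inv' {P : Spec S} {G : Ctx S} (hG : WFC P G) {M N T : Tm S}
    (h : J P G (app M N) T) : ∃ A B a b m, J P G M (pi A B) ∧ J P G N A ∧ J P G A (sort a) ∧
      J P (push A G) B (sort b) ∧ P.rule a b m ∧ Conv (inst B N) T := by
  obtain ⟨A, B, h3, h4, h5⟩ := h.app_inv
  obtain ⟨s, h6⟩ := (h3.correct hG).resolve_left (by rintro ⟨s, e⟩; cases e)
  obtain ⟨a, b, c, h7, h8, h9, -⟩ := h6.pi_inv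
  exact ⟨A, B, a, b, c, h3, h4, h7, h8, h9, h5⟩

end PolR

end Vale.Agent.P340
end

section

/-! Terms without redexes of kinds whose elements have no values. -/

namespace Vale.Agent.P340

namespace NM.Cn

open Tm
open W (Ne Lc LvOk ne_of_pi)
open PolR (J.app_inv' TyS tyS_conv tyS_le)

universe u
variable {S : Type u} {P : Spec S} {C V : Set S}
variable {G D : Ctx S} {K K' A B M N T : Tm S} {σ : ℕ → Tm S}

/-! Kinds with values. -/

/-- Kinds whose elements have values: kinds with a sort in `V`. -/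
def Qv (P : Spec S) (C V : Set S) (G : Ctx S) (K : Tm S) : Prop := ∃ m ∈ V, Vw P C G K m

/-- Elements of kinds with values. -/
def Qt (P : Spec S) (C V : Set S) (G : Ctx S) (F : Tm S) : Prop :=
  ∃ T, J P G F T ∧ Qv P C V G T

theorem Qv.conv (h : Qv P C V G K) (h' : Conv K K') : Qv P C V G K' := by
  obtain ⟨m, h1, h2⟩ := h; exact ⟨m, h1, h2.conv h'⟩

theorem Qv.le {G' : Ctx S} (h : Qv P C V G K) (h' : CLe P G G') : Qv P C V G' K := by
  obtain ⟨m, h1, h2⟩ := h; exact ⟨m, h1, h2.le h'⟩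

theorem Qv.sub (hW : WNKindVar P) (hG : WFC P G) (hNG : NCtx P G) (hD : WFC P D) (hND : NCtx P D)
    (hσ : SubC P G D σ) (hK : TyE P G K) (h : Rl P C D (K.sub σ)) (hm : Qv P C V G K) :
    Qv P C V D (K.sub σ) := by
  obtain ⟨m, h1, h2⟩ := hm; exact ⟨m, h1, h2.sub hW hG hNG hD hND hσ hK h⟩

theorem Qv.sib (hW : WNKindVar P) (hG : WFC P G) (hNG : NCtx P G) (hs : Sib K K') (hK : TyE P G K)
    (hK' : TyE P G K') (h' : Rl P C G K') (h : Qv P C V G K) : Qv P C V G K' := by
  obtain ⟨m, h1, h2⟩ := h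
  exact ⟨m, h1, (Sib.vw hW hG hNG hs hK hK' h2.rl h').1 h2⟩

/-- The elements of one relevant kind have values. -/
theorem Qt.qv (hW : WNKindVar P) (hG : WFC P G) (hNG : NCtx P G) (h : Qt P C V G M)
    (hM : J P G M K) (hK : Rl P C G K) : Qv P C V G K := by
  obtain ⟨T, h1, h2⟩ := h
  exact h2.sib hW hG hNG (h1.sib hM) (tyE_of_j hG h1) (tyE_of_j hG hM) hK

theorem rl_sort {c : S} (h : Rl P C G K) (h' : Conv K (sort c)) : c ∈ C := by
  rcases h with ⟨s, h1, h2⟩ | ⟨m, h1⟩
  · cases (h'.symm.trans h2).sort_inj; exact h1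
  · have h2 := (h1.conv h').2
    rw [nf_normal (normal_sort c)] at h2
    exact h2.1

theorem rl_of_mem {c : S} (h : c ∈ C) : Rl P C G (sort c) := .inl ⟨c, h, .refl _⟩

/-- The codomain of a product kind. -/
theorem rl_piR (hW : WNKindVar P) (hG : WFC P G) (hNG : NCtx P G) {m : S}
    (h : J P G (pi A B) (sort m)) (hr : Rl P C G (pi A B)) :
    Rl P C (push A G) B := by
  obtain ⟨a', b, c, k1, k2, k3, -⟩ := h.pi_inv
  exact (rl_pi hG h (hNG.hn hW k1) ((hNG.push k1).hn hW k2)).1 hr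

theorem rl_pi_mk (hW : WNKindVar P) (hG : WFC P G) (hNG : NCtx P G) {m : S}
    (h : J P G (pi A B) (sort m)) (hr : Rl P C (push A G) B) : Rl P C G (pi A B) := by
  obtain ⟨a', b, c, k1, k2, k3, -⟩ := h.pi_inv
  exact (rl_pi hG h (hNG.hn hW k1) ((hNG.push k1).hn hW k2)).2 hr

/-- Product kinds with a relevant instance. -/
theorem rl_of_inst (hW : WNKindVar P) (hG : WFC P G) (hNG : NCtx P G) {m : S}
    (h : J P G (pi A B) (sort m)) (hN : J P G N A) (hr : Rl P C G (inst B N)) :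
    Rl P C G (pi A B) := by
  obtain ⟨a', b, c, k1, k2, k3, -⟩ := h.pi_inv
  exact rl_pi_mk hW hG hNG h
    (Rl.of_sub hW (hG.push k1) (hNG.push k1) hG hNG (subC_single hN) (.of_sort k2) hr)

theorem qv_pi (hV : ∀ a b m, P.rule a b m → KS P C b → m ∈ V →
    b ∈ V ∧ (KS P C a → a ∈ V)) (hW : WNKindVar P) (hG : WFC P G) (hNG : NCtx P G) {m : S}
    (h : J P G (pi A B) (sort m)) (hq : Qv P C V G (pi A B)) :
    Qv P C V (push A G) B ∧ (Rl P C G A → Qv P C V G A) := by
  obtain ⟨a', b', c', k1, k2, k3, -⟩ := h.pi_inv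
  obtain ⟨m', h1, h2⟩ := hq
  obtain ⟨a, b, h3, h4, h5⟩ := (vw_pi hG k1 (hNG.hn hW k1) ((hNG.push k1).hn hW k2)).1 h2
  obtain ⟨h6, h7⟩ := hV a b m' h5 h4.ks h1
  refine ⟨⟨b, h6, h4⟩, fun hr => ?_⟩
  have h8 := hr.vw hG h3
  exact ⟨a, h7 h8.ks, h8⟩

/-! Clean terms. -/

/-- Sorts of kinds whose elements have values. -/
def VS (X : Par S) : Set S := {m | m ∈ X.Q ∨ m ∈ X.E ∨ m ∈ X.O}

variable {X : Par S}

theorem vd_iff : X.Vd G K ↔ Qv X.P X.C (VS X) G K := by
  constructor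
  · rintro (⟨m, h1, h2⟩ | ⟨m, h1, h2⟩ | ⟨m, h1, h2⟩)
    · exact ⟨m, .inl h1, h2⟩
    · exact ⟨m, .inr (.inl h1), h2⟩
    · exact ⟨m, .inr (.inr h1), h2⟩
  · rintro ⟨m, h1 | h1 | h1, h2⟩
    · exact .inl ⟨m, h1, h2⟩
    · exact .inr (.inl ⟨m, h1, h2⟩)
    · exact .inr (.inr ⟨m, h1, h2⟩)

theorem vs_rule (H : X.Ranked) : ∀ a b m, X.P.rule a b m → KS X.P X.C b → m ∈ (VS X) →
    b ∈ (VS X) ∧ (KS X.P X.C a → a ∈ (VS X)) := by
  intro a b m hr hb hm
  rcases hm with hm | hm | hm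
  · obtain ⟨h1, h2⟩ := H.q1 a b m hr hb hm
    exact ⟨.inl h1, fun ha => .inl (h2 ha)⟩
  · obtain ⟨h1, h2⟩ := H.e1 a b m hr hb hm
    exact ⟨h1.elim (fun h => .inr (.inl h)) .inl,
      fun ha => (h2 ha).elim (fun h => .inr (.inr h)) .inl⟩
  · obtain ⟨h1, h2⟩ := H.o1 a b m hr hb hm
    exact ⟨h1.elim (fun h => .inr (.inr h)) .inl,
      fun ha => (h2 ha).elim (fun h => .inr (.inl h)) .inl⟩

theorem ne_step {M : Tm S} (h : Ne M) : ∀ {M' : Tm S}, Step M M' → Ne M' := by
  induction M with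
  | var n => intro M' h'; cases h'
  | app M N ih _ =>
    intro M' h'
    cases h' with
    | beta => exact h.elim
    | appL N h'' =>
      have h3 := ih h h''
      exact h3
    | appR M h'' => exact h
  | _ => exact h.elim

/-- The elements of one relevant kind have values. -/
theorem tv_vd (hW : WNKindVar X.P) (hG : WFC X.P G) (hNG : NCtx X.P G) (h : X.TV G M)
    (hM : J X.P G M K) (hK : X.Rl G K) : X.Vd G K := by
  obtain ⟨T, h1, h2⟩ := h
  exact vd_iff.2 (Qt.qv hW hG hNG ⟨T, h1, vd_iff.1 h2⟩ hM hK)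

theorem vd_sub (hW : WNKindVar X.P) (hG : WFC X.P G) (hNG : NCtx X.P G) (hD : WFC X.P D)
    (hND : NCtx X.P D) (hσ : SubC X.P G D σ) (hK : TyE X.P G K) (h : X.Rl D (K.sub σ))
    (hm : X.Vd G K) : X.Vd D (K.sub σ) :=
  vd_iff.2 ((vd_iff.1 hm).sub hW hG hNG hD hND hσ hK h)

theorem lc_le {P : Spec S} {lv : S → ℕ} {i : ℕ} {G G' : Ctx S} {T : Tm S}
    (h : Lc P lv i G T) (h' : CLe P G G') : Lc P lv i G' T := by
  obtain ⟨T', c, h1, h2, h3⟩ := h
  exact ⟨T', c, h1, h2.le h', h3⟩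

theorem tr_le {G' : Ctx S} (h : X.TR G M) (h' : CLe X.P G G') : X.TR G' M := by
  obtain ⟨T, h1, h2⟩ := h
  exact ⟨T, h1.le h', h2.le h'⟩

theorem tv_le {G' : Ctx S} (h : X.TV G M) (h' : CLe X.P G G') : X.TV G' M := by
  obtain ⟨T, h1, h2⟩ := h
  exact ⟨T, h1.le h', vd_iff.2 ((vd_iff.1 h2).le h')⟩

theorem memL (H : X.Setup) {a b c : S} (hr : X.P.rule a b c) (hc : c ∈ X.C)
    (hA : J X.P G A (sort a)) (h : ¬ Lc X.P X.lv X.i G A) : a ∈ X.C := by
  have h1 := (H.lvok _ _ _ hr).1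
  rw [show X.lv c = X.i from hc] at h1
  exact le_antisymm h1 (not_lt.1 fun h2 => h (.of_sort hA h2))

theorem memR (H : X.Setup) {a b c : S} (hr : X.P.rule a b c) (hc : c ∈ X.C)
    (hB : J X.P G B (sort b)) (h : ¬ Lc X.P X.lv X.i G B) : b ∈ X.C := by
  have h1 := (H.lvok _ _ _ hr).2
  rw [show X.lv c = X.i from hc] at h1
  exact le_antisymm h1 (not_lt.1 fun h2 => h (.of_sort hB h2))

theorem vd_pi (hW : WNKindVar X.P) (hR : X.Ranked) (hG : WFC X.P G) (hNG : NCtx X.P G) {m : S}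
    (h : J X.P G (pi A B) (sort m)) (hq : X.Vd G (pi A B)) :
    X.Vd (push A G) B ∧ (X.Rl G A → X.Vd G A) := by
  obtain ⟨h1, h2⟩ := qv_pi (vs_rule hR) hW hG hNG h (vd_iff.1 hq)
  exact ⟨vd_iff.2 h1, fun h => vd_iff.2 (h2 h)⟩

theorem vd_inst (hW : WNKindVar X.P) (hR : X.Ranked) (hG : WFC X.P G) (hNG : NCtx X.P G) {m : S}
    (h : J X.P G (pi A B) (sort m)) (hq : X.Vd G (pi A B)) (hN : J X.P G N A)
    (hr : X.Rl G (inst B N)) : X.Vd G (inst B N) := by
  obtain ⟨a, b, c, k1, k2, k3, -⟩ := h.pi_inv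
  exact vd_sub hW (hG.push k1) (hNG.push k1) hG hNG (subC_single hN) (.of_sort k2) hr
    (vd_pi hW hR hG hNG h hq).1

end NM.Cn

namespace NM

open Tm Cn
open W (Ne Lc LvOk ne_of_pi)
open PolR (J.app_inv')

universe u
variable {S : Type u} {X : Par S} {G D : Ctx S} {K K' A B M N T : Tm S} {σ : ℕ → Tm S}

theorem cln_ctx (M : Tm S) : ∀ {G G' : Ctx S}, CLe X.P G G' → CLe X.P G' G →
    X.Cln M G → X.Cln M G' := by
  induction M with
  | var n => intros; trivial
  | sort s => intros; trivial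
  | app F N ihF ihN =>
    intro G G' h h' hc hF
    obtain ⟨c1, c2, c3⟩ := hc (tr_le hF h')
    exact ⟨ihF h h' c1, fun A B h1 h2 => ihN h h' (c2 A B (h1.le h') (h2.le h')),
      fun h1 => c3 fun h2 => h1 (tv_le h2 h)⟩
  | lam A M _ ih =>
    intro G G' h h' hc hF
    exact ih (h.push A) (h'.push A) (hc (tr_le hF h'))
  | pi A B ihA ihB =>
    intro G G' h h' hc a b c h1 h2 h3 h4
    obtain ⟨c1, c2⟩ := hc a b c (h1.le h') (h2.le (h'.push A)) h3 h4
    exact ⟨fun h1 => ihA h h' (c1 fun h2 => h1 (lc_le h2 h)),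
      fun h1 => ihB (h.push A) (h'.push A) (c2 fun h2 => h1 (lc_le h2 (h.push A)))⟩

/-- The main induction for renamings and substitutions. -/
theorem cln_aux (H : X.Setup) (M : Tm S)
    (R : Ctx S → Ctx S → (ℕ → Tm S) → Prop)
    (hup : ∀ {G D : Ctx S} {σ : ℕ → Tm S} {A : Tm S} {a : S}, WFC X.P G → WFC X.P D →
      NCtx X.P D → SubC X.P G D σ → J X.P G A (sort a) → R G D σ →
      R (push A G) (push (A.sub σ) D) (ups σ))
    (hvar : ∀ {G D : Ctx S} {σ : ℕ → Tm S} {n : ℕ} {A : Tm S}, WFC X.P G → WFC X.P D →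
      NCtx X.P D → SubC X.P G D σ → R G D σ → G n = some A → X.Rl D (A.sub σ) → X.Cln (σ n) D)
    (hhd : ∀ {G D : Ctx S} {σ : ℕ → Tm S} {F K : Tm S}, WFC X.P G → WFC X.P D → NCtx X.P D →
      SubC X.P G D σ → R G D σ → Ne F → J X.P G F K → X.Rl D (K.sub σ) →
      ¬ X.Vd D (K.sub σ) → Ne (F.sub σ)) :
    ∀ {G D : Ctx S} {σ : ℕ → Tm S} {T : Tm S}, WFC X.P G → NCtx X.P G → WFC X.P D →
      NCtx X.P D → SubC X.P G D σ → R G D σ → J X.P G M T → X.Rl D (T.sub σ) → X.Cln M G →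
      X.Cln (M.sub σ) D := by
  have hW := H.wn
  induction M with
  | var n =>
    intro G D σ T hG hNG hD hND hσ hR hM hT _
    obtain ⟨A, h1, h2⟩ := hM.var_inv
    exact hvar hG hD hND hσ hR h1 (hT.conv (h2.symm.sub σ))
  | sort s => intros; trivial
  | app F N ihF ihN =>
    intro G D σ T hG hNG hD hND hσ hR hM hT hc _
    obtain ⟨A, B, a, b, m, h1, h2, h3, h4, h5, h6⟩ := J.app_inv' hG hM
    have hpi : J X.P G (pi A B) (sort m) := .pi h3 h4 h5
    have hpi' : J X.P D ((pi A B).sub σ) (sort m) := hpi.sub hσ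
    have h7 : X.Rl D (inst (B.sub (ups σ)) (N.sub σ)) := by
      rw [← sub_inst]; exact hT.conv (h6.symm.sub σ)
    have h8 : X.Rl D ((pi A B).sub σ) := Cn.rl_of_inst hW hD hND hpi' (h2.sub hσ) h7
    have h9 : J X.P D (F.sub σ) ((pi A B).sub σ) := h1.sub hσ
    have h12 : X.Rl G (pi A B) := Rl.of_sub hW hG hNG hD hND hσ (.of_sort hpi) h8
    obtain ⟨c1, c2, c3⟩ := hc ⟨_, h1, h12⟩
    refine ⟨ihF hG hNG hD hND hσ hR h1 h8 c1, fun A' B' k1 k2 => ?_, fun hq => ?_⟩
    · have h10 : X.Rl D (A.sub σ) := k2.conv (k1.sib h9).pi_inj.1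
      have h11 : X.Rl G A := Rl.of_sub hW hG hNG hD hND hσ (.of_sort h3) h10
      exact ihN hG hNG hD hND hσ hR h2 h10 (c2 A B h1 h11)
    · have h10 : ¬ X.Vd D ((pi A B).sub σ) := fun h => hq ⟨_, h9, h⟩
      refine hhd hG hD hND hσ hR (c3 fun h => h10 ?_) h1 h8 h10
      exact Cn.vd_sub hW hG hNG hD hND hσ (.of_sort hpi) h8 (tv_vd hW hG hNG h h1 h12)
  | lam A M _ ih =>
    intro G D σ T hG hNG hD hND hσ hR hM hT hc _
    obtain ⟨B, a, b, c, k1, k2, k3, k4, k5⟩ := hM.lam_inv'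
    have hpi : J X.P G (pi A B) (sort c) := .pi k2 k3 k4
    have h0 : X.Rl D ((pi A B).sub σ) := hT.conv (k5.symm.sub σ)
    have h1 : X.Rl (push (A.sub σ) D) (B.sub (ups σ)) := rl_piR hW hD hND (hpi.sub hσ) h0
    exact ih (hG.push k2) (hNG.push k2) (hD.push (k2.sub hσ)) (hND.push (k2.sub hσ))
      (hσ.up A) (hup hG hD hND hσ k2 hR) k1 h1
      (hc ⟨_, .lam k1 hpi, Rl.of_sub hW hG hNG hD hND hσ (.of_sort hpi) h0⟩)
  | pi A B ihA ihB =>
    intro G D σ T hG hNG hD hND hσ hR hM hT hc _ _ _ _ _ _ _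
    obtain ⟨a, b, c, k1, k2, k3, k4⟩ := hM.pi_inv
    have hcC : c ∈ X.C := Cn.rl_sort hT (k4.symm.sub σ)
    obtain ⟨c1, c2⟩ := hc a b c k1 k2 k3 hcC
    refine ⟨fun h1 => ?_, fun h1 => ?_⟩
    · have h2 : ¬ Lc X.P X.lv X.i G A := fun h => h1 (h.sub hσ)
      exact ihA hG hNG hD hND hσ hR k1 (rl_of_mem (memL H k3 hcC k1 h2)) (c1 h2)
    · have h2 : ¬ Lc X.P X.lv X.i (push A G) B := fun h => h1 (h.sub (hσ.up A))
      exact ihB (hG.push k1) (hNG.push k1) (hD.push (k1.sub hσ)) (hND.push (k1.sub hσ))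
        (hσ.up A) (hup hG hD hND hσ k1 hR) k2 (rl_of_mem (memR H k3 hcC k2 h2)) (c2 h2)

/-- Cleanness is stable under renaming. -/
theorem cln_ren (H : X.Setup) {M T : Tm S} {G D : Ctx S} {r : ℕ → ℕ}
    (hG : WFC X.P G) (hNG : NCtx X.P G) (hD : WFC X.P D) (hND : NCtx X.P D) (hr : RenC G D r)
    (hM : J X.P G M T) (hT : X.Rl D (T.ren r)) (hc : X.Cln M G) : X.Cln (M.ren r) D := by
  have hσ : SubC X.P G D (fun n => var (r n)) := by
    intro n A hA
    rw [← ren_eq_sub]; exact .var (hr n A hA)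
  rw [ren_eq_sub] at hT ⊢
  refine cln_aux H M (fun _ _ σ => ∀ n, ∃ k, σ n = var k) ?_ ?_ ?_ hG hNG hD hND hσ
    (fun n => ⟨r n, rfl⟩) hM hT hc
  · intro G D σ A a _ _ _ _ _ h n
    cases n with
    | zero => exact ⟨0, rfl⟩
    | succ n =>
      obtain ⟨k, hk⟩ := h n
      exact ⟨k + 1, by show wk (σ n) = _; rw [hk]; rfl⟩
  · intro G D σ n A _ _ _ _ h _ _
    obtain ⟨k, hk⟩ := h n
    rw [hk]; trivial
  · intro G D σ F K _ _ _ _ h hF h1 _ _
    clear h1
    induction F with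
    | var n =>
      obtain ⟨k, hk⟩ := h n
      show Ne (σ n)
      rw [hk]; trivial
    | app M N ih _ => exact ih hF
    | _ => exact hF.elim

/-- Substitutions that preserve cleanness. -/
def SCln (X : Par S) (G D : Ctx S) (σ : ℕ → Tm S) : Prop :=
  ∀ n A, G n = some A → X.Rl D (A.sub σ) → X.Cln (σ n) D ∧
    (¬ X.Vd D (A.sub σ) → ∃ k, σ n = var k)

theorem cln_ne (H : X.Setup) {F : Tm S} (h : Ne F) : ∀ {G D : Ctx S} {σ : ℕ → Tm S},
    WFC X.P G → WFC X.P D → NCtx X.P D → SubC X.P G D σ → SCln X G D σ →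
    ∀ {K : Tm S}, J X.P G F K → X.Rl D (K.sub σ) → ¬ X.Vd D (K.sub σ) → Ne (F.sub σ) := by
  have hW := H.wn
  induction F with
  | var n =>
    intro G D σ hG hD hND hσ hs K hF hK hQ
    obtain ⟨A, h1, h2⟩ := hF.var_inv
    obtain ⟨k, hk⟩ := (hs n A h1 (hK.conv (h2.symm.sub σ))).2
      fun h3 => hQ (vd_iff.2 ((vd_iff.1 h3).conv (h2.sub σ)))
    show Ne (σ n)
    rw [hk]; trivial
  | app M N ih _ =>
    intro G D σ hG hD hND hσ hs K hF hK hQ
    obtain ⟨A, B, a, b, c, h1, h2, h3, h4, h5, h6⟩ := J.app_inv' hG hF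
    have hpi : J X.P D ((pi A B).sub σ) (sort c) := (J.pi h3 h4 h5).sub hσ
    have h7 : X.Rl D (inst (B.sub (ups σ)) (N.sub σ)) := by
      rw [← sub_inst]; exact hK.conv (h6.symm.sub σ)
    have h8 := Cn.rl_of_inst hW hD hND hpi (h2.sub hσ) h7
    refine ih h hG hD hND hσ hs h1 h8 fun h9 => hQ ?_
    have h11 := vd_inst hW H.rnk hD hND hpi h9 (h2.sub hσ) h7
    rw [← sub_inst] at h11
    exact vd_iff.2 ((vd_iff.1 h11).conv (h6.sub σ))
  | _ => exact h.elim

theorem SCln.up (H : X.Setup) (h : SCln X G D σ) (hG : WFC X.P G)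
    (hD : WFC X.P D) (hND : NCtx X.P D) (hσ : SubC X.P G D σ) {a : S}
    (hA : J X.P G A (sort a)) : SCln X (push A G) (push (A.sub σ) D) (ups σ) := by
  have hW := H.wn
  have hA' : J X.P D (A.sub σ) (sort a) := hA.sub hσ
  intro n B hB hr
  cases n with
  | zero => exact ⟨trivial, fun _ => ⟨0, rfl⟩⟩
  | succ n =>
    rw [push_succ, Option.map_eq_some_iff] at hB
    obtain ⟨B, hB, rfl⟩ := hB
    obtain ⟨s, hs⟩ := hG _ _ hB
    have hs' : J X.P D (B.sub σ) (sort s) := hs.sub hσ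
    rw [sub_wk] at hr ⊢
    have hσ' : SubC X.P D (push (A.sub σ) D) (fun n => var (n + 1)) := by
      intro n A' hA'
      rw [← ren_eq_sub (r := Nat.succ)]; exact .var (renC_wk D _ n A' hA')
    have e : ∀ M : Tm S, wk M = M.sub (fun n => var (n + 1)) := fun M => by
      unfold wk; rw [ren_eq_sub]
    have hr' : X.Rl D (B.sub σ) := by
      rw [e] at hr
      exact Rl.of_sub hW hD hND (hD.push hA') (hND.push hA') hσ' (.of_sort hs') hr
    obtain ⟨h1, h2⟩ := h n B hB hr'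
    refine ⟨?_, fun hq => ?_⟩
    · exact cln_ren H hD hND (hD.push hA') (hND.push hA') (renC_wk D _) (hσ _ _ hB) hr h1
    · obtain ⟨k, hk⟩ := h2 fun hq' => hq (by
        rw [e] at hr ⊢
        exact Cn.vd_sub hW hD hND (hD.push hA') (hND.push hA') hσ' (.of_sort hs') hr hq')
      exact ⟨k + 1, by show wk (σ n) = _; rw [hk]; rfl⟩

/-- Cleanness is stable under substitution. -/
theorem cln_sub (H : X.Setup) {M T : Tm S} (hG : WFC X.P G) (hNG : NCtx X.P G)
    (hD : WFC X.P D) (hND : NCtx X.P D) (hσ : SubC X.P G D σ) (hs : SCln X G D σ)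
    (hM : J X.P G M T) (hT : X.Rl D (T.sub σ)) (hc : X.Cln M G) : X.Cln (M.sub σ) D := by
  refine cln_aux H M (fun G D σ => SCln X G D σ) ?_ ?_ ?_ hG hNG hD hND hσ hs hM hT hc
  · intro G D σ A a hG hD hND hσ hA h
    exact h.up H hG hD hND hσ hA
  · intro G D σ n A _ _ _ _ h h1 h2
    exact (h n A h1 h2).1
  · intro G D σ F K hG hD hND hσ h hF h1 h2 h3
    exact cln_ne H hF hG hD hND hσ h h1 h2 h3

theorem cln_inst (H : X.Setup) {M B N : Tm S} {a : S} (hG : WFC X.P G) (hNG : NCtx X.P G)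
    (hA : J X.P G A (sort a)) (hM : J X.P (push A G) M B) (hN : J X.P G N A)
    (hT : X.Rl G (inst B N)) (hq : X.Rl G A → X.Vd G A)
    (hcM : X.Cln M (push A G)) (hcN : X.Rl G A → X.Cln N G) : X.Cln (inst M N) G := by
  refine cln_sub H (hG.push hA) (hNG.push hA) hG hNG (subC_single hN) ?_ hM hT hcM
  intro n E hE hr
  cases n with
  | zero =>
    simp only [push_zero, Option.some.injEq] at hE
    subst hE
    have e : (wk A).sub (single N) = A := inst_wk A N
    rw [e] at hr ⊢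
    exact ⟨hcN hr, fun h => absurd (hq hr) h⟩
  | succ n => exact ⟨trivial, fun _ => ⟨n, rfl⟩⟩

/-- Normal families are clean. -/
theorem cln_normal (H : X.Setup) (M : Tm S) : ∀ {G : Ctx S} {T : Tm S}, WFC X.P G →
    NCtx X.P G → Normal M → J X.P G M T → X.Rl G T → X.Cln M G := by
  have hW := H.wn
  induction M with
  | var n => intros; trivial
  | sort s => intros; trivial
  | app F N ihF ihN =>
    intro G T hG hNG hn hM hT _
    obtain ⟨A, B, a, b, m, h1, h2, h3, h4, h5, h6⟩ := J.app_inv' hG hM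
    have hpi : J X.P G (pi A B) (sort m) := .pi h3 h4 h5
    have h7 : X.Rl G (pi A B) := Cn.rl_of_inst hW hG hNG hpi h2 (hT.conv h6.symm)
    refine ⟨ihF hG hNG hn.appL h1 h7, fun A' B' k1 k2 => ?_, fun _ => ?_⟩
    · exact ihN hG hNG hn.appR h2 (k2.conv (k1.sib h1).pi_inj.1)
    · exact ne_of_pi h1 hn.appL fun Q R e => by subst e; exact hn _ (.beta _ _ _)
  | lam A M _ ih =>
    intro G T hG hNG hn hM hT _
    obtain ⟨B, a, b, c, k1, k2, k3, k4, k5⟩ := hM.lam_inv'
    exact ih (hG.push k2) (hNG.push k2) hn.lamR k1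
      (rl_piR hW hG hNG (.pi k2 k3 k4) (hT.conv k5.symm))
  | pi A B ihA ihB =>
    intro G T hG hNG hn hM hT _ _ _ _ _ _ _
    obtain ⟨a, b, c, k1, k2, k3, k4⟩ := hM.pi_inv
    have hcC : c ∈ X.C := Cn.rl_sort hT k4.symm
    exact ⟨fun h => ihA hG hNG hn.piL k1 (rl_of_mem (memL H k3 hcC k1 h)),
      fun h => ihB (hG.push k1) (hNG.push k1) hn.piR k2 (rl_of_mem (memR H k3 hcC k2 h))⟩

/-- Cleanness is preserved by reduction. -/
theorem cln_step (H : X.Setup) {M M' : Tm S} (hs : Step M M') :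
    ∀ {G : Ctx S} {T : Tm S}, WFC X.P G → NCtx X.P G → J X.P G M T → X.Rl G T →
      X.Cln M G → X.Cln M' G := by
  have hW := H.wn
  induction hs with
  | beta A M N =>
    intro G T hG hNG hM hT hc
    obtain ⟨A', B', a, b, m, h1, h2, h3, h4, h5, h6⟩ := J.app_inv' hG hM
    obtain ⟨B, a', b', c', k1, k2, k3, k4, k5⟩ := h1.lam_inv'
    obtain ⟨e1, e2⟩ := k5.pi_inj
    have hpi : J X.P G (pi A B) (sort c') := .pi k2 k3 k4
    have hN : J X.P G N A := .conv h2 k2 e1.symm
    have h7 : X.Rl G (inst B N) := hT.conv ((Conv.inst e2 (.refl N)).trans h6).symm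
    have h8 : X.Rl G (pi A B) := Cn.rl_of_inst hW hG hNG hpi hN h7
    have hlam : J X.P G (lam A M) (pi A B) := .lam k1 hpi
    obtain ⟨c1, c2, c3⟩ := hc ⟨_, hlam, h8⟩
    have hQ : X.TV G (lam A M) := by
      by_contra h
      exact (c3 h).elim
    have hq := tv_vd hW hG hNG hQ hlam h8
    exact cln_inst H hG hNG k2 k1 hN h7 (Cn.vd_pi hW H.rnk hG hNG hpi hq).2
      (c1 ⟨_, hlam, h8⟩) fun hr => c2 A B hlam hr
  | @appL M M' N hs ih =>
    intro G T hG hNG hM hT hc _
    obtain ⟨A, B, a, b, m, h1, h2, h3, h4, h5, h6⟩ := J.app_inv' hG hM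
    have hpi : J X.P G (pi A B) (sort m) := .pi h3 h4 h5
    have h7 : X.Rl G (pi A B) := Cn.rl_of_inst hW hG hNG hpi h2 (hT.conv h6.symm)
    have h1' := h1.step hG hs
    obtain ⟨c1, c2, c3⟩ := hc ⟨_, h1, h7⟩
    refine ⟨ih hG hNG h1 h7 c1, fun A' B' l1 l2 => ?_, fun hq => ?_⟩
    · exact c2 A B h1 (l2.conv (l1.sib h1').pi_inj.1)
    · exact Cn.ne_step (c3 fun h => hq ⟨_, h1', tv_vd hW hG hNG h h1 h7⟩) hs
  | @appR M N N' hs ih =>
    intro G T hG hNG hM hT hc hTR
    obtain ⟨A, B, a, b, m, h1, h2, h3, h4, h5, h6⟩ := J.app_inv' hG hM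
    obtain ⟨c1, c2, c3⟩ := hc hTR
    exact ⟨c1, fun A' B' l1 l2 => ih hG hNG h2 (l2.conv (l1.sib h1).pi_inj.1) (c2 A' B' l1 l2),
      c3⟩
  | @lamL A A' M hs ih =>
    intro G T hG hNG hM hT hc _
    obtain ⟨B, a, b, c, k1, k2, k3, k4, k5⟩ := hM.lam_inv'
    have hc' : Conv A A' := .rel _ _ hs
    exact cln_ctx M (CLe.conv k2 hc') (CLe.conv (k2.step hG hs) hc'.symm) (hc ⟨_, hM, hT⟩)
  | @lamR A M M' hs ih =>
    intro G T hG hNG hM hT hc _
    obtain ⟨B, a, b, c, k1, k2, k3, k4, k5⟩ := hM.lam_inv'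
    exact ih (hG.push k2) (hNG.push k2) k1
      (rl_piR hW hG hNG (.pi k2 k3 k4) (hT.conv k5.symm)) (hc ⟨_, hM, hT⟩)
  | @piL A A' B hs ih =>
    intro G T hG hNG hM hT hc _ _ _ _ _ _ _
    obtain ⟨a, b, c, k1, k2, k3, k4⟩ := hM.pi_inv
    have hcC : c ∈ X.C := Cn.rl_sort hT k4.symm
    have hc' : Conv A A' := .rel _ _ hs
    have l1 : CLe X.P (push A G) (push A' G) := CLe.conv k1 hc'
    have l2 : CLe X.P (push A' G) (push A G) := CLe.conv (k1.step hG hs) hc'.symm
    obtain ⟨c1, c2⟩ := hc a b c k1 k2 k3 hcC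
    refine ⟨fun h => ?_, fun h => cln_ctx B l1 l2 (c2 fun h' => h (lc_le h' l1))⟩
    have h' : ¬ Lc X.P X.lv X.i G A := fun h' => h (h'.conv hc')
    exact ih hG hNG k1 (rl_of_mem (memL H k3 hcC k1 h')) (c1 h')
  | @piR A B B' hs ih =>
    intro G T hG hNG hM hT hc _ _ _ _ _ _ _
    obtain ⟨a, b, c, k1, k2, k3, k4⟩ := hM.pi_inv
    have hcC : c ∈ X.C := Cn.rl_sort hT k4.symm
    have hc' : Conv B B' := .rel _ _ hs
    obtain ⟨c1, c2⟩ := hc a b c k1 k2 k3 hcC
    refine ⟨c1, fun h => ?_⟩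
    have h' : ¬ Lc X.P X.lv X.i (push A G) B := fun h' => h (h'.conv hc')
    exact ih (hG.push k1) (hNG.push k1) k2 (rl_of_mem (memR H k3 hcC k2 h')) (c2 h')

theorem cln_red (H : X.Setup) {M M' : Tm S} (hs : Red M M') {G : Ctx S} {T : Tm S}
    (hG : WFC X.P G) (hNG : NCtx X.P G) (hM : J X.P G M T) (hT : X.Rl G T)
    (hc : X.Cln M G) : X.Cln M' G := by
  induction hs with
  | refl => exact hc
  | tail h h' ih => exact cln_step H h' hG hNG (hM.red hG h) hT ih

end NM

end Vale.Agent.P340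
end

section

set_option linter.unusedSectionVars false

/-! Values with small support: generic part. -/

namespace Vale.Agent.P340

namespace NM

open Tm
open PolR (Kd)

universe u v
variable {S : Type u} {α : Type u} [Inhabited α]

/-- Agreement of values on coordinates. -/
inductive AgV (W : Set (A0 S α)) : GV S α → GV S α → Prop where
  | e {g g' : V0 S α} : (∀ k ∈ W, g k = g' k) → AgV W (.e g) (.e g')
  | b (x : SV S α) : AgV W (.b x) (.b x)
  | o (F : VO S α) : AgV W (.o F) (.o F)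

theorem AgV.refl (W : Set (A0 S α)) (x : GV S α) : AgV W x x := by
  cases x with
  | b x => exact .b x
  | e g => exact .e fun _ _ => rfl
  | o F => exact .o F

theorem AgV.mono {W W' : Set (A0 S α)} (h : W ⊆ W') {x x' : GV S α} (hx : AgV W' x x') :
    AgV W x x' := by
  cases hx with
  | b x => exact .b x
  | e h' => exact .e fun k hk => h' k (h hk)
  | o F => exact .o F

theorem AgV.cl {W : Set (A0 S α)} {x x' : GV S α} (h : AgV W x x') : x.cl = x'.cl := by
  cases h <;> rfl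

theorem AgV.eq {W : Set (A0 S α)} {x x' : GV S α} (h : AgV W x x') (hx : x.cl ≠ .e) : x = x' := by
  cases h with
  | b x => rfl
  | e _ => exact absurd rfl hx
  | o F => rfl

theorem AgV.a1 {W : Set (A0 S α)} {x x' : GV S α} (h : AgV W x x') : AgA W x.a1 x'.a1 := by
  cases h with
  | b x => exact .inr _
  | e h => exact .inl h
  | o F => exact .inr _

theorem AgV.set_eq {x x' : GV S α} (h : AgV {[]} x x') : x.set = x'.set := by
  cases h with
  | b x => rfl
  | @e g g' h => show (g []).set = (g' []).set; rw [h [] rfl]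
  | o F => rfl

theorem AgV.of_all {W : Set (A0 S α)} {l0 : A0 S α} {x x' : GV S α} (h0 : AgV {l0} x x')
    (h : ∀ l ∈ W, AgV {l} x x') : AgV W x x' := by
  cases h0 with
  | b x => exact .b x
  | o F => exact .o F
  | e _ =>
    refine .e fun k hk => ?_
    cases h k hk with
    | e h' => exact h' k rfl

theorem AgV.trans0 {x y z : GV S α} (h : AgV ∅ x y) (h' : AgV ∅ y z) : AgV ∅ x z := by
  cases h with
  | b x => exact h'
  | o F => exact h'
  | e _ => cases h' with
    | e _ => exact .e fun k hk => absurd hk (by simp)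

theorem AgV.symm0 {x y : GV S α} (h : AgV ∅ x y) : AgV ∅ y x := by
  cases h with
  | b x => exact .b x
  | o F => exact .o F
  | e _ => exact .e fun k hk => absurd hk (by simp)

/-- Agreement of assignments on coordinates. -/
def AgE (W : Set (A0 S α)) (ρ ρ' : ℕ → GV S α) : Prop := ∀ n, AgV W (ρ n) (ρ' n)

theorem AgE.mono {W W' : Set (A0 S α)} (h : W ⊆ W') {ρ ρ' : ℕ → GV S α} (hx : AgE W' ρ ρ') :
    AgE W ρ ρ' := fun n => (hx n).mono h

theorem AgE.vcons {W : Set (A0 S α)} {ρ ρ' : ℕ → GV S α} (h : AgE W ρ ρ') {x x' : GV S α}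
    (hx : AgV W x x') : AgE W (vcons x ρ) (vcons x' ρ') := by
  intro n
  cases n with
  | zero => exact hx
  | succ n => exact h n

theorem AgE.refl (W : Set (A0 S α)) (ρ : ℕ → GV S α) : AgE W ρ ρ := fun _ => .refl _ _

/-- `T` holds for assignments of the shape of `ρ0` that agree on `W`. -/
def Dpd (ρ0 : ℕ → GV S α) (T : (ℕ → GV S α) → (ℕ → GV S α) → Prop) (W : Set (A0 S α)) : Prop :=
  ∀ ρ ρ', AgE ∅ ρ0 ρ → AgE ∅ ρ0 ρ' → AgE W ρ ρ' → T ρ ρ'

theorem Dpd.mono {ρ0 : ℕ → GV S α} {T : (ℕ → GV S α) → (ℕ → GV S α) → Prop}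
    {W W' : Set (A0 S α)} (h : W ⊆ W') (hW : Dpd ρ0 T W) : Dpd ρ0 T W' :=
  fun ρ ρ' h1 h2 h3 => hW ρ ρ' h1 h2 (h3.mono h)

/-- Unions of small sets. -/
theorem ex_union {ι : Type v} [Small.{u} ι] {Q : ι → Set (A0 S α) → Prop}
    (hm : ∀ i W W', W ⊆ W' → Q i W → Q i W') (h : ∀ i, ∃ W : Set (A0 S α), Small.{u} W ∧ Q i W) :
    ∃ W : Set (A0 S α), Small.{u} W ∧ ∀ i, Q i W := by
  choose W hW hQ using h
  exact ⟨⋃ i, W i, inferInstance, fun i => hm i _ _ (Set.subset_iUnion W i) (hQ i)⟩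

theorem ex_and {Q Q' : Set (A0 S α) → Prop} (hm : ∀ W W', W ⊆ W' → Q W → Q W')
    (hm' : ∀ W W', W ⊆ W' → Q' W → Q' W') (h : ∃ W : Set (A0 S α), Small.{u} W ∧ Q W)
    (h' : ∃ W : Set (A0 S α), Small.{u} W ∧ Q' W) : ∃ W : Set (A0 S α), Small.{u} W ∧ Q W ∧ Q' W := by
  obtain ⟨W, h1, h2⟩ := h
  obtain ⟨W', h3, h4⟩ := h'
  exact ⟨W ∪ W', inferInstance, hm _ _ Set.subset_union_left h2,
    hm' _ _ Set.subset_union_right h4⟩

open Classical in
/-- Functions with small support have few values. -/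
theorem small_vals {T : Type v} (ρ0 : ℕ → GV S α) (F : (ℕ → GV S α) → T) {W : Set (A0 S α)}
    [Small.{u} W] (h : Dpd ρ0 (fun ρ ρ' => F ρ = F ρ') W) :
    Small.{u} {x | ∃ ρ, AgE ∅ ρ0 ρ ∧ F ρ = x} := by
  let asg : (ℕ → W → SV S α) → ℕ → GV S α := fun τ n =>
    match ρ0 n with
    | .e g => .e fun k => if hk : k ∈ W then τ n ⟨k, hk⟩ else g k
    | x => x
  have h1 : {x | ∃ ρ, AgE ∅ ρ0 ρ ∧ F ρ = x} ⊆ Set.range fun τ => F (asg τ) := by
    rintro x ⟨ρ, hρ, rfl⟩
    refine ⟨fun n k => (ρ n).te k.1, ?_⟩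
    have key : ∀ n, AgV ∅ (ρ0 n) (asg (fun n k => (ρ n).te k.1) n) ∧
        AgV W (asg (fun n k => (ρ n).te k.1) n) (ρ n) := by
      intro n
      have h2 := hρ n
      simp only [asg]
      generalize ρ0 n = x0 at h2
      generalize ρ n = x1 at h2
      cases h2 with
      | b x => exact ⟨.b _, .b _⟩
      | o F => exact ⟨.o _, .o _⟩
      | @e g g' _ =>
        refine ⟨.e fun k hk => absurd hk (by simp), .e fun k hk => ?_⟩
        show (if hk : k ∈ W then _ else _) = _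
        rw [dif_pos hk]; rfl
    exact h _ _ (fun n => (key n).1) hρ (fun n => (key n).2)
  exact small_subset h1

/-- Representatives of the shapes of values. -/
def rsh : Option (SV S α) → GV S α
  | none => .e fun _ => uv
  | some y => .b y

theorem rsh_ex {x : GV S α} (h : x.cl ≠ .o) : ∃ i, AgV ∅ (rsh i) x := by
  cases x with
  | b y => exact ⟨some y, .b y⟩
  | e g => exact ⟨none, .e fun k hk => absurd hk (by simp)⟩
  | o F => exact absurd rfl h

theorem mkT_ag {c : Cl S} {Y Y' : α} (W : Set (A0 S α)) (h : Y = Y') :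
    AgV W (mkT c Y) (mkT c Y') := by rw [h]; exact .refl _ _

/-! Operations. -/

theorem AgV.cast {W : Set (A0 S α)} {x x' : GV S α} (h : AgV W x x') (c : Cl S) :
    AgV W (castV c x) (castV c x') := by
  by_cases hc : x.cl = c
  · rw [castV_self hc, castV_self (h.cl ▸ hc)]; exact h
  · have e1 : castV c x = dfg c := if_neg hc
    have e2 : castV c x' = dfg c := if_neg fun h' => hc (h.cl.trans h')
    rw [e1, e2]; exact .refl _ _

/-- `f` has small support: every coordinate of its values depends on few coordinates. -/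
def Spt (ρ0 : ℕ → GV S α) (f : (ℕ → GV S α) → GV S α) : Prop :=
  ∀ l : A0 S α, ∃ W : Set (A0 S α), Small.{u} W ∧ Dpd ρ0 (fun ρ ρ' => AgV {l} (f ρ) (f ρ')) W

variable {ρ0 : ℕ → GV S α} {f g : (ℕ → GV S α) → GV S α}

theorem Spt.all (h : Spt ρ0 f) (L : Set (A0 S α)) [Small.{u} L] :
    ∃ W : Set (A0 S α), Small.{u} W ∧ Dpd ρ0 (fun ρ ρ' => AgV L (f ρ) (f ρ')) W := by
  obtain ⟨W, h1, h2, h3⟩ := ex_and (fun _ _ h hW => hW.mono h)
    (fun _ _ h hW i => (hW i).mono h) (h [])
    (ex_union (ι := L) (Q := fun l => Dpd ρ0 (fun ρ ρ' => AgV {l.1} (f ρ) (f ρ')))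
      (fun _ _ _ h hW => hW.mono h) (fun l => h l.1))
  exact ⟨W, h1, fun ρ ρ' k1 k2 k3 => .of_all (h2 ρ ρ' k1 k2 k3)
    fun l hl => h3 ⟨l, hl⟩ ρ ρ' k1 k2 k3⟩

theorem Spt.cast (h : Spt ρ0 f) (c : Cl S) : Spt ρ0 fun ρ => castV c (f ρ) := by
  intro l
  obtain ⟨W, h1, h2⟩ := h l
  exact ⟨W, h1, fun ρ ρ' k1 k2 k3 => (h2 ρ ρ' k1 k2 k3).cast c⟩

theorem Spt.const (x : GV S α) : Spt ρ0 fun _ => x :=
  fun _ => ⟨∅, inferInstance, fun _ _ _ _ _ => .refl _ _⟩

theorem Spt.var (n : ℕ) : Spt ρ0 fun ρ => ρ n :=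
  fun l => ⟨{l}, inferInstance, fun _ _ _ _ h => h n⟩

/-- Values that are not functions of even kinds depend on few coordinates. -/
theorem Spt.eq (h : Spt ρ0 f) (hc : ∀ ρ, AgE ∅ ρ0 ρ → (f ρ).cl ≠ .e) :
    ∃ W : Set (A0 S α), Small.{u} W ∧ Dpd ρ0 (fun ρ ρ' => f ρ = f ρ') W := by
  obtain ⟨W, h1, h2⟩ := h []
  exact ⟨W, h1, fun ρ ρ' k1 k2 k3 => (h2 ρ ρ' k1 k2 k3).eq (hc ρ k1)⟩

theorem app_agE {W : Set (A0 S α)} {c : Cl S} {N : Tm S} {x x' y : GV S α} {l : A0 S α}
    (h : AgV W x x') (h1 : ((N, y.a0) :: l) ∈ W) (h2 : [(N, y.a0)] ∈ W) :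
    AgV {l} (x.app c N y) (x'.app c N y) := by
  cases h with
  | b x => exact .refl _ _
  | o F => exact .refl _ _
  | @e g g' h =>
    show AgV {l} (resE c fun l => g ((N, y.a0) :: l)) (resE c fun l => g' ((N, y.a0) :: l))
    cases c with
    | b k =>
      have e : g [(N, y.a0)] = g' [(N, y.a0)] := h _ h2
      show AgV {l} (GV.b ⟨k, SV.to (g [(N, y.a0)]) k⟩) (GV.b ⟨k, SV.to (g' [(N, y.a0)]) k⟩)
      rw [e]; exact .refl _ _
    | e =>
      refine .e fun k hk => ?_
      cases hk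
      exact h _ h1
    | o =>
      refine .e fun k hk => ?_
      cases hk
      exact h _ h1

/-- Application. -/
theorem Spt.app (hf : Spt ρ0 f) (hg : Spt ρ0 g) (c : Cl S) (N : Tm S) {cf cg : Cl S}
    (h1 : ∀ ρ, AgE ∅ ρ0 ρ → (f ρ).cl = cf) (h2 : ∀ ρ, AgE ∅ ρ0 ρ → (g ρ).cl = cg)
    (h3 : cf ≠ .o → cg ≠ .e) : Spt ρ0 fun ρ => (f ρ).app c N (g ρ) := by
  intro l
  cases cf with
  | b k =>
    have h4 := h3 (fun h => by cases h)
    obtain ⟨W, k1, k2, k3⟩ := ex_and (fun _ _ h hW => Dpd.mono h hW)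
      (fun _ _ h hW => Dpd.mono h hW) (hf.eq fun ρ hρ => by rw [h1 ρ hρ]; exact fun h => by cases h)
      (hg.eq fun ρ hρ => by rw [h2 ρ hρ]; exact h4)
    refine ⟨W, k1, fun ρ ρ' j1 j2 j3 => ?_⟩
    have e1 : f ρ = f ρ' := k2 ρ ρ' j1 j2 j3
    have e2 : g ρ = g ρ' := k3 ρ ρ' j1 j2 j3
    dsimp only
    rw [e1, e2]; exact .refl _ _
  | e =>
    have h4 := h3 (fun h => by cases h)
    obtain ⟨W1, k1, k2⟩ := hg.eq fun ρ hρ => by rw [h2 ρ hρ]; exact h4
    have hs := small_vals ρ0 g k2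
    obtain ⟨W, k3, k4, k5⟩ := ex_and (fun _ _ h hW => Dpd.mono h hW)
      (fun _ _ h hW i => Dpd.mono h (hW i)) ⟨W1, k1, k2⟩
      (ex_union (ι := {x | ∃ ρ, AgE ∅ ρ0 ρ ∧ g ρ = x})
        (Q := fun z => Dpd ρ0 (fun ρ ρ' =>
          AgV {(N, z.1.a0) :: l, [(N, z.1.a0)]} (f ρ) (f ρ')))
        (fun _ _ _ h hW => hW.mono h) (fun z => hf.all _))
    refine ⟨W, k3, fun ρ ρ' j1 j2 j3 => ?_⟩
    have e2 : g ρ = g ρ' := k4 ρ ρ' j1 j2 j3
    have e3 := k5 ⟨_, ρ, j1, rfl⟩ ρ ρ' j1 j2 j3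
    dsimp only at e3 ⊢
    rw [← e2]
    exact app_agE e3 (.inl rfl) (.inr rfl)
  | o =>
    obtain ⟨W1, k1, k2⟩ := hf.eq fun ρ hρ => by rw [h1 ρ hρ]; exact fun h => by cases h
    have hs := small_vals ρ0 f k2
    obtain ⟨W2, k3, k4⟩ := ex_union (ι := {x | ∃ ρ, AgE ∅ ρ0 ρ ∧ f ρ = x})
      (Q := fun z W => SupOn W z.1.to) (fun i W W' hW h => h.mono hW) (by
        rintro ⟨z, hz⟩
        cases z with
        | b x => exact ⟨∅, inferInstance, sup_one x⟩
        | e g => exact ⟨∅, inferInstance, fun _ _ _ => rfl⟩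
        | o F => exact F.2)
    obtain ⟨W, k5, k6, k7⟩ := ex_and (fun _ _ h hW => Dpd.mono h hW)
      (fun _ _ h hW => Dpd.mono h hW) ⟨W1, k1, k2⟩ (hg.all W2)
    refine ⟨W, k5, fun ρ ρ' j1 j2 j3 => ?_⟩
    have e2 : f ρ = f ρ' := k6 ρ ρ' j1 j2 j3
    have e3 := k7 ρ ρ' j1 j2 j3
    obtain ⟨F, hF⟩ := cl_o (h1 ρ j1)
    have e4 := k4 ⟨f ρ, ρ, j1, rfl⟩
    dsimp only at e3 e4 ⊢
    rw [← e2]
    rw [hF] at e4 ⊢
    have e5 : GV.app c (.o F) N (g ρ) = GV.app c (.o F) N (g ρ') := by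
      show resO _ _ = resO _ _
      congr 1
      refine Subtype.ext (funext fun r => ?_)
      exact e4 _ _ (.cons ⟨rfl, e3.a1⟩ (AgL.refl _ r))
    rw [e5]
    exact .refl _ _

/-! Functions of assignments, expressions and values. -/

/-- `F` has small support, also in its last argument, for arguments with the code `c0`. -/
def Spt2 (ρ0 : ℕ → GV S α) (p : Tm S → Prop) (v : GV S α → Prop)
    (F : (ℕ → GV S α) → Tm S → GV S α → GV S α) : Prop :=
  ∀ N, p N → ∀ x0, v x0 → ∀ l : A0 S α, ∃ W : Set (A0 S α), Small.{u} W ∧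
    Dpd ρ0 (fun ρ ρ' => ∀ x x', AgV ∅ x0 x → AgV ∅ x0 x' → AgV W x x' →
      AgV {l} (F ρ N x) (F ρ' N x')) W

variable {p : Tm S → Prop} {v : GV S α → Prop} {F : (ℕ → GV S α) → Tm S → GV S α → GV S α}

open Classical in
theorem Spt2.bodyW (h : Spt2 ρ0 p v F) (hv : ∀ x x', v x → AgV ∅ x x' → v x')
    (ho : ∀ x, v x → x.cl ≠ .o) :
    ∃ W : Set (A0 S α), Small.{u} W ∧ Dpd ρ0 (fun ρ ρ' => ∀ N, p N → ∀ x x',
      v x → AgV W x x' → AgV {[]} (F ρ N x) (F ρ' N x')) W := by
  have key : ∀ i : Tm S × Option (SV S α), ∃ W : Set (A0 S α), Small.{u} W ∧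
      (p i.1 → v (rsh i.2) →
        Dpd ρ0 (fun ρ ρ' => ∀ x x', AgV ∅ (rsh i.2) x → AgV ∅ (rsh i.2) x' → AgV W x x' →
      AgV {[]} (F ρ i.1 x) (F ρ' i.1 x')) W) := by
    rintro ⟨N, i⟩
    by_cases h1 : p N
    · by_cases h2 : v (rsh i)
      · obtain ⟨W, h3, h4⟩ := h N h1 (rsh i) h2 []
        exact ⟨W, h3, fun _ _ => h4⟩
      · exact ⟨∅, inferInstance, fun _ h => absurd h h2⟩
    · exact ⟨∅, inferInstance, fun h => absurd h h1⟩
  obtain ⟨W, h1, h2⟩ := ex_union (ι := Tm S × Option (SV S α))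
    (Q := fun i W => p i.1 → v (rsh i.2) →
        Dpd ρ0 (fun ρ ρ' => ∀ x x', AgV ∅ (rsh i.2) x → AgV ∅ (rsh i.2) x' → AgV W x x' →
      AgV {[]} (F ρ i.1 x) (F ρ' i.1 x')) W)
    (fun i W W' hW h h1 h2 ρ ρ' k1 k2 k3 x x' k4 k5 k6 =>
      h h1 h2 ρ ρ' k1 k2 (k3.mono hW) x x' k4 k5 (k6.mono hW)) key
  refine ⟨W, h1, fun ρ ρ' k1 k2 k3 N hN x x' hx k4 => ?_⟩
  obtain ⟨i, hi⟩ := rsh_ex (ho x hx)
  exact h2 (N, i) hN (hv _ _ hx hi.symm0) ρ ρ' k1 k2 k3 x x' hi
    (hi.trans0 (k4.mono (by simp))) k4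

open Classical in
/-- Abstractions in odd kinds have small support. -/
theorem Spt2.sup_lamO {c0 : Cl S} (h : Spt2 ρ0 p (fun x => x.cl = c0) F) (h0 : c0 ≠ .o)
    (he : ∀ ρ, AgE ∅ ρ0 ρ → ∀ N, p N → ∀ x, x.cl = c0 → (F ρ N x).cl ≠ .e) :
    Sup (lamO c0 p (F ρ0)) := by
  obtain ⟨W1, h1, h2⟩ := h.bodyW (fun x x' h h' => by rw [← h'.cl]; exact h)
    (fun x hx => by rw [hx]; exact h0)
  -- the set of values
  let VS : Set (GV S α) := ⋃ i : Tm S × Option (SV S α),
    {z | p i.1 ∧ (rsh i.2 : GV S α).cl = c0 ∧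
      ∃ ρ, AgE ∅ (vcons (rsh i.2) ρ0) ρ ∧ F (fun n => ρ (n + 1)) i.1 (ρ 0) = z}
  have hVS : Small.{u} VS := by
    have : ∀ i : Tm S × Option (SV S α), Small.{u}
      {z | p i.1 ∧ (rsh i.2 : GV S α).cl = c0 ∧
      ∃ ρ, AgE ∅ (vcons (rsh i.2) ρ0) ρ ∧ F (fun n => ρ (n + 1)) i.1 (ρ 0) = z} := by
      rintro ⟨N, i⟩
      by_cases hN : p N
      · by_cases hx : (rsh i : GV S α).cl = c0
        · obtain ⟨W, k1, k2⟩ := h N hN (rsh i) hx []
          have hs := small_vals (vcons (rsh i) ρ0) (fun ρ => F (fun n => ρ (n + 1)) N (ρ 0))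
            (W := W) (by
            intro ρ ρ' j1 j2 j3
            have := k2 (fun n => ρ (n + 1)) (fun n => ρ' (n + 1)) (fun n => j1 (n + 1))
              (fun n => j2 (n + 1)) (fun n => j3 (n + 1)) (ρ 0) (ρ' 0) (j1 0) (j2 0) (j3 0)
            refine this.eq ?_
            refine he _ (fun n => j1 (n + 1)) N hN _ ?_
            rw [← (j1 0).cl]; exact hx)
          exact @small_subset _ {x | ∃ ρ, AgE ∅ (vcons (rsh i) ρ0) ρ ∧
            F (fun n => ρ (n + 1)) N (ρ 0) = x} _ (fun z hz => hz.2.2) hs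
        · exact small_subset (s := ∅) fun z hz => absurd hz.2.1 hx
      · exact small_subset (s := ∅) fun z hz => absurd hz.1 hN
    infer_instance
  obtain ⟨W2, h3, h4⟩ := ex_union (ι := VS) (Q := fun z W => SupOn W z.1.to)
    (fun i W W' hW h => h.mono hW) (by
      rintro ⟨z, hz⟩
      cases z with
      | b x => exact ⟨∅, inferInstance, sup_one x⟩
      | e g => exact ⟨∅, inferInstance, fun _ _ _ => rfl⟩
      | o F => exact F.2)
  refine ⟨W1 ∪ W2, inferInstance, ?_⟩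
  intro l l' hl
  cases hl with
  | nil => rfl
  | @cons q q' l l' hp hl =>
    obtain ⟨N, t⟩ := q
    obtain ⟨N', t'⟩ := q'
    obtain ⟨e1, e2⟩ := hp
    dsimp only at e1 e2
    subst e1
    have e3 : AgV (W1 ∪ W2) (of1 t) (of1 t') := by
      cases e2 with
      | inl h => exact .e h
      | inr y => exact .b y
    show (if _ then _ else _) = (if _ then _ else _)
    by_cases hc : p N ∧ (of1 t).cl = c0
    · rw [if_pos hc, if_pos ⟨hc.1, by rw [← e3.cl]; exact hc.2⟩]
      have e4 := h2 ρ0 ρ0 (.refl _ _) (.refl _ _) (.refl _ _) N hc.1 _ _ hc.2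
        (e3.mono Set.subset_union_left)
      have e5 := e4.eq (he ρ0 (.refl _ _) N hc.1 _ hc.2)
      rw [← e5]
      obtain ⟨i, hi⟩ := rsh_ex (x := of1 t) (by rw [hc.2]; exact h0)
      refine h4 ⟨F ρ0 N (of1 t), ?_⟩ l l' (AgL.mono Set.subset_union_right hl)
      refine Set.mem_iUnion.2 ⟨(N, i), hc.1, by rw [hi.cl]; exact hc.2, vcons (of1 t) ρ0, ?_, rfl⟩
      exact (AgE.refl ∅ ρ0).vcons hi
    · rw [if_neg hc, if_neg fun h' => hc ⟨h'.1, by rw [e3.cl]; exact h'.2⟩]

/-- Abstraction. -/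
theorem Spt2.mkL {k c0 : Cl S} {g : Tm S → Cl S} (h : Spt2 ρ0 p (fun x => x.cl = c0) F)
    (hcl : ∀ ρ, AgE ∅ ρ0 ρ → ∀ N, p N → ∀ x, x.cl = c0 → (F ρ N x).cl = g N)
    (hb : (∃ k', k = .b k') → (∃ k', c0 = .b k') ∧ ∀ N, p N → ∃ k', g N = .b k')
    (ho : k = .o → c0 ≠ .o ∧ ∀ N, p N → g N ≠ .e) :
    Spt ρ0 fun ρ => NM.mkL k c0 p (F ρ) := by
  classical
  have heq : c0 ≠ .o → (∀ N, p N → g N ≠ .e) →
      Spt ρ0 fun ρ => NM.mkL k c0 p (F ρ) := by
    intro h1 h2 l
    obtain ⟨W, k1, k2⟩ := h.bodyW (fun x x' h h' => by rw [← h'.cl]; exact h)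
      (fun x hx => by rw [hx]; exact h1)
    refine ⟨W, k1, fun ρ ρ' j1 j2 j3 => ?_⟩
    have e3 : NM.mkL k c0 p (F ρ) = NM.mkL k c0 p (F ρ') := by
      refine mkL_congr rfl rfl (fun _ => Iff.rfl) fun N hN x hx => ?_
      refine (k2 ρ ρ' j1 j2 j3 N hN x x hx (.refl _ _)).eq ?_
      rw [hcl ρ j1 N hN x hx]; exact h2 N hN
    dsimp only
    rw [e3]
    exact .refl _ _
  cases k with
  | b k =>
    obtain ⟨⟨k0, h0⟩, h1⟩ := hb ⟨k, rfl⟩
    refine heq (by rw [h0]; exact fun h => by cases h) fun N hN => ?_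
    obtain ⟨k', hk'⟩ := h1 N hN
    rw [hk']; exact fun h => by cases h
  | o =>
    obtain ⟨h1, h2⟩ := ho rfl
    exact heq h1 h2
  | e =>
    intro l
    show ∃ W : Set (A0 S α), _ ∧ Dpd ρ0 (fun ρ ρ' => AgV {l} (GV.e (lamE _ _ _))
      (GV.e (lamE _ _ _))) W
    rcases l with _ | ⟨⟨N, t⟩, l⟩
    · refine ⟨∅, inferInstance, fun ρ ρ' j1 j2 j3 => .e fun k hk => ?_⟩
      cases hk
      rfl
    · by_cases hcd : p N ∧ (of0 t : GV S α).cl = c0
      · obtain ⟨W, k1, k2⟩ := h N hcd.1 (of0 t) hcd.2 l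
        refine ⟨W, k1, fun ρ ρ' j1 j2 j3 => .e fun k hk => ?_⟩
        cases hk
        show (if _ then _ else _) = (if _ then _ else _)
        rw [if_pos hcd, if_pos hcd]
        have e3 := k2 ρ ρ' j1 j2 j3 _ _ (.refl _ (of0 t)) (.refl _ (of0 t)) (.refl _ _)
        generalize F ρ N (of0 t) = z at e3
        generalize F ρ' N (of0 t) = z' at e3
        cases e3 with
        | e h => exact h l rfl
        | b x => rfl
        | o F => rfl
      · refine ⟨∅, inferInstance, fun ρ ρ' j1 j2 j3 => .e fun k hk => ?_⟩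
        cases hk
        show (if _ then _ else _) = (if _ then _ else _)
        rw [if_neg hcd, if_neg hcd]

theorem vcons_tail (ρ : ℕ → GV S α) : vcons (ρ 0) (fun n => ρ (n + 1)) = ρ := by
  funext n; cases n <;> rfl

theorem Spt2.of (h : ∀ N, p N → ∀ x0, v x0 →
    Spt (vcons x0 ρ0) fun ρ => F (fun n => ρ (n + 1)) N (ρ 0)) : Spt2 ρ0 p v F := by
  intro N hN x0 hx0 l
  obtain ⟨W, h1, h2⟩ := h N hN x0 hx0 l
  refine ⟨W, h1, fun ρ ρ' k1 k2 k3 x x' k4 k5 k6 => ?_⟩
  exact h2 (vcons x ρ) (vcons x' ρ') (k1.vcons k4) (k2.vcons k5) (k3.vcons k6)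

/-- `X` depends on few coordinates. -/
def SptC {T : Type v} (ρ0 : ℕ → GV S α) (X : (ℕ → GV S α) → T) : Prop :=
  ∃ W : Set (A0 S α), Small.{u} W ∧ Dpd ρ0 (fun ρ ρ' => X ρ = X ρ') W

theorem Spt.set (h : Spt ρ0 f) : SptC ρ0 fun ρ => (f ρ).set := by
  obtain ⟨W, h1, h2⟩ := h []
  exact ⟨W, h1, fun ρ ρ' k1 k2 k3 => (h2 ρ ρ' k1 k2 k3).set_eq⟩

theorem SptC.mkT {X : (ℕ → GV S α) → α} (h : SptC ρ0 X) (c : Cl S) :
    Spt ρ0 fun ρ => NM.mkT c (X ρ) := by
  obtain ⟨W, h1, h2⟩ := h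
  refine fun l => ⟨W, h1, fun ρ ρ' k1 k2 k3 => ?_⟩
  exact mkT_ag _ (h2 ρ ρ' k1 k2 k3)

end NM

end Vale.Agent.P340
end

section

/-! Classes of kinds: siblings, instances, codes of the components of products. -/

namespace Vale.Agent.P340

namespace NM

open Tm
open W (Ne MTm Lc Wn Ty LvOk)
open PolR (Kd TyS TyOf tyS_conv)
open C1 (rep TyD TyC)

universe u
variable {S : Type u} {X : Par S} {G D : Ctx S} {K K' A B N : Tm S}

theorem Par.HQ.rl (h : X.HQ G K) : X.Rl G K := by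
  obtain ⟨m, -, h⟩ := h
  exact h.rl

theorem Par.HE.rl (h : X.HE G K) : X.Rl G K := by
  obtain ⟨m, -, h⟩ := h
  exact h.rl

theorem Par.HO.rl (h : X.HO G K) : X.Rl G K := by
  obtain ⟨m, -, h⟩ := h
  exact h.rl

/-! Siblings. -/

section
variable (hW : WNKindVar X.P) (hG : WFC X.P G) (hNG : NCtx X.P G) (hs : Sib K K') (hK : TyE X.P G K)
  (hK' : TyE X.P G K') (h : X.Rl G K) (h' : X.Rl G K')
include hW hG hNG hs hK hK' h h'

end

/-! Instances. -/

section
variable {m0 : S} (H : X.Setup) (hG : WFC X.P G) (hNG : NCtx X.P G)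
  (hpi : J X.P G (pi A B) (sort m0)) (hN : J X.P G N A) (h : X.Rl G (inst B N))
include H hG hNG hpi hN h

theorem rl_pi_of_inst : X.Rl G (pi A B) := by
  obtain ⟨a, b, c, k1, k2, k3, k4⟩ := hpi.pi_inv
  exact (rl_piJ H hG hNG hpi).2 (h.of_sub H.wn (hG.push k1) (hNG.push k1) hG hNG
    (subC_single hN) (.of_sort k2))

theorem hq_inst (h' : X.HQ (push A G) B) : X.HQ G (inst B N) := by
  obtain ⟨a, b, c, k1, k2, k3, k4⟩ := hpi.pi_inv
  exact hq_sub H (hG.push k1) (hNG.push k1) hG hNG (subC_single hN) (.of_sort k2) h h'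

theorem he_inst (h' : X.HE (push A G) B) : X.HE G (inst B N) := by
  obtain ⟨a, b, c, k1, k2, k3, k4⟩ := hpi.pi_inv
  exact he_sub H (hG.push k1) (hNG.push k1) hG hNG (subC_single hN) (.of_sort k2) h h'

theorem ho_inst (h' : X.HO (push A G) B) : X.HO G (inst B N) := by
  obtain ⟨a, b, c, k1, k2, k3, k4⟩ := hpi.pi_inv
  exact ho_sub H (hG.push k1) (hNG.push k1) hG hNG (subC_single hN) (.of_sort k2) h h'

theorem dq_inst (h' : X.DQ (push A G) B) : X.DQ G (inst B N) := by
  obtain ⟨a, b, c, k1, k2, k3, k4⟩ := hpi.pi_inv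
  exact dq_sub H (hG.push k1) (hNG.push k1) hG hNG (subC_single hN) (.of_sort k2) h h'

end

/-! Codes. -/

theorem ek_eq_e : X.ek K = .e ↔ X.HE X.D K ∧ ¬ X.HQ X.D K ∧ ¬ X.HO X.D K := by
  unfold Par.ek
  by_cases h1 : X.DQ X.D K
  · rw [if_pos h1]
    refine ⟨fun h => (by cases h), fun h => ?_⟩
    rcases h1 with h1 | h1
    · exact absurd h1 h.2.1
    · exact absurd h1.2 h.2.2
  · rw [if_neg h1]
    by_cases h2 : X.HE X.D K
    · rw [if_pos h2]
      exact ⟨fun _ => ⟨h2, fun h => h1 (.inl h), fun h => h1 (.inr ⟨h2, h⟩)⟩, fun _ => rfl⟩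
    · rw [if_neg h2]
      by_cases h3 : X.HO X.D K
      · rw [if_pos h3]
        exact ⟨fun h => (by cases h), fun h => absurd h.1 h2⟩
      · rw [if_neg h3]
        exact ⟨fun h => (by cases h), fun h => absurd h.1 h2⟩

theorem ek_eq_o : X.ek K = .o ↔ X.HO X.D K ∧ ¬ X.HQ X.D K ∧ ¬ X.HE X.D K := by
  unfold Par.ek
  by_cases h1 : X.DQ X.D K
  · rw [if_pos h1]
    refine ⟨fun h => (by cases h), fun h => ?_⟩
    rcases h1 with h1 | h1
    · exact absurd h1 h.2.1
    · exact absurd h1.1 h.2.2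
  · rw [if_neg h1]
    by_cases h2 : X.HE X.D K
    · rw [if_pos h2]
      exact ⟨fun h => (by cases h), fun h => absurd h2 h.2.2⟩
    · rw [if_neg h2]
      by_cases h3 : X.HO X.D K
      · rw [if_pos h3]
        exact ⟨fun _ => ⟨h3, fun h => h1 (.inl h), h2⟩, fun _ => rfl⟩
      · rw [if_neg h3]
        exact ⟨fun h => (by cases h), fun h => absurd h.1 h3⟩

theorem ek_b {k : Kd S} (h : X.ek K = .b k) (hv : X.Vd X.D K) : X.DQ X.D K := by
  by_contra h1
  rcases hv with h2 | h2 | h2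
  · exact h1 (.inl h2)
  · rw [ek_he h1 h2] at h; cases h
  · rw [ek_ho h1 h2] at h; cases h

/-- The codes of the components of a product whose code is ranked. -/
theorem ek_pi_b {m0 : S} (H : X.Setup) (hpi : J X.P X.D (pi A B) (sort m0))
    (h : X.DQ X.D (pi A B)) : X.ek A = .b (X.kd A) ∧
      ∀ N, J X.P X.D N A → X.ek (inst B N) = .b (X.kd (inst B N)) := by
  obtain ⟨h2, h1⟩ := dq_pi H X.wf H.nc hpi h
  refine ⟨?_, fun N hN => ?_⟩
  · by_cases hA : X.Rl X.D A
    · exact ek_dq (h1 hA)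
    · rw [ek_irr hA, kd_irr hA]
  · by_cases hA : X.Rl X.D (inst B N)
    · exact ek_dq (dq_inst H X.wf H.nc hpi hN hA h2)
    · rw [ek_irr hA, kd_irr hA]

theorem ek_pi_e {m0 : S} (H : X.Setup) (hpi : J X.P X.D (pi A B) (sort m0))
    (h : X.HE X.D (pi A B)) : X.ek A ≠ .e ∧ ∀ N, J X.P X.D N A → X.ek (inst B N) ≠ .o := by
  obtain ⟨h2, h1⟩ := he_pi H X.wf H.nc hpi h
  refine ⟨fun h => ?_, fun N hN h => ?_⟩
  · obtain ⟨h3, h4, h5⟩ := ek_eq_e.1 h
    rcases h1 h3.rl with h6 | h6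
    · exact h5 h6
    · exact h4 h6
  · obtain ⟨h3, h4, h5⟩ := ek_eq_o.1 h
    rcases h2 with h6 | h6
    · exact h5 (he_inst H X.wf H.nc hpi hN h3.rl h6)
    · exact h4 (hq_inst H X.wf H.nc hpi hN h3.rl h6)

theorem ek_pi_o {m0 : S} (H : X.Setup) (hpi : J X.P X.D (pi A B) (sort m0))
    (h : X.HO X.D (pi A B)) : X.ek A ≠ .o ∧ ∀ N, J X.P X.D N A → X.ek (inst B N) ≠ .e := by
  obtain ⟨h2, h1⟩ := ho_pi H X.wf H.nc hpi h
  refine ⟨fun h => ?_, fun N hN h => ?_⟩
  · obtain ⟨h3, h4, h5⟩ := ek_eq_o.1 h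
    rcases h1 h3.rl with h6 | h6
    · exact h5 h6
    · exact h4 h6
  · obtain ⟨h3, h4, h5⟩ := ek_eq_e.1 h
    rcases h2 with h6 | h6
    · exact h5 (ho_inst H X.wf H.nc hpi hN h3.rl h6)
    · exact h4 (hq_inst H X.wf H.nc hpi hN h3.rl h6)

/-- The code of the domain of a type. -/
theorem ek_dom {a b c : S} (H : X.Setup) (hA : J X.P X.D A (sort a)) (hr : X.P.rule a b c)
    (hb : b ∈ X.C) (hc : c ∈ X.C) : (X.Rl X.D A → X.HQ X.D A ∨ X.HE X.D A) ∧ X.ek A ≠ .o := by
  have h1 : X.Rl X.D A → X.HQ X.D A ∨ X.HE X.D A := by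
    intro h
    have h2 := h.vwj X.wf hA
    rcases H.rnk.q2 a b c hr h2.ks hb hc with h3 | h3
    · exact .inl ⟨a, h3, h2⟩
    · exact .inr ⟨a, h3, h2⟩
  refine ⟨h1, fun h => ?_⟩
  obtain ⟨h3, h4, h5⟩ := ek_eq_o.1 h
  rcases h1 h3.rl with h6 | h6
  · exact h4 h6
  · exact h5 h6

end NM

end Vale.Agent.P340
end

section

/-! Values of families have small support. -/

namespace Vale.Agent.P340

namespace NM

open Tm
open W (Ne MTm Lc Wn Ty LvOk)
open PolR (Kd TyS TyOf tyS_conv)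
open C1 (rep TyD TyC tyD_conv tyC_conv rep_conv rep_eq conv_subs)

universe u
variable {S : Type u} {X : Par S} {G : Ctx S} {θ : ℕ → Tm S} {ρ ρ0 : ℕ → GV S X.α}

theorem app_invJ {P : Spec S} (hG : WFC P G) {M N T : Tm S} (h : J P G (app M N) T) :
    ∃ A B m, J P G M (pi A B) ∧ J P G N A ∧ J P G (pi A B) (sort m) ∧ Conv (inst B N) T := by
  obtain ⟨A, B, h1, h2, h3⟩ := h.app_inv
  rcases h1.correct hG with ⟨s, h4⟩ | ⟨m, h4⟩
  · cases h4
  · exact ⟨A, B, m, h1, h2, h4, h3⟩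

theorem env_ag (he : Env X G θ ρ0) {W : Set (A0 S X.α)} (h : AgE W ρ0 ρ) : Env X G θ ρ where
  wf := he.wf
  nc := he.nc
  sub := he.sub
  val n A hA := by rw [← (h n).cl]; exact he.val n A hA

theorem conv_scons' {N N' : Tm S} (h : Conv N N') (θ : ℕ → Tm S) (n : ℕ) :
    Conv (scons N θ n) (scons N' θ n) := by
  cases n with
  | zero => exact h
  | succ n => exact .refl _

/-- Small support of the values of an expression. -/
def SpM (X : Par S) (G : Ctx S) (M K : Tm S) : Prop :=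
  ∀ (θ : ℕ → Tm S) (ρ0 : ℕ → GV S X.α), Env X G θ ρ0 → X.Rl X.D (K.sub θ) →
    Spt ρ0 fun ρ => X.sem θ ρ M

/-- The body of an abstraction. -/
theorem SpM.body (H : X.Setup) {A M B Q : Tm S} {s : S}
    (hpi : J X.P G (pi A B) (sort s)) (hM : SpM X (push A G) M B) (he : Env X G θ ρ0)
    (hQ : J X.P X.D Q ((pi A B).sub θ)) (hR : X.Rl X.D ((pi A B).sub θ)) :
    Spt2 ρ0 (fun N => TyC X.P X.D N (A.sub θ)) (fun x => x.cl = X.ek (A.sub θ))
      (fun ρ N x => castV (X.rg Q N) (X.sem (scons N θ) (vcons x ρ) M)) := by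
  obtain ⟨a, b, c, k1, k2, k3, k4⟩ := hpi.pi_inv
  refine Spt2.of fun N hN x0 hx0 => ?_
  obtain ⟨N', hc, hN'⟩ := hN
  have hN1 : J X.P X.D N' (A.sub θ) := by
    obtain ⟨L, h1, h2⟩ := hN'
    exact .conv h1 (k1.sub he.sub) h2
  have e1 : X.rg Q N = X.ek (B.sub (scons N' θ)) := by
    rw [rg_conv (.refl _) hc, rg_eq H (A := A.sub θ) (B := B.sub (ups θ)) hQ hR hN1, inst_ups]
  have e2 : ∀ ρ, X.sem (scons N θ) ρ M = X.sem (scons N' θ) ρ M := fun ρ =>
    congrArg Prod.fst (sm_conv M (conv_scons' hc θ))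
  have he' := he.push k1 hN1 hx0
  simp only [e1, e2, vcons_tail]
  by_cases hR' : X.Rl X.D (B.sub (scons N' θ))
  · exact (hM _ _ he' hR').cast _
  · rw [ek_irr hR']
    simp only [castV_unit]
    exact Spt.const _

/-- All values of families have small support. -/
theorem spM_all (H : X.Setup) (M : Tm S) : ∀ {G : Ctx S} {K : Tm S},
    J X.P G M K → SpM X G M K := by
  induction M with
  | var n => intro G K hM θ ρ0 he hR; exact Spt.var n
  | sort s => intro G K hM θ ρ0 he hR; exact Spt.const _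
  | app F N ihF ihN =>
    intro G K hM θ ρ0 he hR
    obtain ⟨A, B, m, h1, h2, hpi, h6⟩ := app_invJ he.wf hM
    have hpi' : J X.P X.D (pi (A.sub θ) (B.sub (ups θ))) (sort m) := hpi.sub he.sub
    have h1' : J X.P X.D (F.sub θ) (pi (A.sub θ) (B.sub (ups θ))) := h1.sub he.sub
    have h2' : J X.P X.D (N.sub θ) (A.sub θ) := h2.sub he.sub
    have hR1 : X.Rl X.D (inst (B.sub (ups θ)) (N.sub θ)) := by
      have := hR.conv (h6.symm.sub θ)
      rwa [sub_inst] at this
    have hR2 := rl_pi_of_inst H X.wf H.nc hpi' h2' hR1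
    have hF := ihF h1 θ ρ0 he hR2
    have hA : Spt ρ0 fun ρ => castV (X.dm (F.sub θ)) (X.sem θ ρ N) := by
      rw [dm_eq h1']
      by_cases hRA : X.Rl X.D (A.sub θ)
      · exact (ihN h2 θ ρ0 he hRA).cast _
      · rw [ek_irr hRA]
        simp only [castV_unit]
        exact Spt.const _
    simp only [sem_app]
    unfold Par.apV
    by_cases hq : X.TQ (F.sub θ)
    · simp only [cif_pos hq]
      refine (Spt.app hF hA _ _ (cf := X.ek (pi (A.sub θ) (B.sub (ups θ))))
        (cg := X.ek (A.sub θ)) ?_ ?_ ?_).cast _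
      · intro ρ hρ
        exact code H (env_ag he hρ) h1 hR2
      · intro ρ hρ
        rw [castV_cl, dm_eq h1']
      · intro h7 h8
        have hV := (tq_iff H h1' hR2).1 hq
        obtain ⟨g1, g2, g3⟩ := ek_eq_e.1 h8
        have n1 : ¬ X.HQ X.D (pi (A.sub θ) (B.sub (ups θ))) := fun h =>
          g2 ((hq_pi H X.wf H.nc hpi' h).2 g1.rl)
        have n2 : ¬ X.HE X.D (pi (A.sub θ) (B.sub (ups θ))) := fun h => by
          rcases (he_pi H X.wf H.nc hpi' h).2 g1.rl with h | h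
          · exact g3 h
          · exact g2 h
        rcases hV with h | h | h
        · exact n1 h
        · exact n2 h
        · exact h7 (ek_eq_o.2 ⟨h, n1, n2⟩)
    · simp only [cif_neg hq]
      exact Spt.const _
  | lam A M _ ihM =>
    intro G K hM θ ρ0 he hR
    obtain ⟨B, s, h1, hpi, h2⟩ := hM.lam_inv
    have hlam : J X.P G (lam A M) (pi A B) := .lam h1 hpi
    have hpi' : J X.P X.D (pi (A.sub θ) (B.sub (ups θ))) (sort s) := hpi.sub he.sub
    have hQ : J X.P X.D ((lam A M).sub θ) ((pi A B).sub θ) := hlam.sub he.sub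
    have hR1 : X.Rl X.D ((pi A B).sub θ) := hR.conv (h2.symm.sub θ)
    have hb := SpM.body H hpi (ihM h1) he hQ hR1
    have hrg : ∀ N, TyC X.P X.D N (A.sub θ) → ∃ N', J X.P X.D N' (A.sub θ) ∧
        X.rg ((lam A M).sub θ) N = X.ek (inst (B.sub (ups θ)) N') := by
      rintro N ⟨N', hc, hN'⟩
      obtain ⟨a, b, c, k1, k2, k3, k4⟩ := hpi.pi_inv
      have hN1 : J X.P X.D N' (A.sub θ) := by
        obtain ⟨L, h1, h2⟩ := hN'
        exact .conv h1 (k1.sub he.sub) h2
      exact ⟨N', hN1, by rw [rg_conv (.refl _) hc, rg_eq H (A := A.sub θ)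
        (B := B.sub (ups θ)) hQ hR1 hN1]⟩
    simp only [sem_lam]
    unfold Par.lmV
    by_cases hq : X.TQ ((lam A M).sub θ)
    · simp only [cif_pos hq]
      have hV := (tq_iff H hQ hR1).1 hq
      refine Spt2.mkL (g := X.rg ((lam A M).sub θ)) hb (fun _ _ _ _ _ _ => castV_cl _ _) ?_ ?_
      · rintro ⟨k, hk⟩
        rw [cd_eq H hQ hR1] at hk
        obtain ⟨g1, g2⟩ := ek_pi_b H hpi' (ek_b hk hV)
        refine ⟨⟨_, g1⟩, fun N hN => ?_⟩
        obtain ⟨N', g3, g4⟩ := hrg N hN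
        exact ⟨_, g4.trans (g2 N' g3)⟩
      · intro hk
        rw [cd_eq H hQ hR1] at hk
        obtain ⟨g1, g2⟩ := ek_pi_o H hpi' (ek_eq_o.1 hk).1
        refine ⟨g1, fun N hN => ?_⟩
        obtain ⟨N', g3, g4⟩ := hrg N hN
        rw [g4]; exact g2 N' g3
    · simp only [cif_neg hq]
      exact Spt.const _
  | pi A B ihA ihB =>
    intro G K hM θ ρ0 he hR
    obtain ⟨a, b, c, h1, h2, h3, h4⟩ := hM.pi_inv
    have hc : c ∈ X.C := by
      have h5 : X.Rl X.D (sort c) := hR.conv (h4.symm.sub θ)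
      rcases h5 with ⟨s', h6, h7⟩ | ⟨m, -, h7⟩
      · cases h7.sort_inj; exact h6
      · rw [nf_normal (normal_sort c)] at h7; exact h7.1
    obtain ⟨la, lb⟩ := H.lvok a b c h3
    have hlc : X.lv c = X.i := hc
    have rlC : ∀ {s : S}, s ∈ X.C → ∀ θ : ℕ → Tm S, X.Rl X.D ((sort s).sub θ) :=
      fun hs θ => .inl ⟨_, hs, .refl _⟩
    have hA' : J X.P X.D (A.sub θ) (sort a) := h1.sub he.sub
    have key : SptC ρ0 fun ρ => X.tc θ ρ (pi A B) := by
      have hW1 : ∃ W : Set (A0 S X.α), Small.{u} W ∧ (¬ Lc X.P X.lv X.i X.D (A.sub θ) →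
          Dpd ρ0 (fun ρ ρ' => X.tc θ ρ A = X.tc θ ρ' A) W) := by
        by_cases ha : a ∈ X.C
        · obtain ⟨W, k1, k2⟩ := (ihA h1 θ ρ0 he (rlC ha θ)).set
          refine ⟨W, k1, fun _ ρ ρ' j1 j2 j3 => ?_⟩
          show X.tc θ ρ A = X.tc θ ρ' A
          rw [tc_set H he.sub h1 ha, tc_set H he.sub h1 ha]
          exact k2 ρ ρ' j1 j2 j3
        · refine ⟨∅, inferInstance, fun h => absurd ?_ h⟩
          exact .of_sort hA' (lt_of_le_of_ne (hlc ▸ la) ha)
      have hW2 : ∃ W : Set (A0 S X.α), Small.{u} W ∧ (Dpd ρ0 (fun ρ ρ' =>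
          ∀ N, TyD X.P X.D N (A.sub θ) → ¬ Lc X.P X.lv X.i X.D (B.sub (scons N θ)) →
            ∀ x : GV S X.α, x.cl = X.ek (A.sub θ) →
          X.tc (scons N θ) (vcons x ρ) B = X.tc (scons N θ) (vcons x ρ') B) W) := by
        have hty : ∀ {N : Tm S}, TyD X.P X.D N (A.sub θ) → J X.P X.D N (A.sub θ) := by
          rintro N ⟨L, h1, h2⟩
          exact .conv h1 hA' h2
        by_cases hb : b ∈ X.C
        · obtain ⟨-, ho⟩ := ek_dom H hA' h3 hb hc
          have hs : Spt2 ρ0 (fun N => TyD X.P X.D N (A.sub θ)) (fun x => x.cl = X.ek (A.sub θ))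
              (fun ρ N x => X.sem (scons N θ) (vcons x ρ) B) := by
            refine Spt2.of fun N hN x0 hx0 => ?_
            simp only [vcons_tail]
            exact ihB h2 _ _ (he.push h1 (hty hN) hx0) (rlC hb _)
          obtain ⟨W, k1, k2⟩ := hs.bodyW (fun x x' h h' => by rw [← h'.cl]; exact h)
            (fun x hx => by rw [hx]; exact ho)
          refine ⟨W, k1, fun ρ ρ' j1 j2 j3 N hN _ x hx => ?_⟩
          rw [tc_set H (he.sub.scons (hty hN)) h2 hb,
            tc_set H (he.sub.scons (hty hN)) h2 hb]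
          exact (k2 ρ ρ' j1 j2 j3 N hN x x hx (.refl _ _)).set_eq
        · refine ⟨∅, inferInstance, fun ρ ρ' j1 j2 j3 N hN h => absurd ?_ h⟩
          exact .of_sort (h2.sub (he.sub.scons (hty hN))) (lt_of_le_of_ne (hlc ▸ lb) hb)
      obtain ⟨W, k1, k2, k3⟩ := ex_and (fun _ _ h hW ha => (hW ha).mono h)
        (fun _ _ h hW => hW.mono h) hW1 hW2
      refine ⟨W, k1, fun ρ ρ' j1 j2 j3 => ?_⟩
      simp only [tc_pi]
      exact piC_congr (.refl _) (fun h => k2 h ρ ρ' j1 j2 j3) (fun _ _ => Iff.rfl)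
        (fun N hN hL x hx => k3 ρ ρ' j1 j2 j3 N hN hL x hx)
    simp only [sem_pi]
    exact key.mkT _

/-- Abstractions in odd kinds have small support. -/
theorem sup_lamO (H : X.Setup) {A M B Q : Tm S} {s : S}
    (hM : J X.P (push A G) M B) (hpi : J X.P G (pi A B) (sort s)) (he : Env X G θ ρ0)
    (hQ : J X.P X.D Q ((pi A B).sub θ)) (hO : X.HO X.D ((pi A B).sub θ)) :
    Sup (lamO (X.ek (A.sub θ)) (fun N => TyC X.P X.D N (A.sub θ))
      (fun N x => castV (X.rg Q N) (X.sem (scons N θ) (vcons x ρ0) M))) := by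
  have hpi' : J X.P X.D (pi (A.sub θ) (B.sub (ups θ))) (sort s) := hpi.sub he.sub
  obtain ⟨g1, g2⟩ := ek_pi_o H hpi' hO
  refine Spt2.sup_lamO (SpM.body H hpi (spM_all H M hM) he hQ hO.rl) g1 ?_
  rintro ρ hρ N ⟨N', hc, hN'⟩ x hx
  obtain ⟨a, b, c, k1, k2, k3, k4⟩ := hpi.pi_inv
  have hN1 : J X.P X.D N' (A.sub θ) := by
    obtain ⟨L, h1, h2⟩ := hN'
    exact .conv h1 (k1.sub he.sub) h2
  rw [castV_cl, rg_conv (.refl _) hc, rg_eq H (A := A.sub θ) (B := B.sub (ups θ)) hQ hO.rl hN1]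
  exact g2 N' hN1

end NM

end Vale.Agent.P340
end

section

/-! Invariance of the interpretation under reduction. -/

namespace Vale.Agent.P340

namespace NM

open Tm
open W (Ne MTm Lc Wn Ty LvOk)
open PolR (Kd TyS TyOf tyS_conv tyS_le)
open C1 (rep TyD TyC tyD_conv tyC_conv rep_conv rep_eq conv_subs conv_scons scons_ups)

universe u
variable {S : Type u} {X : Par S} {G : Ctx S} {θ : ℕ → Tm S} {ρ : ℕ → GV S X.α}

theorem tyC_rep {P : Spec S} {D : Ctx S} {A N : Tm S} (hN : J P D N A) :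
    TyC P D (rep N) A := ⟨_, (rep_conv _).symm, _, hN, .refl _⟩

theorem of_tyC {P : Spec S} {D : Ctx S} {A N : Tm S} {s : S} (hA : J P D A (sort s))
    (hN : TyC P D N A) : ∃ N', Conv N N' ∧ J P D N' A := by
  obtain ⟨N', h1, L, h2, h3⟩ := hN
  exact ⟨N', h1, .conv h2 hA h3⟩

theorem conv_sc {N N' : Tm S} (h : Conv N N') (θ : ℕ → Tm S) (n : ℕ) :
    Conv (scons N θ n) (scons N' θ n) := by
  cases n with
  | zero => exact h
  | succ n => exact .refl _

/-- The domain of a product with universal code has lower rank. -/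
theorem uq_dom (H : X.Setup) {D : Ctx S} (hG : WFC X.P D) (hNG : NCtx X.P D) {A B c : Tm S}
    {r : ℕ} (h : J X.P D (pi A B) c) (h' : X.UQ D r (pi A B)) (hA : X.Rl D A) :
    X.Low D r A := by
  obtain ⟨⟨m, h1, h2, h3, h4⟩, h5⟩ := h'
  obtain ⟨a, b, k1, k2, k3⟩ := (vw_piJ H hG hNG h).1 h3
  have hv := hA.vw hG k1
  obtain ⟨-, q1⟩ := H.rnk.q1 a b m k3 k2.ks h1
  obtain ⟨-, u1⟩ := H.rnk.u1 a b m k3 k2.ks h1 h2
  exact ⟨a, q1 hv.ks, hv, h4 ▸ u1 hv.ks⟩

/-- The instances of the codomain of a product with universal code. -/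
theorem uq_cod (H : X.Setup) {D : Ctx S} (hG : WFC X.P D) (hNG : NCtx X.P D) {A B N : Tm S}
    {c : S} {r : ℕ} (h : J X.P D (pi A B) (sort c)) (h' : X.UQ D r (pi A B))
    (hN : J X.P D N A) (hR : X.Rl D (inst B N)) :
    X.Low D r (inst B N) ∨ X.UQ D r (inst B N) := by
  by_cases hl : X.Low D r (inst B N)
  · exact .inl hl
  right
  refine ⟨?_, hl⟩
  obtain ⟨⟨m, h1, h2, h3, h4⟩, h5⟩ := h'
  obtain ⟨a, b, k1, k2, k3⟩ := (vw_piJ H hG hNG h).1 h3
  obtain ⟨a', b', c', l1, l2, l3, l4⟩ := h.pi_inv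
  obtain ⟨q1, -⟩ := H.rnk.q1 a b m k3 k2.ks h1
  have hv : X.Vw D (inst B N) b :=
    Vw.sub H.wn (hG.push l1) (hNG.push l1) hG hNG (subC_single hN) (.of_sort l2) hR k2
  obtain ⟨u1, -⟩ := H.rnk.u1 a b m k3 k2.ks h1 h2
  rcases u1 with u | ⟨u, u'⟩
  · exact absurd ⟨b, q1, hv, by omega⟩ hl
  · exact ⟨b, q1, u', hv, by omega⟩

/-- Contraction of values. -/
theorem beta_V (H : X.Setup) {A B Q N : Tm S} {c : S}
    {f : Tm S → GV S X.α → GV S X.α} {v : GV S X.α}
    (hpi : J X.P X.D (pi A B) (sort c)) (hQ : J X.P X.D Q (pi A B)) (hN : J X.P X.D N A)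
    (hv : X.Vd X.D (pi A B)) (hR : X.Rl X.D (inst B N))
    (hs : X.HO X.D (pi A B) → Sup (lamO (X.ek A) (fun N => TyC X.P X.D N A)
      (fun N x => castV (X.rg Q N) (f N x))))
    (hf : f (rep N) (castV (X.ek A) v) = f N (castV (X.ek A) v))
    (hc : (f N (castV (X.ek A) v)).cl = X.ek (inst B N)) :
    X.apV Q N (X.lmV A Q f) v = f N (castV (X.ek A) v) := by
  classical
  have hTQ : X.TQ Q := (tq_iff H hQ hv.rl).2 hv
  have hrg : X.rg Q N = X.ek (inst B N) := rg_eq H hQ hv.rl hN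
  have hrg' : X.rg Q (rep N) = X.ek (inst B N) := by
    rw [← hrg]; exact rg_conv (.refl _) (rep_conv _).symm
  have hg : castV (X.rg Q (rep N)) (f (rep N) (castV (X.ek A) v)) = f N (castV (X.ek A) v) := by
    rw [hrg', hf, castV_self hc]
  have hx : (castV (X.ek A) v).cl = X.ek A := castV_cl _ _
  have hp : TyC X.P X.D (rep N) A := tyC_rep hN
  have key : (mkL (X.ek (pi A B)) (X.ek A) (fun N => TyC X.P X.D N A)
      (fun N x => castV (X.rg Q N) (f N x))).app (X.ek (inst B N)) (rep N) (castV (X.ek A) v) =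
      castV (X.rg Q (rep N)) (f (rep N) (castV (X.ek A) v)) := by
    have hcl : (castV (X.rg Q (rep N)) (f (rep N) (castV (X.ek A) v))).cl = X.ek (inst B N) := by
      rw [castV_cl, hrg']
    generalize castV (X.ek A) v = x at hx hcl
    by_cases hD : X.DQ X.D (pi A B)
    · obtain ⟨e1, e2⟩ := ek_pi_b H hpi hD
      have e3 := e2 N hN
      rw [ek_dq hD]
      rw [e1] at hx ⊢
      rw [e3] at hcl ⊢
      by_cases hU : ∃ r, X.UQ X.D r (pi A B)
      · obtain ⟨r, hr⟩ := hU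
        obtain ⟨a, b, c', l1, l2, l3, l4⟩ := hpi.pi_inv
        rw [kd_univ H (.of_sort hpi) hr]
        refine mkL_univ (f := fun N x => castV (X.rg Q N) (f N x)) hp hx (K := A) ?_ hcl ?_
        · unfold Par.hh
          by_cases hA : X.Rl X.D A
          · exact if_pos ⟨.of_sort l1, uq_dom H X.wf H.nc hpi hr hA⟩
          · rw [kd_irr hA]
            exact if_neg fun h => hA h.2.hq.rl
        · rcases uq_cod H X.wf H.nc hpi hr hN hR with h | h
          · right
            refine ⟨inst B N, ?_⟩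
            unfold Par.hh
            exact if_pos ⟨.of_sort (l2.inst_sort hN), h⟩
          · left
            exact kd_univ H (.of_sort (l2.inst_sort hN)) h
      · rw [kd_arr H hpi hD fun r hr => hU ⟨r, hr⟩]
        refine mkL_arr (f := fun N x => castV (X.rg Q N) (f N x)) hp hx ?_
        rw [hcl, if_pos hp]
        congr 1
        exact kd_conv (Conv.inst (.refl _) (rep_conv _))
    · rcases hv with h | h | h
      · exact absurd (.inl h) hD
      · obtain ⟨e1, e2⟩ := ek_pi_e H hpi h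
        rw [ek_he hD h]
        exact mkL_e (f := fun N x => castV (X.rg Q N) (f N x)) hp hx e1 hcl (e2 N hN)
      · obtain ⟨e1, e2⟩ := ek_pi_o H hpi h
        rw [ek_ho hD h]
        exact mkL_o (f := fun N x => castV (X.rg Q N) (f N x)) (hs h) hp hx e1 hcl (e2 N hN)
  unfold Par.apV Par.lmV
  rw [cif_pos hTQ, cif_pos hTQ, dm_eq hQ, cd_eq H hQ hv.rl, hrg, key, hg, castV_self hc]

/-- Invariance of the values under reduction. -/
theorem sem_step (H : X.Setup) {M M' : Tm S} (hs : Step M M') :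
    ∀ {G : Ctx S} {θ : ℕ → Tm S} {ρ : ℕ → GV S X.α} {K : Tm S}, Env X G θ ρ → J X.P G M K →
      X.Rl X.D (K.sub θ) → X.Cln M G → X.sem θ ρ M = X.sem θ ρ M' := by
  classical
  induction hs with
  | beta A M N =>
    intro G θ ρ K he hM hR hcl
    obtain ⟨A', B', m, h1, h2, hpi', h6⟩ := app_invJ he.wf hM
    obtain ⟨B, a, b, c, k1, k2, k3, k4, k5⟩ := h1.lam_inv'
    obtain ⟨e1, e2⟩ := k5.pi_inj
    have hN : J X.P G N A := .conv h2 k2 e1.symm
    have hpi : J X.P G (pi A B) (sort c) := .pi k2 k3 k4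
    have hlam : J X.P G (lam A M) (pi A B) := .lam k1 hpi
    have hpiD : J X.P X.D (pi (A.sub θ) (B.sub (ups θ))) (sort c) := hpi.sub he.sub
    have hlamD : J X.P X.D ((lam A M).sub θ) (pi (A.sub θ) (B.sub (ups θ))) :=
      hlam.sub he.sub
    have hND := hN.sub he.sub
    have hR1 : X.Rl X.D (inst (B.sub (ups θ)) (N.sub θ)) := by
      rw [← sub_inst]
      exact hR.conv ((h6.symm.trans (Conv.inst e2.symm (.refl _))).sub θ)
    have hR1' : X.Rl X.D (B.sub (scons (N.sub θ) θ)) := by rwa [inst_ups] at hR1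
    have hR2 : X.Rl X.D ((pi A B).sub θ) := rl_of_inst H X.wf H.nc hpiD hND hR1
    have hR3 : X.Rl G (pi A B) :=
      Rl.of_sub H.wn he.wf he.nc X.wf H.nc he.sub (.of_sort hpi) hR2
    have hTV : X.TV G (lam A M) := by
      by_contra h
      exact (hcl ⟨_, hlam, hR3⟩).2.2 h
    have hVd : X.Vd G (pi A B) := Cn.tv_vd H.wn he.wf he.nc hTV hlam hR3
    have hVdD : X.Vd X.D ((pi A B).sub θ) :=
      vd_sub H he.wf he.nc X.wf H.nc he.sub (.of_sort hpi) hR2 hVd
    have hx : (castV (X.ek (A.sub θ)) (X.sem θ ρ N)).cl = X.ek (A.sub θ) := castV_cl _ _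
    have hcode := code H (he.push k2 hND hx) k1 hR1'
    rw [sem_instT H he k2 hN k1 hR1', sem_app, sem_lam]
    refine beta_V H hpiD hlamD hND hVdD hR1 (fun hO => ?_) ?_ ?_
    · exact sup_lamO H k1 hpi he hlamD hO
    · exact sem_conv M (conv_sc (rep_conv _).symm θ)
    · rw [inst_ups]; exact hcode
  | @appL M M' N hs ih =>
    intro G θ ρ K he hM hR hcl
    obtain ⟨A, B, m, h1, h2, hpi, h6⟩ := app_invJ he.wf hM
    have hpiD : J X.P X.D (pi (A.sub θ) (B.sub (ups θ))) (sort m) := hpi.sub he.sub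
    have hR1 : X.Rl X.D (inst (B.sub (ups θ)) (N.sub θ)) := by
      rw [← sub_inst]; exact hR.conv (h6.symm.sub θ)
    have hR2 : X.Rl X.D ((pi A B).sub θ) := rl_of_inst H X.wf H.nc hpiD (h2.sub he.sub) hR1
    have hR3 : X.Rl G (pi A B) :=
      Rl.of_sub H.wn he.wf he.nc X.wf H.nc he.sub (.of_sort hpi) hR2
    rw [sem_app, sem_app, ih he h1 hR2 (hcl ⟨_, h1, hR3⟩).1]
    exact apV_conv (.rel _ _ (hs.sub θ)) (.refl _)
  | @appR M N N' hs ih =>
    intro G θ ρ K he hM hR hcl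
    obtain ⟨A, B, m, h1, h2, hpi, h6⟩ := app_invJ he.wf hM
    obtain ⟨a, b, c, k1, k2, k3, k4⟩ := hpi.pi_inv
    have hpiD : J X.P X.D (pi (A.sub θ) (B.sub (ups θ))) (sort m) := hpi.sub he.sub
    have h1D : J X.P X.D (M.sub θ) (pi (A.sub θ) (B.sub (ups θ))) := h1.sub he.sub
    have hR1 : X.Rl X.D (inst (B.sub (ups θ)) (N.sub θ)) := by
      rw [← sub_inst]; exact hR.conv (h6.symm.sub θ)
    have hR2 : X.Rl X.D ((pi A B).sub θ) := rl_of_inst H X.wf H.nc hpiD (h2.sub he.sub) hR1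
    have hR3 : X.Rl G (pi A B) :=
      Rl.of_sub H.wn he.wf he.nc X.wf H.nc he.sub (.of_sort hpi) hR2
    have hc : Conv (N.sub θ) (N'.sub θ) := .rel _ _ (hs.sub θ)
    have key : castV (X.dm (M.sub θ)) (X.sem θ ρ N) = castV (X.dm (M.sub θ)) (X.sem θ ρ N') := by
      rw [dm_eq h1D]
      by_cases hA : X.Rl X.D (A.sub θ)
      · rw [ih he h2 hA ((hcl ⟨_, h1, hR3⟩).2.1 A B h1
          (Rl.of_sub H.wn he.wf he.nc X.wf H.nc he.sub (.of_sort k1) hA))]
      · rw [ek_irr hA, castV_unit, castV_unit]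
    rw [sem_app, sem_app, ← apV_conv (.refl (M.sub θ)) hc]
    unfold Par.apV
    rw [key]
  | @lamL A A' M hs ih =>
    intro G θ ρ K he hM hR hcl
    rw [sem_lam, sem_lam]
    exact lmV_conv (.rel _ _ (hs.sub θ)) (.rel _ _ ((Step.lamL M hs).sub θ))
  | @lamR A M M' hs ih =>
    intro G θ ρ K he hM hR hcl
    obtain ⟨B, a, b, c, k1, k2, k3, k4, k5⟩ := hM.lam_inv'
    have hpi : J X.P G (pi A B) (sort c) := .pi k2 k3 k4
    have hlam : J X.P G (lam A M) (pi A B) := .lam k1 hpi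
    have hlamD : J X.P X.D ((lam A M).sub θ) (pi (A.sub θ) (B.sub (ups θ))) :=
      hlam.sub he.sub
    have hR2 : X.Rl X.D ((pi A B).sub θ) := hR.conv (k5.symm.sub θ)
    have hR3 : X.Rl G (pi A B) :=
      Rl.of_sub H.wn he.wf he.nc X.wf H.nc he.sub (.of_sort hpi) hR2
    have hclM : X.Cln M (Vale.Agent.P340.push A G) := hcl ⟨_, hlam, hR3⟩
    rw [sem_lam, sem_lam]
    refine lmV_congr (.refl _) (.rel _ _ ((Step.lamR A hs).sub θ)) fun _ N hN x hx => ?_
    obtain ⟨N', hc, hN'⟩ := of_tyC (k2.sub he.sub) hN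
    rw [sem_conv M (conv_sc hc θ), sem_conv M' (conv_sc hc θ),
      rg_conv (.refl _) hc, rg_eq H hlamD hR2 hN']
    by_cases hB : X.Rl X.D (inst (B.sub (ups θ)) N')
    · have hB' : X.Rl X.D (B.sub (scons N' θ)) := by rwa [inst_ups] at hB
      rw [ih (he.push k2 hN' hx) k1 hB' hclM]
    · rw [ek_irr hB, castV_unit, castV_unit]
  | @piL A A' B hs ih =>
    intro G θ ρ K he hM hR hcl
    obtain ⟨a, b, c, h1, h2, h3, h4⟩ := hM.pi_inv
    have hc : c ∈ X.C := rl_sort.1 (hR.conv (h4.symm.sub θ))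
    have hcv : Conv (A.sub θ) (A'.sub θ) := .rel _ _ (hs.sub θ)
    rw [sem_pi, sem_pi, cd_conv (.rel _ _ ((Step.piL B hs).sub θ)), tc_pi, tc_pi]
    refine congrArg (mkT _) (piC_congr hcv (fun hA => ?_) (fun _ _ => Iff.rfl)
      (fun _ _ _ _ _ => rfl))
    have hA' : ¬ Lc X.P X.lv X.i G A := fun h => hA (h.sub he.sub)
    have ha : a ∈ X.C := Cn.memL H h3 hc h1 hA'
    rw [tc_set H he.sub h1 ha, tc_set H he.sub (h1.step he.wf hs) ha,
      ih he h1 (rl_sort.2 ha) ((hcl a b c h1 h2 h3 hc).1 hA')]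
  | @piR A B B' hs ih =>
    intro G θ ρ K he hM hR hcl
    obtain ⟨a, b, c, h1, h2, h3, h4⟩ := hM.pi_inv
    have hc : c ∈ X.C := rl_sort.1 (hR.conv (h4.symm.sub θ))
    rw [sem_pi, sem_pi, cd_conv (.rel _ _ ((Step.piR A hs).sub θ)), tc_pi, tc_pi]
    refine congrArg (mkT _) (piC_congr (.refl _) (fun _ => rfl)
      (fun N _ => lc_conv (.rel _ _ (hs.sub _))) (fun N hN hB x hx => ?_))
    have hN' : J X.P X.D N (A.sub θ) := of_tyD (h1.sub he.sub) hN
    have he' := he.push h1 hN' hx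
    have hB' : ¬ Lc X.P X.lv X.i (Vale.Agent.P340.push A G) B := fun h => hB (h.sub he'.sub)
    have hb : b ∈ X.C := Cn.memR H h3 hc h2 hB'
    rw [tc_set H he'.sub h2 hb, tc_set H he'.sub (h2.step he'.wf hs) hb,
      ih he' h2 (rl_sort.2 hb) ((hcl a b c h1 h2 h3 hc).2 hB')]

theorem sem_red (H : X.Setup) {M M' K : Tm S} (hs : Red M M')
    (he : Env X G θ ρ) (hM : J X.P G M K) (hR : X.Rl X.D (K.sub θ)) (hcl : X.Cln M G) :
    X.sem θ ρ M = X.sem θ ρ M' := by
  have hR' : X.Rl G K :=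
    Rl.of_sub H.wn he.wf he.nc X.wf H.nc he.sub (tyE_of_j he.wf hM) hR
  induction hs with
  | refl => rfl
  | tail h h' ih =>
    exact ih.trans (sem_step H h' he (hM.red he.wf h) hR
      (cln_red H h he.wf he.nc hM hR' hcl))

theorem tc_red (H : X.Setup) {M M' : Tm S} (hs : Red M M') {s : S}
    (he : Env X G θ ρ) (hM : J X.P G M (sort s)) (hc : s ∈ X.C) (hcl : X.Cln M G) :
    X.tc θ ρ M = X.tc θ ρ M' := by
  rw [tc_set H he.sub hM hc, tc_set H he.sub (hM.red he.wf hs) hc,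
    sem_red H hs he hM (rl_sort.2 hc) hcl]

end NM

end Vale.Agent.P340
end

section

/-! Candidates of types: siblings, weakening, abstractions. -/

namespace Vale.Agent.P340

namespace NM

open Tm
open W (Ne MTm Lc Wn Ty DS)
open PolR (TyS TyOf)
open C1 (rep TyD TyC)

universe u
variable {S : Type u} {X : Par S} {G : Ctx S}

theorem normal_pi_of {M A B : Tm S} (hn : Normal M) (h : Conv M (pi A B)) :
    ∃ A' B', M = pi A' B' ∧ Conv A' A ∧ Conv B' B := by
  obtain ⟨A', B', h1, h2, h3⟩ := W.red_pi h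
  exact ⟨A', B', (hn.red h1).symm, h2, h3⟩

theorem normal_eq {M N : Tm S} (hM : Normal M) (hN : Normal N) (h : Conv M N) : M = N := by
  obtain ⟨Q, h1, h2⟩ := h.cr
  rw [← hM.red h1, ← hN.red h2]

/-- Siblings have the same candidates. -/
theorem tc_sibN {A B : Tm S} (h : Sib A B) : ∀ {A' B' : Tm S}, Conv A' A → Conv B' B →
    Normal A' → Normal B' → ∀ (θ : ℕ → Tm S) (ρ : ℕ → GV S X.α),
      X.tc θ ρ A' = X.tc θ ρ B' := by
  induction h with
  | conv h =>
    intro A' B' hA hB nA nB θ ρ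
    rw [normal_eq nA nB ((hA.trans h).trans hB.symm)]
  | @sort A B s t h1 h2 =>
    intro A' B' hA hB nA nB θ ρ
    rw [normal_eq nA (normal_sort s) (hA.trans h1), normal_eq nB (normal_sort t) (hB.trans h2)]
    rfl
  | @pi A B C D D' h1 h2 h3 ih =>
    intro A' B' hA hB nA nB θ ρ
    obtain ⟨A1, B1, rfl, k1, k2⟩ := normal_pi_of nA (hA.trans h1)
    obtain ⟨A2, B2, rfl, l1, l2⟩ := normal_pi_of nB (hB.trans h2)
    have e : A1 = A2 := normal_eq nA.piL nB.piL (k1.trans l1.symm)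
    subst e
    rw [tc_pi, tc_pi]
    refine piC_congr (.refl _) (fun _ => rfl) (fun N _ => ?_)
      (fun N _ _ x _ => ih k2 l2 nA.piR nB.piR _ _)
    have hs : Sib (B1.sub (scons N θ)) (B2.sub (scons N θ)) :=
      ((h3.convL k2.symm).convR l2.symm).sub _
    exact ⟨fun h => h.sib hs, fun h => h.sib hs.symm⟩

/-- Siblings have the same candidates. -/
theorem tc_sib {A B : Tm S} (h : Sib A B) (nA : Normal A) (nB : Normal B)
    (θ : ℕ → Tm S) (ρ : ℕ → GV S X.α) : X.tc θ ρ A = X.tc θ ρ B :=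
  tc_sibN h (.refl _) (.refl _) nA nB θ ρ

theorem nf_wk {M : Tm S} (h : HN M) : nf (wk M) = wk (nf M) := by
  refine nf_eq (h.red.ren _) ?_
  intro Q hQ
  obtain ⟨Q', h1, -⟩ := hQ.ren_inv
  exact h.normal _ h1

theorem tc_nf_sib {A B : Tm S} (h : Sib A B) (nA : HN A) (nB : HN B) (θ : ℕ → Tm S)
    (ρ : ℕ → GV S X.α) : X.tc θ ρ (nf A) = X.tc θ ρ (nf B) :=
  tc_sib ((h.convL nA.red.conv).convR nB.red.conv) nA.normal nB.normal θ ρ

end NM

end Vale.Agent.P340
end

section

/-! The model with ranked values for arbitrary specifications. -/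

namespace Vale.Agent.P340

namespace NM

open Tm
open W (Ne MTm Lc Wn Ty LvOk)
open PolR (Kd TyS TyOf tyS_conv tyS_le)
open C1 (rep TyD TyC tyD_conv tyC_conv rep_conv rep_eq conv_subs)

universe u
variable {S : Type u} {X : Par S} {G D : Ctx S} {K K' : Tm S}

/-- The candidate of a type only depends on its normal form. -/
theorem tc_nfsub (H : X.Setup) (M : Tm S) :
    ∀ {G G' : Ctx S} {σ θ : ℕ → Tm S} {ρ : ℕ → GV S X.α} {t : S}, WFC X.P G →
      NCtx X.P G → Env X G' θ ρ → SubC X.P G G' σ → SCln X G G' σ →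
      Normal M → J X.P G M (sort t) → Lc X.P X.lv (X.i + 1) G M →
      ¬ Lc X.P X.lv X.i X.D ((M.sub σ).sub θ) →
      X.tc θ ρ (M.sub σ) = X.tc θ ρ (nf (M.sub σ)) := by
  have neu : ∀ {M : Tm S} {G G' : Ctx S} {σ θ : ℕ → Tm S} {ρ : ℕ → GV S X.α}, WFC X.P G →
      NCtx X.P G → Env X G' θ ρ → SubC X.P G G' σ → SCln X G G' σ →
      Normal M → Ne M → Lc X.P X.lv (X.i + 1) G M →
      ¬ Lc X.P X.lv X.i X.D ((M.sub σ).sub θ) →
      X.tc θ ρ (M.sub σ) = X.tc θ ρ (nf (M.sub σ)) := by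
    intro M G G' σ θ ρ hG hNG he hσ hs hn hne hl hnl
    obtain ⟨T, c, h1, h2, h3⟩ := hl
    have h4 : J X.P G M (sort c) := h2.red hG (W.ME.normal_sib hn hne h1)
    have hcC : c ∈ X.C := mem_C ((h4.sub hσ).sub he.sub) (by omega) hnl
    have h5 : J X.P G' (M.sub σ) (sort c) := h4.sub hσ
    exact tc_red H (he.nc.hn H.wn h5).red he h5 hcC (cln_sub H hG hNG he.wf he.nc hσ hs h4
      (Cn.rl_of_mem hcC) (cln_normal H M hG hNG hn h4 (Cn.rl_of_mem hcC)))
  induction M with
  | var n =>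
    intro G G' σ θ ρ t hG hNG he hσ hs hn _ hl hnl
    exact neu hG hNG he hσ hs hn trivial hl hnl
  | app F N _ _ =>
    intro G G' σ θ ρ t hG hNG he hσ hs hn ht hl hnl
    exact neu hG hNG he hσ hs hn (W.ne_of_app ht hn) hl hnl
  | sort s =>
    intro G G' σ θ ρ t hG hNG he hσ hs hn ht hl hnl
    rw [show nf ((sort s).sub σ) = (sort s : Tm S) from nf_normal (normal_sort s)]
    rfl
  | lam A M _ _ =>
    intro G G' σ θ ρ t hG hNG he hσ hs hn ht hl hnl
    obtain ⟨B, s, -, -, h⟩ := ht.lam_inv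
    exact absurd h.symm (fun h => h.sort_pi)
  | pi A B ihA ihB =>
    intro G G' σ θ ρ t hG hNG he hσ hs hn ht hl hnl
    obtain ⟨a, b, c, k1, k2, k3, k4⟩ := ht.pi_inv
    have k1' := k1.sub hσ
    have k2' := k2.sub (hσ.up A)
    have nA : HN (A.sub σ) := he.nc.hn H.wn k1'
    have nB : HN (B.sub (ups σ)) := (he.nc.push k1').hn H.wn k2'
    show X.tc θ ρ (pi (A.sub σ) (B.sub (ups σ))) = X.tc θ ρ (nf (pi (A.sub σ) (B.sub (ups σ))))
    rw [nA.nf_pi nB, tc_pi, tc_pi]
    refine piC_congr (nA.red.conv.sub θ)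
      (fun hn' => ihA hG hNG he hσ hs hn.piL k1 (hl.piL H.lvok hG) hn')
      (fun N hN => lc_conv (nB.red.conv.sub _)) (fun N hN hn' x hx => ?_)
    have hNt : J X.P X.D N ((A.sub σ).sub θ) := of_tyD (k1'.sub he.sub) hN
    exact ihB (hG.push k1) (hNG.push k1) (he.push k1' hNt hx) (hσ.up A)
      (hs.up H hG he.wf he.nc hσ k1) hn.piR k2 (hl.piR H.lvok hG k1) hn'

/-- The domain of a product of the class has values. -/
theorem vd_dom (H : X.Setup) (hG : WFC X.P G) {A B N : Tm S}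
    {θ : ℕ → Tm S} (hθ : SubC X.P G X.D θ) (hN : J X.P G N A) (hl : Lc X.P X.lv (X.i + 1) G (pi A B))
    (hn : ¬ Lc X.P X.lv X.i X.D ((pi A B).sub θ))
    (hn' : ¬ Lc X.P X.lv X.i X.D ((inst B N).sub θ)) (hA : X.Rl G A) : X.Vd G A := by
  obtain ⟨A1, B1, a, b, c', h1, h2, h3, h4, h5, h6, h7, h8⟩ := hl.pi_inv H.lvok hG
  have hN1 : J X.P G N A1 := .conv hN h3 h1.symm
  have hs1 : Sib ((pi A1 B1).sub θ) ((pi A B).sub θ) := (Sib.mkpi h1 h2).sub θ
  have hs2 : Sib ((inst B1 N).sub θ) ((inst B N).sub θ) := (h2.inst (.refl N)).sub θ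
  have hc : c' ∈ X.C := mem_C (G := X.D) ((J.pi h3 h4 h5).sub hθ) (by omega)
    fun h => hn (h.sib hs1)
  have hb : b ∈ X.C := mem_C (G := X.D) ((h4.inst_sort hN1).sub hθ) (by omega)
    fun h => hn' (h.sib hs2)
  have hv : X.Vw G A a := (Rl.vwj hG (hA.conv h1.symm) h3).conv h1
  rcases H.rnk.q2 a b c' h5 hv.ks hb hc with h | h
  · exact .inl ⟨a, h, hv⟩
  · exact .inr (.inl ⟨a, h, hv⟩)

/-- A reduct of an argument that is normal if the argument is an element of a kind. -/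
theorem ex_arg (H : X.Setup) {G : Ctx S} (hG : WFC X.P G) (hNG : NCtx X.P G) {A N : Tm S}
    (hN : J X.P G N A) : ∃ N', Red N N' ∧ (X.Rl G A → Normal N') := by
  by_cases h : X.Rl G A
  · have nN : HN N := h.hnm H.wn hG hNG hN
    exact ⟨nf N, nN.red, fun _ => nN.normal⟩
  · exact ⟨N, .refl _, fun h' => absurd h' h⟩

/-- The candidate of an instance. -/
theorem tc_subst (H : X.Setup) {θ : ℕ → Tm S} {ρ : ℕ → GV S X.α}
    (he : Env X G θ ρ) {A B N N' : Tm S} {c : S} (hpi : J X.P G (pi A B) (sort c))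
    (hN : J X.P G N A) (rN : Red N N') (nN : X.Rl G A → Normal N')
    (hl : Lc X.P X.lv (X.i + 1) G (pi A B))
    (hn : ¬ Lc X.P X.lv X.i X.D ((pi A B).sub θ))
    (hn' : ¬ Lc X.P X.lv X.i X.D ((inst B N).sub θ)) :
    X.tc θ ρ (nf (inst B N)) = X.tc (scons (N.sub θ) θ)
      (vcons (castV (X.ek (A.sub θ)) (X.sem θ ρ N')) ρ) (nf B) := by
  have hG := he.wf
  have hNG := he.nc
  obtain ⟨a, b, c', k1, k2, k3, k4⟩ := hpi.pi_inv
  have nA := hNG.hn H.wn k1
  have nB := (hNG.push k1).hn H.wn k2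
  have kA := k1.red hG nA.red
  have l1 : CLe X.P (Vale.Agent.P340.push A G) (Vale.Agent.P340.push (nf A) G) :=
    CLe.conv k1 nA.red.conv
  have kB : J X.P (Vale.Agent.P340.push (nf A) G) (nf B) (sort b) :=
    (k2.red (hG.push k1) nB.red).le l1
  have kN : J X.P G N' (nf A) := .conv (hN.red hG rN) kA nA.red.conv
  have hlB : Lc X.P X.lv (X.i + 1) (Vale.Agent.P340.push (nf A) G) (nf B) :=
    (Cn.lc_le (hl.piR H.lvok hG k1) l1).conv nB.red.conv
  have nI : HN (inst B N) := hNG.hn H.wn (k2.inst_sort hN)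
  have hcv : Conv (inst B N) (inst (nf B) N') := Conv.inst nB.red.conv rN.conv
  have hnl : ¬ Lc X.P X.lv X.i X.D ((inst (nf B) N').sub θ) :=
    fun h => hn' (h.conv (hcv.symm.sub θ))
  have hs : SCln X (Vale.Agent.P340.push (nf A) G) G (single N') := by
    intro n E hE hr
    cases n with
    | zero =>
      simp only [push_zero, Option.some.injEq] at hE
      subst hE
      have e : (wk (nf A)).sub (single N') = nf A := inst_wk _ _
      rw [e] at hr ⊢
      have hr' : X.Rl G A := hr.conv nA.red.conv.symm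
      refine ⟨cln_normal H _ hG hNG (nN hr') kN hr, fun h => absurd ?_ h⟩
      exact (vd_conv nA.red.conv).1 (vd_dom H hG he.sub hN hl hn hn' hr')
    | succ n => exact ⟨trivial, fun _ => ⟨n, rfl⟩⟩
  have e1 : nf (inst B N) = nf ((nf B).sub (single N')) := nI.eq_of_conv hcv
  rw [e1, ← tc_nfsub H (nf B) (hG.push kA) (hNG.push kA) he (subC_single kN) hs nB.normal
    kB hlB hnl]
  have hcs : ∀ n, Conv (scons (N'.sub θ) θ n) (scons (N.sub θ) θ n) := by
    intro n; cases n with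
    | zero => exact rN.conv.symm.sub θ
    | succ n => exact .refl _
  have h1 := tc_instT H he kA kN nB.normal kB hlB (fun h => hnl (by
    rw [sub_inst, inst_ups]; exact h))
  rw [show (nf B).sub (single N') = inst (nf B) N' from rfl, h1, tc_conv _ hcs,
    ek_conv (nA.red.conv.symm.sub θ)]

/-- Admissible environments. -/
def VE (X : Par S) (G : Ctx S) (e : ULift.{u + 1} (ℕ → Tm S) × (ℕ → GV S X.α)) : Prop :=
  SubC X.P G X.D e.1.down ∧ ∀ n A, G n = some A → (e.2 n).cl = X.ek (A.sub e.1.down)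

theorem VE.env {e : ULift.{u + 1} (ℕ → Tm S) × (ℕ → GV S X.α)} (h : VE X G e)
    (hG : WFC X.P G) (hNG : NCtx X.P G) : Env X G e.1.down e.2 := ⟨hG, hNG, h.1, h.2⟩

/-- The model. -/
noncomputable def model (H : X.Setup) :
    W.Mod.{u, u + 1} X.P X.lv X.i X.D where
  E := ULift.{u + 1} (ℕ → Tm S) × (ℕ → GV S X.α)
  th e := e.1.down
  Val := VE X
  Ext _ e A Q e' := ∃ x : GV S X.α, x.cl = X.ek (A.sub e.1.down) ∧
    e' = (⟨scons Q e.1.down⟩, vcons x e.2)
  I _ e A := (X.tc e.1.down e.2 (nf A)).1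
  sub h := h.1
  cr _ _ _ _ _ _ := (X.tc _ _ _).2
  sib {G e A B a b} hG hNG hv hA hB _ _ hs :=
    congrArg _ (tc_nf_sib hs (hNG.hn H.wn hA) (hNG.hn H.wn hB) _ _)
  ext_th h := by
    obtain ⟨x, -, rfl⟩ := h
    rfl
  ext_val {G e e' A Q a} hG hNG hv hA hQ _ h := by
    obtain ⟨x, hx, rfl⟩ := h
    have := (hv.env hG hNG).push hA hQ hx
    exact ⟨this.sub, this.val⟩
  ext_ex {G e A Q a} _ _ _ _ _ _ :=
    ⟨(⟨scons Q e.1.down⟩, vcons (dfg (X.ek (A.sub e.1.down))) e.2), _, dfg_cl _, rfl⟩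
  weak {G e e' A B Q a b} hG hNG hv hA hQ _ h hB _ _ := by
    obtain ⟨x, hx, rfl⟩ := h
    show (X.tc _ _ (nf (wk B))).1 = _
    rw [nf_wk (hNG.hn H.wn hB), tc_wk]
  pi_app {G e A B N c} hG hNG hv hpi hl hn hN r hr hrI q hq hqN := by
    have he := hv.env hG hNG
    obtain ⟨a, b, c', k1, k2, k3, k4⟩ := hpi.pi_inv
    have nA := hNG.hn H.wn k1
    have nB := (hNG.push k1).hn H.wn k2
    obtain ⟨N', rN, nN⟩ := ex_arg H hG hNG hN
    obtain ⟨q1, q2, q3⟩ := hq
    have hApp : Ty X.P X.D (MTm.app r q) ((inst B N).sub e.1.down) := by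
      refine ⟨.app hr.1 q2.1, ?_⟩
      have h1 : J X.P X.D (Tm.app r.er q.er) (inst (B.sub (ups e.1.down)) q.er) :=
        .app hr.2 q2.2
      rw [hqN, ← sub_inst] at h1
      rw [← hqN] at h1
      exact h1
    have hrI' : r ∈ (X.tc e.1.down e.2 (pi (nf A) (nf B))).1 := by
      rw [← nA.nf_pi nB]; exact hrI
    rw [tc_pi] at hrI'
    obtain ⟨-, h1⟩ := hrI'
    have hx : (castV (X.ek (A.sub e.1.down)) (X.sem e.1.down e.2 N')).cl =
        X.ek ((nf A).sub e.1.down) := by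
      rw [castV_cl]; exact ek_conv (nA.red.conv.sub _)
    obtain ⟨h2, h3⟩ := h1 q q1 ((tyD_conv (nA.red.conv.sub e.1.down)).1 ⟨_, q2.2, .refl _⟩)
      (fun h => q3 (hl.piL H.lvok hG) fun h' => h (h'.conv (nA.red.conv.sub _))) _ hx ⟨_, hApp⟩
    refine ⟨h2, hApp, fun _ h4 => ?_⟩
    have h5 : ¬ Lc X.P X.lv X.i X.D ((nf B).sub (scons q.er e.1.down)) := by
      intro h5
      refine h4 ?_
      rw [sub_inst, inst_ups, ← hqN]
      exact h5.conv (nB.red.conv.symm.sub _)
    have h6 := h3 h5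
    rw [hqN] at h6
    show _ ∈ (X.tc e.1.down e.2 (nf (inst B N))).1
    rw [tc_subst H he hpi hN rN nN hl hn h4]
    exact h6
  pi_lam {G e A B c} hG hNG hv hpi hl hn r hr hrT h := by
    have he := hv.env hG hNG
    obtain ⟨a, b, c', k1, k2, k3, k4⟩ := hpi.pi_inv
    have nA := hNG.hn H.wn k1
    have nB := (hNG.push k1).hn H.wn k2
    show r ∈ (X.tc e.1.down e.2 (nf (pi A B))).1
    rw [nA.nf_pi nB, tc_pi]
    refine ⟨hr, fun q q1 q2 q3 x hx _ => ?_⟩
    have hcv : Conv ((nf A).sub e.1.down) (A.sub e.1.down) := nA.red.conv.symm.sub _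
    have q4 : J X.P X.D q.er (A.sub e.1.down) := of_tyD (k1.sub he.sub) ((tyD_conv hcv).1 q2)
    obtain ⟨⟨T, hT⟩, -⟩ := id q1
    have h1 := h q ⟨q1, ⟨hT.1, q4⟩, fun _ h' => q3 fun h'' => h' (h''.conv hcv)⟩
      (⟨scons q.er e.1.down⟩, vcons x e.2) ⟨x, hx.trans (ek_conv hcv), rfl⟩
    refine ⟨h1.1, fun h2 => ?_⟩
    exact h1.2.2 (hl.piR H.lvok hG k1) fun h3 => h2 (h3.conv (nB.red.conv.sub _))

theorem model_ex (H : X.Setup) : ∃ (m : W.Mod.{u, u + 1} X.P X.lv X.i X.D) (e : m.E),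
    m.Val (fun _ => none) e ∧ m.th e = var := by
  have h : VE X (fun _ => none) (⟨var⟩, fun _ => dfg (.b .unit)) := by
    constructor
    · intro n A h
      cases h
    · intro n A h
      cases h
  exact ⟨model H, (⟨var⟩, fun _ => dfg (.b .unit)), h, rfl⟩

end NM

end Vale.Agent.P340
end

section

/-! Maximal consistent contexts with witnesses. -/

namespace Vale.Agent.P340

universe u
variable {S : Type u} {P : Spec S}

open Tm

/-- Renamings that agree on the domain of the context agree on the subject. -/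
theorem J.ren_congrH {G : Ctx S} {M A : Tm S} (h : J P G M A) : ∀ {r r' : ℕ → ℕ},
    (∀ n B, G n = some B → r n = r' n) → M.ren r = M.ren r' := by
  have hup : ∀ {G : Ctx S} {A : Tm S} {r r' : ℕ → ℕ}, (∀ n B, G n = some B → r n = r' n) →
      ∀ n B, push A G n = some B → Tm.up r n = Tm.up r' n := by
    intro G A r r' h n B hB
    cases n with
    | zero => rfl
    | succ n =>
      rw [push_succ, Option.map_eq_some_iff] at hB
      obtain ⟨C, hC, -⟩ := hB
      show r n + 1 = r' n + 1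
      rw [h n C hC]
  induction h with
  | sort _ => intro r r' _; rfl
  | var h => intro r r' hr; simp only [Tm.ren]; rw [hr _ _ h]
  | pi _ _ _ ih ih' => intro r r' hr; simp only [Tm.ren]; rw [ih hr, ih' (hup hr)]
  | @lam G A M B s _ _ ih ih' =>
    intro r r' hr
    have h1 := ih' hr
    simp only [Tm.ren, Tm.pi.injEq] at h1
    simp only [Tm.ren]; rw [ih (hup hr), h1.1]
  | app _ _ ih ih' => intro r r' hr; simp only [Tm.ren]; rw [ih hr, ih' hr]
  | conv _ _ _ ih _ => intro r r' hr; exact ih hr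

/-- No sort of `F` is inhabited. -/
def Con (P : Spec S) (F : S → Prop) (G : Ctx S) : Prop :=
  ∀ M s, F s → ¬ J P G M (sort s)

/-- The extended context at stage `k`. -/
def hext (n0 : ℕ) (K D : Tm S) (k : ℕ) (G : Ctx S) : Ctx S := fun i =>
  if i = n0 + 2 * k then some K
  else if i = n0 + 2 * k + 1 then some (inst D (var (n0 + 2 * k))) else G i

/-- The condition for an extension. -/
def HCond (P : Spec S) (F : S → Prop) (n0 : ℕ) (K D : Tm S) (k : ℕ) (G : Ctx S) : Prop :=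
  (∃ s, J P G K (sort s)) ∧ (∃ s, J P (push K G) D (sort s)) ∧ Con P F (hext n0 K D k G)

open Classical in
/-- Stages of the construction of a maximal consistent context. -/
noncomputable def hstage (P : Spec S) (F : S → Prop) (n0 : ℕ) (e : ℕ → Tm S × Tm S)
    (B : Ctx S) : ℕ → Ctx S
  | 0 => B
  | k + 1 => if HCond P F n0 (e k).1 (e k).2 k (hstage P F n0 e B k)
    then hext n0 (e k).1 (e k).2 k (hstage P F n0 e B k) else hstage P F n0 e B k

section
variable {F : S → Prop} {n0 : ℕ} {e : ℕ → Tm S × Tm S} {B : Ctx S}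

theorem hstage_eq (k : ℕ) (h : HCond P F n0 (e k).1 (e k).2 k (hstage P F n0 e B k)) :
    hstage P F n0 e B (k + 1) = hext n0 (e k).1 (e k).2 k (hstage P F n0 e B k) := by
  rw [hstage, if_pos h]

theorem hstage_succ (k : ℕ) : (hstage P F n0 e B (k + 1) = hstage P F n0 e B k) ∨
    (hstage P F n0 e B (k + 1) = hext n0 (e k).1 (e k).2 k (hstage P F n0 e B k) ∧
      HCond P F n0 (e k).1 (e k).2 k (hstage P F n0 e B k)) := by
  by_cases h : HCond P F n0 (e k).1 (e k).2 k (hstage P F n0 e B k)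
  · exact .inr ⟨hstage_eq k h, h⟩
  · left
    rw [hstage, if_neg h]

theorem hstage_none (hB : ∀ n, n0 ≤ n → B n = none) :
    ∀ {k n : ℕ}, n0 + 2 * k ≤ n → hstage P F n0 e B k n = none := by
  intro k
  induction k with
  | zero => intro n hn; exact hB n (by omega)
  | succ k ih =>
    intro n hn
    rcases hstage_succ (P := P) (F := F) (n0 := n0) (e := e) (B := B) k with h | ⟨h, -⟩
    · rw [h]; exact ih (by omega)
    · rw [h]
      unfold hext
      rw [if_neg (by omega), if_neg (by omega)]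
      exact ih (by omega)

theorem hext_le {G : Ctx S} {K D : Tm S} {k : ℕ} (hG : ∀ n, n0 + 2 * k ≤ n → G n = none) :
    ∀ n A, G n = some A → hext n0 K D k G n = some A := by
  intro n A h
  have h1 : n < n0 + 2 * k := by
    by_contra hc
    rw [hG n (by omega)] at h
    cases h
  unfold hext
  rw [if_neg (by omega), if_neg (by omega), h]

theorem hstage_mono (hB : ∀ n, n0 ≤ n → B n = none) (k n : ℕ) (A : Tm S)
    (h : hstage P F n0 e B k n = some A) : hstage P F n0 e B (k + 1) n = some A := by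
  rcases hstage_succ (P := P) (F := F) (n0 := n0) (e := e) (B := B) k with h' | ⟨h', -⟩
  · rw [h', h]
  · rw [h']; exact hext_le (fun n hn => hstage_none hB hn) n A h

theorem hext_wfc {G : Ctx S} {K D : Tm S} {k : ℕ} (hG : ∀ n, n0 + 2 * k ≤ n → G n = none)
    (hW : WFC P G) (hK : ∃ s, J P G K (sort s)) (hD : ∃ s, J P (push K G) D (sort s)) :
    WFC P (hext n0 K D k G) := by
  intro n A h
  have hle := hext_le (K := K) (D := D) hG
  by_cases h1 : n = n0 + 2 * k
  · unfold hext at h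
    rw [if_pos h1] at h
    cases h
    obtain ⟨s, hs⟩ := hK
    exact ⟨s, hs.mono hle⟩
  · by_cases h2 : n = n0 + 2 * k + 1
    · unfold hext at h
      rw [if_neg h1, if_pos h2] at h
      cases h
      obtain ⟨s, hs⟩ := hD
      refine ⟨s, J.inst_sort (A := K) (hs.mono ?_) (.var ?_)⟩
      · intro i C hC
        cases i with
        | zero => exact hC
        | succ i =>
          rw [push_succ, Option.map_eq_some_iff] at hC ⊢
          obtain ⟨C', hC', e'⟩ := hC
          exact ⟨C', hle _ _ hC', e'⟩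
      · unfold hext; rw [if_pos rfl]
    · have h3 : G n = some A := by
        unfold hext at h
        rw [if_neg h1, if_neg h2] at h
        exact h
      obtain ⟨s, hs⟩ := hW n A h3
      exact ⟨s, hs.mono hle⟩

theorem hstage_wfc (hB : ∀ n, n0 ≤ n → B n = none) (hW : WFC P B) :
    ∀ k, WFC P (hstage P F n0 e B k) := by
  intro k
  induction k with
  | zero => exact hW
  | succ k ih =>
    rcases hstage_succ (P := P) (F := F) (n0 := n0) (e := e) (B := B) k with h | ⟨h, h1, h2, -⟩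
    · rw [h]; exact ih
    · rw [h]
      exact hext_wfc (fun n hn => hstage_none hB hn) ih h1 h2

theorem hstage_con (hC : Con P F B) : ∀ k, Con P F (hstage P F n0 e B k) := by
  intro k
  induction k with
  | zero => exact hC
  | succ k ih =>
    rcases hstage_succ (P := P) (F := F) (n0 := n0) (e := e) (B := B) k with h | ⟨h, -, -, h3⟩
    · rw [h]; exact ih
    · rw [h]; exact h3

/-- Moving the two new variables to the front. -/
theorem hext_ren {G : Ctx S} {K D M A : Tm S} {k : ℕ} {s1 s2 : S}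
    (hG : ∀ n, n0 + 2 * k ≤ n → G n = none) (hW : WFC P G) (hK : J P G K (sort s1))
    (hD : J P (push K G) D (sort s2)) (h : J P (hext n0 K D k G) M A) :
    ∃ r, J P (push D (push K G)) (M.ren r) (A.ren r) := by
  let r : ℕ → ℕ := fun i => if i = n0 + 2 * k then 1 else if i = n0 + 2 * k + 1 then 0 else i + 2
  have hr : ∀ n B, G n = some B → r n = n + 2 := by
    intro n B hB
    have h1 : n < n0 + 2 * k := by
      by_contra hc
      rw [hG n (by omega)] at hB
      cases hB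
    show (if _ then _ else if _ then _ else _) = _
    rw [if_neg (by omega), if_neg (by omega)]
  have h2 : ∀ B : Tm S, B.ren (fun n => n + 2) = Tm.wk (Tm.wk B) := by
    intro B; unfold Tm.wk; rw [ren_ren]
  refine ⟨r, h.ren ?_⟩
  intro n B hB
  by_cases h3 : n = n0 + 2 * k
  · unfold hext at hB
    rw [if_pos h3] at hB
    cases hB
    have h4 : r n = 1 := by show (if _ then _ else _) = _; rw [if_pos h3]
    rw [h4, hK.ren_congrH (r' := fun n => n + 2) hr, h2]
    rfl
  · by_cases h4 : n = n0 + 2 * k + 1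
    · unfold hext at hB
      rw [if_neg h3, if_pos h4] at hB
      cases hB
      have h5 : r n = 0 := by
        show (if _ then _ else if _ then _ else _) = _; rw [if_neg h3, if_pos h4]
      have h7 : r (n0 + 2 * k) = 1 := by show (if _ then _ else _) = _; rw [if_pos rfl]
      have h6 : D.ren (Tm.up r) = D.ren (Tm.up fun n => n + 2) := by
        refine hD.ren_congrH ?_
        intro i C hC
        cases i with
        | zero => rfl
        | succ i =>
          rw [push_succ, Option.map_eq_some_iff] at hC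
          obtain ⟨C', hC', -⟩ := hC
          show r i + 1 = i + 2 + 1
          rw [hr i C' hC']
      rw [h5, ren_inst, h6]
      show some (Tm.wk D) = _
      congr 1
      show _ = inst _ (var (r (n0 + 2 * k)))
      rw [h7]
      unfold inst Tm.wk
      rw [sub_ren, ren_eq_sub]
      congr 1
      funext i
      cases i <;> rfl
    · have h5 : G n = some B := by
        unfold hext at hB
        rw [if_neg h3, if_neg h4] at hB
        exact hB
      obtain ⟨s, hs⟩ := hW n B h5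
      rw [hr n B h5, hs.ren_congrH (r' := fun n => n + 2) hr, h2]
      show ((G n).map Tm.wk).map Tm.wk = _
      rw [h5]; rfl

/-- Existence of maximal consistent contexts with witnesses. -/
theorem exists_henkin [Countable S] (hB : ∀ n, n0 ≤ n → B n = none) (hW : WFC P B)
    (hC : Con P F B) : ∃ G : Ctx S, WFC P G ∧ (∀ n A, B n = some A → G n = some A) ∧
      Con P F G ∧ ∀ (K D : Tm S) (s1 s2 : S), J P G K (sort s1) → J P (push K G) D (sort s2) →
        (∃ t, J P G t K ∧ ∃ u, J P G u (inst D t)) ∨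
        ∃ M s, F s ∧ J P (push D (push K G)) M (sort s) := by
  have : Countable (Tm S) := countable_tm
  have : Nonempty (Tm S × Tm S) := ⟨(var 0, var 0)⟩
  obtain ⟨f, hf⟩ := exists_surjective_nat (Tm S × Tm S)
  let e : ℕ → Tm S × Tm S := fun n => f (Nat.unpair n).1
  let St : ℕ → Ctx S := hstage P F n0 e B
  let G : Ctx S := fun n => St (n + 1) n
  have hm : ∀ k n A, St k n = some A → St (k + 1) n = some A := hstage_mono hB
  have h0 : ∀ n m, n + 1 ≤ m → St m n = St (n + 1) n := by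
    intro n m hm
    induction hm with
    | refl => rfl
    | @step m hm ih =>
      have hm' : n + 1 ≤ m := hm
      rw [← ih]
      rcases hstage_succ (P := P) (F := F) (n0 := n0) (e := e) (B := B) m with h | ⟨h, -⟩
      · show hstage P F n0 e B (m + 1) n = _
        rw [h]
      · show hstage P F n0 e B (m + 1) n = _
        rw [h]
        unfold hext
        rw [if_neg (by omega), if_neg (by (clear * - hm'; omega))]
  have h1 : ∀ k n A, St k n = some A → G n = some A := by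
    intro k n A h
    show St (n + 1) n = some A
    rcases le_total k (n + 1) with hk | hk
    · exact chain_le hm hk n A h
    · rw [← h0 n k hk]; exact h
  refine ⟨G, ?_, fun n A h => h1 0 n A h, ?_, ?_⟩
  · intro n A hA
    obtain ⟨s, hs⟩ := hstage_wfc (P := P) (F := F) (e := e) hB hW (n + 1) n A hA
    exact ⟨s, hs.mono (h1 _)⟩
  · intro M s hs hM
    obtain ⟨k, hk⟩ := hM.compact hm (fun n A hA => ⟨n + 1, hA⟩)
    exact hstage_con hC k M s hs hk
  · intro K D s1 s2 hK hD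
    obtain ⟨k1, hk1⟩ := hK.compact hm (fun n A hA => ⟨n + 1, hA⟩)
    obtain ⟨k2, hk2⟩ := hD.compact (F := fun k => push K (St k)) (push_chain hm K)
      (push_union (fun n A hA => ⟨n + 1, hA⟩) K)
    obtain ⟨a, ha⟩ := hf (K, D)
    let t := Nat.pair a (max k1 k2)
    have he : e t = (K, D) := by
      show f (Nat.unpair (Nat.pair a _)).1 = _
      rw [Nat.unpair_pair]; exact ha
    have hle : max k1 k2 ≤ t := Nat.right_le_pair a _
    have h2 : J P (St t) K (sort s1) := hk1.mono (chain_le hm (le_trans (le_max_left _ _) hle))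
    have h3 : J P (push K (St t)) D (sort s2) :=
      hk2.mono (chain_le (push_chain hm K) (le_trans (le_max_right _ _) hle))
    have hn : ∀ n, n0 + 2 * t ≤ n → St t n = none := fun n hn => hstage_none hB hn
    by_cases hc : Con P F (hext n0 K D t (St t))
    · left
      have h4 : St (t + 1) = hext n0 K D t (St t) := by
        have := hstage_eq (P := P) (F := F) (n0 := n0) (e := e) (B := B) t
        rw [he] at this
        exact this ⟨⟨_, h2⟩, ⟨_, h3⟩, hc⟩
      have h5 : G (n0 + 2 * t) = some K := h1 (t + 1) _ _ (by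
        rw [h4]; unfold hext; rw [if_pos rfl])
      have h6 : G (n0 + 2 * t + 1) = some (inst D (var (n0 + 2 * t))) := h1 (t + 1) _ _ (by
        rw [h4]; unfold hext; rw [if_neg (by omega), if_pos rfl])
      exact ⟨_, .var h5, _, .var h6⟩
    · right
      simp only [Con, not_forall, not_not] at hc
      obtain ⟨M, s, hs, hM⟩ := hc
      obtain ⟨r, hr⟩ := hext_ren hn (hstage_wfc hB hW t) h2 h3 hM
      refine ⟨_, s, hs, hr.mono ?_⟩
      intro n A hA
      have h4 : ∀ n A, push K (St t) n = some A → push K G n = some A := by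
        intro n A hA
        cases n with
        | zero => exact hA
        | succ n =>
          rw [push_succ, Option.map_eq_some_iff] at hA ⊢
          obtain ⟨C, hC, e'⟩ := hA
          exact ⟨C, h1 _ _ _ hC, e'⟩
      cases n with
      | zero => exact hA
      | succ n =>
        rw [push_succ, Option.map_eq_some_iff] at hA ⊢
        obtain ⟨C, hC, e'⟩ := hA
        exact ⟨C, h4 _ _ hC, e'⟩

end

end Vale.Agent.P340
end

section

/-! Classical connectives in a maximal consistent context. -/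

namespace Vale.Agent.P340

universe u v
variable {S : Type u} {ι : Type v} {P : Spec S}

open Tm

/-- The specification `P` with new constants `k` of type `c k`. -/
def ext (P : Spec S) (c : ι → S) : Spec (S ⊕ ι) where
  ax
    | .inl s, .inl t => P.ax s t
    | .inr k, .inl t => t = c k
    | _, _ => False
  rule
    | .inl a, .inl b, .inl d => P.rule a b d
    | _, _, _ => False

/-- The new constants. -/
abbrev bot (k : ι) : Tm (S ⊕ ι) := sort (Sum.inr k)

/-- Walks with the given reversed list of vertices. -/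
inductive Pth (P : Spec S) (c : ι → S) (a : ι) : List ι → ι → Prop where
  | nil : Pth P c a [] a
  | cons {l : List ι} {b b' : ι} : Pth P c a l b → P.rule (c b) (c b') (c b') →
      Pth P c a (b' :: l) b'

/-- Data for the classical connectives. -/
structure Wk (P : Spec S) (c : ι → S) (nx : ι → ι) (w : Bool → ι → ι → List ι) : Prop where
  rn : ∀ k, P.rule (c k) (c (nx k)) (c (nx k))
  pos : ∀ b k k', w b k k' ≠ []
  odd : ∀ k k', ¬ Even (w true k k').length
  even : ∀ k k', Even (w false k k').length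
  pth : ∀ b k k', Pth P c k (w b k k') k'

section
variable {c : ι → S} {nx : ι → ι} {w : Bool → ι → ι → List ι}

/-- Contexts with all coercions. -/
def Co (P : Spec S) (c : ι → S) (G : Ctx (S ⊕ ι)) : Prop :=
  ∀ a b, P.rule (c a) (c b) (c b) → ∃ M, J (ext P c) G M (pi (bot a) (bot b))

/-- Maximal consistent contexts. -/
structure Mx (P : Spec S) (c : ι → S) (nx : ι → ι) (w : Bool → ι → ι → List ι)
    (G : Ctx (S ⊕ ι)) : Prop where
  wk : Wk P c nx w
  wf : WFC (ext P c) G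
  co : Co P c G
  con : ∀ k M, ¬ J (ext P c) G M (bot k)
  hen : ∀ (K D : Tm (S ⊕ ι)) (s1 s2 : S ⊕ ι), J (ext P c) G K (sort s1) →
    J (ext P c) (push K G) D (sort s2) →
    (∃ t, J (ext P c) G t K ∧ ∃ u, J (ext P c) G u (inst D t)) ∨
    ∃ M k, J (ext P c) (push D (push K G)) M (bot k)

variable {G : Ctx (S ⊕ ι)}

end

end Vale.Agent.P340
end

section

/-! The terms of the paradox and their types. -/

namespace Vale.Agent.P340

universe u v
variable {S : Type u} {ι : Type v} {P : Spec S}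

open Tm

/-- Walks in the graph of sorts of powers, with the given reversed list of the sorts of the
propositions. -/
inductive RP (P : Spec S) (c : ι → S) (a : S) : List ι → S → Prop where
  | nil : RP P c a [] a
  | cons {l : List ι} {b b' : S} {k : ι} : RP P c a l b → P.ax (c k) b' → P.rule b b' b' →
      RP P c a (k :: l) b'

/-- The same for walks of even length. -/
inductive RP2 (P : Spec S) (c : ι → S) (a : S) : List (ι × ι) → S → Prop where
  | nil : RP2 P c a [] a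
  | cons {l : List (ι × ι)} {s s' s'' : S} {i j : ι} : RP2 P c a l s → P.ax (c j) s' →
      P.rule s s' s' → P.ax (c i) s'' → P.rule s' s'' s'' → RP2 P c a ((i, j) :: l) s''

/-- The list of all entries. -/
def flat : List (ι × ι) → List ι
  | [] => []
  | (i, j) :: l => i :: j :: flat l

section
variable {c : ι → S}

end

section
variable {c : ι → S} {w : Bool → ι → ι → List ι} {k : ι}

variable {D : Ctx (S ⊕ ι)}

/-! Covering of predicates by elements of iterated double powers. -/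

section
variable {nx : ι → ι} (hw : Wk P c nx w) {v s : S} {l : List (ι × ι)} (hl : RP2 P c v l s)
include hw hl

end

end

end Vale.Agent.P340
end

section

/-! The universe of the paradox. -/

namespace Vale.Agent.P340

universe u v
variable {S : Type u} {ι : Type v} {P : Spec S}

open Tm

/-- The data of the paradox. -/
structure VDat (S : Type u) (ι : Type v) where
  c : ι → S
  nx : ι → ι
  w : Bool → ι → ι → List ι
  m : S
  x0 : S
  x1 : S
  v1 : S
  g : S
  sm : S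
  s1 : S
  k1 : ι
  kt : ι
  qm : ι
  q1 : ι
  cm : List (ι × ι)
  c1 : List (ι × ι)
  le : List (ι × ι)
  lT : List ι
  lS : List ι

/-- The conditions on the data. -/
structure VPdx (P : Spec S) (d : VDat S ι) : Prop where
  wk : Wk P d.c d.nx d.w
  a1 : P.ax (d.c d.k1) d.v1
  r1 : P.rule d.m d.v1 d.v1
  re : RP2 P d.c d.v1 d.le d.g
  at' : P.ax (d.c d.kt) d.m
  rt : P.rule d.g d.m d.m
  rS : RP P d.c d.m d.lS d.x0
  rT : RP P d.c d.x0 (d.kt :: d.lT) d.m
  hL : d.lT ++ d.lS = flat d.le ++ [d.k1]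
  ax0 : P.ax d.x0 d.x1
  rx : P.rule d.x1 d.m d.m
  rm : RP2 P d.c d.m d.cm d.sm
  r1' : RP2 P d.c d.v1 d.c1 d.s1
  qm' : P.rule d.sm (d.c d.qm) (d.c d.qm)
  q1' : P.rule d.s1 (d.c d.q1) (d.c d.q1)

namespace VDat

variable (d : VDat S ι)

variable {d} {D : Ctx (S ⊕ ι)}

variable (d)

variable {d}

end VDat

end Vale.Agent.P340
end

section

/-! The paradox in a maximal consistent context. -/

namespace Vale.Agent.P340

universe u v
variable {S : Type u} {ι : Type v} {P : Spec S}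

open Tm

namespace VDat

variable {d : VDat S ι} {G : Ctx (S ⊕ ι)}

/-! Truth conditions. -/

variable (h : VPdx P d) (hG : Mx P d.c d.nx d.w G)
include h hG

end VDat

end Vale.Agent.P340
end

section

/-! The case in which `(t, t)` is not a rule: skeletons shrink. -/

namespace Vale.Agent.P340

universe u
variable {S : Type u} {P : Spec S} {ℓ : S → ℤ}

open Tm

end Vale.Agent.P340
end

section

/-! The case in which `(t⁺, t⁺)` is not a rule: interpretation of system F style. -/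

namespace Vale.Agent.P340

universe u
variable {S : Type u} {P : Spec S} {ℓ : S → ℤ}

open Tm

end Vale.Agent.P340
end

section

/-! The case in which `(t⁺, t)` is not a rule: skeletons are simply typed. -/

namespace Vale.Agent.P340

universe u
variable {S : Type u} {P : Spec S} {ℓ : S → ℤ}

open Tm

/-- A normal expression which is not an abstraction and whose head variable is renamed. -/
theorem neu_sub {j : ℤ} {F : Tm S} (hF : Normal F) (hl : ∀ A M, F ≠ lam A M) {Δ : ℕ → ℤ}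
    (hj : lev ℓ Δ F = j + 1) {σ : ℕ → Tm S} (hσ : ∀ n, Δ n = j + 1 → ∃ m, σ n = var m) :
    Neu (F.sub σ) := by
  induction F with
  | var n =>
    obtain ⟨m, hm⟩ := hσ n hj
    show Neu (σ n)
    rw [hm]; exact .var m
  | sort s => exact .sort s
  | app F Q ih _ =>
    refine (ih hF.appL ?_ hj).app _
    intro A M e
    subst e
    exact hF _ (.beta A M Q)
  | lam A M => exact absurd rfl (hl A M)
  | pi A B => exact .pi _ _

end Vale.Agent.P340
end

section

/-! A sound procedure computing types, for functional specifications given by functions. -/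

namespace Vale.Agent.P340

universe u
variable {S : Type u}

open Tm

variable (axF : S → Option S) (ruleF : S → S → Option S)

end Vale.Agent.P340
end

section

/-! Change of sorts along a map. -/

namespace Vale.Agent.P340

universe u v
variable {S : Type u} {S' : Type v}

namespace Tm

/-- Replace every sort `s` by `f s`. -/
def map (f : S → S') : Tm S → Tm S'
  | var n => var n
  | sort s => sort (f s)
  | app M N => app (map f M) (map f N)
  | lam A M => lam (map f A) (map f M)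
  | pi A B => pi (map f A) (map f B)

theorem map_ren (f : S → S') (M : Tm S) : ∀ r : ℕ → ℕ, (M.ren r).map f = (M.map f).ren r := by
  induction M with
  | var n => intro r; rfl
  | sort s => intro r; rfl
  | app M N ihM ihN => intro r; simp only [ren, map, ihM, ihN]
  | lam A M ihA ihM => intro r; simp [ren, map, ihA, ihM]
  | pi A M ihA ihM => intro r; simp [ren, map, ihA, ihM]

theorem map_wk (f : S → S') (M : Tm S) : (wk M).map f = wk (M.map f) := map_ren f M _

theorem map_ups (f : S → S') (σ : ℕ → Tm S) :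
    (fun n => (ups σ n).map f) = ups (fun n => (σ n).map f) := by
  funext n; cases n with
  | zero => rfl
  | succ n => exact map_wk f (σ n)

theorem map_sub (f : S → S') (M : Tm S) : ∀ σ : ℕ → Tm S,
    (M.sub σ).map f = (M.map f).sub (fun n => (σ n).map f) := by
  induction M with
  | var n => intro r; rfl
  | sort s => intro r; rfl
  | app M N ihM ihN => intro r; simp only [sub, map, ihM, ihN]
  | lam A M ihA ihM => intro r; simp [sub, map, ihA, ihM, map_ups]
  | pi A M ihA ihM => intro r; simp [sub, map, ihA, ihM, map_ups]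

theorem map_inst (f : S → S') (M N : Tm S) : (inst M N).map f = inst (M.map f) (N.map f) := by
  unfold inst; rw [map_sub]
  congr 1; funext n; cases n <;> rfl

end Tm

open Tm

theorem Step.map (f : S → S') {M N : Tm S} (h : Step M N) : Step (M.map f) (N.map f) := by
  induction h with
  | beta A M N => rw [map_inst]; exact .beta _ _ _
  | appL N _ ih => exact .appL _ ih
  | appR M _ ih => exact .appR _ ih
  | lamL M _ ih => exact .lamL _ ih
  | lamR A _ ih => exact .lamR _ ih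
  | piL B _ ih => exact .piL _ ih
  | piR A _ ih => exact .piR _ ih

theorem Conv.map (f : S → S') {M N : Tm S} (h : Conv M N) : Conv (M.map f) (N.map f) := by
  induction h with
  | rel _ _ h => exact .rel _ _ (h.map f)
  | refl _ => exact .refl _
  | symm _ _ _ ih => exact .symm ih
  | trans _ _ _ _ _ ih ih' => exact .trans ih ih'

/-- Steps from the image of a map lift. -/
theorem Step.of_map (f : S → S') {M : Tm S} : ∀ {N : Tm S'}, Step (M.map f) N →
    ∃ N', N'.map f = N ∧ Step M N' := by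
  induction M with
  | var n => intro N h; cases h
  | sort s => intro N h; cases h
  | app M N ihM ihN =>
    intro Q h
    cases M with
    | lam A M =>
      cases h with
      | beta _ _ _ => exact ⟨_, map_inst f _ _, .beta _ _ _⟩
      | appL _ h => obtain ⟨Q, e, k⟩ := ihM h; subst e; exact ⟨_, rfl, .appL _ k⟩
      | appR _ h => obtain ⟨Q, e, k⟩ := ihN h; subst e; exact ⟨_, rfl, .appR _ k⟩
    | var n =>
      cases h with
      | appL _ h => obtain ⟨Q, e, k⟩ := ihM h; subst e; exact ⟨_, rfl, .appL _ k⟩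
      | appR _ h => obtain ⟨Q, e, k⟩ := ihN h; subst e; exact ⟨_, rfl, .appR _ k⟩
    | sort n =>
      cases h with
      | appL _ h => obtain ⟨Q, e, k⟩ := ihM h; subst e; exact ⟨_, rfl, .appL _ k⟩
      | appR _ h => obtain ⟨Q, e, k⟩ := ihN h; subst e; exact ⟨_, rfl, .appR _ k⟩
    | app M1 M2 =>
      cases h with
      | appL _ h => obtain ⟨Q, e, k⟩ := ihM h; subst e; exact ⟨_, rfl, .appL _ k⟩
      | appR _ h => obtain ⟨Q, e, k⟩ := ihN h; subst e; exact ⟨_, rfl, .appR _ k⟩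
    | pi A B =>
      cases h with
      | appL _ h => obtain ⟨Q, e, k⟩ := ihM h; subst e; exact ⟨_, rfl, .appL _ k⟩
      | appR _ h => obtain ⟨Q, e, k⟩ := ihN h; subst e; exact ⟨_, rfl, .appR _ k⟩
  | lam M N ihM ihN =>
    intro Q h
    cases h with
    | lamL _ h => obtain ⟨Q, e, k⟩ := ihM h; subst e; exact ⟨_, rfl, .lamL _ k⟩
    | lamR _ h => obtain ⟨Q, e, k⟩ := ihN h; subst e; exact ⟨_, rfl, .lamR _ k⟩
  | pi M N ihM ihN =>
    intro Q h
    cases h with
    | piL _ h => obtain ⟨Q, e, k⟩ := ihM h; subst e; exact ⟨_, rfl, .piL _ k⟩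
    | piR _ h => obtain ⟨Q, e, k⟩ := ihN h; subst e; exact ⟨_, rfl, .piR _ k⟩

/-- A morphism of specifications. -/
structure Mor (P : Spec S) (Q : Spec S') (f : S → S') : Prop where
  ax : ∀ {s t : S}, P.ax s t → Q.ax (f s) (f t)
  rule : ∀ {s₁ s₂ s₃ : S}, P.rule s₁ s₂ s₃ → Q.rule (f s₁) (f s₂) (f s₃)

theorem Has.map (f : S → S') {Γ : List (Tm S)} {n : ℕ} {A : Tm S} (h : Has Γ n A) :
    Has (Γ.map (Tm.map f)) n (A.map f) := by
  induction h with
  | zero Γ A => rw [map_wk]; exact .zero _ _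
  | succ B _ ih => rw [map_wk]; exact .succ _ ih

theorem T.map {P : Spec S} {Q : Spec S'} {f : S → S'} (hf : Mor P Q f)
    {Γ : List (Tm S)} {M A : Tm S} (h : T P Γ M A) :
    T Q (Γ.map (Tm.map f)) (M.map f) (A.map f) := by
  induction h with
  | sort h => exact .sort (hf.ax h)
  | var h => exact .var (h.map f)
  | pi _ _ h ih ih' => exact .pi ih ih' (hf.rule h)
  | lam _ _ ih ih' => exact .lam ih ih'
  | app _ _ ih ih' => rw [map_inst]; exact .app ih ih'
  | conv _ _ h ih ih' => exact .conv ih ih' (h.map f)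

theorem WF.map {P : Spec S} {Q : Spec S'} {f : S → S'} (hf : Mor P Q f)
    {Γ : List (Tm S)} (h : WF P Γ) : WF Q (Γ.map (Tm.map f)) := by
  induction h with
  | nil => exact .nil
  | cons _ hA ih => exact .cons ih (hA.map hf)

theorem Typ.map {P : Spec S} {Q : Spec S'} {f : S → S'} (hf : Mor P Q f)
    {Γ : List (Tm S)} {M A : Tm S} (h : Typ P Γ M A) :
    Typ Q (Γ.map (Tm.map f)) (M.map f) (A.map f) := by
  rw [typ_iff] at h ⊢
  exact ⟨h.1.map hf, h.2.map hf⟩

end Vale.Agent.P340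
end

section

/-! The Hurkens paradox in the pure type system with sorts `0 : 1 : 2` and rules
`(0,0,0)`, `(1,0,0)`, `(1,1,1)`, `(2,1,1)`. -/

namespace Vale.Agent.P340

open Tm

namespace Hurkens

/-- Axioms `0 : 1` and `1 : 2`. -/
def axF (s : Fin 3) : Option (Fin 3) :=
  if s = 0 then some 1 else if s = 1 then some 2 else none

/-- Rules `(0,0,0)`, `(1,0,0)`, `(1,1,1)`, `(2,1,1)`. -/
def ruleF (s t : Fin 3) : Option (Fin 3) :=
  if s = 0 then if t = 0 then some 0 else none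
  else if s = 1 then if t = 2 then none else some t
  else if t = 1 then some 1 else none

end Hurkens

universe u
variable {S : Type u} {P : Spec S}

end Vale.Agent.P340
end

section

/-! Assembly of the classification theorem. -/

namespace Vale.Agent.P340

universe u
variable {S : Type u} {P : Spec S} {ℓ : S → ℤ}

open Tm

/-! Completion: every sort gets a type. -/

/-- Every sort without a type gets an infinite tower of new sorts above it. -/
def comp (P : Spec S) : Spec (S ⊕ S × ℕ) where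
  ax
    | .inl s, .inl t => P.ax s t
    | .inl s, .inr (t, k) => s = t ∧ k = 0 ∧ ¬ ∃ t', P.ax s t'
    | .inr (s, k), .inr (t, k') => s = t ∧ k' = k + 1
    | _, _ => False
  rule
    | .inl a, .inl b, .inl c => P.rule a b c
    | _, _, _ => False

/-! Restriction to finitely many sorts. -/

/-- Only the axioms and rules with sorts in `F`. -/
def only (P : Spec S) (F : Set S) : Spec S where
  ax s t := P.ax s t ∧ s ∈ F ∧ t ∈ F
  rule a b c := P.rule a b c ∧ a ∈ F ∧ b ∈ F ∧ c ∈ F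

theorem T.spec_mono {P Q : Spec S} (hPQ : Mor P Q (fun s => s)) {Γ : List (Tm S)}
    {M A : Tm S} (h : T P Γ M A) : T Q Γ M A := by
  induction h with
  | sort h => exact .sort (hPQ.ax h)
  | var h => exact .var h
  | pi _ _ h ih ih' => exact .pi ih ih' (hPQ.rule h)
  | lam _ _ ih ih' => exact .lam ih ih'
  | app _ _ ih ih' => exact .app ih ih'
  | conv _ _ h ih ih' => exact .conv ih ih' h

theorem WF.spec_mono {P Q : Spec S} (hPQ : Mor P Q (fun s => s)) {Γ : List (Tm S)}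
    (h : WF P Γ) : WF Q Γ := by
  induction h with
  | nil => exact .nil
  | cons _ h ih => exact .cons ih (h.spec_mono hPQ)

theorem only_mono {F F' : Set S} (h : F ⊆ F') : Mor (only P F) (only P F') (fun s => s) :=
  ⟨fun h1 => ⟨h1.1, h h1.2.1, h h1.2.2⟩, fun h1 => ⟨h1.1, h h1.2.1, h h1.2.2.1, h h1.2.2.2⟩⟩

theorem T.fin {Γ : List (Tm S)} {M A : Tm S} (h : T P Γ M A) :
    ∃ F : Set S, F.Finite ∧ T (only P F) Γ M A := by
  induction h with
  | @sort Γ s t h => exact ⟨{s, t}, by simp, .sort ⟨h, by simp, by simp⟩⟩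
  | var h => exact ⟨∅, by simp, .var h⟩
  | @pi Γ A B s1 s2 s3 _ _ h ih ih' =>
    obtain ⟨F, hF, h1⟩ := ih
    obtain ⟨F', hF', h2⟩ := ih'
    refine ⟨F ∪ F' ∪ {s1, s2, s3}, (hF.union hF').union (by simp), .pi
      (h1.spec_mono (only_mono ?_)) (h2.spec_mono (only_mono ?_)) ⟨h, by simp only [Set.union_insert, Set.union_singleton, Set.mem_insert_iff, Set.mem_union, true_or], by simp only [Set.union_insert, Set.union_singleton, Set.mem_insert_iff, Set.mem_union, true_or, or_true], by simp only [Set.union_insert, Set.union_singleton, Set.mem_insert_iff, Set.mem_union, true_or, or_true]⟩⟩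
    · intro x hx; exact .inl (.inl hx)
    · intro x hx; exact .inl (.inr hx)
  | lam _ _ ih ih' =>
    obtain ⟨F, hF, h1⟩ := ih
    obtain ⟨F', hF', h2⟩ := ih'
    exact ⟨F ∪ F', hF.union hF', .lam (h1.spec_mono (only_mono Set.subset_union_left))
      (h2.spec_mono (only_mono Set.subset_union_right))⟩
  | app _ _ ih ih' =>
    obtain ⟨F, hF, h1⟩ := ih
    obtain ⟨F', hF', h2⟩ := ih'
    exact ⟨F ∪ F', hF.union hF', .app (h1.spec_mono (only_mono Set.subset_union_left))
      (h2.spec_mono (only_mono Set.subset_union_right))⟩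
  | conv _ _ h ih ih' =>
    obtain ⟨F, hF, h1⟩ := ih
    obtain ⟨F', hF', h2⟩ := ih'
    exact ⟨F ∪ F', hF.union hF', .conv (h1.spec_mono (only_mono Set.subset_union_left))
      (h2.spec_mono (only_mono Set.subset_union_right)) h⟩

theorem WF.fin {Γ : List (Tm S)} (h : WF P Γ) : ∃ F : Set S, F.Finite ∧ WF (only P F) Γ := by
  induction h with
  | nil => exact ⟨∅, by simp, .nil⟩
  | cons _ h ih =>
    obtain ⟨F, hF, h1⟩ := ih
    obtain ⟨F', hF', h2⟩ := h.fin
    exact ⟨F ∪ F', hF.union hF', .cons (h1.spec_mono (only_mono Set.subset_union_left))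
      (h2.spec_mono (only_mono Set.subset_union_right))⟩

/-- The specification over the subtype. -/
def restr (P : Spec S) (F : Set S) : Spec F where
  ax a b := P.ax a.1 b.1
  rule a b c := P.rule a.1 b.1 c.1

open Classical in
/-- A retraction to the subtype. -/
noncomputable def retr (F : Set S) (s0 : F) (s : S) : F := if h : s ∈ F then ⟨s, h⟩ else s0

theorem mor_retr (F : Set S) (s0 : F) : Mor (only P F) (restr P F) (retr F s0) := by
  have key : ∀ s ∈ F, (retr F s0 s).1 = s := by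
    intro s hs
    unfold retr
    rw [dif_pos hs]
  refine ⟨fun {s t} h => ?_, fun {a b c} h => ?_⟩
  · show P.ax _ _
    rw [key _ h.2.1, key _ h.2.2]; exact h.1
  · show P.rule _ _ _
    rw [key _ h.2.1, key _ h.2.2.1, key _ h.2.2.2]; exact h.1

theorem Sn.of_tmap {S' : Type u} {f : S → S'} {M : Tm S} (h : Sn (M.map f)) : Sn M := by
  generalize e : M.map f = M' at h
  induction h generalizing M with
  | intro M' _ ih =>
    subst e
    exact .intro fun N hN => ih (N.map f) (hN.map f) rfl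

end Vale.Agent.P340
end

section

/-! Restriction to finitely many sorts: normalization. -/

namespace Vale.Agent.P340

universe u
variable {S : Type u} {P : Spec S}

open Tm

/-- Strong normalization of all finite restrictions implies strong normalization. -/
theorem SN_of_restr (h : ∀ F : Set S, F.Finite → SN (restr P F)) : SN P := by
  refine SN_of_subject fun Γ M A hΓ hM => ?_
  obtain ⟨F1, hF1, h1⟩ := hΓ.fin
  obtain ⟨F2, hF2, h2⟩ := hM.fin
  have hs : ∃ s : S, True := by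
    rcases hM.correct hΓ with ⟨s, -⟩ | ⟨s, -⟩ <;> exact ⟨s, trivial⟩
  obtain ⟨s0, -⟩ := hs
  let F : Set S := insert s0 (F1 ∪ F2)
  have hF : F.Finite := (hF1.union hF2).insert s0
  have h3 : WF (only P F) Γ := h1.spec_mono (only_mono fun x hx => .inr (.inl hx))
  have h4 : T (only P F) Γ M A := h2.spec_mono (only_mono fun x hx => .inr (.inr hx))
  let r : S → F := retr F ⟨s0, Set.mem_insert _ _⟩
  have hm : Mor (only P F) (restr P F) r := mor_retr F _
  have h5 : WF (restr P F) _ := h3.map hm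
  have h6 : T (restr P F) _ _ _ := h4.map hm
  have h7 : Legal (restr P F) (M.map r) := ⟨_, _, .inl (typ_iff.2 ⟨h5, h6⟩)⟩
  exact (SN_iff.1 (h F hF) _ h7).of_tmap

theorem mor_val (P : Spec S) (F : Set S) : Mor (restr P F) P Subtype.val :=
  ⟨fun h => h, fun h => h⟩

theorem Red.of_map {S' : Type u} (f : S → S') {M : Tm S} {N : Tm S'} (h : Red (M.map f) N) :
    ∃ N', N'.map f = N ∧ Red M N' := by
  induction h with
  | refl => exact ⟨M, rfl, .refl _⟩
  | tail _ h ih =>
    obtain ⟨Q, rfl, h1⟩ := ih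
    obtain ⟨R, h2, h3⟩ := Step.of_map f h
    exact ⟨R, h2, h1.trans (.step h3)⟩

theorem KindSort.of_restr {F : Set S} {t : F} (h : KindSort (restr P F) t) :
    KindSort P t.val := by
  induction h with
  | ax h => exact .ax h
  | rule h _ ih => exact .rule h ih

/-- Weak normalization is inherited by restrictions. -/
theorem WNKindVar.restr (h : WNKindVar P) (F : Set S) : WNKindVar (restr P F) := by
  intro Γ M A hM hA
  obtain ⟨N, h2, h3⟩ := h _ _ _ (hM.map (mor_val P F)) (by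
    rcases hA with ⟨n, rfl⟩ | ⟨t, hs, hA⟩
    · exact .inl ⟨_, rfl⟩
    · exact .inr ⟨_, hs.of_restr, hA.map (mor_val P F)⟩)
  obtain ⟨N', rfl, h4⟩ := h2.of_map
  exact ⟨N', h4, fun Q hQ => h3 _ (hQ.map _)⟩

theorem Functional.restr (h : Functional P) (F : Set S) : Functional (restr P F) :=
  ⟨fun h1 h2 => Subtype.ext (h.ax h1 h2), fun h1 h2 => Subtype.ext (h.rule h1 h2)⟩

end Vale.Agent.P340
end

section

/-! From the paradox to the failure of weak normalization. -/

namespace Vale.Agent.P340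

universe u v
variable {S : Type u} {ι : Type v} {P : Spec S} {c : ι → S}

open Tm

/-! Replacing the new constants by terms. -/

/-! Elements of the constants are never types. -/

end Vale.Agent.P340
end

section

/-! The paradox excludes weak normalization. -/

namespace Vale.Agent.P340

universe u v
variable {S : Type u} {ι : Type v} {P : Spec S}

open Tm

/-! Normal forms over coercions. -/

/-! Base contexts. -/

section
variable {d : VDat S ι}

end

end Vale.Agent.P340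
end

section

/-! The paradox from sets of sorts. -/

namespace Vale.Agent.P340

universe u v

variable {S : Type u} {ι : Type v} {P : Spec S}

end Vale.Agent.P340
end

section

/-! Blocks of sorts, the four ingredients, copies of `U⁻`, tiered specifications. -/

namespace Vale.Agent.P340

universe u
variable {S : Type u}

/-- `Dep P c a`: the sort `a` is the first or second component of a rule with third
component `c`. -/
def Dep (P : Spec S) (c a : S) : Prop := ∃ b, P.rule a b c ∨ P.rule b a c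

/-- The block of a sort: its strongly connected component in the graph `Dep P`. -/
def Block (P : Spec S) (s : S) : Set S :=
  {t | Relation.ReflTransGen (Dep P) s t ∧ Relation.ReflTransGen (Dep P) t s}

end Vale.Agent.P340
end

section

/-! Sorts without types play no role in persistent specifications. -/

namespace Vale.Agent.P340

universe u
variable {S : Type u} {P : Spec S}

open Tm

end Vale.Agent.P340
end

section

/-! Finite graphs: topological numbering of the strongly connected components, parity of walks. -/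

namespace Vale.Agent.P340

universe u
variable {S : Type u}

open Relation

/-- A numbering of the strongly connected components of a finite graph that increases along
the edges. -/
theorem exists_rank [Finite S] (R : S → S → Prop) : ∃ rk : S → ℕ,
    (∀ a b, R a b → rk a ≤ rk b) ∧
    ∀ a b, rk a = rk b → ReflTransGen R a b ∧ ReflTransGen R b a := by
  obtain ⟨N, ⟨idx⟩⟩ := Finite.exists_equiv_fin S
  let anc : S → Set S := fun a => {x | ReflTransGen R x a}
  let cl : S → Set ℕ := fun a => {i | ∃ x, ReflTransGen R x a ∧ ReflTransGen R a x ∧ idx x = i}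
  have hcl : ∀ a, (idx a : ℕ) ∈ cl a := fun a => ⟨a, .refl, .refl, rfl⟩
  have hlt : ∀ a, sInf (cl a) < N + 1 := fun a =>
    lt_of_le_of_lt (Nat.sInf_le (hcl a)) (Nat.lt_succ_of_lt (idx a).2)
  have heq : ∀ a b, ReflTransGen R a b → ReflTransGen R b a → cl a = cl b := by
    intro a b hab hba
    ext i
    constructor
    · rintro ⟨x, h1, h2, h3⟩; exact ⟨x, h1.trans hab, hba.trans h2, h3⟩
    · rintro ⟨x, h1, h2, h3⟩; exact ⟨x, h1.trans hba, hab.trans h2, h3⟩
  refine ⟨fun a => (anc a).ncard * (N + 1) + sInf (cl a), ?_, ?_⟩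
  · intro a b hab
    have hsub : anc a ⊆ anc b := fun x hx => ReflTransGen.tail hx hab
    rcases (Set.ncard_le_ncard hsub (Set.toFinite _)).lt_or_eq with h | h
    · have h1 := hlt a
      have h2 : ((anc a).ncard + 1) * (N + 1) ≤ (anc b).ncard * (N + 1) :=
        Nat.mul_le_mul_right _ h
      rw [Nat.add_mul, Nat.one_mul] at h2
      show (anc a).ncard * (N + 1) + sInf (cl a) ≤ (anc b).ncard * (N + 1) + sInf (cl b)
      omega
    · have h1 : anc a = anc b := Set.eq_of_subset_of_ncard_le hsub h.ge (Set.toFinite _)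
      have h2 : ReflTransGen R b a := by
        have : b ∈ anc a := by rw [h1]; exact ReflTransGen.refl
        exact this
      show (anc a).ncard * (N + 1) + sInf (cl a) ≤ (anc b).ncard * (N + 1) + sInf (cl b)
      rw [h1, heq a b (.single hab) h2]
  · intro a b hab
    have hab' : (anc a).ncard * (N + 1) + sInf (cl a) =
        (anc b).ncard * (N + 1) + sInf (cl b) := hab
    have h1 : sInf (cl a) = sInf (cl b) := by
      have h2 := congrArg (fun n => n % (N + 1)) hab'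
      simp only [Nat.mul_add_mod_self_right, Nat.mod_eq_of_lt (hlt _)] at h2
      exact h2
    obtain ⟨x, hx1, hx2, hx3⟩ := Nat.sInf_mem ⟨_, hcl a⟩
    obtain ⟨y, hy1, hy2, hy3⟩ := Nat.sInf_mem ⟨_, hcl b⟩
    have hxy : x = y := idx.injective (Fin.ext (by rw [hx3, hy3, h1]))
    subst hxy
    exact ⟨hx2.trans hy1, hy2.trans hx1⟩

/-! Blocks of persistent specifications. -/

variable {P : Spec S}

end Vale.Agent.P340
end

section

/-! Values of elements of kinds: ranked values, functions, functions with small support. -/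

namespace Vale.Agent.P340

namespace PolT

open Tm
open PolR (Kd Cd cdSn)

universe u
variable {S : Type u} {C : Set S}

/-- Ranked values of a code. -/
def Val (C : Set S) : Kd S → Type u
  | .star => Cd C
  | .unit => PUnit
  | .arr k f => (N : Tm S) → Val C k → Val C (f N)
  | .univ h => List (Tm S × ((K : Tm S) × Val C (h K))) → Cd C × ((K : Tm S) × Val C (h K))

/-- The default value. -/
def dflt : (k : Kd S) → Val C k
  | .star => cdSn
  | .unit => ⟨⟩
  | .arr _ f => fun N _ => dflt (f N)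
  | .univ h => fun _ => (cdSn, ⟨var 0, dflt (h (var 0))⟩)

/-- The default pair. -/
def dpr (h : Tm S → Kd S) : Cd C × ((K : Tm S) × Val C (h K)) :=
  (cdSn, ⟨var 0, dflt (h (var 0))⟩)

/-- Ranked values together with their codes. -/
def SV (C : Set S) : Type u := Σ k : Kd S, Val C k

/-- The default value of a code. -/
def dfl (k : Kd S) : SV C := ⟨k, dflt k⟩

/-- The value of code unit. -/
def uv : SV C := dfl .unit

theorem eq_uv {x : SV C} (h : x.1 = .unit) : x = uv := by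
  obtain ⟨k, v⟩ := x
  cases h
  rfl

open Classical in
/-- Forced change of code. -/
noncomputable def SV.to (x : SV C) (k : Kd S) : Val C k :=
  if h : x.1 = k then h ▸ x.2 else dflt k

theorem SV.to_self (k : Kd S) (v : Val C k) : SV.to ⟨k, v⟩ k = v := by
  unfold SV.to; rw [dif_pos rfl]

theorem SV.mk_to (x : SV C) {k : Kd S} (h : x.1 = k) : (⟨k, x.to k⟩ : SV C) = x := by
  subst h
  obtain ⟨k, v⟩ := x
  rw [SV.to_self]

/-- The candidate of a value. -/
def SV.set : SV C → Set (LTm (Lb S))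
  | ⟨.star, X⟩ => X.1
  | ⟨.univ _, w⟩ => (w []).1.1
  | _ => snS (labs C)

theorem SV.cr (x : SV C) : CR (labs C) x.set := by
  obtain ⟨k, v⟩ := x
  cases k with
  | star => exact v.2
  | unit => exact cr_sn
  | arr => exact cr_sn
  | univ h => exact (v []).1.2

open Classical in
/-- The argument as stored in lists. -/
noncomputable def down (h : Tm S → Kd S) (x : SV C) : (K : Tm S) × Val C (h K) :=
  if hx : ∃ y : (K : Tm S) × Val C (h K), (⟨h y.1, y.2⟩ : SV C) = x then hx.choose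
  else ⟨var 0, dflt _⟩

theorem down_spec {h : Tm S → Kd S} {x : SV C} {K : Tm S} (hx : x.1 = h K) :
    (⟨h (down h x).1, (down h x).2⟩ : SV C) = x := by
  have hex : ∃ y : (K : Tm S) × Val C (h K), (⟨h y.1, y.2⟩ : SV C) = x :=
    ⟨⟨K, x.to (h K)⟩, SV.mk_to x hx⟩
  unfold down
  rw [dif_pos hex]
  exact hex.choose_spec

open Classical in
/-- The value of code `k` given by a function. -/
noncomputable def lowC (h : Tm S → Kd S) (k : Kd S)
    (w : List (Tm S × ((K : Tm S) × Val C (h K))) → Cd C × ((K : Tm S) × Val C (h K))) : SV C :=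
  if k = .univ h then ⟨.univ h, w⟩ else ⟨k, SV.to ⟨h (w []).2.1, (w []).2.2⟩ k⟩

open Classical in
/-- The function given by a value. -/
noncomputable def upC (h : Tm S → Kd S) (z : SV C) :
    List (Tm S × ((K : Tm S) × Val C (h K))) → Cd C × ((K : Tm S) × Val C (h K)) :=
  if z.1 = .univ h then (show Val C (.univ h) from z.to (.univ h)) else
    fun l => match l with
    | [] => (cdSn, down h z)
    | _ => dpr h

theorem lowC_pos {h : Tm S → Kd S} {k : Kd S} (hk : k = .univ h)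
    (w : List (Tm S × ((K : Tm S) × Val C (h K))) → Cd C × ((K : Tm S) × Val C (h K))) :
    lowC h k w = ⟨.univ h, w⟩ := if_pos hk

theorem lowC_neg {h : Tm S → Kd S} {k : Kd S} (hk : k ≠ .univ h)
    (w : List (Tm S × ((K : Tm S) × Val C (h K))) → Cd C × ((K : Tm S) × Val C (h K))) :
    lowC h k w = ⟨k, SV.to ⟨h (w []).2.1, (w []).2.2⟩ k⟩ := if_neg hk

theorem upC_pos {h : Tm S → Kd S} {z : SV C} (hz : z.1 = .univ h) :
    upC h z = z.to (.univ h) := if_pos hz

theorem upC_neg {h : Tm S → Kd S} {z : SV C} (hz : z.1 ≠ .univ h) :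
    (upC h z []).2 = down h z := by
  have e : upC h z = fun l => match l with
    | [] => (cdSn, down h z)
    | _ => dpr h := if_neg hz
  rw [e]

theorem lowC_fst (h : Tm S → Kd S) (k : Kd S)
    (w : List (Tm S × ((K : Tm S) × Val C (h K))) → Cd C × ((K : Tm S) × Val C (h K))) :
    (lowC h k w).1 = k := by
  by_cases hk : k = .univ h
  · rw [lowC_pos hk, hk]
  · rw [lowC_neg hk]

theorem low_up {h : Tm S → Kd S} {z : SV C} {k : Kd S} (hz : z.1 = k)
    (hk : k = .univ h ∨ ∃ K, h K = k) : lowC h k (upC h z) = z := by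
  subst hz
  by_cases h1 : z.1 = .univ h
  · rw [lowC_pos h1, upC_pos h1]
    exact SV.mk_to z h1
  · obtain ⟨K, hK⟩ := hk.resolve_left h1
    rw [lowC_neg h1, upC_neg h1, down_spec (h := h) (x := z) hK.symm]
    exact SV.mk_to z rfl

/-- Application to an expression and a value; `c` is the code of the result. -/
noncomputable def SV.app (c : Kd S) : SV C → Tm S → SV C → SV C
  | ⟨.arr k f, g⟩, N, x => ⟨f N, g N (x.to k)⟩
  | ⟨.univ h, w⟩, N, x => lowC h c fun l => w ((N, down h x) :: l)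
  | _, _, _ => uv

/-- The value of a type. -/
def mkTb : Kd S → Cd C → SV C
  | .star, X => ⟨.star, X⟩
  | .univ h, X => ⟨.univ h, fun l => match l with
    | [] => (X, ⟨var 0, dflt (h (var 0))⟩)
    | _ => dpr h⟩
  | k, _ => dfl k

theorem mkTb_fst (k : Kd S) (X : Cd C) : (mkTb k X).1 = k := by
  cases k <;> rfl

/-- Codes of the kinds that are sorts. -/
def SCodeb (k : Kd S) : Prop := k = .star ∨ ∃ h, k = .univ h

theorem mkTb_set {k : Kd S} (h : SCodeb k) (X : Cd C) : (mkTb k X).set = X.1 := by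
  rcases h with rfl | ⟨h, rfl⟩ <;> rfl

open Classical in
/-- Abstraction. -/
noncomputable def mkLb (k : Kd S) (k0 : Kd S) (p : Tm S → Prop) (f : Tm S → SV C → SV C) : SV C :=
  match k with
  | .arr k' g => ⟨.arr k' g, fun N v =>
      if p N ∧ k' = k0 then (f N ⟨k', v⟩).to (g N) else dflt (g N)⟩
  | .univ h => ⟨.univ h, fun l => match l with
    | [] => dpr h
    | (N, y) :: l => if p N ∧ h y.1 = k0 then upC h (f N ⟨h y.1, y.2⟩) l else dpr h⟩
  | k => dfl k

theorem mkLb_fst (k k0 : Kd S) (p : Tm S → Prop) (f : Tm S → SV C → SV C) :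
    (mkLb k k0 p f).1 = k := by
  cases k <;> rfl

theorem mkLb_arr {k0 c : Kd S} {g : Tm S → Kd S} {p : Tm S → Prop} {f : Tm S → SV C → SV C}
    {N : Tm S} {x : SV C} (hN : p N) (hx : x.1 = k0) (hf : (f N x).1 = g N) :
    (mkLb (.arr k0 g) k0 p f).app c N x = f N x := by
  classical
  show (⟨g N, if p N ∧ k0 = k0 then (f N ⟨k0, x.to k0⟩).to (g N) else dflt (g N)⟩ : SV C) = f N x
  rw [if_pos ⟨hN, rfl⟩, SV.mk_to x hx, SV.mk_to _ hf]

theorem mkLb_univ {k0 c : Kd S} {h : Tm S → Kd S} {p : Tm S → Prop} {f : Tm S → SV C → SV C}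
    {N K : Tm S} {x : SV C} (hN : p N) (hx : x.1 = k0) (hK : h K = k0)
    (hf : (f N x).1 = c) (hc : c = .univ h ∨ ∃ K, h K = c) :
    (mkLb (.univ h) k0 p f).app c N x = f N x := by
  classical
  have h1 := down_spec (x := x) (h := h) (K := K) (by rw [hx, hK])
  have h2 : h (down h x).1 = k0 := by
    have := congrArg Sigma.fst h1
    exact this.trans hx
  show lowC h c (fun l => if p N ∧ h (down h x).1 = k0 then
    upC h (f N ⟨h (down h x).1, (down h x).2⟩) l else dpr h) = f N x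
  have h3 : (fun l => if p N ∧ h (down h x).1 = k0 then
      upC h (f N ⟨h (down h x).1, (down h x).2⟩) l else dpr h) = upC h (f N x) := by
    funext l
    rw [if_pos ⟨hN, h2⟩, h1]
  rw [h3]
  exact low_up hf hc

theorem mkLb_congr {k k' k0 k0' : Kd S} {p p' : Tm S → Prop} {f f' : Tm S → SV C → SV C}
    (hk : k = k') (hk0 : k0 = k0') (hp : ∀ N, p N ↔ p' N)
    (hf : ∀ N, p N → ∀ x, x.1 = k0 → f N x = f' N x) : mkLb k k0 p f = mkLb k' k0' p' f' := by
  classical
  subst hk hk0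
  have e : p = p' := by funext N; exact propext (hp N)
  subst e
  cases k with
  | star => rfl
  | unit => rfl
  | arr k' g =>
    show (⟨_, _⟩ : SV C) = ⟨_, _⟩
    congr 1
    funext N v
    by_cases h : p N ∧ k' = k0
    · rw [if_pos h, if_pos h]
      exact congrArg (fun z : SV C => z.to _) (hf N h.1 ⟨k', v⟩ h.2)
    · rw [if_neg h, if_neg h]
  | univ h =>
    show (⟨_, _⟩ : SV C) = ⟨_, _⟩
    congr 1
    funext l
    rcases l with _ | ⟨⟨N, y⟩, l⟩
    · rfl
    · show (if _ then _ else _) = (if _ then _ else _)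
      by_cases h' : p N ∧ h y.1 = k0
      · rw [if_pos h', if_pos h']
        have := hf N h'.1 ⟨h y.1, y.2⟩ h'.2
        rw [this]
      · rw [if_neg h', if_neg h']

/-- Codes of the values of odd kinds. -/
inductive V1 (C : Set S) : Type (u + 1) where
  | mk (I : Type u) (n : I → ℕ) (t : (i : I) → Fin (n i) → Tm S × Option (SV C))
      (k : (i : I) → Fin (n i) → V1 C)
      (F : List (Tm S × ((I → SV C) ⊕ SV C)) → SV C) : V1 C

/-- Arguments of the values of even kinds. -/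
abbrev A0 (C : Set S) : Type (u + 1) := List (Tm S × (V1 C ⊕ SV C))

/-- Values of even kinds. -/
abbrev V0 (C : Set S) : Type (u + 1) := A0 C → SV C

/-- Arguments of the values of odd kinds. -/
abbrev A1 (C : Set S) : Type (u + 1) := List (Tm S × (V0 C ⊕ SV C))

/-- Agreement of arguments on a set of coordinates. -/
inductive AgA (W : Set (A0 C)) : V0 C ⊕ SV C → V0 C ⊕ SV C → Prop where
  | inl {g g' : V0 C} : (∀ k ∈ W, g k = g' k) → AgA W (.inl g) (.inl g')
  | inr (y : SV C) : AgA W (.inr y) (.inr y)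

theorem AgA.refl (W : Set (A0 C)) (a : V0 C ⊕ SV C) : AgA W a a := by
  cases a with
  | inl g => exact .inl fun _ _ => rfl
  | inr y => exact .inr y

theorem AgA.mono {W W' : Set (A0 C)} (h : W ⊆ W') {a a' : V0 C ⊕ SV C} (ha : AgA W' a a') :
    AgA W a a' := by
  cases ha with
  | inl h' => exact .inl fun k hk => h' k (h hk)
  | inr y => exact .inr y

/-- Agreement of lists of arguments. -/
def AgL (W : Set (A0 C)) (l l' : A1 C) : Prop :=
  List.Forall₂ (fun p p' => p.1 = p'.1 ∧ AgA W p.2 p'.2) l l'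

theorem AgL.refl (W : Set (A0 C)) : ∀ l : A1 C, AgL W l l
  | [] => .nil
  | p :: l => .cons ⟨rfl, .refl W p.2⟩ (AgL.refl W l)

theorem AgL.mono {W W' : Set (A0 C)} (h : W ⊆ W') {l l' : A1 C} (hl : AgL W' l l') :
    AgL W l l' := List.Forall₂.imp (fun _ _ h' => ⟨h'.1, h'.2.mono h⟩) hl

/-- `F` only depends on the coordinates in `W`. -/
def SupOn (W : Set (A0 C)) (F : A1 C → SV C) : Prop := ∀ l l', AgL W l l' → F l = F l'

/-- Functions with small support. -/
def Sup (F : A1 C → SV C) : Prop := ∃ W : Set (A0 C), Small.{u} W ∧ SupOn W F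

theorem SupOn.mono {W W' : Set (A0 C)} (h : W ⊆ W') {F : A1 C → SV C} (hF : SupOn W F) :
    SupOn W' F := fun l l' hl => hF l l' (hl.mono h)

/-- Values of odd kinds. -/
abbrev VO (C : Set S) : Type (u + 1) := {F : A1 C → SV C // Sup F}

/-- Restriction of an argument to the coordinates `key`. -/
def resA {I : Type u} (key : I → A0 C) : V0 C ⊕ SV C → (I → SV C) ⊕ SV C
  | .inl g => .inl fun i => g (key i)
  | .inr y => .inr y

/-- Restriction of a list of arguments. -/
def resL {I : Type u} (key : I → A0 C) (l : A1 C) : List (Tm S × ((I → SV C) ⊕ SV C)) :=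
  l.map fun p => (p.1, resA key p.2)

theorem AgA.res {I : Type u} {key : I → A0 C} {a a' : V0 C ⊕ SV C}
    (h : AgA (Set.range key) a a') : resA key a = resA key a' := by
  cases h with
  | inl h => exact congrArg Sum.inl (funext fun i => h _ ⟨i, rfl⟩)
  | inr y => rfl

theorem AgA.of_res {I : Type u} {key : I → A0 C} {a a' : V0 C ⊕ SV C}
    (h : resA key a = resA key a') : AgA (Set.range key) a a' := by
  cases a with
  | inl g =>
    cases a' with
    | inl g' =>
      refine .inl ?_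
      rintro _ ⟨i, rfl⟩
      exact congrFun (Sum.inl.inj h) i
    | inr y => cases h
  | inr y =>
    cases a' with
    | inl g' => cases h
    | inr y' =>
      cases (Sum.inr.inj h)
      exact .inr y

theorem AgL.res {I : Type u} {key : I → A0 C} {l l' : A1 C}
    (h : AgL (Set.range key) l l') : resL key l = resL key l' := by
  induction h with
  | nil => rfl
  | @cons q q' t t' h _ ih =>
    show ((q.1, resA key q.2) :: resL key t) = ((q'.1, resA key q'.2) :: resL key t')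
    rw [h.1, h.2.res, ih]

theorem AgL.of_res {I : Type u} {key : I → A0 C} : ∀ {l l' : A1 C},
    resL key l = resL key l' → AgL (Set.range key) l l'
  | [], [], _ => .nil
  | [], _ :: _, h => by cases h
  | _ :: _, [], h => by cases h
  | p :: l, p' :: l', h => by
    have h1 := List.head_eq_of_cons_eq h
    have h2 := List.tail_eq_of_cons_eq h
    have h3 := congrArg Prod.fst h1
    have h4 := congrArg Prod.snd h1
    exact .cons ⟨h3, .of_res h4⟩ (AgL.of_res h2)

/-- A value or a code. -/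
def arg1 : Option (SV C) → V1 C → V1 C ⊕ SV C
  | some y, _ => .inr y
  | none, v => .inl v

/-- The keys stored in a code. -/
def keyOf {I : Type u} (n : I → ℕ) (t : (i : I) → Fin (n i) → Tm S × Option (SV C))
    (k : (i : I) → Fin (n i) → V1 C) (i : I) : A0 C :=
  List.ofFn fun j => ((t i j).1, arg1 (t i j).2 (k i j))

theorem v1_nonempty : Nonempty (V1 C) :=
  ⟨.mk PEmpty.{u + 1} (fun i => i.elim) (fun i => i.elim) (fun i => i.elim) fun _ => uv⟩

theorem keyOf_surj {I : Type u} (key : I → A0 C) : ∃ n t k, keyOf n t k = key := by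
  obtain ⟨v0⟩ := v1_nonempty (C := C)
  have h : ∀ a : V1 C ⊕ SV C, ∃ o v, arg1 o v = a := fun a => by
    cases a with
    | inl v => exact ⟨none, v, rfl⟩
    | inr y => exact ⟨some y, v0, rfl⟩
  choose o v ho using h
  refine ⟨fun i => (key i).length, fun i j => (((key i).get j).1, o ((key i).get j).2),
    fun i j => v ((key i).get j).2, funext fun i => ?_⟩
  show List.ofFn (fun j => (((key i).get j).1, arg1 (o ((key i).get j).2)
    (v ((key i).get j).2))) = key i
  simp only [ho]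
  exact List.ofFn_get (key i)

/-- The value with a given code. -/
def dec : V1 C → VO C
  | .mk _ n t k F => ⟨fun l => F (resL (keyOf n t k) l), Set.range (keyOf n t k), small_range _,
      fun _ _ h => congrArg F h.res⟩

open Classical in
theorem dec_surj (F : VO C) : ∃ v : V1 C, dec v = F := by
  obtain ⟨F, W, hW, hF⟩ := F
  let key : Shrink.{u} W → A0 C := fun i => ((equivShrink W).symm i).1
  have hr : Set.range key = W := by
    ext x
    constructor
    · rintro ⟨i, rfl⟩; exact ((equivShrink W).symm i).2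
    · intro hx
      exact ⟨equivShrink W ⟨x, hx⟩, by show ((equivShrink W).symm _).1 = _; simp⟩
  obtain ⟨n, t, k, hk⟩ := keyOf_surj key
  refine ⟨.mk (Shrink.{u} W) n t k fun t =>
    if h : ∃ l, resL key l = t then F h.choose else uv, ?_⟩
  refine Subtype.ext ?_
  funext l
  show (if h : ∃ l', resL key l' = resL (keyOf n t k) l then F h.choose else uv) = F l
  rw [hk]
  show (if h : ∃ l', resL key l' = resL key l then F h.choose else uv) = F l
  have hex : ∃ l', resL key l' = resL key l := ⟨l, rfl⟩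
  rw [dif_pos hex]
  have := AgL.of_res hex.choose_spec
  rw [hr] at this
  exact hF _ _ this

/-- A code of a value. -/
noncomputable def enc (F : VO C) : V1 C := (dec_surj F).choose

theorem dec_enc (F : VO C) : dec (enc F) = F := (dec_surj F).choose_spec

theorem sup_const (x : SV C) : Sup (fun _ : A1 C => x) := ⟨∅, inferInstance, fun _ _ _ => rfl⟩

open Classical in
/-- The value given by a function. -/
noncomputable def mkO (F : A1 C → SV C) : VO C :=
  if h : Sup F then ⟨F, h⟩ else ⟨fun _ => uv, sup_const _⟩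

theorem mkO_eq {F : A1 C → SV C} (h : Sup F) : mkO F = ⟨F, h⟩ := dif_pos h

/-- Values. -/
inductive GV (C : Set S) : Type (u + 1) where
  | b (x : SV C) : GV C
  | e (g : V0 C) : GV C
  | o (F : VO C) : GV C

/-- Codes of kinds. -/
inductive Cl (S : Type u) : Type u where
  | b (k : Kd S) : Cl S
  | e : Cl S
  | o : Cl S

/-- The code of a value. -/
def GV.cl : GV C → Cl S
  | .b x => .b x.1
  | .e _ => .e
  | .o _ => .o

/-- The default value of a code. -/
def dfg : Cl S → GV C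
  | .b k => .b (dfl k)
  | .e => .e fun _ => uv
  | .o => .o ⟨fun _ => uv, sup_const _⟩

theorem dfg_cl (c : Cl S) : (dfg c : GV C).cl = c := by cases c <;> rfl

/-- The candidate of a value. -/
def GV.set : GV C → Set (LTm (Lb S))
  | .b x => x.set
  | .e g => (g []).set
  | .o F => (F.1 []).set

theorem GV.cr (x : GV C) : CR (labs C) x.set := by
  cases x with
  | b x => exact x.cr
  | e g => exact (g []).cr
  | o F => exact (F.1 []).cr

/-- Coercions. -/
noncomputable def GV.a0 : GV C → V1 C ⊕ SV C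
  | .b x => .inr x
  | .e _ => .inr uv
  | .o F => .inl (enc F)

/-- Coercions. -/
def GV.a1 : GV C → V0 C ⊕ SV C
  | .b x => .inr x
  | .e g => .inl g
  | .o _ => .inr uv

/-- Coercions. -/
def of0 : V1 C ⊕ SV C → GV C
  | .inl v => .o (dec v)
  | .inr x => .b x

/-- Coercions. -/
def of1 : V0 C ⊕ SV C → GV C
  | .inl g => .e g
  | .inr x => .b x

/-- A value as a function. -/
def one (x : SV C) {T : Type*} : List T → SV C
  | [] => x
  | _ => uv

/-- Coercions. -/
def GV.tb : GV C → SV C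
  | .b x => x
  | _ => uv

/-- Coercions. -/
def GV.te : GV C → V0 C
  | .e g => g
  | .b x => one x
  | .o _ => fun _ => uv

/-- Coercions. -/
def GV.to : GV C → A1 C → SV C
  | .o F => F.1
  | .b x => one x
  | .e _ => fun _ => uv

theorem of0_a0 {x : GV C} (h : x.cl ≠ .e) : of0 x.a0 = x := by
  cases x with
  | b x => rfl
  | e g => exact absurd rfl h
  | o F => show GV.o (dec (enc F)) = _; rw [dec_enc]

theorem of1_a1 {x : GV C} (h : x.cl ≠ .o) : of1 x.a1 = x := by
  cases x with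
  | b x => rfl
  | e g => rfl
  | o F => exact absurd rfl h

theorem cl_b {x : GV C} {k : Kd S} (h : x.cl = .b k) : ∃ y : SV C, x = .b y ∧ y.1 = k := by
  cases x with
  | b x => exact ⟨x, rfl, Cl.b.inj h⟩
  | e g => cases h
  | o F => cases h

theorem cl_e {x : GV C} (h : x.cl = .e) : ∃ g, x = .e g := by
  cases x with
  | b x => cases h
  | e g => exact ⟨g, rfl⟩
  | o F => cases h

theorem cl_o {x : GV C} (h : x.cl = .o) : ∃ F, x = .o F := by
  cases x with
  | b x => cases h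
  | e g => cases h
  | o F => exact ⟨F, rfl⟩

theorem sup_one (x : SV C) : SupOn ∅ (one x : A1 C → SV C) := by
  intro l l' h
  cases h <;> rfl

theorem sup_tail {F : A1 C → SV C} (h : Sup F) (p : Tm S × (V0 C ⊕ SV C)) :
    Sup fun l => F (p :: l) := by
  obtain ⟨W, h1, h2⟩ := h
  exact ⟨W, h1, fun l l' hl => h2 _ _ (.cons ⟨rfl, .refl W p.2⟩ hl)⟩

/-- The ranked code. -/
def Cl.kd : Cl S → Kd S
  | .b k => k
  | _ => .unit

/-- Results of functions of even kinds. -/
noncomputable def resE (c : Cl S) (g : V0 C) : GV C :=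
  match c with
  | .b k => .b ⟨k, (g []).to k⟩
  | _ => .e g

/-- Results of functions of odd kinds. -/
noncomputable def resO (c : Cl S) (F : VO C) : GV C :=
  match c with
  | .b k => .b ⟨k, (F.1 []).to k⟩
  | _ => .o F

/-- Application; `c` is the code of the result. -/
noncomputable def GV.app (c : Cl S) : GV C → Tm S → GV C → GV C
  | .b x, N, y => .b (x.app c.kd N y.tb)
  | .e g, N, y => resE c fun l => g ((N, y.a0) :: l)
  | .o F, N, y => resO c ⟨fun l => F.1 ((N, y.a1) :: l), sup_tail F.2 _⟩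

/-- The value given by a candidate. -/
def tsv (X : Cd C) : SV C := ⟨.star, (show Val C .star from X)⟩

/-- The value of a type. -/
noncomputable def mkT : Cl S → Cd C → GV C
  | .b k, X => .b (mkTb k X)
  | .e, X => .e (one (tsv X))
  | .o, X => .o (mkO (one (tsv X)))

theorem mkT_cl (c : Cl S) (X : Cd C) : (mkT c X).cl = c := by
  cases c with
  | b k => show Cl.b _ = _; rw [mkTb_fst]
  | e => rfl
  | o => rfl

/-- Codes of the kinds that are sorts. -/
def SCode : Cl S → Prop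
  | .b k => SCodeb k
  | _ => True

theorem mkT_set {c : Cl S} (h : SCode c) (X : Cd C) : (mkT c X).set = X.1 := by
  cases c with
  | b k => exact mkTb_set h X
  | e => rfl
  | o =>
    show ((mkO (one (tsv X))).1 []).set = _
    rw [mkO_eq ⟨∅, inferInstance, sup_one _⟩]; rfl

open Classical in
/-- Functions of even kinds. -/
noncomputable def lamE (c0 : Cl S) (p : Tm S → Prop) (f : Tm S → GV C → GV C) : V0 C
  | [] => uv
  | (N, a) :: l => if p N ∧ (of0 a).cl = c0 then (f N (of0 a)).te l else uv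

open Classical in
/-- Functions of odd kinds. -/
noncomputable def lamO (c0 : Cl S) (p : Tm S → Prop) (f : Tm S → GV C → GV C) : A1 C → SV C
  | [] => uv
  | (N, a) :: l => if p N ∧ (of1 a).cl = c0 then (f N (of1 a)).to l else uv

/-- Abstractions of ranked values. -/
noncomputable def lamB (k : Kd S) (c0 : Cl S) (p : Tm S → Prop) (f : Tm S → GV C → GV C) : SV C :=
  match c0 with
  | .b k0 => mkLb k k0 p fun N x => (f N (.b x)).tb
  | _ => dfl k

/-- Abstraction. -/
noncomputable def mkL (c c0 : Cl S) (p : Tm S → Prop) (f : Tm S → GV C → GV C) : GV C :=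
  match c with
  | .b k => .b (lamB k c0 p f)
  | .e => .e (lamE c0 p f)
  | .o => .o (mkO (lamO c0 p f))

theorem mkL_cl (c c0 : Cl S) (p : Tm S → Prop) (f : Tm S → GV C → GV C) :
    (mkL c c0 p f).cl = c := by
  cases c with
  | b k =>
    cases c0 with
    | b k0 => show Cl.b (mkLb _ _ _ _).1 = _; rw [mkLb_fst]
    | e => rfl
    | o => rfl
  | e => rfl
  | o => rfl

theorem mkL_arr {k0 : Kd S} {c : Cl S} {g : Tm S → Kd S} {p : Tm S → Prop}
    {f : Tm S → GV C → GV C} {N : Tm S} {x : GV C} (hN : p N) (hx : x.cl = .b k0)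
    (hf : (f N x).cl = .b (g N)) :
    (mkL (.b (.arr k0 g)) (.b k0) p f).app c N x = f N x := by
  obtain ⟨y, rfl, hy⟩ := cl_b hx
  obtain ⟨z, hz, hz'⟩ := cl_b hf
  show GV.b (SV.app _ (mkLb (.arr k0 g) k0 p fun N x => (f N (.b x)).tb) N y) = _
  rw [mkLb_arr (f := fun N x => (f N (.b x)).tb) hN hy (by rw [hz]; exact hz'), hz]
  rfl

theorem mkL_univ {k0 c : Kd S} {h : Tm S → Kd S} {p : Tm S → Prop} {f : Tm S → GV C → GV C}
    {N K : Tm S} {x : GV C} (hN : p N) (hx : x.cl = .b k0) (hK : h K = k0)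
    (hf : (f N x).cl = .b c) (hc : c = .univ h ∨ ∃ K, h K = c) :
    (mkL (.b (.univ h)) (.b k0) p f).app (.b c) N x = f N x := by
  obtain ⟨y, rfl, hy⟩ := cl_b hx
  obtain ⟨z, hz, hz'⟩ := cl_b hf
  show GV.b (SV.app c (mkLb (.univ h) k0 p fun N x => (f N (.b x)).tb) N y) = _
  rw [mkLb_univ (f := fun N x => (f N (.b x)).tb) (K := K) hN hy hK (by rw [hz]; exact hz') hc,
    hz]
  rfl

theorem mkL_e {c c0 : Cl S} {p : Tm S → Prop} {f : Tm S → GV C → GV C} {N : Tm S} {x : GV C}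
    (hN : p N) (hx : x.cl = c0) (h0 : c0 ≠ .e) (hf : (f N x).cl = c) (hc : c ≠ .o) :
    (mkL .e c0 p f).app c N x = f N x := by
  classical
  subst hx
  show resE c (fun l => lamE x.cl p f ((N, x.a0) :: l)) = _
  have e : (fun l => lamE x.cl p f ((N, x.a0) :: l)) = (f N x).te := by
    funext l
    show (if _ then _ else _) = _
    rw [of0_a0 h0, if_pos ⟨hN, rfl⟩]
  rw [e]
  cases c with
  | b k =>
    obtain ⟨z, hz, hz'⟩ := cl_b hf
    rw [hz]
    show GV.b ⟨k, SV.to z k⟩ = _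
    rw [SV.mk_to z hz']
  | e =>
    obtain ⟨g, hg⟩ := cl_e hf
    rw [hg]; rfl
  | o => exact absurd rfl hc

theorem mkL_o {c c0 : Cl S} {p : Tm S → Prop} {f : Tm S → GV C → GV C} {N : Tm S} {x : GV C}
    (hs : Sup (lamO c0 p f)) (hN : p N) (hx : x.cl = c0) (h0 : c0 ≠ .o)
    (hf : (f N x).cl = c) (hc : c ≠ .e) : (mkL .o c0 p f).app c N x = f N x := by
  classical
  subst hx
  show resO c ⟨fun l => (mkO (lamO x.cl p f)).1 ((N, x.a1) :: l), _⟩ = _
  have e : (fun l => (mkO (lamO x.cl p f)).1 ((N, x.a1) :: l)) = (f N x).to := by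
    funext l
    rw [mkO_eq hs]
    show (if _ then _ else _) = _
    rw [of1_a1 h0, if_pos ⟨hN, rfl⟩]
  cases c with
  | b k =>
    obtain ⟨z, hz, hz'⟩ := cl_b hf
    show GV.b ⟨k, SV.to ((fun l => (mkO (lamO x.cl p f)).1 ((N, x.a1) :: l)) []) k⟩ = _
    rw [e, hz]
    show GV.b ⟨k, SV.to z k⟩ = _
    rw [SV.mk_to z hz']
  | o =>
    obtain ⟨F, hF⟩ := cl_o hf
    rw [hF] at e ⊢
    show GV.o _ = _
    congr 1
    exact Subtype.ext e
  | e => exact absurd rfl hc

theorem mkL_congr {c c' c0 c0' : Cl S} {p p' : Tm S → Prop} {f f' : Tm S → GV C → GV C}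
    (hc : c = c') (hc0 : c0 = c0') (hp : ∀ N, p N ↔ p' N)
    (hf : ∀ N, p N → ∀ x, x.cl = c0 → f N x = f' N x) : mkL c c0 p f = mkL c' c0' p' f' := by
  classical
  subst hc hc0
  have e : p = p' := by funext N; exact propext (hp N)
  subst e
  cases c with
  | b k =>
    show GV.b _ = GV.b _
    congr 1
    cases c0 with
    | b k0 =>
      simp only [lamB]
      refine mkLb_congr rfl rfl (fun _ => Iff.rfl) fun N hN x hx => ?_
      rw [hf N hN (.b x) (by show Cl.b _ = _; rw [hx])]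
    | e => rfl
    | o => rfl
  | e =>
    show GV.e _ = GV.e _
    congr 1
    funext l
    rcases l with _ | ⟨⟨N, a⟩, l⟩
    · rfl
    · show (if _ then _ else _) = (if _ then _ else _)
      by_cases h : p N ∧ (of0 a).cl = c0
      · rw [if_pos h, if_pos h, hf N h.1 _ h.2]
      · rw [if_neg h, if_neg h]
  | o =>
    show GV.o (mkO _) = GV.o (mkO _)
    congr 2
    funext l
    rcases l with _ | ⟨⟨N, a⟩, l⟩
    · rfl
    · show (if _ then _ else _) = (if _ then _ else _)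
      by_cases h : p N ∧ (of1 a).cl = c0
      · rw [if_pos h, if_pos h, hf N h.1 _ h.2]
      · rw [if_neg h, if_neg h]

/-- The set of a product. -/
def piS (L : S → S → S → Prop) (p : Tm S → Prop) (v : GV C → Prop) (X : GV C)
    (f : Tm S → GV C → GV C) : Set (LTm (Lb S)) :=
  {T | SnX (labs C) T ∧ ∀ a b c, L a b c → ∀ N, p N → ∀ x, v x →
    T ∈ arr (some (a, b, c)) (DS C a X.set) (DS C b (f N x).set)}

theorem cr_piS (L : S → S → S → Prop) (p : Tm S → Prop) (v : GV C → Prop) (X : GV C)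
    (f : Tm S → GV C → GV C) : CR (labs C) (piS L p v X f) := by
  have h := cr_inf (X := labs C)
    (ι := {i : (S × S × S) × Tm S × GV C // L i.1.1 i.1.2.1 i.1.2.2 ∧ p i.2.1 ∧ v i.2.2})
    (Y := fun i => arr (some (i.1.1.1, i.1.1.2.1, i.1.1.2.2)) (DS C i.1.1.1 X.set)
      (DS C i.1.1.2.1 (f i.1.2.1 i.1.2.2).set))
    (fun i => cr_arr (DS.cr fun _ => X.cr) (DS.cr fun _ => (f i.1.2.1 i.1.2.2).cr))
  have e : piS L p v X f = {M | SnX (labs C) M ∧
      ∀ i : {i : (S × S × S) × Tm S × GV C // L i.1.1 i.1.2.1 i.1.2.2 ∧ p i.2.1 ∧ v i.2.2},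
      M ∈ arr (some (i.1.1.1, i.1.1.2.1, i.1.1.2.2)) (DS C i.1.1.1 X.set)
      (DS C i.1.1.2.1 (f i.1.2.1 i.1.2.2).set)} := by
    ext T
    exact ⟨fun h => ⟨h.1, fun i => h.2 _ _ _ i.2.1 _ i.2.2.1 _ i.2.2.2⟩,
      fun h => ⟨h.1, fun a b c h1 N h2 x h3 => h.2 ⟨((a, b, c), N, x), h1, h2, h3⟩⟩⟩
  rw [e]; exact h

theorem piS_congr {L L' : S → S → S → Prop} {p p' : Tm S → Prop} {v v' : GV C → Prop}
    {X X' : GV C} {f f' : Tm S → GV C → GV C} (hL : ∀ a b c, L a b c ↔ L' a b c)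
    (hp : ∀ N, p N ↔ p' N) (hv : ∀ x, v x ↔ v' x)
    (hX : ∀ a b c, L a b c → DS C a X.set = DS C a X'.set)
    (hf : ∀ a b c, L a b c → ∀ N, p N → ∀ x, v x →
      DS C b (f N x).set = DS C b (f' N x).set) : piS L p v X f = piS L' p' v' X' f' := by
  ext T
  refine and_congr Iff.rfl ⟨fun h a b c h1 N h2 x h3 => ?_, fun h a b c h1 N h2 x h3 => ?_⟩
  · have h1' := (hL a b c).2 h1
    have h2' := (hp N).2 h2
    have h3' := (hv x).2 h3
    rw [← hX a b c h1', ← hf a b c h1' N h2' x h3']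
    exact h a b c h1' N h2' x h3'
  · rw [hX a b c h1, hf a b c h1 N h2 x h3]
    exact h a b c ((hL a b c).1 h1) N ((hp N).1 h2) x ((hv x).1 h3)

/-- Product. -/
def piC (L : S → S → S → Prop) (p : Tm S → Prop) (v : GV C → Prop) (X : GV C)
    (f : Tm S → GV C → GV C) : Cd C := ⟨piS L p v X f, cr_piS L p v X f⟩

/-- Extension of an assignment of values. -/
def vcons (x : GV C) (ρ : ℕ → GV C) : ℕ → GV C
  | 0 => x
  | n + 1 => ρ n

end PolT

end Vale.Agent.P340
end

section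

/-! Codes of kinds under weaker conditions on the ranks. -/

namespace Vale.Agent.P340

namespace PolT

open Tm
open PolR (Kd TyS tyS_conv tyS_le tyS_iff SP sp_conv sp_le sp_iff VarOk neu_sub)
open C1 (rep rep_conv rep_eq conv_subs TyD TyC pick tyD_conv tyC_conv pick_conv pick_spec)

universe u
variable {S : Type u}

/-- The conditions on the ranks. -/
structure RankedT (X : PolR.Par S) : Prop where
  q1 : ∀ a b m, X.P.rule a b m → KS X.P X.C b → m ∈ X.Q →
    b ∈ X.Q ∧ (KS X.P X.C a → a ∈ X.Q)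
  u1 : ∀ a b m, X.P.rule a b m → KS X.P X.C b → m ∈ X.Q → m ∈ X.U →
    (X.rk b < X.rk m ∨ (X.rk b = X.rk m ∧ b ∈ X.U)) ∧ (KS X.P X.C a → X.rk a < X.rk m)
  u2 : ∀ a b m, X.P.rule a b m → KS X.P X.C b → m ∈ X.Q → m ∉ X.U →
    (KS X.P X.C a → X.rk a < X.rk m ∨ (X.rk a = X.rk m ∧ a ∉ X.U)) ∧
    (X.rk b < X.rk m ∨ (X.rk b = X.rk m ∧ b ∉ X.U ∧
      ∀ k, X.QK k → k ∉ X.U → X.rk k = X.rk m → ¬ KS X.P {k} a))

/-- The assumptions of the model. -/
structure SetupT (X : PolR.Par S) : Prop where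
  fn : Functional X.P
  wn : WNKindVar X.P
  rnk : RankedT X
  wf : WFC X.P X.D
  nc : NCtx X.P X.D
  inh : ∀ {L : Tm S} {s : S}, J X.P X.D L (sort s) → ∃ N, J X.P X.D N L

variable {X : PolR.Par S}

theorem SetupT.sp (H : SetupT X) {p : S → Prop} {Q : Tm S} {a : S}
    (h : J X.P X.D Q (sort a)) : SP X.P p X.D Q ↔ p a := sp_iff H.fn H.wf h

theorem SetupT.acc (H : SetupT X) : ∀ (r : ℕ) {K : Tm S} {m : S}, J X.P X.D K (sort m) →
    X.QK m → X.rk m = r → Acc X.Pr (nf K) := by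
  classical
  intro r
  induction r using Nat.strong_induction_on with
  | _ r ihr =>
    have hnf : ∀ {K : Tm S} {m : S}, J X.P X.D K (sort m) → HN K ∧ J X.P X.D (nf K) (sort m) := by
      intro K m hK
      have nK := H.nc.hn H.wn hK
      exact ⟨nK, hK.red H.wf nK.red⟩
    have hlow : ∀ {K : Tm S} {m : S}, J X.P X.D K (sort m) → X.QK m → X.rk m < r →
        Acc X.Pr (nf K) := fun hK hm hr => ihr _ hr hK hm rfl
    have main : ∀ (n : ℕ) {K : Tm S} {m : S}, J X.P X.D K (sort m) → Normal K → X.QK m →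
        m ∉ X.U → X.rk m = r → X.skl r K X.D = n → Acc X.Pr K := by
      intro n
      induction n using Nat.strong_induction_on with
      | _ n ihn =>
        intro K m hK hn hm hU hr hs
        refine Acc.intro K fun K' hK' => ?_
        rcases hK' with ⟨r', K1, h1, -, -⟩ | ⟨A, B, rfl, h1, h2, h3, h4⟩
        · exact absurd (((H.sp hK).1 h1).2.1) hU
        · obtain ⟨a, b, m', k1, k2, k3, k4⟩ := hK.pi_inv
          cases k4.sort_inj
          have hb : KS X.P X.C b := (sp_iff H.fn (H.wf.push k1) k2).1 h3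
          obtain ⟨q1, q2⟩ := H.rnk.q1 a b m k3 hb hm.2
          obtain ⟨u1, u2⟩ := H.rnk.u2 a b m k3 hb hm.2 hU
          rcases h4 with ⟨h4, rfl⟩ | ⟨N, ⟨N', hc, hN'⟩, rfl⟩
          · have ha := (H.sp k1).1 h4
            rcases u1 ha.1 with h5 | ⟨h5, h6⟩
            · exact hlow k1 ha (by omega)
            · rw [nf_normal hn.piL]
              refine ihn (X.skl r A X.D) ?_ k1 hn.piL ha h6 (by omega) rfl
              have e : SP X.P (fun a => X.QK a ∧ a ∉ X.U ∧ X.rk a = r) X.D A :=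
                (H.sp k1).2 ⟨ha, h6, by omega⟩
              rw [← hs]
              show _ < 1 + _ + _
              rw [if_pos e]
              omega
          · obtain ⟨L, hL, hLc⟩ := hN'
            have hNA : J X.P X.D N' A := .conv hL k1 hLc
            have k5 := k2.inst_sort hNA
            have e1 : nf (inst B N) = nf (inst B N') :=
              ((hnf k5).1.eq_of_conv (Conv.inst (.refl _) hc.symm)).symm
            rw [e1]
            rcases u2 with u2 | ⟨u2, u3, u4⟩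
            · exact hlow k5 ⟨hb, q1⟩ (by omega)
            · have hnB : Normal B := hn.piR
              have hv : VarOk X.P (fun q => ∃ k, (X.QK k ∧ k ∉ X.U ∧ X.rk k = r) ∧
                  KS X.P {k} q) (push A X.D) (single N') := by
                intro n E q hE hq hk
                cases n with
                | zero =>
                  simp only [push_zero, Option.some.injEq] at hE
                  subst hE
                  cases H.fn.sortJ (k1.wk A) hq
                  obtain ⟨k, ⟨hk1, hk2, hk3⟩, hk4⟩ := hk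
                  exact absurd hk4 (u4 k hk1 hk2 (by omega))
                | succ n => exact ⟨n, rfl⟩
              have e2 := X.skl_sub H.fn H.wn r B (H.wf.push k1) H.wf H.nc (subC_single hNA) hv
                hnB k2 ⟨⟨hb, q1⟩, u3, by omega⟩
              refine ihn (X.skl r (nf (inst B N')) X.D) ?_ (hnf k5).2 (hnf k5).1.normal
                ⟨hb, q1⟩ u3 (by omega) rfl
              have e : SP X.P (fun a => X.QK a ∧ a ∉ X.U ∧ X.rk a = r) (push A X.D) B :=
                (sp_iff H.fn (H.wf.push k1) k2).2 ⟨⟨hb, q1⟩, u3, by omega⟩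
              show X.skl r (nf (B.sub (single N'))) X.D < n
              rw [e2, ← hs]
              show _ < 1 + _ + _
              rw [if_pos e]
              omega
    intro K m hK hm hr
    obtain ⟨h1, h2⟩ := hnf hK
    by_cases hU : m ∈ X.U
    · refine Acc.intro _ fun K' hK' => ?_
      rcases hK' with ⟨r', K1, h3, h4, rfl⟩ | ⟨A, B, h3, h4, h5, h6⟩
      · obtain ⟨-, -, h5⟩ := (H.sp h2).1 h3
        obtain ⟨a, ⟨h6, h7⟩, K2, h8, h9⟩ := h4
        rw [← (hnf h9).1.eq_of_conv h8.symm]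
        exact hlow h9 h6 (by omega)
      · exact absurd ((H.sp h2).2 ⟨hm, hU, rfl⟩) (h5 _)
    · exact main _ h2 h1.normal hm hU hr rfl

theorem SetupT.kd_univ (H : SetupT X) {K : Tm S} {m : S} (hK : J X.P X.D K (sort m))
    (hm : X.QK m) (hU : m ∈ X.U) : X.kd K = .univ (X.hh (X.rk m)) := by
  classical
  have nK := H.nc.hn H.wn hK
  have hK' := hK.red H.wf nK.red
  have hacc := H.acc _ hK hm rfl
  unfold PolR.Par.kd
  rw [if_pos nK, X.kd0_eq]
  unfold PolR.Par.kdF
  have hex : ∃ r, X.UQ r (nf K) := ⟨_, (H.sp hK').2 ⟨hm, hU, rfl⟩⟩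
  have hr : hex.choose = X.rk m := ((H.sp hK').1 hex.choose_spec).2.2.symm
  rw [dif_pos hex]
  congr 1
  funext K1
  unfold PolR.Par.hh
  have e : X.LowQ hex.choose K1 ↔ X.LowQ (X.rk m) K1 := by rw [hr]
  by_cases hl : X.LowQ (X.rk m) K1
  · rw [dif_pos ⟨e.2 hl, hacc⟩, if_pos hl]
    obtain ⟨a, -, K2, h1, h2⟩ := hl
    have h3 : HN K1 := (H.nc.hn H.wn h2).of_conv h1.symm
    unfold PolR.Par.kd
    rw [if_pos h3]
  · rw [dif_neg (fun h => hl (e.1 h.1)), if_neg hl]

open Classical in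
theorem SetupT.kd_arr (H : SetupT X) {A B : Tm S} {a b m : S} (hA : J X.P X.D A (sort a))
    (hB : J X.P (push A X.D) B (sort b)) (hr : X.P.rule a b m) (hb : KS X.P X.C b)
    (hm : X.QK m) (hU : m ∉ X.U) :
    X.kd (pi A B) = .arr (X.kdv A)
      (fun N => if TyC X.P X.D N A then X.kd (inst B N) else .unit) := by
  have hK : J X.P X.D (pi A B) (sort m) := .pi hA hB hr
  have nK := H.nc.hn H.wn hK
  have hK' := hK.red H.wf nK.red
  have hacc := H.acc _ hK hm rfl
  have nA := H.nc.hn H.wn hA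
  have nB := (H.nc.push hA).hn H.wn hB
  have hA' := hA.red H.wf nA.red
  have l1 : CLe X.P (push A X.D) (push (nf A) X.D) := CLe.conv hA nA.red.conv
  have hB' := (hB.red (H.wf.push hA) nB.red).le l1
  unfold PolR.Par.kd
  rw [if_pos nK, nA.nf_pi nB, X.kd0_eq]
  rw [nA.nf_pi nB] at hacc hK'
  unfold PolR.Par.kdF
  have hnex : ¬ ∃ r, X.UQ r (pi (nf A) (nf B)) := by
    rintro ⟨r, hr⟩
    exact hU ((H.sp hK').1 hr).2.1
  have hQ : X.IsQ X.D (pi (nf A) (nf B)) ∧ X.IsK (push (nf A) X.D) (nf B) ∧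
      Acc X.Pr (pi (nf A) (nf B)) :=
    ⟨(H.sp hK').2 hm, (sp_iff H.fn (H.wf.push hA') hB').2 hb, hacc⟩
  rw [dif_neg hnex]
  show dite _ _ _ = _
  rw [dif_pos hQ]
  congr 1
  · unfold PolR.Par.kdv PolR.Par.kd
    have e : X.IsQ X.D (nf A) ↔ X.IsQ X.D A := sp_conv nA.red.conv.symm
    by_cases h : X.IsQ X.D A
    · rw [dif_pos (e.2 h), if_pos h, if_pos nA]
      show X.kd0 (nf (nf A)) = _
      rw [nf_normal nA.normal]
    · rw [dif_neg (fun h' => h (e.1 h')), if_neg h]
  · funext N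
    have e : TyC X.P X.D N (nf A) ↔ TyC X.P X.D N A := tyC_conv nA.red.conv.symm
    by_cases h : TyC X.P X.D N A
    · rw [dif_pos (e.2 h), if_pos h]
      obtain ⟨N', hc, L, hL, hLc⟩ := h
      have hNA : J X.P X.D N' A := .conv hL hA hLc
      have n1 : HN (inst B N') := H.nc.hn H.wn (hB.inst_sort hNA)
      have n2 : HN (inst B N) := n1.of_conv (Conv.inst (.refl _) hc.symm)
      rw [if_pos n2]
      show X.kd0 (nf (inst (nf B) N)) = _
      rw [n2.eq_of_conv (Conv.inst nB.red.conv (.refl _))]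
    · rw [dif_neg (fun h' => h (e.1 h')), if_neg h]

end PolT

end Vale.Agent.P340
end

section

/-! Semantics of types and families with small support. -/

namespace Vale.Agent.P340

namespace PolT

open Tm
open PolR (Kd Cd cdSn TyS tyS_conv tyS_le tyS_iff SP sp_conv sp_le sp_iff
  TP tp_conv tp_iff tp_le TyOf)
open C1 (rep rep_conv rep_eq conv_subs TyD TyC pick tyD_conv tyC_conv pick_conv pick_spec
  scons_up scons_ups conv_scons)

universe u
variable {S : Type u}

/-- The data of a model. The elements of the kinds of sorts in `Q` have ranked values, those of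
sorts in `E` arbitrary functions, those of sorts in `O` functions with small support. -/
structure Par2 (S : Type u) extends PolR.Par S where
  E : Set S
  O : Set S

/-- Sorts of kinds whose elements have values. -/
def Par2.QQ (X : Par2 S) (m : S) : Prop := KS X.P X.C m ∧ (m ∈ X.Q ∨ m ∈ X.E ∨ m ∈ X.O)

/-- Sorts of even kinds. -/
def Par2.EK (X : Par2 S) (m : S) : Prop := KS X.P X.C m ∧ m ∈ X.E

/-- Sorts of odd kinds. -/
def Par2.OK (X : Par2 S) (m : S) : Prop := KS X.P X.C m ∧ m ∈ X.O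

/-- Kinds. -/
def Par2.IsK (X : Par2 S) : Tm S → Prop := SP X.P (KS X.P X.C) X.D

/-- Kinds whose elements have values. -/
def Par2.IsQQ (X : Par2 S) : Tm S → Prop := SP X.P X.QQ X.D

open Classical in
/-- The code of a kind. -/
noncomputable def Par2.ek (X : Par2 S) (K : Tm S) : Cl S :=
  if SP X.P X.EK X.D K then .e else if SP X.P X.OK X.D K then .o else .b (X.kd K)

open Classical in
/-- The code of the values of an argument. -/
noncomputable def Par2.kdv2 (X : Par2 S) (A : Tm S) : Cl S :=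
  if X.IsQQ A then X.ek A else .b .unit

theorem Par2.ek_conv (X : Par2 S) {K K' : Tm S} (h : Conv K K') : X.ek K = X.ek K' := by
  have e1 : SP X.P X.EK X.D K ↔ SP X.P X.EK X.D K' := sp_conv h
  have e2 : SP X.P X.OK X.D K ↔ SP X.P X.OK X.D K' := sp_conv h
  unfold Par2.ek
  rw [X.kd_conv h]
  by_cases h1 : SP X.P X.EK X.D K
  · rw [if_pos h1, if_pos (e1.1 h1)]
  · rw [if_neg h1, if_neg (fun h' => h1 (e1.2 h'))]
    by_cases h2 : SP X.P X.OK X.D K
    · rw [if_pos h2, if_pos (e2.1 h2)]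
    · rw [if_neg h2, if_neg (fun h' => h2 (e2.2 h'))]

theorem Par2.kdv2_conv (X : Par2 S) {K K' : Tm S} (h : Conv K K') : X.kdv2 K = X.kdv2 K' := by
  have e1 : X.IsQQ K ↔ X.IsQQ K' := sp_conv h
  unfold Par2.kdv2
  rw [X.ek_conv h]
  by_cases h1 : X.IsQQ K
  · rw [if_pos h1, if_pos (e1.1 h1)]
  · rw [if_neg h1, if_neg (fun h' => h1 (e1.2 h'))]

/-- Elements of kinds with values. -/
def Par2.TQ2 (X : Par2 S) : Tm S → Prop := TP X.P X.QQ X.D

/-- Elements of kinds. -/
def Par2.TK2 (X : Par2 S) : Tm S → Prop := TP X.P (KS X.P X.C) X.D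

open Classical in
/-- The code of the kind of an expression. -/
noncomputable def Par2.cd2 (X : Par2 S) (Q : Tm S) : Cl S :=
  if h : ∃ T, TyOf X.P X.D Q T then X.ek h.choose else .b .unit

theorem Par2.cd2_conv (X : Par2 S) {Q Q' : Tm S} (h : Conv Q Q') : X.cd2 Q = X.cd2 Q' := by
  have e : TyOf X.P X.D Q = TyOf X.P X.D Q' := by
    funext T
    exact propext ⟨fun ⟨R, h1, h2⟩ => ⟨R, h.symm.trans h1, h2⟩,
      fun ⟨R, h1, h2⟩ => ⟨R, h.trans h1, h2⟩⟩
  unfold Par2.cd2
  rw [e]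

theorem Par2.cd2_eq {X : Par2 S} (hP : Functional X.P) (hD : WFC X.P X.D) {Q T : Tm S}
    (h : J X.P X.D Q T) : X.cd2 Q = X.ek T := by
  have hex : ∃ T, TyOf X.P X.D Q T := ⟨T, Q, .refl _, h⟩
  unfold Par2.cd2
  rw [dif_pos hex]
  obtain ⟨Q', h1, h2⟩ := hex.choose_spec
  obtain ⟨R, r1, r2⟩ := h1.cr
  exact X.ek_conv (hP.uniqueJ (h2.red hD r2) (h.red hD r1))

/-- Admissible values for a variable. -/
def Par2.VV (X : Par2 S) (A : Tm S) (x : GV X.C) : Prop :=
  (X.IsQQ A → x.cl = X.ek A) ∧ (¬ X.IsQQ A → X.IsK A → x = dfg (X.ek A)) ∧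
    (¬ X.IsK A → x = .b uv)

theorem Par2.vv_conv (X : Par2 S) {A A' : Tm S} (h : Conv A A') (x : GV X.C) :
    X.VV A x ↔ X.VV A' x := by
  have e1 : X.IsQQ A = X.IsQQ A' := propext (sp_conv h)
  have e2 : X.IsK A = X.IsK A' := propext (sp_conv h)
  unfold Par2.VV
  rw [X.ek_conv h, e1, e2]

open Classical in
/-- Case distinction. -/
noncomputable def cif {C : Set S} (p : Prop) (x y : GV C) : GV C := if p then x else y

theorem cif_pos {C : Set S} {p : Prop} (h : p) (x y : GV C) : cif p x y = x := if_pos h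

theorem cif_neg {C : Set S} {p : Prop} (h : ¬ p) (x y : GV C) : cif p x y = y := if_neg h

/-- The rule of a product. -/
def Par2.Lr (X : Par2 S) (A B : Tm S) (a b c : S) : Prop :=
  TyS X.P X.D A a ∧ TyS X.P X.D B b ∧ X.P.rule a b c ∧ c ∈ X.C

/-- Interpretation of families and types. -/
noncomputable def Par2.sem (X : Par2 S) :
    (ℕ → Tm S) → (ℕ → GV X.C) → Tm S → GV X.C
  | _, ρ, var n => ρ n
  | θ, _, sort s => mkT (X.cd2 ((sort s).sub θ)) cdSn
  | θ, ρ, app F N =>
    cif (X.TQ2 (F.sub θ))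
      ((X.sem θ ρ F).app (X.cd2 ((app F N).sub θ)) (rep (N.sub θ))
        (cif (X.TQ2 (N.sub θ)) (X.sem θ ρ N) (.b uv)))
      (dfg (X.cd2 ((app F N).sub θ)))
  | θ, ρ, lam A M =>
    cif (X.TQ2 ((lam A M).sub θ) ∧ X.TK2 (M.sub (scons (pick X.P X.D (A.sub θ)) θ)))
      (mkL (X.cd2 ((lam A M).sub θ)) (X.kdv2 (A.sub θ)) (fun N => TyC X.P X.D N (A.sub θ))
        (fun N x => X.sem (scons N θ) (vcons x ρ) M))
      (dfg (X.cd2 ((lam A M).sub θ)))
  | θ, ρ, pi A B =>
    mkT (X.cd2 ((pi A B).sub θ))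
      (piC (X.Lr (A.sub θ) (B.sub (scons (pick X.P X.D (A.sub θ)) θ)))
        (fun N => TyD X.P X.D N (A.sub θ)) (X.VV (A.sub θ)) (X.sem θ ρ A)
        (fun N x => X.sem (scons N θ) (vcons x ρ) B))

variable {X : Par2 S}

theorem vcons_up {C : Set S} (x : GV C) (ρ : ℕ → GV C) (r : ℕ → ℕ) :
    (fun n => vcons x ρ (up r n)) = vcons x (fun n => ρ (r n)) := by
  funext n; cases n <;> rfl

theorem sem_ren (M : Tm S) : ∀ (θ : ℕ → Tm S) (ρ : ℕ → GV X.C) (r : ℕ → ℕ),
    X.sem θ ρ (M.ren r) = X.sem (fun n => θ (r n)) (fun n => ρ (r n)) M := by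
  induction M with
  | var n => intros; rfl
  | sort s => intros; rfl
  | app M N ihM ihN =>
    intro θ ρ r
    simp only [ren, Par2.sem, sub_ren, sub, ihM, ihN]
  | lam A M ihA ihM =>
    intro θ ρ r
    simp only [Tm.ren, Par2.sem, ihM, Tm.sub, sub_ren, scons_up, vcons_up, ups_up]
  | pi A M ihA ihM =>
    intro θ ρ r
    simp only [Tm.ren, Par2.sem, ihA, ihM, Tm.sub, sub_ren, scons_up, vcons_up, ups_up]

theorem sem_wk (M : Tm S) (N : Tm S) (θ : ℕ → Tm S) (x : GV X.C) (ρ : ℕ → GV X.C) :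
    X.sem (scons N θ) (vcons x ρ) (wk M) = X.sem θ ρ M := by
  unfold wk; rw [sem_ren]; rfl

theorem vcons_ups (N : Tm S) (θ : ℕ → Tm S) (x : GV X.C) (ρ : ℕ → GV X.C) (σ : ℕ → Tm S) :
    (fun n => X.sem (scons N θ) (vcons x ρ) (ups σ n)) =
      vcons x (fun n => X.sem θ ρ (σ n)) := by
  funext n; cases n with
  | zero => rfl
  | succ n => exact sem_wk _ _ _ _ _

theorem sem_sub (M : Tm S) : ∀ {θ : ℕ → Tm S} {ρ : ℕ → GV X.C} {σ : ℕ → Tm S},
    X.sem θ ρ (M.sub σ) = X.sem (fun n => (σ n).sub θ) (fun n => X.sem θ ρ (σ n)) M := by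
  induction M with
  | var n => intros; rfl
  | sort s => intros; rfl
  | app M N ihM ihN =>
    intro θ ρ σ
    simp only [sub, Par2.sem, Tm.sub_sub, ihM, ihN]
  | lam A M ihA ihM =>
    intro θ ρ σ
    have key : ∀ (N : Tm S) (x : GV X.C),
        X.sem (scons N θ) (vcons x ρ) (M.sub (ups σ)) =
        X.sem (scons N (fun n => (σ n).sub θ)) (vcons x (fun n => X.sem θ ρ (σ n))) M := by
      intro N x
      rw [ihM, scons_ups, vcons_ups]
    simp only [Tm.sub, Par2.sem, key]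
    simp only [Tm.sub_sub, scons_ups, Tm.sub_ups]
  | pi A M ihA ihM =>
    intro θ ρ σ
    have key : ∀ (N : Tm S) (x : GV X.C),
        X.sem (scons N θ) (vcons x ρ) (M.sub (ups σ)) =
        X.sem (scons N (fun n => (σ n).sub θ)) (vcons x (fun n => X.sem θ ρ (σ n))) M := by
      intro N x
      rw [ihM, scons_ups, vcons_ups]
    simp only [Tm.sub, Par2.sem, key]
    simp only [Tm.sub_sub, ihA, scons_ups, Tm.sub_ups]

/-- Interpretation of an instance. -/
theorem sem_inst (M N : Tm S) (θ : ℕ → Tm S) (ρ : ℕ → GV X.C) :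
    X.sem θ ρ (inst M N) = X.sem (scons (N.sub θ) θ) (vcons (X.sem θ ρ N) ρ) M := by
  unfold inst
  rw [sem_sub M]
  congr 1
  · funext n; cases n <;> rfl
  · funext n; cases n <;> rfl

/-- The interpretation only depends on the conversion classes of the syntactic assignment. -/
theorem sem_conv (M : Tm S) : ∀ {θ θ' : ℕ → Tm S} {ρ : ℕ → GV X.C},
    (∀ n, Conv (θ n) (θ' n)) → X.sem θ ρ M = X.sem θ' ρ M := by
  induction M with
  | var n => intros; rfl
  | sort s => intros; rfl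
  | app M N ihM ihN =>
    intro θ θ' ρ h
    have hM := conv_subs M h
    have hN := conv_subs N h
    have hMN := conv_subs (app M N) h
    have e1 : X.TQ2 (M.sub θ) = X.TQ2 (M.sub θ') := propext (tp_conv hM)
    have e2 : X.TQ2 (N.sub θ) = X.TQ2 (N.sub θ') := propext (tp_conv hN)
    simp only [Par2.sem, e1, X.cd2_conv hMN, ihM h, rep_eq hN, e2, ihN h]
  | lam A M ihA ihM =>
    intro θ θ' ρ h
    have hA := conv_subs A h
    have hAM := conv_subs (lam A M) h
    have key : ∀ (N : Tm S) (x : GV X.C),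
        X.sem (scons N θ) (vcons x ρ) M = X.sem (scons N θ') (vcons x ρ) M := by
      intro N x
      exact ihM (conv_scons h)
    have e1 : X.TK2 (M.sub (scons (pick X.P X.D (A.sub θ)) θ)) =
        X.TK2 (M.sub (scons (pick X.P X.D (A.sub θ')) θ')) := by
      rw [pick_conv hA]
      exact propext (tp_conv (conv_subs M (conv_scons h)))
    have e2 : X.TQ2 ((lam A M).sub θ) = X.TQ2 ((lam A M).sub θ') := propext (tp_conv hAM)
    simp only [Par2.sem, key, e1, e2, X.cd2_conv hAM]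
    refine congrArg (fun z => cif _ z _) ?_
    exact mkL_congr rfl (X.kdv2_conv hA) (fun N => tyC_conv hA) (fun _ _ _ _ => rfl)
  | pi A M ihA ihM =>
    intro θ θ' ρ h
    have hA := conv_subs A h
    have hAM := conv_subs (pi A M) h
    have key : ∀ (N : Tm S) (x : GV X.C),
        X.sem (scons N θ) (vcons x ρ) M = X.sem (scons N θ') (vcons x ρ) M := by
      intro N x
      exact ihM (conv_scons h)
    have e1 : ∀ b, TyS X.P X.D (M.sub (scons (pick X.P X.D (A.sub θ)) θ)) b ↔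
        TyS X.P X.D (M.sub (scons (pick X.P X.D (A.sub θ')) θ')) b := by
      intro b
      rw [pick_conv hA]
      exact tyS_conv (conv_subs M (conv_scons h))
    simp only [Par2.sem, key, ihA h, X.cd2_conv hAM]
    refine congrArg (mkT _) (Subtype.ext ?_)
    exact piS_congr (fun a b c => and_congr (tyS_conv hA) (and_congr (e1 b) Iff.rfl))
      (fun N => tyD_conv hA) (X.vv_conv hA) (fun _ _ _ _ => rfl) (fun _ _ _ _ _ _ _ _ => rfl)

end PolT

end Vale.Agent.P340
end

section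

/-! Terms without redexes of kinds whose elements have no values. -/

namespace Vale.Agent.P340

namespace PolT

open Tm
open PolR (Kd Val Cd cdSn dflt SV dfl uv Par TyS tyS_conv tyS_le tyS_iff SP sp_conv sp_le sp_iff
  TP tp_conv tp_iff tp_le TyOf HdV hdv_ren hdv_normal tp_ctx tyS_ctx J.app_inv')
open C1 (rep rep_conv rep_eq conv_subs TyD TyC pick tyD_conv tyC_conv pick_conv pick_spec
  scons_up scons_ups conv_scons HV)

universe u
variable {S : Type u}

/-- The conditions on the sets of sorts. -/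
structure Par2.Ranked2 (X : Par2 S) : Prop where
  e1 : ∀ a b m, X.P.rule a b m → KS X.P X.C b → m ∈ X.E →
    (b ∈ X.E ∨ b ∈ X.Q) ∧ (KS X.P X.C a → a ∈ X.O ∨ a ∈ X.Q)
  o1 : ∀ a b m, X.P.rule a b m → KS X.P X.C b → m ∈ X.O →
    (b ∈ X.O ∨ b ∈ X.Q) ∧ (KS X.P X.C a → a ∈ X.E ∨ a ∈ X.Q)
  q2 : ∀ a b c, X.P.rule a b c → KS X.P X.C a → b ∈ X.C → c ∈ X.C → a ∈ X.Q ∨ a ∈ X.E
  dqe : ∀ a, a ∈ X.Q → a ∉ X.E
  dqo : ∀ a, a ∈ X.Q → a ∉ X.O
  deo : ∀ a, a ∈ X.E → a ∉ X.O

/-- The assumptions of the model. -/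
structure Par2.Setup2 (X : Par2 S) : Prop where
  st : SetupT X.toPar
  r2 : X.Ranked2

theorem Par2.Setup2.fn {X : Par2 S} (H : X.Setup2) : Functional X.P := H.st.fn

theorem Par2.Setup2.qq1 {X : Par2 S} (H : X.Setup2) {a b m : S} (hr : X.P.rule a b m)
    (hb : KS X.P X.C b) (hm : X.QQ m) : X.QQ b ∧ (KS X.P X.C a → X.QQ a) := by
  obtain ⟨-, h | h | h⟩ := hm
  · obtain ⟨h1, h2⟩ := H.st.rnk.q1 a b m hr hb h
    exact ⟨⟨hb, .inl h1⟩, fun ha => ⟨ha, .inl (h2 ha)⟩⟩
  · obtain ⟨h1, h2⟩ := H.r2.e1 a b m hr hb h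
    refine ⟨⟨hb, ?_⟩, fun ha => ⟨ha, ?_⟩⟩
    · rcases h1 with h1 | h1
      · exact .inr (.inl h1)
      · exact .inl h1
    rcases h2 ha with h3 | h3
    · exact .inr (.inr h3)
    · exact .inl h3
  · obtain ⟨h1, h2⟩ := H.r2.o1 a b m hr hb h
    refine ⟨⟨hb, ?_⟩, fun ha => ⟨ha, ?_⟩⟩
    · rcases h1 with h1 | h1
      · exact .inr (.inr h1)
      · exact .inl h1
    rcases h2 ha with h3 | h3
    · exact .inr (.inl h3)
    · exact .inl h3

/-- No redexes of kinds without values in the relevant positions. -/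
def Par2.Cln (X : Par2 S) : Tm S → Ctx S → Prop
  | app F N, G => (TP X.P X.QQ G F → X.Cln F G ∧ (TP X.P X.QQ G N → X.Cln N G)) ∧
    (¬ TP X.P X.QQ G F → HdV F)
  | lam A M, G => TP X.P X.QQ G (lam A M) → TP X.P (KS X.P X.C) (push A G) M →
    X.Cln M (push A G)
  | pi A B, G => ∀ a b c, TyS X.P G A a → TyS X.P (push A G) B b → X.P.rule a b c → c ∈ X.C →
    (a ∈ X.C → X.Cln A G) ∧ (b ∈ X.C → X.Cln B (push A G))
  | _, _ => True

variable {X : Par2 S}

theorem cln_ctx (M : Tm S) : ∀ {G G' : Ctx S}, CLe X.P G G' → CLe X.P G' G →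
    X.Cln M G → X.Cln M G' := by
  induction M with
  | var n => intros; trivial
  | sort s => intros; trivial
  | app F N ihF ihN =>
    intro G G' h h' hc
    refine ⟨fun hF => ?_, fun hF => hc.2 fun h1 => hF ((tp_ctx h h' _).1 h1)⟩
    have h1 := hc.1 ((tp_ctx h h' _).2 hF)
    exact ⟨ihF h h' h1.1, fun hN => ihN h h' (h1.2 ((tp_ctx h h' _).2 hN))⟩
  | lam A M _ ih =>
    intro G G' h h' hc h1 h2
    exact ih (h.push A) (h'.push A) (hc ((tp_ctx h h' _).2 h1)
      ((tp_ctx (h.push A) (h'.push A) _).2 h2))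
  | pi A B ihA ihB =>
    intro G G' h h' hc a b c h1 h2 h3 h4
    obtain ⟨k1, k2⟩ := hc a b c ((tyS_ctx h h' _ _).2 h1)
      ((tyS_ctx (h.push A) (h'.push A) _ _).2 h2) h3 h4
    exact ⟨fun ha => ihA h h' (k1 ha), fun hb => ihB (h.push A) (h'.push A) (k2 hb)⟩

theorem cln_ren (hP : Functional X.P) (M : Tm S) : ∀ {G D : Ctx S} {r : ℕ → ℕ} {T : Tm S},
    WFC X.P G → WFC X.P D → RenC G D r → J X.P G M T → X.Cln M G → X.Cln (M.ren r) D := by
  induction M with
  | var n => intros; trivial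
  | sort s => intros; trivial
  | app F N ihF ihN =>
    intro G D r T hG hD hr hM hc
    obtain ⟨A, B, a, b, m, h1, h2, h3, h4, h5, -⟩ := J.app_inv' hG hM
    have hpi : J X.P G (pi A B) (sort m) := .pi h3 h4 h5
    have e1 : TP X.P X.QQ D (F.ren r) ↔ TP X.P X.QQ G F := by
      rw [tp_iff hP hG h1 hpi, tp_iff hP hD (h1.ren hr) (hpi.ren hr)]
    have e2 : TP X.P X.QQ D (N.ren r) ↔ TP X.P X.QQ G N := by
      rw [tp_iff hP hG h2 h3, tp_iff hP hD (h2.ren hr) (h3.ren hr)]
    refine ⟨fun hF => ?_, fun hF => hdv_ren (hc.2 fun h => hF (e1.2 h)) r⟩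
    have k1 := hc.1 (e1.1 hF)
    exact ⟨ihF hG hD hr h1 k1.1, fun hN => ihN hG hD hr h2 (k1.2 (e2.1 hN))⟩
  | lam A M _ ih =>
    intro G D r T hG hD hr hM hc h1 h2
    obtain ⟨B, a, b, c, k1, k2, k3, k4, k5⟩ := hM.lam_inv'
    have hpi : J X.P G (pi A B) (sort c) := .pi k2 k3 k4
    have hlam : J X.P G (lam A M) (pi A B) := .lam k1 hpi
    have hG' := hG.push k2
    have hD' := hD.push (k2.ren hr)
    refine ih hG' hD' (hr.up A) k1 (hc ?_ ?_)
    · rw [tp_iff hP hG hlam hpi]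
      exact (tp_iff hP hD (hlam.ren hr) (hpi.ren hr)).1 h1
    · rw [tp_iff hP hG' k1 k3]
      exact (tp_iff hP hD' (k1.ren (hr.up A)) (k3.ren (hr.up A))).1 h2
  | pi A B ihA ihB =>
    intro G D r T hG hD hr hM hc a' b' c' h1 h2 h3 h4
    obtain ⟨a, b, c, k1, k2, k3, -⟩ := hM.pi_inv
    have hG' := hG.push k1
    have hD' := hD.push (k1.ren hr)
    cases (tyS_iff hP hD (k1.ren hr)).1 h1
    cases (tyS_iff hP hD' (k2.ren (hr.up A))).1 h2
    obtain ⟨k5, k6⟩ := hc _ _ c' ⟨_, .refl _, k1⟩ ⟨_, .refl _, k2⟩ h3 h4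
    exact ⟨fun ha => ihA hG hD hr k1 (k5 ha), fun hb => ihB hG' hD' (hr.up A) k2 (k6 hb)⟩

/-- Substitutions that preserve cleanness. -/
def SCln (X : Par2 S) (G D : Ctx S) (σ : ℕ → Tm S) : Prop :=
  ∀ n A m, G n = some A → J X.P G A (sort m) → KS X.P X.C m →
    (X.QQ m → X.Cln (σ n) D) ∧ (¬ X.QQ m → ∃ k, σ n = var k)

theorem SCln.up (hP : Functional X.P) {G D : Ctx S} {σ : ℕ → Tm S} (h : SCln X G D σ)
    (hG : WFC X.P G) (hD : WFC X.P D) (hσ : SubC X.P G D σ) {A : Tm S} {a : S}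
    (hA : J X.P G A (sort a)) :
    SCln X (push A G) (push (A.sub σ) D) (ups σ) := by
  intro n B m hB hm hK
  cases n with
  | zero => exact ⟨fun _ => trivial, fun _ => ⟨0, rfl⟩⟩
  | succ n =>
    rw [push_succ, Option.map_eq_some_iff] at hB
    obtain ⟨B, hB, rfl⟩ := hB
    obtain ⟨m', hm'⟩ := hG _ _ hB
    cases hP.sortJ (hm'.wk A) hm
    obtain ⟨h1, h2⟩ := h n B _ hB hm' hK
    refine ⟨fun hq => ?_, fun hq => ?_⟩
    · exact cln_ren hP _ hD (hD.push (hA.sub hσ)) (renC_wk D _) (hσ _ _ hB) (h1 hq)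
    · obtain ⟨k, hk⟩ := h2 hq
      exact ⟨k + 1, by show wk (σ n) = _; rw [hk]; rfl⟩

theorem hdv_sub (hP : Functional X.P) (hq : ∀ a b m, X.P.rule a b m → KS X.P X.C b →
    X.QQ m → X.QQ b) {G D : Ctx S} {σ : ℕ → Tm S} (hσ : SCln X G D σ) (hG : WFC X.P G)
    {F : Tm S} (h : HdV F) : ∀ {K : Tm S} {m : S}, J X.P G F K → J X.P G K (sort m) →
      KS X.P X.C m → ¬ X.QQ m → HdV (F.sub σ) := by
  induction h with
  | @var n _ =>
    intro K m hF hK hm hmQ
    obtain ⟨A, h1, h2⟩ := hF.var_inv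
    obtain ⟨s, hs⟩ := hG _ _ h1
    cases hP.conv_sortJ hG hs hK h2
    obtain ⟨k, hk⟩ := (hσ n A _ h1 hs hm).2 hmQ
    show HdV (σ n)
    rw [hk]; exact .var trivial
  | @app M N _ ih =>
    intro K m hF hK hm hmQ
    obtain ⟨A, B, a, b, c, h1, h2, h3, h4, h5, h6⟩ := J.app_inv' hG hF
    cases hP.conv_sortJ hG (h4.inst_sort h2) hK h6
    refine .app _ (ih h1 (.pi h3 h4 h5) (.rule hm h5) fun hc => hmQ (hq _ _ _ h5 hm hc))

theorem cln_sub (hP : Functional X.P) (hq : ∀ a b m, X.P.rule a b m → KS X.P X.C b →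
    X.QQ m → X.QQ b) (M : Tm S) : ∀ {G D : Ctx S} {σ : ℕ → Tm S},
    WFC X.P G → WFC X.P D → SubC X.P G D σ → SCln X G D σ → Fam X.P X.C G M → X.Cln M G →
      X.Cln (M.sub σ) D := by
  induction M with
  | var n =>
    intro G D σ hG hD hσ hs hM hc
    obtain ⟨A, m, h1, h2, h3⟩ := hM.var_inv hP hG
    obtain ⟨k1, k2⟩ := hs n A m h1 h2 h3
    by_cases hQ : X.QQ m
    · exact k1 hQ
    · obtain ⟨k, hk⟩ := k2 hQ
      show X.Cln (σ n) D
      rw [hk]; trivial
  | sort s => intros; trivial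
  | app F N ihF ihN =>
    intro G D σ hG hD hσ hs hM hc
    obtain ⟨A, B, a, b, m, h1, h2, h3, h4, h5, h6⟩ := hM.app_inv' hP hG
    have hpi : J X.P G (pi A B) (sort m) := .pi h3 h4 h5
    have e1 : TP X.P X.QQ D (F.sub σ) ↔ TP X.P X.QQ G F := by
      rw [tp_iff hP hG h1 hpi, tp_iff hP hD (h1.sub hσ) (hpi.sub hσ)]
    have e2 : TP X.P X.QQ D (N.sub σ) ↔ TP X.P X.QQ G N := by
      rw [tp_iff hP hG h2 h3, tp_iff hP hD (h2.sub hσ) (h3.sub hσ)]
    refine ⟨fun hF => ?_, fun hF => ?_⟩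
    · have k1 := hc.1 (e1.1 hF)
      refine ⟨ihF hG hD hσ hs (hM.app_inv hP hG) k1.1, fun hN => ?_⟩
      have hN' := e2.1 hN
      have ha := (tp_iff hP hG h2 h3).1 hN'
      exact ihN hG hD hσ hs ⟨A, h2, .inr ⟨a, ha.1, h3⟩⟩ (k1.2 hN')
    · have hF' : ¬ TP X.P X.QQ G F := fun h => hF (e1.2 h)
      refine hdv_sub hP hq hs hG (hc.2 hF') h1 hpi (.rule h6 h5) fun hmQ => ?_
      exact hF' ((tp_iff hP hG h1 hpi).2 hmQ)
  | lam A M _ ih =>
    intro G D σ hG hD hσ hs hM hc h1 h2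
    obtain ⟨T, hM, -⟩ := hM
    obtain ⟨B, a, b, c, k1, k2, k3, k4, k5⟩ := hM.lam_inv'
    have hpi : J X.P G (pi A B) (sort c) := .pi k2 k3 k4
    have hlam : J X.P G (lam A M) (pi A B) := .lam k1 hpi
    have hG' := hG.push k2
    have hD' := hD.push (k2.sub hσ)
    have hb : KS X.P X.C b := (tp_iff hP hD' (k1.sub (hσ.up A)) (k3.sub (hσ.up A))).1 h2
    refine ih hG' hD' (hσ.up A) (hs.up hP hG hD hσ k2) ⟨B, k1, .inr ⟨b, hb, k3⟩⟩ (hc ?_ ?_)
    · rw [tp_iff hP hG hlam hpi]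
      exact (tp_iff hP hD (hlam.sub hσ) (hpi.sub hσ)).1 h1
    · exact (tp_iff hP hG' k1 k3).2 hb
  | pi A B ihA ihB =>
    intro G D σ hG hD hσ hs hM hc a' b' c' h1 h2 h3 h4
    obtain ⟨T, hM, -⟩ := hM
    obtain ⟨a, b, c, k1, k2, k3, -⟩ := hM.pi_inv
    have hG' := hG.push k1
    have hD' := hD.push (k1.sub hσ)
    cases (tyS_iff hP hD (k1.sub hσ)).1 h1
    cases (tyS_iff hP hD' (k2.sub (hσ.up A))).1 h2
    obtain ⟨k5, k6⟩ := hc _ _ c' ⟨_, .refl _, k1⟩ ⟨_, .refl _, k2⟩ h3 h4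
    exact ⟨fun ha => ihA hG hD hσ hs (.of_sort k1 ha) (k5 ha),
      fun hb => ihB hG' hD' (hσ.up A) (hs.up hP hG hD hσ k1) (.of_sort k2 hb) (k6 hb)⟩

/-- Normal families are clean. -/
theorem cln_normal (hP : Functional X.P) (M : Tm S) : ∀ {G : Ctx S}, WFC X.P G → Normal M →
    Fam X.P X.C G M → X.Cln M G := by
  induction M with
  | var n => intros; trivial
  | sort s => intros; trivial
  | app F N ihF ihN =>
    intro G hG hn hM
    obtain ⟨A, B, a, b, m, h1, h2, h3, h4, h5, h6⟩ := hM.app_inv' hP hG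
    refine ⟨fun hF => ⟨ihF hG hn.appL (hM.app_inv hP hG), fun hN => ?_⟩, fun hF => ?_⟩
    · have ha := (tp_iff hP hG h2 h3).1 hN
      exact ihN hG hn.appR ⟨A, h2, .inr ⟨a, ha.1, h3⟩⟩
    · refine hdv_normal F h1 hn.appL ?_
      rintro Q R rfl
      exact hn _ (.beta _ _ _)
  | lam A M _ ih =>
    intro G hG hn hM h1 h2
    obtain ⟨T, hM, -⟩ := hM
    obtain ⟨B, a, b, c, k1, k2, k3, k4, k5⟩ := hM.lam_inv'
    have hb := (tp_iff hP (hG.push k2) k1 k3).1 h2
    exact ih (hG.push k2) hn.lamR ⟨B, k1, .inr ⟨b, hb, k3⟩⟩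
  | pi A B ihA ihB =>
    intro G hG hn hM a' b' c' h1 h2 h3 h4
    obtain ⟨T, hM, -⟩ := hM
    obtain ⟨a, b, c, k1, k2, k3, -⟩ := hM.pi_inv
    cases (tyS_iff hP hG k1).1 h1
    cases (tyS_iff hP (hG.push k1) k2).1 h2
    exact ⟨fun ha => ihA hG hn.piL (.of_sort k1 ha),
      fun hb => ihB (hG.push k1) hn.piR (.of_sort k2 hb)⟩

/-- Cleanness is preserved by reduction. -/
theorem cln_step (H : X.Setup2) {M M' : Tm S} (hs : Step M M') : ∀ {G : Ctx S}, WFC X.P G →
    Fam X.P X.C G M → X.Cln M G → X.Cln M' G := by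
  have hP := H.fn
  induction hs with
  | beta A M N =>
    intro G hG hf hc
    obtain ⟨A', B', a, b, m, h1, h2, h3, h4, h5, h6⟩ := hf.app_inv' hP hG
    obtain ⟨B, a', b', c', k1, k2, k3, k4, k5⟩ := h1.lam_inv'
    obtain ⟨e1, e2⟩ := k5.pi_inj
    cases hP.conv_sortJ hG k2 h3 e1
    cases hP.conv_sortJ (hG.push k2) k3 (h4.ctx h3 e1.symm) e2
    have hN : J X.P G N A := .conv h2 k2 e1.symm
    have hQ : TP X.P X.QQ G (lam A M) := by
      by_contra h
      have := hc.2 h
      cases this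
    have hQm := (tp_iff hP hG h1 (.pi h3 h4 h5)).1 hQ
    obtain ⟨c1, c2⟩ := hc.1 hQ
    have c3 := c1 hQ ((tp_iff hP (hG.push k2) k1 k3).2 h6)
    refine cln_sub hP (fun a b m h1 h2 h3 => (H.qq1 h1 h2 h3).1) M (hG.push k2) hG
      (subC_single hN) ?_ ⟨B, k1, .inr ⟨_, h6, k3⟩⟩ c3
    intro n E q hE hq hK
    cases n with
    | zero =>
      simp only [push_zero, Option.some.injEq] at hE
      subst hE
      cases hP.sortJ (k2.wk A) hq
      have hqa : X.QQ _ := (H.qq1 h5 h6 hQm).2 hK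
      exact ⟨fun _ => c2 ((tp_iff hP hG hN k2).2 hqa), fun h => absurd hqa h⟩
    | succ n => exact ⟨fun _ => trivial, fun _ => ⟨n, rfl⟩⟩
  | @appL M M' N hs ih =>
    intro G hG hf hc
    obtain ⟨A, B, a, b, m, h1, h2, h3, h4, h5, h6⟩ := hf.app_inv' hP hG
    have hpi : J X.P G (pi A B) (sort m) := .pi h3 h4 h5
    have e1 : TP X.P X.QQ G M' ↔ TP X.P X.QQ G M := by
      rw [tp_iff hP hG h1 hpi, tp_iff hP hG (h1.step hG hs) hpi]
    refine ⟨fun hF => ?_, fun hF => (hc.2 fun h => hF (e1.2 h)).step hs⟩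
    have k1 := hc.1 (e1.1 hF)
    exact ⟨ih hG (hf.app_inv hP hG) k1.1, k1.2⟩
  | @appR M N N' hs ih =>
    intro G hG hf hc
    obtain ⟨A, B, a, b, m, h1, h2, h3, h4, h5, h6⟩ := hf.app_inv' hP hG
    refine ⟨fun hF => ?_, hc.2⟩
    have k1 := hc.1 hF
    refine ⟨k1.1, fun hN => ?_⟩
    have ha := (tp_iff hP hG (h2.step hG hs) h3).1 hN
    exact ih hG ⟨A, h2, .inr ⟨a, ha.1, h3⟩⟩ (k1.2 ((tp_iff hP hG h2 h3).2 ha))
  | @lamL A A' M hs ih =>
    intro G hG hf hc h1 h2
    obtain ⟨T, hM, -⟩ := hf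
    obtain ⟨B, a, b, c, k1, k2, k3, k4, k5⟩ := hM.lam_inv'
    have hc' : Conv A A' := .rel _ _ hs
    have k2' := k2.step hG hs
    have l1 : CLe X.P (push A G) (push A' G) := CLe.conv k2 hc'
    have l2 : CLe X.P (push A' G) (push A G) := CLe.conv k2' hc'.symm
    exact cln_ctx M l1 l2 (hc ((tp_conv (.rel _ _ (.lamL M hs))).2 h1) ((tp_ctx l1 l2 M).2 h2))
  | @lamR A M M' hs ih =>
    intro G hG hf hc h1 h2
    obtain ⟨T, hM, -⟩ := hf
    obtain ⟨B, a, b, c, k1, k2, k3, k4, k5⟩ := hM.lam_inv'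
    have h3 := (tp_conv (.rel _ _ hs)).2 h2
    have hb := (tp_iff hP (hG.push k2) k1 k3).1 h3
    exact ih (hG.push k2) ⟨B, k1, .inr ⟨b, hb, k3⟩⟩
      (hc ((tp_conv (.rel _ _ (.lamR A hs))).2 h1) h3)
  | @piL A A' B hs ih =>
    intro G hG hf hc a' b' c' h1 h2 h3 h4
    obtain ⟨T, hM, -⟩ := hf
    obtain ⟨a, b, c, k1, k2, k3, -⟩ := hM.pi_inv
    have hc' : Conv A A' := .rel _ _ hs
    have k1' := k1.step hG hs
    have l1 : CLe X.P (push A G) (push A' G) := CLe.conv k1 hc'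
    have l2 : CLe X.P (push A' G) (push A G) := CLe.conv k1' hc'.symm
    cases (tyS_iff hP hG k1').1 h1
    obtain ⟨k5, k6⟩ := hc _ b' c' ⟨_, .refl _, k1⟩ ((tyS_ctx l1 l2 B b').2 h2) h3 h4
    exact ⟨fun ha => ih hG (.of_sort k1 ha) (k5 ha), fun hb => cln_ctx B l1 l2 (k6 hb)⟩
  | @piR A B B' hs ih =>
    intro G hG hf hc a' b' c' h1 h2 h3 h4
    obtain ⟨T, hM, -⟩ := hf
    obtain ⟨a, b, c, k1, k2, k3, -⟩ := hM.pi_inv
    obtain ⟨k5, k6⟩ := hc a' b' c' h1 ((tyS_conv (.rel _ _ hs)).2 h2) h3 h4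
    cases (tyS_iff hP (hG.push k1) (k2.step (hG.push k1) hs)).1 h2
    exact ⟨k5, fun hb => ih (hG.push k1) (.of_sort k2 hb) (k6 hb)⟩

end PolT

end Vale.Agent.P340
end

section

/-! Environments and codes of values. -/

namespace Vale.Agent.P340

namespace PolT

open Tm
open PolR (Kd Cd cdSn TyS tyS_conv tyS_le tyS_iff SP sp_conv sp_le sp_iff
  TP tp_conv tp_iff tp_le TyOf)
open C1 (rep rep_conv rep_eq conv_subs TyD TyC pick tyD_conv tyC_conv pick_conv pick_spec
  scons_up scons_ups conv_scons)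

universe u
variable {S : Type u}

/-- Compatible environments. -/
structure Env (X : Par2 S) (G : Ctx S) (θ : ℕ → Tm S) (ρ : ℕ → GV X.C) : Prop where
  wf : WFC X.P G
  nc : NCtx X.P G
  sub : SubC X.P G X.D θ
  val : ∀ n A m, G n = some A → J X.P G A (sort m) → KS X.P X.C m → X.VV (A.sub θ) (ρ n)

variable {X : Par2 S} {G : Ctx S} {θ : ℕ → Tm S} {ρ : ℕ → GV X.C}

theorem isQ_iff (H : X.Setup2) {Q : Tm S} {a : S} (hQ : J X.P X.D Q (sort a)) :
    X.IsQQ Q ↔ X.QQ a := H.st.sp hQ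

theorem isK_iff (H : X.Setup2) {Q : Tm S} {a : S} (hQ : J X.P X.D Q (sort a)) :
    X.IsK Q ↔ KS X.P X.C a := H.st.sp hQ

theorem ek_e (H : X.Setup2) {Q : Tm S} {a : S} (hQ : J X.P X.D Q (sort a)) (ha : KS X.P X.C a)
    (hE : a ∈ X.E) : X.ek Q = .e := if_pos ((H.st.sp hQ).2 ⟨ha, hE⟩)

theorem ek_o (H : X.Setup2) {Q : Tm S} {a : S} (hQ : J X.P X.D Q (sort a)) (ha : KS X.P X.C a)
    (hO : a ∈ X.O) : X.ek Q = .o := by
  have h1 : ¬ SP X.P X.EK X.D Q := fun h => H.r2.deo a ((H.st.sp hQ).1 h).2 hO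
  have h2 : SP X.P X.OK X.D Q := (H.st.sp hQ).2 ⟨ha, hO⟩
  exact (if_neg h1).trans (if_pos h2)

theorem ek_b (H : X.Setup2) {Q : Tm S} {a : S} (hQ : J X.P X.D Q (sort a))
    (hE : ¬ (KS X.P X.C a ∧ a ∈ X.E)) (hO : ¬ (KS X.P X.C a ∧ a ∈ X.O)) :
    X.ek Q = .b (X.kd Q) := by
  have h1 : ¬ SP X.P X.EK X.D Q := fun h => hE ((H.st.sp hQ).1 h)
  have h2 : ¬ SP X.P X.OK X.D Q := fun h => hO ((H.st.sp hQ).1 h)
  exact (if_neg h1).trans (if_neg h2)

theorem ek_q (H : X.Setup2) {Q : Tm S} {a : S} (hQ : J X.P X.D Q (sort a))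
    (ha : a ∈ X.Q) : X.ek Q = .b (X.kd Q) :=
  ek_b H hQ (fun h => H.r2.dqe a ha h.2) (fun h => H.r2.dqo a ha h.2)

theorem ek_n (H : X.Setup2) {Q : Tm S} {a : S} (hQ : J X.P X.D Q (sort a))
    (ha : ¬ X.QQ a) : X.ek Q = .b (X.kd Q) :=
  ek_b H hQ (fun h => ha ⟨h.1, .inr (.inl h.2)⟩) (fun h => ha ⟨h.1, .inr (.inr h.2)⟩)

theorem kdv2_pos (H : X.Setup2) {Q : Tm S} {a : S} (hQ : J X.P X.D Q (sort a)) (ha : X.QQ a) :
    X.kdv2 Q = X.ek Q := if_pos ((isQ_iff H hQ).2 ha)

theorem kdv2_neg (H : X.Setup2) {Q : Tm S} {a : S} (hQ : J X.P X.D Q (sort a))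
    (ha : ¬ X.QQ a) : X.kdv2 Q = .b .unit := if_neg fun h => ha ((isQ_iff H hQ).1 h)

theorem kdv_q (H : X.Setup2) {Q : Tm S} {a : S} (hQ : J X.P X.D Q (sort a))
    (ha : X.QK a) : X.kdv2 Q = .b (X.kdv Q) := by
  rw [kdv2_pos H hQ ⟨ha.1, .inl ha.2⟩, ek_q H hQ ha.2]
  congr 1
  exact (if_pos ((H.st.sp hQ).2 ha)).symm

theorem kdv_n (H : X.Setup2) {Q : Tm S} {a : S} (hQ : J X.P X.D Q (sort a))
    (ha : ¬ X.QQ a) : X.kdv2 Q = .b (X.kdv Q) := by
  rw [kdv2_neg H hQ ha]
  congr 1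
  exact (if_neg fun h => ha (by
    have := (H.st.sp hQ).1 h
    exact ⟨this.1, .inl this.2⟩)).symm

theorem vv_of (H : X.Setup2) {Q : Tm S} {a : S} (hQ : J X.P X.D Q (sort a))
    (ha : KS X.P X.C a → X.QQ a) {x : GV X.C} (hx : x.cl = X.kdv2 Q) : X.VV Q x := by
  refine ⟨fun h => ?_, fun h1 h2 => ?_, fun h => ?_⟩
  · rw [hx, kdv2_pos H hQ ((isQ_iff H hQ).1 h)]
  · exact absurd ((isQ_iff H hQ).2 (ha ((isK_iff H hQ).1 h2))) h1
  · have h1 : ¬ X.QQ a := fun h' => h ((isK_iff H hQ).2 h'.1)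
    rw [kdv2_neg H hQ h1] at hx
    obtain ⟨y, rfl, hy⟩ := cl_b hx
    rw [eq_uv hy]

open Classical in
theorem vv_ex (Q : Tm S) : ∃ x, X.VV Q x := by
  by_cases hK : X.IsK Q
  · exact ⟨dfg (X.ek Q), fun _ => dfg_cl _, fun _ _ => rfl, fun h => absurd hK h⟩
  · refine ⟨.b uv, fun h => ?_, fun _ h => absurd h hK, fun _ => rfl⟩
    obtain ⟨a, h1, h2⟩ := h
    exact absurd ⟨a, h1.1, h2⟩ hK

theorem Env.push (H : X.Setup2) (he : Env X G θ ρ) {A : Tm S} {a : S}
    (hA : J X.P G A (sort a)) {N : Tm S} {x : GV X.C} (hN : J X.P X.D N (A.sub θ))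
    (hx : X.VV (A.sub θ) x) :
    Env X (push A G) (scons N θ) (vcons x ρ) where
  wf := he.wf.push hA
  nc := he.nc.push hA
  sub := he.sub.scons hN
  val := by
    intro n B m hB hm hK
    cases n with
    | zero =>
      simp only [push_zero, Option.some.injEq] at hB
      subst hB
      rw [sub_scons_wk]
      exact hx
    | succ n =>
      rw [push_succ, Option.map_eq_some_iff] at hB
      obtain ⟨B, hB, rfl⟩ := hB
      obtain ⟨s', hs'⟩ := he.wf _ _ hB
      rw [sub_scons_wk]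
      cases H.fn.sortJ (hs'.wk A) hm
      exact he.val n B _ hB hs' hK

theorem of_tyD {A N : Tm S} {s : S} (hA : J X.P X.D A (sort s)) (hN : TyD X.P X.D N A) :
    J X.P X.D N A := by
  obtain ⟨L, h1, h2⟩ := hN
  exact .conv h1 hA h2

theorem pickTy (H : X.Setup2) {A : Tm S} {s : S} (hA : J X.P X.D A (sort s)) :
    J X.P X.D (pick X.P X.D A) A := by
  obtain ⟨N, hN⟩ := H.st.inh hA
  exact of_tyD hA (pick_spec ⟨N, _, hN, .refl _⟩)

theorem app_fst_arr {x y : SV X.C} {N : Tm S} {c k : Kd S} {f : Tm S → Kd S}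
    (h : x.1 = .arr k f) : (x.app c N y).1 = f N := by
  obtain ⟨k0, f⟩ := x
  cases h
  rfl

theorem app_fst_univ {x y : SV X.C} {N : Tm S} {c : Kd S} {h : Tm S → Kd S}
    (hx : x.1 = .univ h) : (x.app c N y).1 = c := by
  obtain ⟨k0, f⟩ := x
  cases hx
  exact lowC_fst h c _

open Classical in
/-- Code of a product kind. -/
theorem kdPi (H : X.Setup2) (hθ : SubC X.P G X.D θ) {A B : Tm S} {a b m : S}
    (hA : J X.P G A (sort a)) (hB : J X.P (push A G) B (sort b)) (hr : X.P.rule a b m)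
    (hb : KS X.P X.C b) (hm : X.QK m) (hU : m ∉ X.U) :
    X.kd ((pi A B).sub θ) = .arr (X.kdv (A.sub θ))
      (fun N => if TyC X.P X.D N (A.sub θ) then X.kd (B.sub (scons N θ)) else .unit) := by
  show X.kd (pi (A.sub θ) (B.sub (ups θ))) = _
  rw [H.st.kd_arr (hA.sub hθ) (hB.sub (hθ.up A)) hr hb hm hU]
  congr 1
  funext N
  rw [inst_ups]

theorem tk_body (H : X.Setup2) (hθ : SubC X.P G X.D θ) {A M B N : Tm S} {b : S}
    (hM : J X.P (push A G) M B) (hB : J X.P (push A G) B (sort b))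
    (hN : J X.P X.D N (A.sub θ)) : X.TK2 (M.sub (scons N θ)) ↔ KS X.P X.C b :=
  tp_iff H.fn H.st.wf (hM.sub (hθ.scons hN)) (hB.sub (hθ.scons hN))

theorem tq_iff (H : X.Setup2) (hθ : SubC X.P G X.D θ) {N A : Tm S} {a : S}
    (hN : J X.P G N A) (hA : J X.P G A (sort a)) : X.TQ2 (N.sub θ) ↔ X.QQ a :=
  tp_iff H.fn H.st.wf (hN.sub hθ) (hA.sub hθ)

theorem tyC_rep {A N : Tm S} (hN : J X.P X.D N A) : TyC X.P X.D (rep N) A :=
  ⟨_, (rep_conv _).symm, _, hN, .refl _⟩

/-- The code of the value of a family is the code of its kind. -/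
theorem code (H : X.Setup2) (F : Tm S) : ∀ {K : Tm S}, Env X G θ ρ → J X.P G F K →
    Fam X.P X.C G F → (X.sem θ ρ F).cl = X.ek (K.sub θ) := by
  classical
  induction F with
  | var n =>
    intro K he hF hf
    obtain ⟨A, m, h1, h2, h3⟩ := hf.var_inv H.fn he.wf
    rw [← X.ek_conv ((H.fn.uniqueJ (.var h1) hF).sub θ)]
    have hv := he.val n A m h1 h2 h3
    show (ρ n).cl = _
    by_cases hq : X.QQ m
    · exact hv.1 ((isQ_iff H (h2.sub he.sub)).2 hq)
    · rw [hv.2.1 (fun h => hq ((isQ_iff H (h2.sub he.sub)).1 h))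
        ((isK_iff H (h2.sub he.sub)).2 h3)]
      exact dfg_cl _
  | sort u =>
    intro K he hF hf
    show (mkT _ _).cl = _
    rw [mkT_cl]
    exact Par2.cd2_eq H.fn H.st.wf (hF.sub he.sub)
  | pi A B ihA ihB =>
    intro K he hF hf
    show (mkT _ _).cl = _
    rw [mkT_cl]
    exact Par2.cd2_eq H.fn H.st.wf (hF.sub he.sub)
  | app M N ihM ihN =>
    intro K he hF hf
    obtain ⟨A, B, a, b, m, h1, h2, h3, h4, h5, h6⟩ := hf.app_inv' H.fn he.wf
    have hpi : J X.P G (pi A B) (sort m) := .pi h3 h4 h5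
    have e1 : X.TQ2 (M.sub θ) ↔ X.QQ m := tq_iff H he.sub h1 hpi
    simp only [Par2.sem]
    have hcd : X.cd2 ((app M N).sub θ) = X.ek (K.sub θ) :=
      Par2.cd2_eq H.fn H.st.wf (hF.sub he.sub)
    by_cases hq : X.QQ m
    · rw [cif_pos (e1.2 hq), hcd]
      have ih := ihM he h1 (hf.app_inv H.fn he.wf)
      rw [← X.ek_conv ((H.fn.uniqueJ (.app h1 h2) hF).sub θ), sub_inst, inst_ups]
      have h7 := h4.sub (he.sub.scons (h2.sub he.sub))
      obtain ⟨hq1, hq2 | hq2 | hq2⟩ := hq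
      · have hQ : X.QK m := ⟨hq1, hq2⟩
        obtain ⟨q1, -⟩ := H.st.rnk.q1 _ _ _ h5 h6 hq2
        rw [ek_q H (hpi.sub he.sub) hq2] at ih
        obtain ⟨x, hx, hx1⟩ := cl_b ih
        rw [hx, ek_q H (a := b) h7 q1]
        show Cl.b _ = Cl.b _
        congr 1
        by_cases hU : m ∈ X.U
        · rw [H.st.kd_univ (hpi.sub he.sub) hQ hU] at hx1
          exact app_fst_univ hx1
        · rw [kdPi H he.sub h3 h4 h5 h6 hQ hU] at hx1
          rw [app_fst_arr hx1]
          show (if TyC X.P X.D (rep (N.sub θ)) (A.sub θ) then _ else _) = _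
          rw [if_pos (tyC_rep (h2.sub he.sub))]
          refine X.kd_conv (conv_subs B fun n => ?_)
          cases n with
          | zero => exact (rep_conv _).symm
          | succ n => exact .refl _
      · obtain ⟨q1, -⟩ := H.r2.e1 _ _ _ h5 h6 hq2
        rw [ek_e H (hpi.sub he.sub) hq1 hq2] at ih
        obtain ⟨g, hg⟩ := cl_e ih
        rw [hg]
        rcases q1 with q1 | q1
        · rw [ek_e H (a := b) h7 h6 q1]; rfl
        · rw [ek_q H (a := b) h7 q1]; rfl
      · obtain ⟨q1, -⟩ := H.r2.o1 _ _ _ h5 h6 hq2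
        rw [ek_o H (hpi.sub he.sub) hq1 hq2] at ih
        obtain ⟨g, hg⟩ := cl_o ih
        rw [hg]
        rcases q1 with q1 | q1
        · rw [ek_o H (a := b) h7 h6 q1]; rfl
        · rw [ek_q H (a := b) h7 q1]; rfl
    · rw [cif_neg (fun h => hq (e1.1 h)), dfg_cl]
      exact Par2.cd2_eq H.fn H.st.wf (hF.sub he.sub)
  | lam A M ihA ihM =>
    intro K he hF hf
    simp only [Par2.sem]
    by_cases h : X.TQ2 ((lam A M).sub θ) ∧ X.TK2 (M.sub (scons (pick X.P X.D (A.sub θ)) θ))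
    · rw [cif_pos h, mkL_cl]
      exact Par2.cd2_eq H.fn H.st.wf (hF.sub he.sub)
    · rw [cif_neg h, dfg_cl]
      exact Par2.cd2_eq H.fn H.st.wf (hF.sub he.sub)

theorem ds_congr {C : Set S} {a : S} {Y Y' : GV C} (h : a ∈ C → Y.set = Y'.set) :
    DS C a Y.set = DS C a Y'.set := by
  by_cases ha : a ∈ C
  · rw [h ha]
  · ext T; exact ⟨fun h => ⟨h.1, fun h => absurd h ha⟩, fun h => ⟨h.1, fun h => absurd h ha⟩⟩

/-- Only the values of the family variables matter. -/
theorem sem_agree (H : X.Setup2) (M : Tm S) :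
    ∀ {G : Ctx S} {θ : ℕ → Tm S} {ρ ρ' : ℕ → GV X.C}, WFC X.P G → SubC X.P G X.D θ →
      Fam X.P X.C G M →
      (∀ n A m, G n = some A → J X.P G A (sort m) → KS X.P X.C m → ρ n = ρ' n) →
      X.sem θ ρ M = X.sem θ ρ' M := by
  have hup : ∀ {G : Ctx S} {ρ ρ' : ℕ → GV X.C} {A : Tm S} (x : GV X.C), WFC X.P G →
      (∀ n A m, G n = some A → J X.P G A (sort m) → KS X.P X.C m → ρ n = ρ' n) →
      ∀ n B m, push A G n = some B → J X.P (push A G) B (sort m) → KS X.P X.C m →
        vcons x ρ n = vcons x ρ' n := by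
    intro G ρ ρ' A x hG h n B m hB hm hK
    cases n with
    | zero => rfl
    | succ n =>
      rw [push_succ, Option.map_eq_some_iff] at hB
      obtain ⟨B, hB, rfl⟩ := hB
      obtain ⟨s', hs'⟩ := hG _ _ hB
      cases H.fn.sortJ (hs'.wk A) hm
      exact h n B _ hB hs' hK
  induction M with
  | var n =>
    intro G θ ρ ρ' hG hθ hf h
    obtain ⟨A, m, h1, h2, h3⟩ := hf.var_inv H.fn hG
    exact h n A m h1 h2 h3
  | sort s => intros; rfl
  | app F N ihF ihN =>
    intro G θ ρ ρ' hG hθ hf h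
    obtain ⟨A, B, a, b, m, h1, h2, h3, h4, h5, h6⟩ := hf.app_inv' H.fn hG
    simp only [Par2.sem]
    rw [ihF hG hθ (hf.app_inv H.fn hG) h]
    by_cases ha : X.QQ a
    · rw [ihN hG hθ ⟨A, h2, .inr ⟨a, ha.1, h3⟩⟩ h]
    · have e1 : ¬ X.TQ2 (N.sub θ) := fun h => ha ((tq_iff H hθ h2 h3).1 h)
      rw [cif_neg e1, cif_neg e1]
  | lam A M ihA ihM =>
    intro G θ ρ ρ' hG hθ hf h
    obtain ⟨T, hF, -⟩ := hf
    obtain ⟨B, a, b, c, h1, h2, h3, h4, h5⟩ := hF.lam_inv'
    have hp := pickTy H (h2.sub hθ)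
    have e1 := tk_body H hθ h1 h3 hp
    simp only [Par2.sem]
    by_cases hb : KS X.P X.C b
    · refine congrArg (fun z => cif _ z _) ?_
      refine mkL_congr rfl rfl (fun _ => Iff.rfl) ?_
      rintro N ⟨N', hc, hN'⟩ x _
      have hcs : ∀ n, Conv (scons N θ n) (scons N' θ n) := by
        intro n; cases n with
        | zero => exact hc
        | succ n => exact .refl _
      rw [sem_conv M hcs, sem_conv M hcs]
      exact ihM (hG.push h2) (hθ.scons (of_tyD (h2.sub hθ) hN')) ⟨B, h1, .inr ⟨b, hb, h3⟩⟩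
        (hup x hG h)
    · rw [cif_neg (fun h => hb (e1.1 h.2)), cif_neg (fun h => hb (e1.1 h.2))]
  | pi A B ihA ihB =>
    intro G θ ρ ρ' hG hθ hf h
    obtain ⟨T, hF, -⟩ := hf
    obtain ⟨a, b, c, h1, h2, h3, -⟩ := hF.pi_inv
    have hp := pickTy H (h1.sub hθ)
    simp only [Par2.sem]
    refine congrArg (mkT _) (Subtype.ext ?_)
    refine piS_congr (fun _ _ _ => Iff.rfl) (fun _ => Iff.rfl) (fun _ => Iff.rfl) ?_ ?_
    · rintro a' b' c' ⟨k1, -⟩
      cases (tyS_iff H.fn H.st.wf (h1.sub hθ)).1 k1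
      exact ds_congr fun ha => congrArg _ (ihA hG hθ (.of_sort h1 ha) h)
    · rintro a' b' c' ⟨-, k2, -⟩ N hN x _
      cases (tyS_iff H.fn H.st.wf (h2.sub (hθ.scons hp))).1 k2
      exact ds_congr fun hb => congrArg _ (ihB (hG.push h1) (hθ.scons (of_tyD (h1.sub hθ) hN))
        (.of_sort h2 hb) (hup x hG h))

/-- The value of a variable that is not a family variable does not matter. -/
theorem sem_agree0 (H : X.Setup2) {A M N : Tm S} {a : S} (hG : WFC X.P G)
    (hA : J X.P G A (sort a)) (hθ : SubC X.P G X.D θ) (hN : J X.P X.D N (A.sub θ))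
    (hM : Fam X.P X.C (push A G) M) {x x' : GV X.C} (hx : KS X.P X.C a → x = x') :
    X.sem (scons N θ) (vcons x ρ) M = X.sem (scons N θ) (vcons x' ρ) M := by
  refine sem_agree H M (hG.push hA) (hθ.scons hN) hM ?_
  intro n B m hB hm hK
  cases n with
  | zero =>
    simp only [push_zero, Option.some.injEq] at hB
    subst hB
    cases H.fn.sortJ (hA.wk A) hm
    exact hx hK
  | succ n => rfl

/-- The value of the argument. -/
theorem arg_code (H : X.Setup2) (he : Env X G θ ρ) {A N : Tm S} {a : S}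
    (hN : J X.P G N A) (hA : J X.P G A (sort a)) :
    (cif (X.TQ2 (N.sub θ)) (X.sem θ ρ N) (.b uv)).cl = X.kdv2 (A.sub θ) := by
  have e1 : X.TQ2 (N.sub θ) ↔ X.QQ a := tq_iff H he.sub hN hA
  by_cases ha : X.QQ a
  · rw [cif_pos (e1.2 ha), kdv2_pos H (hA.sub he.sub) ha]
    exact code H N he hN ⟨A, hN, .inr ⟨a, ha.1, hA⟩⟩
  · rw [cif_neg (fun h => ha (e1.1 h)), kdv2_neg H (hA.sub he.sub) ha]; rfl

/-- Interpretation of an instance, typed version. -/
theorem sem_instT (H : X.Setup2) (he : Env X G θ ρ) {A M N : Tm S} {a : S}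
    (hA : J X.P G A (sort a)) (hN : J X.P G N A)
    (hM : Fam X.P X.C (Vale.Agent.P340.push A G) M) (ha : KS X.P X.C a → X.QQ a) :
    X.sem θ ρ (inst M N) = X.sem (scons (N.sub θ) θ)
      (vcons (cif (X.TQ2 (N.sub θ)) (X.sem θ ρ N) (.b uv)) ρ) M := by
  rw [sem_inst]
  refine sem_agree0 H he.wf hA he.sub (hN.sub he.sub) hM fun hK => ?_
  rw [cif_pos ((tq_iff H he.sub hN hA).2 (ha hK))]

end PolT

end Vale.Agent.P340
end

section

/-! Values of expressions have small support. -/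

namespace Vale.Agent.P340

namespace PolT

open Tm
open PolR (Kd Cd cdSn TyS tyS_conv tyS_le tyS_iff SP sp_conv sp_le sp_iff
  TP tp_conv tp_iff tp_le TyOf)
open C1 (rep rep_conv rep_eq conv_subs TyD TyC pick tyD_conv tyC_conv pick_conv pick_spec
  scons_up scons_ups conv_scons)

universe u v
variable {S : Type u}

section
variable {C : Set S}

/-- Agreement of values on coordinates. -/
inductive AgV (W : Set (A0 C)) : GV C → GV C → Prop where
  | e {g g' : V0 C} : (∀ k ∈ W, g k = g' k) → AgV W (.e g) (.e g')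
  | b (x : SV C) : AgV W (.b x) (.b x)
  | o (F : VO C) : AgV W (.o F) (.o F)

theorem AgV.refl (W : Set (A0 C)) (x : GV C) : AgV W x x := by
  cases x with
  | b x => exact .b x
  | e g => exact .e fun _ _ => rfl
  | o F => exact .o F

theorem AgV.mono {W W' : Set (A0 C)} (h : W ⊆ W') {x x' : GV C} (hx : AgV W' x x') :
    AgV W x x' := by
  cases hx with
  | b x => exact .b x
  | e h' => exact .e fun k hk => h' k (h hk)
  | o F => exact .o F

theorem AgV.cl {W : Set (A0 C)} {x x' : GV C} (h : AgV W x x') : x.cl = x'.cl := by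
  cases h <;> rfl

theorem AgV.eq {W : Set (A0 C)} {x x' : GV C} (h : AgV W x x') (hx : x.cl ≠ .e) : x = x' := by
  cases h with
  | b x => rfl
  | e _ => exact absurd rfl hx
  | o F => rfl

theorem AgV.a1 {W : Set (A0 C)} {x x' : GV C} (h : AgV W x x') : AgA W x.a1 x'.a1 := by
  cases h with
  | b x => exact .inr _
  | e h => exact .inl h
  | o F => exact .inr _

theorem AgV.set_eq {x x' : GV C} (h : AgV {[]} x x') : x.set = x'.set := by
  cases h with
  | b x => rfl
  | @e g g' h => show (g []).set = (g' []).set; rw [h [] rfl]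
  | o F => rfl

theorem AgV.of_all {W : Set (A0 C)} {l0 : A0 C} {x x' : GV C} (h0 : AgV {l0} x x')
    (h : ∀ l ∈ W, AgV {l} x x') : AgV W x x' := by
  cases h0 with
  | b x => exact .b x
  | o F => exact .o F
  | e _ =>
    refine .e fun k hk => ?_
    cases h k hk with
    | e h' => exact h' k rfl

theorem AgV.trans0 {x y z : GV C} (h : AgV ∅ x y) (h' : AgV ∅ y z) : AgV ∅ x z := by
  cases h with
  | b x => exact h'
  | o F => exact h'
  | e _ => cases h' with
    | e _ => exact .e fun k hk => absurd hk (by simp)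

theorem AgV.symm0 {x y : GV C} (h : AgV ∅ x y) : AgV ∅ y x := by
  cases h with
  | b x => exact .b x
  | o F => exact .o F
  | e _ => exact .e fun k hk => absurd hk (by simp)

/-- Agreement of assignments on coordinates. -/
def AgE (W : Set (A0 C)) (ρ ρ' : ℕ → GV C) : Prop := ∀ n, AgV W (ρ n) (ρ' n)

theorem AgE.mono {W W' : Set (A0 C)} (h : W ⊆ W') {ρ ρ' : ℕ → GV C} (hx : AgE W' ρ ρ') :
    AgE W ρ ρ' := fun n => (hx n).mono h

theorem AgE.vcons {W : Set (A0 C)} {ρ ρ' : ℕ → GV C} (h : AgE W ρ ρ') {x x' : GV C}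
    (hx : AgV W x x') : AgE W (vcons x ρ) (vcons x' ρ') := by
  intro n
  cases n with
  | zero => exact hx
  | succ n => exact h n

theorem AgE.refl (W : Set (A0 C)) (ρ : ℕ → GV C) : AgE W ρ ρ := fun _ => .refl _ _

/-- `R` holds for assignments of the shape of `ρ0` that agree on `W`. -/
def Dpd (ρ0 : ℕ → GV C) (R : (ℕ → GV C) → (ℕ → GV C) → Prop) (W : Set (A0 C)) : Prop :=
  ∀ ρ ρ', AgE ∅ ρ0 ρ → AgE ∅ ρ0 ρ' → AgE W ρ ρ' → R ρ ρ'

theorem Dpd.mono {ρ0 : ℕ → GV C} {R : (ℕ → GV C) → (ℕ → GV C) → Prop} {W W' : Set (A0 C)}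
    (h : W ⊆ W') (hW : Dpd ρ0 R W) : Dpd ρ0 R W' := fun ρ ρ' h1 h2 h3 => hW ρ ρ' h1 h2 (h3.mono h)

/-- Unions of small sets. -/
theorem ex_union {ι : Type v} [Small.{u} ι] {Q : ι → Set (A0 C) → Prop}
    (hm : ∀ i W W', W ⊆ W' → Q i W → Q i W') (h : ∀ i, ∃ W : Set (A0 C), Small.{u} W ∧ Q i W) :
    ∃ W : Set (A0 C), Small.{u} W ∧ ∀ i, Q i W := by
  choose W hW hQ using h
  exact ⟨⋃ i, W i, inferInstance, fun i => hm i _ _ (Set.subset_iUnion W i) (hQ i)⟩

theorem ex_and {Q Q' : Set (A0 C) → Prop} (hm : ∀ W W', W ⊆ W' → Q W → Q W')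
    (hm' : ∀ W W', W ⊆ W' → Q' W → Q' W') (h : ∃ W : Set (A0 C), Small.{u} W ∧ Q W)
    (h' : ∃ W : Set (A0 C), Small.{u} W ∧ Q' W) : ∃ W : Set (A0 C), Small.{u} W ∧ Q W ∧ Q' W := by
  obtain ⟨W, h1, h2⟩ := h
  obtain ⟨W', h3, h4⟩ := h'
  exact ⟨W ∪ W', inferInstance, hm _ _ Set.subset_union_left h2,
    hm' _ _ Set.subset_union_right h4⟩

open Classical in
/-- Functions with small support have few values. -/
theorem small_vals {T : Type v} (ρ0 : ℕ → GV C) (F : (ℕ → GV C) → T) {W : Set (A0 C)}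
    [Small.{u} W] (h : Dpd ρ0 (fun ρ ρ' => F ρ = F ρ') W) :
    Small.{u} {x | ∃ ρ, AgE ∅ ρ0 ρ ∧ F ρ = x} := by
  let asg : (ℕ → W → SV C) → ℕ → GV C := fun τ n =>
    match ρ0 n with
    | .e g => .e fun k => if hk : k ∈ W then τ n ⟨k, hk⟩ else g k
    | x => x
  have h1 : {x | ∃ ρ, AgE ∅ ρ0 ρ ∧ F ρ = x} ⊆ Set.range fun τ => F (asg τ) := by
    rintro x ⟨ρ, hρ, rfl⟩
    refine ⟨fun n k => (ρ n).te k.1, ?_⟩
    have key : ∀ n, AgV ∅ (ρ0 n) (asg (fun n k => (ρ n).te k.1) n) ∧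
        AgV W (asg (fun n k => (ρ n).te k.1) n) (ρ n) := by
      intro n
      have h2 := hρ n
      simp only [asg]
      generalize ρ0 n = x0 at h2
      generalize ρ n = x1 at h2
      cases h2 with
      | b x => exact ⟨.b _, .b _⟩
      | o F => exact ⟨.o _, .o _⟩
      | @e g g' _ =>
        refine ⟨.e fun k hk => absurd hk (by simp), .e fun k hk => ?_⟩
        show (if hk : k ∈ W then _ else _) = _
        rw [dif_pos hk]; rfl
    exact h _ _ (fun n => (key n).1) hρ (fun n => (key n).2)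
  exact small_subset h1

end

variable {X : Par2 S} {G : Ctx S} {θ : ℕ → Tm S} {ρ ρ0 : ℕ → GV X.C}

theorem vv_ag (H : X.Setup2) {A : Tm S} {a : S} (hA : J X.P X.D A (sort a)) {x x' : GV X.C}
    {W : Set (A0 X.C)} (h : X.VV A x) (h' : AgV W x x') : X.VV A x' := by
  refine ⟨fun h1 => by rw [← h'.cl]; exact h.1 h1, fun h1 h2 => ?_, fun h1 => ?_⟩
  · have h3 := h.2.1 h1 h2
    have h4 : x.cl ≠ .e := by
      rw [h3, dfg_cl, ek_n H hA (fun h => h1 ((isQ_iff H hA).2 h))]
      exact fun h => by cases h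
    rw [← h'.eq h4, h3]
  · have h3 := h.2.2 h1
    have h4 : x.cl ≠ .e := by rw [h3]; exact fun h => by cases h
    rw [← h'.eq h4, h3]

theorem env_ag (H : X.Setup2) (he : Env X G θ ρ0) {W : Set (A0 X.C)} (h : AgE W ρ0 ρ) :
    Env X G θ ρ where
  wf := he.wf
  nc := he.nc
  sub := he.sub
  val n A m h1 h2 h3 := vv_ag H (h2.sub he.sub) (he.val n A m h1 h2 h3) (h n)

/-- The property of expressions that is proved by induction. -/
def SpM (X : Par2 S) (G : Ctx S) (M : Tm S) : Prop :=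
  ∀ (θ : ℕ → Tm S) (ρ0 : ℕ → GV X.C), Env X G θ ρ0 → ∀ l : A0 X.C,
    ∃ W : Set (A0 X.C), Small.{u} W ∧ Dpd ρ0 (fun ρ ρ' => AgV {l} (X.sem θ ρ M) (X.sem θ ρ' M)) W

theorem SpM.all {M : Tm S} (h : SpM X G M) (he : Env X G θ ρ0) (L : Set (A0 X.C))
    [Small.{u} L] :
    ∃ W : Set (A0 X.C), Small.{u} W ∧ Dpd ρ0 (fun ρ ρ' => AgV L (X.sem θ ρ M) (X.sem θ ρ' M)) W := by
  obtain ⟨W, h1, h2, h3⟩ := ex_and (fun _ _ h hW => hW.mono h)
    (fun _ _ h hW i => (hW i).mono h) (h _ _ he [])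
    (ex_union (ι := L) (Q := fun l => Dpd ρ0
      (fun ρ ρ' => AgV {l.1} (X.sem θ ρ M) (X.sem θ ρ' M)))
      (fun _ _ _ h hW => hW.mono h) (fun l => h _ _ he l.1))
  exact ⟨W, h1, fun ρ ρ' k1 k2 k3 => .of_all (h2 ρ ρ' k1 k2 k3)
    fun l hl => h3 ⟨l, hl⟩ ρ ρ' k1 k2 k3⟩

/-- The body of an abstraction or product. -/
theorem SpM.body (H : X.Setup2) {A M : Tm S} {a : S} (hA : J X.P G A (sort a))
    (h : SpM X (push A G) M) (he : Env X G θ ρ0) {N : Tm S}
    (hN : TyC X.P X.D N (A.sub θ)) {x0 : GV X.C} (hx0 : X.VV (A.sub θ) x0) (l : A0 X.C) :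
    ∃ W : Set (A0 X.C), Small.{u} W ∧ Dpd ρ0 (fun ρ ρ' => ∀ x x', AgV ∅ x0 x → AgV ∅ x0 x' → AgV W x x' →
      AgV {l} (X.sem (scons N θ) (vcons x ρ) M) (X.sem (scons N θ) (vcons x' ρ') M)) W := by
  obtain ⟨N', hc, hN'⟩ := hN
  have hcs : ∀ n, Conv (scons N θ n) (scons N' θ n) := by
    intro n; cases n with
    | zero => exact hc
    | succ n => exact .refl _
  obtain ⟨W, h1, h2⟩ := h _ _ (he.push H hA (of_tyD (hA.sub he.sub) hN') hx0) l
  refine ⟨W, h1, fun ρ ρ' k1 k2 k3 x x' k4 k5 k6 => ?_⟩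
  rw [sem_conv M hcs, sem_conv M hcs]
  exact h2 _ _ (k1.vcons k4) (k2.vcons k5) (k3.vcons k6)

/-- Representatives of the shapes of values. -/
def rsh {C : Set S} : Option (SV C) → GV C
  | none => .e fun _ => uv
  | some y => .b y

theorem rsh_ex {C : Set S} {x : GV C} (h : x.cl ≠ .o) : ∃ i, AgV ∅ (rsh i) x := by
  cases x with
  | b y => exact ⟨some y, .b y⟩
  | e g => exact ⟨none, .e fun k hk => absurd hk (by simp)⟩
  | o F => exact absurd rfl h

open Classical in
theorem SpM.bodyW (H : X.Setup2) {A M : Tm S} {a : S} (hA : J X.P G A (sort a))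
    (h : SpM X (push A G) M) (he : Env X G θ ρ0) :
    ∃ W : Set (A0 X.C), Small.{u} W ∧ Dpd ρ0 (fun ρ ρ' => ∀ N, TyC X.P X.D N (A.sub θ) → ∀ x x',
      X.VV (A.sub θ) x → x.cl ≠ .o → AgV W x x' →
      AgV {[]} (X.sem (scons N θ) (vcons x ρ) M) (X.sem (scons N θ) (vcons x' ρ') M)) W := by
  have hA' := hA.sub he.sub
  have key : ∀ i : Tm S × Option (SV X.C), ∃ W : Set (A0 X.C), Small.{u} W ∧
      (TyC X.P X.D i.1 (A.sub θ) → X.VV (A.sub θ) (rsh i.2) →
        Dpd ρ0 (fun ρ ρ' => ∀ x x', AgV ∅ (rsh i.2) x → AgV ∅ (rsh i.2) x' → AgV W x x' →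
      AgV {[]} (X.sem (scons i.1 θ) (vcons x ρ) M) (X.sem (scons i.1 θ) (vcons x' ρ') M)) W) := by
    rintro ⟨N, i⟩
    by_cases h1 : TyC X.P X.D N (A.sub θ)
    · by_cases h2 : X.VV (A.sub θ) (rsh i)
      · obtain ⟨W, h3, h4⟩ := h.body H hA he h1 h2 []
        exact ⟨W, h3, fun _ _ => h4⟩
      · exact ⟨∅, inferInstance, fun _ h => absurd h h2⟩
    · exact ⟨∅, inferInstance, fun h => absurd h h1⟩
  obtain ⟨W, h1, h2⟩ := ex_union (ι := Tm S × Option (SV X.C))
    (Q := fun i W => TyC X.P X.D i.1 (A.sub θ) →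
    X.VV (A.sub θ) (rsh i.2) →
        Dpd ρ0 (fun ρ ρ' => ∀ x x', AgV ∅ (rsh i.2) x → AgV ∅ (rsh i.2) x' → AgV W x x' →
      AgV {[]} (X.sem (scons i.1 θ) (vcons x ρ) M) (X.sem (scons i.1 θ) (vcons x' ρ') M)) W)
    (fun i W W' hW h h1 h2 ρ ρ' k1 k2 k3 x x' k4 k5 k6 =>
      h h1 h2 ρ ρ' k1 k2 (k3.mono hW) x x' k4 k5 (k6.mono hW)) key
  refine ⟨W, h1, fun ρ ρ' k1 k2 k3 N hN x x' hx hxo k4 => ?_⟩
  obtain ⟨i, hi⟩ := rsh_ex hxo
  exact h2 (N, i) hN (vv_ag H hA' hx hi.symm0) ρ ρ' k1 k2 k3 x x' hi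
    (hi.trans0 (k4.mono (by simp))) k4

open Classical in
/-- Interpretations of abstractions in odd kinds have small support. -/
theorem SpM.sup_lamO (H : X.Setup2) {A M B : Tm S} {a b c : S} (hA : J X.P G A (sort a))
    (hB : J X.P (push A G) B (sort b)) (hM : J X.P (push A G) M B) (hr : X.P.rule a b c)
    (hb : KS X.P X.C b) (hc : c ∈ X.O) (h : SpM X (push A G) M) (he : Env X G θ ρ0) :
    Sup (lamO (X.kdv2 (A.sub θ)) (fun N => TyC X.P X.D N (A.sub θ))
      (fun N x => X.sem (scons N θ) (vcons x ρ0) M)) := by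
  have hA' := hA.sub he.sub
  obtain ⟨o1, o2⟩ := H.r2.o1 _ _ _ hr hb hc
  have haQ : KS X.P X.C a → X.QQ a := fun h => ⟨h, by
    rcases o2 h with h | h
    · exact .inr (.inl h)
    · exact .inl h⟩
  have h0 : X.kdv2 (A.sub θ) ≠ .o := by
    by_cases hq : X.QQ a
    · rw [kdv2_pos H hA' hq]
      rcases o2 hq.1 with h | h
      · rw [ek_e H hA' hq.1 h]; exact fun h => by cases h
      · rw [ek_q H hA' h]; exact fun h => by cases h
    · rw [kdv2_neg H hA' hq]; exact fun h => by cases h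
  have hbo : ∀ {Q : Tm S}, J X.P X.D Q (sort b) → X.ek Q ≠ .e := by
    intro Q hQ
    rcases o1 with o1 | o1
    · rw [ek_o H hQ hb o1]; exact fun h => by cases h
    · rw [ek_q H hQ o1]; exact fun h => by cases h
  have hcl : ∀ {N : Tm S} {x : GV X.C}, TyC X.P X.D N (A.sub θ) → X.VV (A.sub θ) x →
      (X.sem (scons N θ) (vcons x ρ0) M).cl ≠ .e := by
    rintro N x ⟨N', hc, hN'⟩ hx
    have hcs : ∀ n, Conv (scons N θ n) (scons N' θ n) := by
      intro n; cases n with
      | zero => exact hc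
      | succ n => exact .refl _
    have he' := he.push H hA (of_tyD hA' hN') hx
    rw [sem_conv M hcs, code H M he' hM ⟨B, hM, .inr ⟨b, hb, hB⟩⟩]
    exact hbo (hB.sub he'.sub)
  obtain ⟨W1, h1, h2⟩ := h.bodyW H hA he
  -- the set of values
  let VS : Set (GV X.C) := ⋃ i : Tm S × Option (SV X.C),
    {z | TyC X.P X.D i.1 (A.sub θ) ∧ X.VV (A.sub θ) (rsh i.2) ∧
      ∃ ρ, AgE ∅ (vcons (rsh i.2) ρ0) ρ ∧ X.sem (scons i.1 θ) ρ M = z}
  have hVS : Small.{u} VS := by
    have : ∀ i : Tm S × Option (SV X.C), Small.{u}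
      {z | TyC X.P X.D i.1 (A.sub θ) ∧ X.VV (A.sub θ) (rsh i.2) ∧
      ∃ ρ, AgE ∅ (vcons (rsh i.2) ρ0) ρ ∧ X.sem (scons i.1 θ) ρ M = z} := by
      rintro ⟨N, i⟩
      by_cases hN : TyC X.P X.D N (A.sub θ)
      · by_cases hx : X.VV (A.sub θ) (rsh i)
        · obtain ⟨N', hc, hN'⟩ := hN
          have hcs : ∀ n, Conv (scons N θ n) (scons N' θ n) := by
            intro n; cases n with
            | zero => exact hc
            | succ n => exact .refl _
          have he' := he.push H hA (of_tyD hA' hN') hx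
          obtain ⟨W, k1, k2⟩ := h _ _ he' []
          have hs := small_vals (vcons (rsh i) ρ0) (fun ρ => X.sem (scons N θ) ρ M) (W := W) (by
            intro ρ ρ' j1 j2 j3
            have := k2 ρ ρ' j1 j2 j3
            show X.sem (scons N θ) ρ M = X.sem (scons N θ) ρ' M
            rw [sem_conv M hcs, sem_conv M hcs]
            refine this.eq ?_
            have he'' := env_ag H he' j1
            rw [code H M he'' hM ⟨B, hM, .inr ⟨b, hb, hB⟩⟩]
            exact hbo (hB.sub he''.sub))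
          exact @small_subset _ {x | ∃ ρ, AgE ∅ (vcons (rsh i) ρ0) ρ ∧
            X.sem (scons N θ) ρ M = x} _ (fun z hz => hz.2.2) hs
        · exact small_subset (s := ∅) fun z hz => absurd hz.2.1 hx
      · exact small_subset (s := ∅) fun z hz => absurd hz.1 hN
    infer_instance
  obtain ⟨W2, h3, h4⟩ := ex_union (ι := VS) (Q := fun z W => SupOn W z.1.to)
    (fun i W W' hW h => h.mono hW) (by
      rintro ⟨z, hz⟩
      cases z with
      | b x => exact ⟨∅, inferInstance, sup_one x⟩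
      | e g => exact ⟨∅, inferInstance, fun _ _ _ => rfl⟩
      | o F => exact F.2)
  refine ⟨W1 ∪ W2, inferInstance, ?_⟩
  intro l l' hl
  cases hl with
  | nil => rfl
  | @cons p p' l l' hp hl =>
    obtain ⟨N, t⟩ := p
    obtain ⟨N', t'⟩ := p'
    obtain ⟨e1, e2⟩ := hp
    dsimp only at e1 e2
    subst e1
    have e3 : AgV (W1 ∪ W2) (of1 t) (of1 t') := by
      cases e2 with
      | inl h => exact .e h
      | inr y => exact .b y
    show (if _ then _ else _) = (if _ then _ else _)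
    by_cases hc : TyC X.P X.D N (A.sub θ) ∧ (of1 t).cl = X.kdv2 (A.sub θ)
    · rw [if_pos hc, if_pos ⟨hc.1, by rw [← e3.cl]; exact hc.2⟩]
      have hx := vv_of H hA' haQ hc.2
      have hxo : (of1 t).cl ≠ .o := by rw [hc.2]; exact h0
      have e4 := h2 ρ0 ρ0 (.refl _ _) (.refl _ _) (.refl _ _) N hc.1 _ _ hx hxo
        (e3.mono Set.subset_union_left)
      have e5 := e4.eq (hcl hc.1 hx)
      show (X.sem (scons N θ) (vcons (of1 t) ρ0) M).to l =
        (X.sem (scons N θ) (vcons (of1 t') ρ0) M).to l'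
      rw [← e5]
      obtain ⟨i, hi⟩ := rsh_ex hxo
      refine h4 ⟨X.sem (scons N θ) (vcons (of1 t) ρ0) M, ?_⟩ l l'
        (AgL.mono Set.subset_union_right hl)
      refine Set.mem_iUnion.2 ⟨(N, i), hc.1, vv_ag H hA' hx hi.symm0, _, ?_, rfl⟩
      exact (AgE.refl ∅ ρ0).vcons hi
    · rw [if_neg hc, if_neg fun h' => hc ⟨h'.1, by rw [e3.cl]; exact h'.2⟩]

theorem mkT_ag {C : Set S} {c : Cl S} {Y Y' : Cd C} (W : Set (A0 C)) (h : Y = Y') :
    AgV W (mkT c Y) (mkT c Y') := by rw [h]; exact .refl _ _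

/-- The value of the argument of an application. -/
theorem SpM.arg (H : X.Setup2) {N A : Tm S} {a : S} (hN : J X.P G N A)
    (hA : J X.P G A (sort a)) (h : KS X.P X.C a → SpM X G N) (he : Env X G θ ρ0)
    (L : Set (A0 X.C)) [Small.{u} L] :
    ∃ W : Set (A0 X.C), Small.{u} W ∧ Dpd ρ0 (fun ρ ρ' =>
      AgV L (cif (X.TQ2 (N.sub θ)) (X.sem θ ρ N) (.b uv))
        (cif (X.TQ2 (N.sub θ)) (X.sem θ ρ' N) (.b uv))) W := by
  have e1 : X.TQ2 (N.sub θ) ↔ X.QQ a := tq_iff H he.sub hN hA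
  by_cases ha : X.QQ a
  · obtain ⟨W, h1, h2⟩ := (h ha.1).all he L
    refine ⟨W, h1, fun ρ ρ' k1 k2 k3 => ?_⟩
    dsimp only
    rw [cif_pos (e1.2 ha), cif_pos (e1.2 ha)]
    exact h2 ρ ρ' k1 k2 k3
  · refine ⟨∅, inferInstance, fun ρ ρ' k1 k2 k3 => ?_⟩
    dsimp only
    rw [cif_neg (fun h => ha (e1.1 h)), cif_neg (fun h => ha (e1.1 h))]
    exact .refl _ _

open Classical in
/-- All values have small support. -/
theorem spM_all (H : X.Setup2) (M : Tm S) : ∀ {G : Ctx S}, Fam X.P X.C G M → SpM X G M := by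
  induction M with
  | var n =>
    intro G hf θ ρ0 he l
    exact ⟨{l}, inferInstance, fun ρ ρ' _ _ h => h n⟩
  | sort s =>
    intro G hf θ ρ0 he l
    exact ⟨∅, inferInstance, fun ρ ρ' _ _ _ => .refl _ _⟩
  | app F N ihF ihN =>
    intro G hf θ ρ0 he l
    obtain ⟨A, B, a, b, m, h1, h2, h3, h4, h5, h6⟩ := hf.app_inv' H.fn he.wf
    have hfF := hf.app_inv H.fn he.wf
    have hpi : J X.P G (pi A B) (sort m) := .pi h3 h4 h5
    have e1 : X.TQ2 (F.sub θ) ↔ X.QQ m := tq_iff H he.sub h1 hpi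
    simp only [Par2.sem]
    by_cases hq : X.QQ m
    · have hsF := ihF hfF
      have hsN : KS X.P X.C a → SpM X G N := fun ha => ihN ⟨A, h2, .inr ⟨a, ha, h3⟩⟩
      have hcF : ∀ {ρ : ℕ → GV X.C}, AgE ∅ ρ0 ρ → (X.sem θ ρ F).cl = X.ek ((pi A B).sub θ) :=
        fun hρ => code H F (env_ag H he hρ) h1 hfF
      have hcN : ∀ {ρ : ℕ → GV X.C}, AgE ∅ ρ0 ρ →
          (cif (X.TQ2 (N.sub θ)) (X.sem θ ρ N) (.b uv)).cl = X.kdv2 (A.sub θ) :=
        fun hρ => arg_code H (env_ag H he hρ) h2 h3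
      -- arguments that are not of even kind
      have hargE : a ∉ X.E → ∃ W : Set (A0 X.C), Small.{u} W ∧ Dpd ρ0 (fun ρ ρ' =>
          cif (X.TQ2 (N.sub θ)) (X.sem θ ρ N) (.b uv) =
            cif (X.TQ2 (N.sub θ)) (X.sem θ ρ' N) (.b uv)) W := by
        intro haE
        obtain ⟨W, k1, k2⟩ := SpM.arg H h2 h3 hsN he ∅
        refine ⟨W, k1, fun ρ ρ' j1 j2 j3 => (k2 ρ ρ' j1 j2 j3).eq ?_⟩
        rw [hcN j1]
        by_cases haq : X.QQ a
        · rw [kdv2_pos H (h3.sub he.sub) haq]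
          obtain ⟨ha1, ha2 | ha2 | ha2⟩ := haq
          · rw [ek_q H (h3.sub he.sub) ha2]; exact fun h => by cases h
          · exact absurd ha2 haE
          · rw [ek_o H (h3.sub he.sub) ha1 ha2]; exact fun h => by cases h
        · rw [kdv2_neg H (h3.sub he.sub) haq]; exact fun h => by cases h
      obtain ⟨hq1, hq2 | hq2 | hq2⟩ := hq
      · -- ranked kinds
        obtain ⟨q1, q2⟩ := H.st.rnk.q1 _ _ _ h5 h6 hq2
        have haE : KS X.P X.C a → a ∉ X.E := fun h => H.r2.dqe a (q2 h)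
        have hN' : ∃ W : Set (A0 X.C), Small.{u} W ∧ Dpd ρ0 (fun ρ ρ' =>
          cif (X.TQ2 (N.sub θ)) (X.sem θ ρ N) (.b uv) =
            cif (X.TQ2 (N.sub θ)) (X.sem θ ρ' N) (.b uv)) W := by
          by_cases ha : KS X.P X.C a
          · exact hargE (haE ha)
          · refine ⟨∅, inferInstance, fun ρ ρ' k1 k2 k3 => ?_⟩
            have e1 : ¬ X.TQ2 (N.sub θ) := fun h => ha ((tq_iff H he.sub h2 h3).1 h).1
            dsimp only
            rw [cif_neg e1, cif_neg e1]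
        obtain ⟨W, k1, k2, k3⟩ := ex_and (fun _ _ h hW => hW.mono h)
          (fun _ _ h hW => hW.mono h) (hsF _ _ he []) hN'
        refine ⟨W, k1, fun ρ ρ' j1 j2 j3 => ?_⟩
        have e2 := (k2 ρ ρ' j1 j2 j3).eq (by
          rw [hcF j1, ek_q H (hpi.sub he.sub) hq2]; exact fun h => by cases h)
        have e3 := k3 ρ ρ' j1 j2 j3
        dsimp only at e3 ⊢
        rw [cif_pos (e1.2 ⟨hq1, .inl hq2⟩), cif_pos (e1.2 ⟨hq1, .inl hq2⟩), e2, e3]
        exact .refl _ _
      · -- even kinds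
        obtain ⟨q1, q2⟩ := H.r2.e1 _ _ _ h5 h6 hq2
        have hqm : X.QQ m := ⟨hq1, .inr (.inl hq2)⟩
        have hN' : ∃ W : Set (A0 X.C), Small.{u} W ∧ Dpd ρ0 (fun ρ ρ' =>
          cif (X.TQ2 (N.sub θ)) (X.sem θ ρ N) (.b uv) =
            cif (X.TQ2 (N.sub θ)) (X.sem θ ρ' N) (.b uv)) W := by
          by_cases ha : KS X.P X.C a
          · refine hargE fun haE => ?_
            rcases q2 ha with h | h
            · exact H.r2.deo a haE h
            · exact H.r2.dqe a h haE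
          · refine ⟨∅, inferInstance, fun ρ ρ' k1 k2 k3 => ?_⟩
            have e1 : ¬ X.TQ2 (N.sub θ) := fun h => ha ((tq_iff H he.sub h2 h3).1 h).1
            dsimp only
            rw [cif_neg e1, cif_neg e1]
        obtain ⟨W1, k1, k2⟩ := hN'
        have hs := small_vals ρ0
          (fun ρ => cif (X.TQ2 (N.sub θ)) (X.sem θ ρ N) (.b uv)) k2
        have hW : ∀ l' : A0 X.C, ∃ W : Set (A0 X.C), Small.{u} W ∧ Dpd ρ0 (fun ρ ρ' =>
            cif (X.TQ2 (N.sub θ)) (X.sem θ ρ N) (.b uv) =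
              cif (X.TQ2 (N.sub θ)) (X.sem θ ρ' N) (.b uv)) W ∧
            ∀ z : {x | ∃ ρ, AgE ∅ ρ0 ρ ∧ cif (X.TQ2 (N.sub θ)) (X.sem θ ρ N) (.b uv) = x},
              Dpd ρ0 (fun ρ ρ' =>
                AgV {(rep (N.sub θ), z.1.a0) :: l'} (X.sem θ ρ F) (X.sem θ ρ' F)) W := fun l' =>
          ex_and (fun _ _ h hW => Dpd.mono h hW)
          (fun _ _ h hW i => Dpd.mono h (hW i)) ⟨W1, k1, k2⟩
          (ex_union (ι := {x | ∃ ρ, AgE ∅ ρ0 ρ ∧
            cif (X.TQ2 (N.sub θ)) (X.sem θ ρ N) (.b uv) = x})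
            (Q := fun z => Dpd ρ0 (fun ρ ρ' =>
              AgV {(rep (N.sub θ), z.1.a0) :: l'} (X.sem θ ρ F) (X.sem θ ρ' F)))
            (fun _ _ _ h hW => hW.mono h) (fun z => hsF _ _ he _))
        have h7 : J X.P X.D ((inst B N).sub θ) (sort b) := (h4.inst_sort h2).sub he.sub
        have hcd : X.cd2 ((app F N).sub θ) = X.ek ((inst B N).sub θ) :=
          Par2.cd2_eq H.fn H.st.wf ((J.app h1 h2).sub he.sub)
        rcases q1 with q1 | q1
        · obtain ⟨W, k3, k4, k5⟩ := hW l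
          refine ⟨W, k3, fun ρ ρ' j1 j2 j3 => ?_⟩
          have e2 := k4 ρ ρ' j1 j2 j3
          have e3 := k5 ⟨_, ρ, j1, rfl⟩ ρ ρ' j1 j2 j3
          obtain ⟨g, hg⟩ := cl_e ((hcF j1).trans (ek_e H (hpi.sub he.sub) hq1 hq2))
          obtain ⟨g', hg'⟩ := cl_e ((hcF j2).trans (ek_e H (hpi.sub he.sub) hq1 hq2))
          dsimp only at e2 e3 ⊢
          rw [hg, hg'] at e3
          rw [cif_pos (e1.2 hqm), cif_pos (e1.2 hqm), ← e2, hg, hg', hcd, ek_e H h7 h6 q1]
          cases e3 with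
          | e h =>
            show AgV {l} (GV.e _) (GV.e _)
            refine .e fun k hk => ?_
            cases hk
            exact h _ rfl
        · obtain ⟨W, k3, k4, k5⟩ := hW []
          refine ⟨W, k3, fun ρ ρ' j1 j2 j3 => ?_⟩
          have e2 := k4 ρ ρ' j1 j2 j3
          have e3 := k5 ⟨_, ρ, j1, rfl⟩ ρ ρ' j1 j2 j3
          obtain ⟨g, hg⟩ := cl_e ((hcF j1).trans (ek_e H (hpi.sub he.sub) hq1 hq2))
          obtain ⟨g', hg'⟩ := cl_e ((hcF j2).trans (ek_e H (hpi.sub he.sub) hq1 hq2))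
          dsimp only at e2 e3 ⊢
          rw [hg, hg'] at e3
          rw [cif_pos (e1.2 hqm), cif_pos (e1.2 hqm), ← e2, hg, hg', hcd, ek_q H h7 q1]
          cases e3 with
          | e h =>
            have e4 : g [(rep (N.sub θ), GV.a0 (cif (X.TQ2 (N.sub θ)) (X.sem θ ρ N) (.b uv)))] =
              g' [(rep (N.sub θ), GV.a0 (cif (X.TQ2 (N.sub θ)) (X.sem θ ρ N) (.b uv)))] := h _ rfl
            show AgV {l} (GV.b ⟨_, SV.to (g [_]) _⟩) (GV.b ⟨_, SV.to (g' [_]) _⟩)
            rw [e4]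
            exact .refl _ _
      · -- odd kinds
        obtain ⟨q1, q2⟩ := H.r2.o1 _ _ _ h5 h6 hq2
        have hqm : X.QQ m := ⟨hq1, .inr (.inr hq2)⟩
        obtain ⟨W1, k1, k2⟩ := hsF _ _ he []
        have k2' : Dpd ρ0 (fun ρ ρ' => X.sem θ ρ F = X.sem θ ρ' F) W1 := by
          intro ρ ρ' j1 j2 j3
          refine (k2 ρ ρ' j1 j2 j3).eq ?_
          rw [hcF j1, ek_o H (hpi.sub he.sub) hq1 hq2]; exact fun h => by cases h
        have hs := small_vals ρ0 (fun ρ => X.sem θ ρ F) k2'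
        obtain ⟨W2, k3, k4⟩ := ex_union (ι := {x | ∃ ρ, AgE ∅ ρ0 ρ ∧ X.sem θ ρ F = x})
          (Q := fun z W => SupOn W z.1.to) (fun i W W' hW h => h.mono hW) (by
            rintro ⟨z, hz⟩
            cases z with
            | b x => exact ⟨∅, inferInstance, sup_one x⟩
            | e g => exact ⟨∅, inferInstance, fun _ _ _ => rfl⟩
            | o F => exact F.2)
        obtain ⟨W, k5, k6, k7⟩ := ex_and (fun _ _ h hW => Dpd.mono h hW)
          (fun _ _ h hW => Dpd.mono h hW) ⟨W1, k1, k2'⟩ (SpM.arg H h2 h3 hsN he W2)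
        refine ⟨W, k5, fun ρ ρ' j1 j2 j3 => ?_⟩
        have e2 := k6 ρ ρ' j1 j2 j3
        have e3 := k7 ρ ρ' j1 j2 j3
        obtain ⟨g, hg⟩ := cl_o ((hcF j1).trans (ek_o H (hpi.sub he.sub) hq1 hq2))
        have e4 := k4 ⟨X.sem θ ρ F, ρ, j1, rfl⟩
        dsimp only at e2 e3 e4 ⊢
        rw [cif_pos (e1.2 hqm), cif_pos (e1.2 hqm), ← e2]
        rw [hg] at e4 ⊢
        have e5 : GV.app (X.cd2 ((app F N).sub θ)) (.o g) (rep (N.sub θ))
            (cif (X.TQ2 (N.sub θ)) (X.sem θ ρ N) (.b uv)) =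
            GV.app (X.cd2 ((app F N).sub θ)) (.o g) (rep (N.sub θ))
              (cif (X.TQ2 (N.sub θ)) (X.sem θ ρ' N) (.b uv)) := by
          show resO _ _ = resO _ _
          congr 1
          refine Subtype.ext (funext fun r => ?_)
          exact e4 _ _ (.cons ⟨rfl, e3.a1⟩ (AgL.refl _ r))
        rw [e5]
        exact .refl _ _
    · refine ⟨∅, inferInstance, fun ρ ρ' _ _ _ => ?_⟩
      dsimp only
      rw [cif_neg (fun h => hq (e1.1 h)), cif_neg (fun h => hq (e1.1 h))]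
      exact .refl _ _
  | lam A M _ ihM =>
    intro G hf θ ρ0 he l
    obtain ⟨T, hF, -⟩ := hf
    obtain ⟨B, a, b, c, h1, h2, h3, h4, h5⟩ := hF.lam_inv'
    have hpi : J X.P G (pi A B) (sort c) := .pi h2 h3 h4
    have hlam : J X.P G (lam A M) (pi A B) := .lam h1 hpi
    have hA' := h2.sub he.sub
    have hp := pickTy H hA'
    have e1 := tk_body H he.sub h1 h3 hp
    have e2 : X.TQ2 ((lam A M).sub θ) ↔ X.QQ c := tq_iff H he.sub hlam hpi
    simp only [Par2.sem]
    by_cases hb : KS X.P X.C b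
    · by_cases hc : X.QQ c
      · have hcond : X.TQ2 ((lam A M).sub θ) ∧
            X.TK2 (M.sub (scons (pick X.P X.D (A.sub θ)) θ)) := ⟨e2.2 hc, e1.2 hb⟩
        have hM := ihM (G := push A G) ⟨B, h1, .inr ⟨b, hb, h3⟩⟩
        obtain ⟨-, haQ⟩ := H.qq1 h4 hb hc
        have hcM : ∀ {ρ : ℕ → GV X.C} {N : Tm S} {x : GV X.C}, AgE ∅ ρ0 ρ →
            TyC X.P X.D N (A.sub θ) → x.cl = X.kdv2 (A.sub θ) →
            ∃ N', (X.sem (scons N θ) (vcons x ρ) M).cl = X.ek (B.sub (scons N' θ)) ∧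
              J X.P X.D (B.sub (scons N' θ)) (sort b) := by
          rintro ρ N x hρ ⟨N', hc, hN'⟩ hx
          have hcs : ∀ n, Conv (scons N θ n) (scons N' θ n) := by
            intro n; cases n with
            | zero => exact hc
            | succ n => exact .refl _
          have he' := (env_ag H he hρ).push H h2 (of_tyD hA' hN') (vv_of H hA' haQ hx)
          refine ⟨N', ?_, h3.sub he'.sub⟩
          rw [sem_conv M hcs, code H M he' h1 ⟨B, h1, .inr ⟨b, hb, h3⟩⟩]
        simp only [cif_pos hcond]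
        rw [Par2.cd2_eq H.fn H.st.wf (hlam.sub he.sub)]
        obtain ⟨hc1, hc2 | hc2 | hc2⟩ := hc
        · -- ranked kinds
          obtain ⟨q1, q2⟩ := H.st.rnk.q1 _ _ _ h4 hb hc2
          have h0 : ∃ k0, X.kdv2 (A.sub θ) = .b k0 := by
            by_cases ha : X.QQ a
            · rw [kdv2_pos H hA' ha, ek_q H hA' (q2 ha.1)]; exact ⟨_, rfl⟩
            · rw [kdv2_neg H hA' ha]; exact ⟨_, rfl⟩
          obtain ⟨k0, h0⟩ := h0
          obtain ⟨W, k1, k2⟩ := hM.bodyW H h2 he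
          refine ⟨W, k1, fun ρ ρ' j1 j2 j3 => ?_⟩
          have e3 : mkL (X.ek ((pi A B).sub θ)) (X.kdv2 (A.sub θ))
              (fun N => TyC X.P X.D N (A.sub θ))
              (fun N x => X.sem (scons N θ) (vcons x ρ) M) =
              mkL (X.ek ((pi A B).sub θ)) (X.kdv2 (A.sub θ))
              (fun N => TyC X.P X.D N (A.sub θ))
              (fun N x => X.sem (scons N θ) (vcons x ρ') M) := by
            refine mkL_congr rfl rfl (fun _ => Iff.rfl) fun N hN x hx => ?_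
            refine (k2 ρ ρ' j1 j2 j3 N hN x x (vv_of H hA' haQ hx) ?_ (.refl _ _)).eq ?_
            · rw [hx, h0]; exact fun h => by cases h
            · obtain ⟨N', j4, j5⟩ := hcM j1 hN hx
              rw [j4, ek_q H j5 q1]; exact fun h => by cases h
          dsimp only
          rw [e3]
          exact .refl _ _
        · -- even kinds
          rw [ek_e H (hpi.sub he.sub) hc1 hc2]
          obtain ⟨q1, q2⟩ := H.r2.e1 _ _ _ h4 hb hc2
          show ∃ W : Set (A0 X.C), _ ∧ Dpd ρ0 (fun ρ ρ' => AgV {l} (GV.e (lamE _ _ _))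
            (GV.e (lamE _ _ _))) W
          rcases l with _ | ⟨⟨N, t⟩, l⟩
          · refine ⟨∅, inferInstance, fun ρ ρ' j1 j2 j3 => .e fun k hk => ?_⟩
            cases hk
            rfl
          · by_cases hcd : TyC X.P X.D N (A.sub θ) ∧ (of0 t).cl = X.kdv2 (A.sub θ)
            · obtain ⟨W, k1, k2⟩ := hM.body H h2 he hcd.1 (vv_of H hA' haQ hcd.2) l
              refine ⟨W, k1, fun ρ ρ' j1 j2 j3 => .e fun k hk => ?_⟩
              cases hk
              show (if _ then _ else _) = (if _ then _ else _)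
              rw [if_pos hcd, if_pos hcd]
              have e3 := k2 ρ ρ' j1 j2 j3 _ _ (.refl _ (of0 t)) (.refl _ (of0 t)) (.refl _ _)
              obtain ⟨N', j4, j5⟩ := hcM j1 hcd.1 hcd.2
              show (X.sem (scons N θ) (vcons (of0 t) ρ) M).te l =
                (X.sem (scons N θ) (vcons (of0 t) ρ') M).te l
              rcases q1 with q1 | q1
              · obtain ⟨g, hg⟩ := cl_e (j4.trans (ek_e H j5 hb q1))
                obtain ⟨N'', j6, j7⟩ := hcM j2 hcd.1 hcd.2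
                obtain ⟨g', hg'⟩ := cl_e (j6.trans (ek_e H j7 hb q1))
                rw [hg, hg'] at e3
                rw [hg, hg']
                cases e3 with
                | e h => exact h l rfl
              · rw [e3.eq (by rw [j4, ek_q H j5 q1]; exact fun h => by cases h)]
            · refine ⟨∅, inferInstance, fun ρ ρ' j1 j2 j3 => .e fun k hk => ?_⟩
              cases hk
              show (if _ then _ else _) = (if _ then _ else _)
              rw [if_neg hcd, if_neg hcd]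
        · -- odd kinds
          rw [ek_o H (hpi.sub he.sub) hc1 hc2]
          obtain ⟨q1, q2⟩ := H.r2.o1 _ _ _ h4 hb hc2
          have h0 : X.kdv2 (A.sub θ) ≠ .o := by
            by_cases hq : X.QQ a
            · rw [kdv2_pos H hA' hq]
              rcases q2 hq.1 with h | h
              · rw [ek_e H hA' hq.1 h]; exact fun h => by cases h
              · rw [ek_q H hA' h]; exact fun h => by cases h
            · rw [kdv2_neg H hA' hq]; exact fun h => by cases h
          obtain ⟨W, k1, k2⟩ := hM.bodyW H h2 he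
          refine ⟨W, k1, fun ρ ρ' j1 j2 j3 => ?_⟩
          have e3 : mkL .o (X.kdv2 (A.sub θ))
              (fun N => TyC X.P X.D N (A.sub θ))
              (fun N x => X.sem (scons N θ) (vcons x ρ) M) =
              mkL .o (X.kdv2 (A.sub θ))
              (fun N => TyC X.P X.D N (A.sub θ))
              (fun N x => X.sem (scons N θ) (vcons x ρ') M) := by
            refine mkL_congr rfl rfl (fun _ => Iff.rfl) fun N hN x hx => ?_
            refine (k2 ρ ρ' j1 j2 j3 N hN x x (vv_of H hA' haQ hx) ?_ (.refl _ _)).eq ?_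
            · rw [hx]; exact h0
            · obtain ⟨N', j4, j5⟩ := hcM j1 hN hx
              rw [j4]
              rcases q1 with q1 | q1
              · rw [ek_o H j5 hb q1]; exact fun h => by cases h
              · rw [ek_q H j5 q1]; exact fun h => by cases h
          dsimp only
          rw [e3]
          exact .refl _ _
      · refine ⟨∅, inferInstance, fun ρ ρ' _ _ _ => ?_⟩
        dsimp only
        rw [cif_neg (fun h => hc (e2.1 h.1)), cif_neg (fun h => hc (e2.1 h.1))]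
        exact .refl _ _
    · refine ⟨∅, inferInstance, fun ρ ρ' _ _ _ => ?_⟩
      dsimp only
      rw [cif_neg (fun h => hb (e1.1 h.2)), cif_neg (fun h => hb (e1.1 h.2))]
      exact .refl _ _
  | pi A B ihA ihB =>
    intro G hf θ ρ0 he l
    obtain ⟨T, hF, -⟩ := hf
    obtain ⟨a, b, c, h1, h2, h3, -⟩ := hF.pi_inv
    have hA' := h1.sub he.sub
    have hp := pickTy H hA'
    have hW1 : ∃ W : Set (A0 X.C), Small.{u} W ∧ (a ∈ X.C → Dpd ρ0 (fun ρ ρ' =>
        (X.sem θ ρ A).set = (X.sem θ ρ' A).set) W) := by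
      by_cases ha : a ∈ X.C
      · obtain ⟨W, k1, k2⟩ := ihA (.of_sort h1 ha) _ _ he []
        exact ⟨W, k1, fun _ ρ ρ' j1 j2 j3 => (k2 ρ ρ' j1 j2 j3).set_eq⟩
      · exact ⟨∅, inferInstance, fun h => absurd h ha⟩
    have hW2 : ∃ W : Set (A0 X.C), Small.{u} W ∧ (b ∈ X.C → c ∈ X.C → Dpd ρ0 (fun ρ ρ' =>
        ∀ N, TyD X.P X.D N (A.sub θ) → ∀ x, X.VV (A.sub θ) x →
          (X.sem (scons N θ) (vcons x ρ) B).set = (X.sem (scons N θ) (vcons x ρ') B).set) W) := by
      by_cases hb : b ∈ X.C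
      · by_cases hc : c ∈ X.C
        · obtain ⟨W, k1, k2⟩ := (ihB (.of_sort h2 hb)).bodyW H h1 he
          refine ⟨W, k1, fun _ _ ρ ρ' j1 j2 j3 N hN x hx => ?_⟩
          refine (k2 ρ ρ' j1 j2 j3 N ⟨N, .refl _, hN⟩ x x hx ?_ (.refl _ _)).set_eq
          by_cases hK : KS X.P X.C a
          · have haQ : X.QQ a := ⟨hK, by
              rcases H.r2.q2 _ _ _ h3 hK hb hc with h | h
              · exact .inl h
              · exact .inr (.inl h)⟩
            rw [hx.1 ((isQ_iff H hA').2 haQ)]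
            rcases H.r2.q2 _ _ _ h3 hK hb hc with h | h
            · rw [ek_q H hA' h]; exact fun h => by cases h
            · rw [ek_e H hA' hK h]; exact fun h => by cases h
          · rw [hx.2.2 (fun h => hK ((isK_iff H hA').1 h))]; exact fun h => by cases h
        · exact ⟨∅, inferInstance, fun _ h => absurd h hc⟩
      · exact ⟨∅, inferInstance, fun h => absurd h hb⟩
    obtain ⟨W, k1, k2, k3⟩ := ex_and (fun _ _ h hW ha => (hW ha).mono h)
      (fun _ _ h hW hb hc => (hW hb hc).mono h) hW1 hW2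
    refine ⟨W, k1, fun ρ ρ' j1 j2 j3 => ?_⟩
    simp only [Par2.sem]
    refine mkT_ag _ (Subtype.ext ?_)
    refine piS_congr (fun _ _ _ => Iff.rfl) (fun _ => Iff.rfl) (fun _ => Iff.rfl) ?_ ?_
    · rintro a' b' c' ⟨k4, -⟩
      cases (tyS_iff H.fn H.st.wf hA').1 k4
      exact ds_congr fun ha => k2 ha ρ ρ' j1 j2 j3
    · rintro a' b' c' ⟨k4, k5, k6, k7⟩ N hN x hx
      cases (tyS_iff H.fn H.st.wf hA').1 k4
      cases (tyS_iff H.fn H.st.wf (h2.sub (he.sub.scons hp))).1 k5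
      cases H.fn.rule h3 k6
      exact ds_congr fun hb => k3 hb k7 ρ ρ' j1 j2 j3 N hN x hx

end PolT

end Vale.Agent.P340
end


section

/-! The polarity model of a two-colourable block. -/

namespace Vale.Agent.P340

universe u
variable {S : Type u} {P : Spec S} {C : Set S}

open Tm

namespace PolE

/-- Families closed under the destructors. -/
def Post (P : Spec S) (C : Set S) (W Z : S → Set (LTm (Lb S))) : Prop :=
  ∀ c T, T ∈ Z c → SnX (labs C) T ∧ ∀ a b, P.rule a b c → ∀ N ∈ DS C a (W a),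
    LTm.app (some (a, b, c)) T N ∈ DS C b (Z b)

/-- The largest such family. -/
def Phi (P : Spec S) (C : Set S) (W : S → Set (LTm (Lb S))) (c : S) : Set (LTm (Lb S)) :=
  {T | ∃ Z, Post P C W Z ∧ T ∈ Z c}

theorem ds_mono {a : S} {Y Z : Set (LTm (Lb S))} (h : a ∈ C → Y ⊆ Z) : DS C a Y ⊆ DS C a Z := by
  intro T hT
  exact ⟨hT.1, fun ha => h ha (hT.2 ha)⟩

theorem phi_post (W : S → Set (LTm (Lb S))) : Post P C W (Phi P C W) := by
  rintro c T ⟨Z, hZ, hT⟩
  refine ⟨(hZ c T hT).1, fun a b hr N hN => ?_⟩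
  exact ds_mono (Z := Phi P C W b) (fun _ T (hT : T ∈ Z b) => ⟨Z, hZ, hT⟩)
    ((hZ c T hT).2 a b hr N hN)

theorem phi_anti {W W' : S → Set (LTm (Lb S))} (h : W ≤ W') : Phi P C W' ≤ Phi P C W := by
  rintro c T ⟨Z, hZ, hT⟩
  refine ⟨Z, fun c T hT => ⟨(hZ c T hT).1, fun a b hr N hN => ?_⟩, hT⟩
  exact (hZ c T hT).2 a b hr N (ds_mono (fun _ => h a) hN)

theorem phi_step {W : S → Set (LTm (Lb S))} {c : S} {T T' : LTm (Lb S)} (h : T ∈ Phi P C W c)
    (h' : St (labs C) T T') : T' ∈ Phi P C W c := by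
  refine ⟨fun c => {T' | ∃ T ∈ Phi P C W c, Relation.ReflTransGen (St (labs C)) T T'},
    ?_, T, h, .single h'⟩
  rintro c T' ⟨T, hT, hr⟩
  have h1 := phi_post W c T hT
  have key : ∀ {T T' : LTm (Lb S)}, SnX (labs C) T → Relation.ReflTransGen (St (labs C)) T T' →
      SnX (labs C) T' := by
    intro T T' hs hr
    induction hr with
    | refl => exact hs
    | tail _ h ih => exact ih.step h
  refine ⟨key h1.1 hr, fun a b hru N hN => ?_⟩
  have h2 := h1.2 a b hru N hN
  have h3 : Relation.ReflTransGen (St (labs C)) (LTm.app (some (a, b, c)) T N)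
      (LTm.app (some (a, b, c)) T' N) := by
    clear h1 h2 hT
    induction hr with
    | refl => exact .refl
    | tail _ h ih => exact ih.tail (.appL _ _ h)
  exact ⟨key h2.1 h3, fun hb => ⟨_, h2.2 hb, h3⟩⟩

/-- Closure of `Phi` under the constructors. -/
inductive Cl (P : Spec S) (C : Set S) (W : S → Set (LTm (Lb S))) : S → LTm (Lb S) → Prop where
  | base {c : S} {T : LTm (Lb S)} : T ∈ Phi P C W c → Cl P C W c T
  | neu {c : S} {T : LTm (Lb S)} : ¬ LTm.IsLam T → (∀ N, St (labs C) T N → Cl P C W c N) →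
      Cl P C W c T
  | mem {c : S} {T N : LTm (Lb S)} : Cl P C W c T → SnX (labs C) N → Cl P C W c (LTm.mem T N)
  | lam {a b c : S} {M : LTm (Lb S)} : P.rule a b c → SnX (labs C) M →
      (∀ N ∈ DS C a (W a), SnX (labs C) (LTm.inst M N)) →
      (∀ N ∈ DS C a (W a), b ∈ C → Cl P C W b (LTm.inst M N)) →
      Cl P C W c (LTm.lam (some (a, b, c)) M)

variable {W : S → Set (LTm (Lb S))}

theorem Cl.sn {c : S} {T : LTm (Lb S)} (h : Cl P C W c T) : SnX (labs C) T := by
  induction h with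
  | base h => exact (phi_post W _ _ h).1
  | neu _ _ ih => exact Acc.intro _ ih
  | mem _ h ih => exact ih.mem h
  | lam _ h _ _ _ => exact h.lam

theorem Cl.step {c : S} {T T' : LTm (Lb S)} (h : Cl P C W c T) (h' : St (labs C) T T') :
    Cl P C W c T' := by
  induction h generalizing T' with
  | base h => exact .base (phi_step h h')
  | neu _ h _ => exact h _ h'
  | mem h1 h2 ih =>
    cases h' with
    | memL _ h' => exact .mem (ih h') h2
    | memR _ h' => exact .mem h1 (h2.step h')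
  | lam hr hM h1 _ ih =>
    cases h' with
    | lam _ h' =>
      exact .lam hr (hM.step h') (fun N hN => (h1 N hN).step (h'.sub _))
        fun N hN hb => ih N hN hb (h'.sub _)

/-- The family is closed under reduction. -/
def Down (C : Set S) (W : S → Set (LTm (Lb S))) : Prop :=
  ∀ a ∈ C, ∀ {T T' : LTm (Lb S)}, T ∈ W a → St (labs C) T T' → T' ∈ W a

theorem ds_down (hW : Down C W) {a : S} {N N' : LTm (Lb S)} (h : N ∈ DS C a (W a))
    (h' : St (labs C) N N') : N' ∈ DS C a (W a) :=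
  ⟨h.1.step h', fun ha => hW a ha (h.2 ha) h'⟩

theorem Cl.neu' {b : S} {T : LTm (Lb S)} (h : ¬ LTm.IsLam T)
    (h' : ∀ N, St (labs C) T N → SnX (labs C) N ∧ (b ∈ C → Cl P C W b N)) :
    SnX (labs C) T ∧ (b ∈ C → Cl P C W b T) :=
  ⟨Acc.intro _ fun N hN => (h' N hN).1, fun hb => .neu h fun N hN => (h' N hN).2 hb⟩

theorem Cl.app (hW : Down C W) {c : S} {T : LTm (Lb S)} (h : Cl P C W c T) :
    ∀ {a b : S}, P.rule a b c → ∀ N ∈ DS C a (W a),
      SnX (labs C) (LTm.app (some (a, b, c)) T N) ∧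
        (b ∈ C → Cl P C W b (LTm.app (some (a, b, c)) T N)) := by
  induction h with
  | base h =>
    intro a b hr N hN
    have := (phi_post W _ _ h).2 a b hr N hN
    exact ⟨this.1, fun hb => .base (this.2 hb)⟩
  | neu hT _ ih =>
    intro a b hr N hN
    have hs := hN.1
    induction hs with
    | intro N _ ihN =>
      refine Cl.neu' (fun h => h) fun Q hQ => ?_
      cases hQ with
      | root _ hc => exact absurd hc.isLam hT
      | appL _ _ h' => exact ih _ h' hr N hN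
      | appR _ _ h' => exact ihN _ h' (ds_down hW hN h')
  | @mem c M Q hM hQ ih =>
    intro a b hr N hN
    have hMs := hM.sn
    induction hMs generalizing Q N with
    | intro M hM0 ihM =>
      induction hQ generalizing N with
      | intro Q hQ0 ihQ =>
        have hs := hN.1
        induction hs with
        | intro N hN0 ihN =>
          refine Cl.neu' (fun h => h) fun R hR => ?_
          cases hR with
          | root hl hc =>
            cases hc with
            | mem _ hc =>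
              have h1 := ih hr N hN
              have h2 : St (labs C) (LTm.app (some (a, b, c)) M N) _ := .root hl hc
              exact ⟨(h1.1.step h2).mem (Acc.intro Q hQ0), fun hb =>
                .mem ((h1.2 hb).step h2) (Acc.intro Q hQ0)⟩
          | appL _ _ h' =>
            cases h' with
            | memL _ h' =>
              refine ihM _ h' (hM.step h') (Acc.intro Q hQ0) ?_ N hN
              intro a b hr N hN
              have h1 := ih hr N hN
              have h2 := St.appL (some (a, b, c)) N h'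
              exact ⟨h1.1.step h2, fun hb => (h1.2 hb).step h2⟩
            | memR _ h' => exact ihQ _ h' N hN
          | appR _ _ h' => exact ihN _ h' (ds_down hW hN h')
  | @lam a0 b0 c M hr0 hM h1 h2 ih =>
    intro a b hr N hN
    clear hr0
    induction hM generalizing N with
    | intro M hM0 ihM =>
      have hs := hN.1
      induction hs with
      | intro N hN0 ihN =>
        refine Cl.neu' (fun h => h) fun R hR => ?_
        cases hR with
        | root hl hc =>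
          cases hc with
          | lam _ _ =>
            exact ⟨(h1 N hN).mem (Acc.intro N hN0), fun hb =>
              .mem (h2 N hN hb) (Acc.intro N hN0)⟩
        | appL _ _ h' =>
          cases h' with
          | lam _ h' =>
            refine ihM _ h' (fun N hN => (h1 N hN).step (h'.sub _))
              (fun N hN hb => (h2 N hN hb).step (h'.sub _)) ?_ N hN
            intro N hN hb a b hr N' hN'
            have h1 := ih N hN hb hr N' hN'
            have h2 := St.appL (some (a, b, b0)) N' (h'.sub (LTm.scons N LTm.var))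
            exact ⟨h1.1.step h2, fun hb => (h1.2 hb).step h2⟩
        | appR _ _ h' => exact ihN _ h' (ds_down hW hN h')

theorem Cl.phi (hW : Down C W) {c : S} {T : LTm (Lb S)} (h : Cl P C W c T) :
    T ∈ Phi P C W c := by
  refine ⟨fun c => {T | Cl P C W c T}, ?_, h⟩
  intro c T hT
  have hT' : Cl P C W c T := hT
  exact ⟨hT'.sn, fun a b hr N hN => hT'.app hW hr N hN⟩

theorem cr_phi (hW : Down C W) (c : S) : CR (labs C) (Phi P C W c) where
  sn h := (phi_post W _ _ h).1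
  step h h' := phi_step h h'
  neu h h' := Cl.phi hW (.neu h fun N hN => .base (h' N hN))
  mem h h' := Cl.phi hW (.mem (.base h) h')

theorem phi_lam (hW : Down C W) {a b c : S} (hr : P.rule a b c) {M : LTm (Lb S)}
    (hM : SnX (labs C) M) (h : ∀ N ∈ DS C a (W a), LTm.inst M N ∈ DS C b (Phi P C W b)) :
    LTm.lam (some (a, b, c)) M ∈ Phi P C W c :=
  Cl.phi hW (.lam hr hM (fun N hN => (h N hN).1) fun N hN hb => .base ((h N hN).2 hb))

/-- Two-colourability of the rules inside `C`. -/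
def Even (P : Spec S) (C : Set S) (χ : S → Bool) : Prop :=
  ∀ a b c, P.rule a b c → c ∈ C → (a ∈ C → χ a ≠ χ c) ∧ (b ∈ C → χ b = χ c)

theorem phi_congr {χ : S → Bool} (hχ : Even P C χ) {W W' : S → Set (LTm (Lb S))} (k : Bool)
    (h : ∀ a ∈ C, χ a ≠ k → W a = W' a) {c : S} (hc : c ∈ C) (hk : χ c = k) :
    Phi P C W c ⊆ Phi P C W' c := by
  intro T hT
  refine ⟨fun c => {T | c ∈ C ∧ χ c = k ∧ T ∈ Phi P C W c}, ?_, hc, hk, hT⟩
  rintro c T ⟨hc, hk, hT⟩
  have h1 := phi_post W c T hT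
  refine ⟨h1.1, fun a b hr N hN => ?_⟩
  have hN' : N ∈ DS C a (W a) := by
    refine ⟨hN.1, fun ha => ?_⟩
    rw [h a ha (by rw [← hk]; exact (hχ a b c hr hc).1 ha)]
    exact hN.2 ha
  have h2 := h1.2 a b hr N hN'
  exact ⟨h2.1, fun hb => ⟨hb, ((hχ a b c hr hc).2 hb).trans hk, h2.2 hb⟩⟩

/-- `Phi ∘ Phi` as a monotone map. -/
def Phi2 (P : Spec S) (C : Set S) : (S → Set (LTm (Lb S))) →o (S → Set (LTm (Lb S))) where
  toFun W := Phi P C (Phi P C W)
  monotone' _ _ h := phi_anti (phi_anti h)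

/-- The interpretation of the sorts. -/
def PX (P : Spec S) (C : Set S) (χ : S → Bool) (c : S) : Set (LTm (Lb S)) :=
  if χ c then (Phi2 P C).lfp c else Phi P C (Phi2 P C).lfp c

theorem px_eq {χ : S → Bool} (hχ : Even P C χ) {c : S} (hc : c ∈ C) :
    PX P C χ c = Phi P C (PX P C χ) c := by
  have hL : Phi P C (Phi P C (Phi2 P C).lfp) = (Phi2 P C).lfp := (Phi2 P C).map_lfp
  by_cases h : χ c = true
  · have e1 : PX P C χ c = (Phi2 P C).lfp c := if_pos h
    rw [e1, ← hL]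
    have e2 : ∀ a ∈ C, χ a ≠ true → Phi P C (Phi2 P C).lfp a = PX P C χ a :=
      fun a _ ha => (if_neg ha).symm
    have h1 := phi_congr hχ (W := Phi P C (Phi2 P C).lfp) (W' := PX P C χ) true e2 hc h
    have h2 := phi_congr hχ (W' := Phi P C (Phi2 P C).lfp) (W := PX P C χ) true
      (fun a hC ha => (e2 a hC ha).symm) hc h
    exact Set.Subset.antisymm h1 h2
  · have h' : χ c = false := by simpa using h
    have e1 : PX P C χ c = Phi P C (Phi2 P C).lfp c := if_neg h
    rw [e1]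
    have e2 : ∀ a ∈ C, χ a ≠ false → (Phi2 P C).lfp a = PX P C χ a :=
      fun a _ ha => (if_pos (by simpa using ha)).symm
    have h1 := phi_congr hχ (W := (Phi2 P C).lfp) (W' := PX P C χ) false e2 hc h'
    have h2 := phi_congr hχ (W' := (Phi2 P C).lfp) (W := PX P C χ) false
      (fun a hC ha => (e2 a hC ha).symm) hc h'
    exact Set.Subset.antisymm h1 h2

theorem px_down {χ : S → Bool} (hχ : Even P C χ) : Down C (PX P C χ) := by
  intro a ha T T' hT h'
  rw [px_eq hχ ha] at hT ⊢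
  exact phi_step hT h'

theorem px_cr {χ : S → Bool} (hχ : Even P C χ) {c : S} (hc : c ∈ C) :
    CR (labs C) (PX P C χ c) := by
  rw [px_eq hχ hc]; exact cr_phi (px_down hχ) c

/-- The model. -/
def model (hP : Functional P) {χ : S → Bool} (hχ : Even P C χ) : Model.{u, 0} P C where
  E := Unit
  Ok _ _ := True
  Ext _ _ _ _ := True
  I G _ A := {T | ∀ c, J P G A (sort c) → T ∈ PX P C χ c}
  cr {G e A c} hG he hA hc := by
    have : {T | ∀ c, J P G A (sort c) → T ∈ PX P C χ c} = PX P C χ c := by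
      ext T
      exact ⟨fun h => h c hA, fun h c' hc' => by cases hP.sortJ hA hc'; exact h⟩
    rw [this]; exact px_cr hχ hc
  conv {G e A B c} hG he hA hB hc h := by
    ext T
    refine ⟨fun hT c' hc' => ?_, fun hT c' hc' => ?_⟩
    · cases hP.conv_sortJ hG hA hc' h; exact hT _ hA
    · cases hP.conv_sortJ hG hc' hB h; exact hT _ hB
  ext_ok _ _ _ _ := trivial
  ext_ex _ _ _ := ⟨(), trivial⟩
  pi_app {G e A B N a b c} hG he hA hB hr hc hN := by
    intro T hT N' hN'
    have h1 : T ∈ PX P C χ c := hT c (.pi hA hB hr)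
    rw [px_eq hχ hc] at h1
    have h2 := (phi_post _ _ _ h1).2 a b hr N' ⟨hN'.1, fun ha => hN'.2 ha a hA⟩
    refine ⟨h2.1, fun hb b' hb' => ?_⟩
    cases hP.sortJ (hB.inst_sort hN) hb'
    rw [px_eq hχ hb]
    exact h2.2 hb
  pi_lam {G e A B a b c} hG he hA hB hr hc := by
    intro M hM h c' hc'
    cases hP.sortJ (.pi hA hB hr) hc'
    rw [px_eq hχ hc]
    refine phi_lam (px_down hχ) hr hM fun N hN => ?_
    have h1 := h N ⟨hN.1, fun ha a' ha' => by
      cases hP.sortJ hA ha'; exact hN.2 ha⟩ () trivial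
    refine ⟨h1.1, fun hb => ?_⟩
    rw [← px_eq hχ hb]
    exact h1.2 hb b hB
  weak {G e e' A B a b} hG he hA _ hB hb := by
    ext T
    refine ⟨fun hT c' hc' => hT _ (hc'.wk A), fun hT c' hc' => ?_⟩
    cases hP.sortJ (hB.wk A) hc'
    exact hT _ hB

end PolE

end Vale.Agent.P340
end

section

/-! The model of a block without higher-order kinds. -/

namespace Vale.Agent.P340

universe u
variable {S : Type u} {P : Spec S} {C : Set S}

open Tm

namespace PolF

end PolF

end Vale.Agent.P340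
end

section

/-! The model of a block without polymorphism, for weakly normalizing systems. -/

namespace Vale.Agent.P340

universe u
variable {S : Type u} {P : Spec S} {C : Set S}

open Tm

namespace PolP

/-- Family variables are replaced by variables. -/
def VarOk (P : Spec S) (C : Set S) (G : Ctx S) (σ : ℕ → Tm S) : Prop :=
  ∀ n A m, G n = some A → J P G A (sort m) → KS P C m → ∃ k, σ n = var k

/-- Heads of normal families are not abstractions. -/
theorem neu_sub (hP : Functional P) {G : Ctx S} (hG : WFC P G) {σ : ℕ → Tm S}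
    (hσ : VarOk P C G σ) {M A B : Tm S} (hn : Normal M) (hl : ∀ Q R, M ≠ lam Q R)
    (hf : Fam P C G M) (hM : J P G M (pi A B)) : Neu (M.sub σ) := by
  induction M generalizing A B with
  | var n =>
    obtain ⟨A', m, h1, h2, h3⟩ := hf.var_inv hP hG
    obtain ⟨k, hk⟩ := hσ n A' m h1 h2 h3
    show Neu (σ n)
    rw [hk]; exact Neu.var k
  | sort s =>
    obtain ⟨t, -, h⟩ := hM.sort_inv
    exact absurd h (fun h => h.sort_pi)
  | app F N ih _ =>
    obtain ⟨A', B', a, b, m, h1, h2, h3, h4, h5, h6⟩ := hf.app_inv' hP hG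
    refine Neu.app (ih hn.appL ?_ (hf.app_inv hP hG) h1) _
    rintro Q R rfl
    exact hn _ (.beta _ _ _)
  | lam A1 M _ _ => exact absurd rfl (hl _ _)
  | pi A' B' _ _ =>
    obtain ⟨_, _, _, -, -, -, h⟩ := hM.pi_inv
    exact absurd h (fun h => h.sort_pi)

end PolP

end Vale.Agent.P340
end

section

/-! Semantic values for blocks with higher-order kinds. -/

namespace Vale.Agent.P340

namespace PolK

open Tm
open C1 (rep rep_conv rep_eq conv_subs TyD TyC pick tyD_conv tyC_conv pick_conv pick_spec)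

universe u
variable {S : Type u} {P : Spec S} {C : Set S}

/-- Codes of kinds. -/
inductive Kd : Type where
  | star : Kd
  | unit : Kd
  | arr : Kd → Kd → Kd

/-- Values of a code. -/
def Val (C : Set S) : Kd → Type u
  | .star => {X : Set (LTm (Lb S)) // CR (labs C) X}
  | .unit => PUnit
  | .arr k k' => Tm S → Val C k → Val C k'

/-- The default value. -/
def dflt : (k : Kd) → Val C k
  | .star => ⟨snS (labs C), cr_sn⟩
  | .unit => ⟨⟩
  | .arr _ k' => fun _ _ => dflt k'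

/-- Values together with their codes. -/
def SV (C : Set S) : Type u := Σ k : Kd, Val C k

/-- The default value of code star. -/
def junk : SV C := ⟨.star, dflt .star⟩

open Classical in
/-- Forced change of code. -/
noncomputable def SV.to (x : SV C) (k : Kd) : Val C k :=
  if h : x.1 = k then h ▸ x.2 else dflt k

theorem SV.to_self (k : Kd) (v : Val C k) : SV.to ⟨k, v⟩ k = v := by
  unfold SV.to; rw [dif_pos rfl]

theorem SV.mk_to (x : SV C) {k : Kd} (h : x.1 = k) : (⟨k, x.to k⟩ : SV C) = x := by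
  subst h
  obtain ⟨k, v⟩ := x
  rw [SV.to_self]

/-- Application to an expression and a value. -/
noncomputable def SV.app : SV C → Tm S → SV C → SV C
  | ⟨.arr k k', f⟩, N, x => ⟨k', f N (x.to k)⟩
  | _, _, _ => junk

/-- The candidate of a value. -/
def SV.set : SV C → Set (LTm (Lb S))
  | ⟨.star, X⟩ => X.1
  | _ => snS (labs C)

theorem SV.cr (x : SV C) : CR (labs C) x.set := by
  obtain ⟨k, v⟩ := x
  cases k with
  | star => exact v.2
  | unit => exact cr_sn
  | arr => exact cr_sn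

/-! Predicates that are invariant under conversion. -/

/-- `Q` is convertible to a type of sort `a`. -/
def TyS (P : Spec S) (D : Ctx S) (Q : Tm S) (a : S) : Prop := ∃ Q', Conv Q Q' ∧ J P D Q' (sort a)

theorem tyS_conv {D : Ctx S} {Q Q' : Tm S} {a : S} (h : Conv Q Q') :
    TyS P D Q a ↔ TyS P D Q' a :=
  ⟨fun ⟨R, h1, h2⟩ => ⟨R, h.symm.trans h1, h2⟩, fun ⟨R, h1, h2⟩ => ⟨R, h.trans h1, h2⟩⟩

theorem tyS_iff (hP : Functional P) {D : Ctx S} (hD : WFC P D) {Q : Tm S} {a a' : S}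
    (h : J P D Q (sort a)) : TyS P D Q a' ↔ a' = a := by
  constructor
  · rintro ⟨Q', h1, h2⟩
    exact (hP.conv_sortJ hD h h2 h1).symm
  · rintro rfl; exact ⟨Q, .refl _, h⟩

/-! Codes. -/

/-- Variables of kinds of kinds are replaced by variables. -/
def VarOk (P : Spec S) (C : Set S) (G : Ctx S) (σ : ℕ → Tm S) : Prop :=
  ∀ n A q, G n = some A → J P G A (sort q) → KS P {m | KS P C m} q → ∃ k, σ n = var k

theorem neu_sub (hP : Functional P) {G : Ctx S} (hG : WFC P G) {σ : ℕ → Tm S}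
    (hσ : VarOk P C G σ) {M A B : Tm S} (hn : Normal M) (hl : ∀ Q R, M ≠ lam Q R)
    (hf : Fam P {m | KS P C m} G M) (hM : J P G M (pi A B)) : Neu (M.sub σ) := by
  induction M generalizing A B with
  | var n =>
    obtain ⟨A', m, h1, h2, h3⟩ := hf.var_inv hP hG
    obtain ⟨k, hk⟩ := hσ n A' m h1 h2 h3
    show Neu (σ n)
    rw [hk]; exact Neu.var k
  | sort s =>
    obtain ⟨t, -, h⟩ := hM.sort_inv
    exact absurd h (fun h => h.sort_pi)
  | app F N ih _ =>
    obtain ⟨A', B', a, b, m, h1, h2, h3, h4, h5, h6⟩ := hf.app_inv' hP hG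
    refine Neu.app (ih hn.appL ?_ (hf.app_inv hP hG) h1) _
    rintro Q R rfl
    exact hn _ (.beta _ _ _)
  | lam A1 M _ _ => exact absurd rfl (hl _ _)
  | pi A' B' _ _ =>
    obtain ⟨_, _, _, -, -, -, h⟩ := hM.pi_inv
    exact absurd h (fun h => h.sort_pi)

end PolK

end Vale.Agent.P340
end

section

/-! Semantics of families for blocks with higher-order kinds. -/

namespace Vale.Agent.P340

namespace PolK

open Tm
open C1 (rep rep_conv rep_eq conv_subs TyD TyC pick tyD_conv tyC_conv pick_conv pick_spec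
  scons_up scons_ups conv_scons)

universe u
variable {S : Type u}

variable {P : Spec S} {C : Set S} {D : Ctx S}

end PolK

end Vale.Agent.P340
end

section

/-! The model of a block without kind polymorphism. -/

namespace Vale.Agent.P340

namespace PolK

open Tm
open C1 (rep rep_conv rep_eq conv_subs TyD TyC pick tyD_conv tyC_conv pick_conv pick_spec
  scons_up scons_ups conv_scons)

universe u
variable {S : Type u}

variable {P : Spec S} {C : Set S} {D : Ctx S} {G : Ctx S} {θ : ℕ → Tm S} {ρ : ℕ → SV C}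

end PolK

end Vale.Agent.P340
end

section

/-! Strong normalization of decorated typed expressions for the labels of one block. -/

namespace Vale.Agent.P340

universe u
variable {S : Type u} {P : Spec S} {C : Set S}

open Tm

/-- All decorated typed expressions are strongly normalizing for the labels of `C`. -/
def BlockSn (P : Spec S) (C : Set S) : Prop :=
  ∀ (Γ : List (Tm S)) (M A : Tm S) (M' : LTm (Lb S)), WF P Γ → J P (ofList Γ) M A →
    Dec P (ofList Γ) M M' → SnX (labs C) M'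

theorem blockSn_E (hP : Functional P) {χ : S → Bool} (hχ : PolE.Even P C χ) : BlockSn P C :=
  fun _ _ _ _ hΓ hM h => (PolE.model hP hχ).sn (e := ()) hP hΓ.wfc trivial h hM

end Vale.Agent.P340
end

section

/-! Strong normalization for the labels of a block by the model with small support, under
weaker conditions on the ranks. -/

namespace Vale.Agent.P340

universe u
variable {S : Type u} {P : Spec S} {C : Set S}

open Tm

/-- The sorts of the kinds of `C` can be ranked: sorts in `Q` by `rk` and `U`, sorts in `E` and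
in `O` alternate. -/
def RankedM (P : Spec S) (C : Set S) : Prop :=
  ∃ (Q U E O : Set S) (rk : S → ℕ),
    (∀ a b m, P.rule a b m → KS P C b → m ∈ Q → b ∈ Q ∧ (KS P C a → a ∈ Q)) ∧
    (∀ a b m, P.rule a b m → KS P C b → m ∈ Q → m ∈ U →
      (rk b < rk m ∨ (rk b = rk m ∧ b ∈ U)) ∧ (KS P C a → rk a < rk m)) ∧
    (∀ a b m, P.rule a b m → KS P C b → m ∈ Q → m ∉ U →
      (KS P C a → rk a < rk m ∨ (rk a = rk m ∧ a ∉ U)) ∧
      (rk b < rk m ∨ (rk b = rk m ∧ b ∉ U ∧
        ∀ k, KS P C k → k ∈ Q → k ∉ U → rk k = rk m → ¬ KS P {k} a))) ∧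
    (∀ a b m, P.rule a b m → KS P C b → m ∈ E →
      (b ∈ E ∨ b ∈ Q) ∧ (KS P C a → a ∈ O ∨ a ∈ Q)) ∧
    (∀ a b m, P.rule a b m → KS P C b → m ∈ O →
      (b ∈ O ∨ b ∈ Q) ∧ (KS P C a → a ∈ E ∨ a ∈ Q)) ∧
    (∀ a b c, P.rule a b c → KS P C a → b ∈ C → c ∈ C → a ∈ Q ∨ a ∈ E) ∧
    (∀ a, a ∈ Q → a ∉ E) ∧ (∀ a, a ∈ Q → a ∉ O) ∧ (∀ a, a ∈ E → a ∉ O)

end Vale.Agent.P340
end

section

/-! The graph of the kind sorts of a block: ranks or a bad component. -/

namespace Vale.Agent.P340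

universe u
variable {S : Type u} {P : Spec S} {C : Set S}

open Relation

/-- Edges of the graph of kind sorts: from the sort of a product kind to the sorts of its
codomain (even, `false`) and of its domain (odd, `true`). -/
def KE (P : Spec S) (C : Set S) : Bool → S → S → Prop
  | false, m, b => ∃ a, P.rule a b m ∧ KS P C b
  | true, m, a => ∃ b, P.rule a b m ∧ KS P C b ∧ KS P C a

/-- Walks in the graph of kind sorts through vertices of `V`, with their parity. -/
inductive KW (P : Spec S) (C V : Set S) (a : S) : Bool → S → Prop where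
  | nil : KW P C V a false a
  | step {p q : Bool} {b c : S} : KW P C V a p b → b ∈ V → c ∈ V → KE P C q b c →
      KW P C V a (xor p q) c

/-- The sets `C` and `V` of sorts carry a paradox. -/
structure BadK (P : Spec S) (C V : Set S) : Prop where
  kind : ∀ v ∈ V, KS P C v
  conn : ∀ a ∈ V, ∀ b ∈ V, ∃ p, KW P C V a p b
  cov : ∀ v ∈ V, ∀ p, ∃ q, KW P C Set.univ q p v ∧ KS P C q ∧ ∃ b ∈ C, ∃ c ∈ C, P.rule q b c
  odd : ∃ m ∈ V, ∃ a ∈ V, KE P C true m a
  poly : ∃ k ∈ V, ∃ m ∈ V, ∃ b ∈ V, ∃ a, P.rule a b m ∧ KS P {k} a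

theorem KE.ks {q : Bool} {m x : S} (h : KE P C q m x) : KS P C m ∧ KS P C x := by
  cases q with
  | false =>
    obtain ⟨a, h1, h2⟩ := h
    exact ⟨.rule h2 h1, h2⟩
  | true =>
    obtain ⟨b, h1, h2, h3⟩ := h
    exact ⟨.rule h2 h1, h3⟩

theorem KW.trans {V : Set S} {a b c : S} {p q : Bool} (h : KW P C V a p b)
    (h' : KW P C V b q c) : KW P C V a (xor p q) c := by
  induction h' with
  | nil => rw [Bool.xor_false]; exact h
  | step _ h1 h2 h3 ih => rw [← Bool.xor_assoc]; exact ih.step h1 h2 h3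

theorem KW.mono {V V' : Set S} (hV : V ⊆ V') {a b : S} {p : Bool}
    (h : KW P C V a p b) : KW P C V' a p b := by
  induction h with
  | nil => exact .nil
  | step _ h1 h2 h3 ih => exact ih.step (hV h1) (hV h2) h3

theorem rankedM_or_bad [Finite S] : RankedM P C ∨ ∃ V, BadK P C V := by
  by_cases hB : ∃ V, BadK P C V
  · exact .inr hB
  left
  let R : S → S → Prop := fun x m => ∃ q, KE P C q m x
  obtain ⟨rk, h1, h2⟩ := exists_rank R
  let Rch : Bool → S → Prop := fun p v => ∃ q, KW P C Set.univ q p v ∧ KS P C q ∧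
    ∃ b ∈ C, ∃ c ∈ C, P.rule q b c
  have hstep : ∀ {p q : Bool} {m x : S}, Rch p m → KE P C q m x → Rch (xor p q) x := by
    rintro p q m x ⟨r, h3, h4⟩ h5
    exact ⟨r, h3.step trivial trivial h5, h4⟩
  have hwalk : ∀ {p q : Bool} {V : Set S} {m x : S}, Rch p m → KW P C V m q x →
      Rch (xor p q) x := by
    rintro p q V m x ⟨r, h3, h4⟩ h5
    exact ⟨r, h3.trans (h5.mono (Set.subset_univ _)), h4⟩
  -- the component of a sort
  let cmp : S → Set S := fun m => {x | ReflTransGen R m x ∧ ReflTransGen R x m}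
  have hwk : ∀ (m : S) {x y : S}, x ∈ cmp m → y ∈ cmp m → ReflTransGen R y x →
      ∃ p, KW P C (cmp m) x p y := by
    intro m x y hx hy h
    have key : ∀ {z : S}, ReflTransGen R z x → ReflTransGen R y z → z ∈ cmp m ∧
        ∃ p, KW P C (cmp m) x p z := by
      intro z hz
      induction hz using ReflTransGen.head_induction_on with
      | refl => exact fun _ => ⟨hx, _, .nil⟩
      | @head z w hzw hwx ih =>
        intro hyz
        obtain ⟨h3, p, h4⟩ := ih (hyz.tail hzw)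
        obtain ⟨q, hq⟩ := hzw
        have hz' : z ∈ cmp m := ⟨hy.1.trans hyz, .head ⟨q, hq⟩ h3.2⟩
        exact ⟨hz', _, h4.step h3 hz' hq⟩
    exact (key h .refl).2
  have hconn : ∀ (m : S) {x y : S}, x ∈ cmp m → y ∈ cmp m → ∃ p, KW P C (cmp m) x p y :=
    fun m x y hx hy => hwk m hx hy (hy.2.trans hx.1)
  have hsame : ∀ {x m : S}, rk x = rk m → x ∈ cmp m := fun e =>
    ⟨(h2 _ _ e).2, (h2 _ _ e).1⟩
  have hcmp : ∀ {x y m : S}, x ∈ cmp m → (y ∈ cmp x ↔ y ∈ cmp m) := by
    intro x y m hx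
    exact ⟨fun h => ⟨hx.1.trans h.1, h.2.trans hx.2⟩, fun h => ⟨hx.2.trans h.1, h.2.trans hx.1⟩⟩
  let U : Set S := {v | ¬ ∃ y ∈ cmp v, ∃ x ∈ cmp v, KE P C true y x}
  have hU : ∀ {x m : S}, x ∈ cmp m → (x ∈ U ↔ m ∈ U) := by
    intro x m hx
    refine not_congr (exists_congr fun y => and_congr (hcmp hx) (exists_congr fun z =>
      and_congr (hcmp hx) Iff.rfl))
  have hle : ∀ {q : Bool} {m x : S}, KE P C q m x → rk x ≤ rk m := fun h => h1 _ _ ⟨_, h⟩
  have hev : ∀ {a b m : S}, P.rule a b m → KS P C b → KE P C false m b := fun h h' => ⟨_, h, h'⟩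
  have hod : ∀ {a b m : S}, P.rule a b m → KS P C b → KS P C a → KE P C true m a :=
    fun h h' h'' => ⟨_, h, h', h''⟩
  refine ⟨{v | Rch false v ∧ Rch true v}, U,
    {v | Rch false v ∧ ¬ Rch true v}, {v | Rch true v ∧ ¬ Rch false v}, rk,
    ?_, ?_, ?_, ?_, ?_, ?_, ?_, ?_, ?_⟩
  · intro a b m hr hb hm
    exact ⟨⟨hstep hm.1 (hev hr hb), hstep hm.2 (hev hr hb)⟩,
      fun ha => ⟨hstep hm.2 (hod hr hb ha), hstep hm.1 (hod hr hb ha)⟩⟩
  · intro a b m hr hb _ hm
    constructor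
    · rcases lt_or_eq_of_le (hle (hev hr hb)) with h | h
      · exact .inl h
      · exact .inr ⟨h, (hU (hsame h)).2 hm⟩
    · intro ha
      refine lt_of_le_of_ne (hle (hod hr hb ha)) fun e => ?_
      exact hm ⟨m, ⟨.refl, .refl⟩, a, hsame e, hod hr hb ha⟩
  · intro a b m hr hb hmQ hm
    constructor
    · intro ha
      rcases lt_or_eq_of_le (hle (hod hr hb ha)) with h | h
      · exact .inl h
      · exact .inr ⟨h, fun h' => hm ((hU (hsame h)).1 h')⟩
    · rcases lt_or_eq_of_le (hle (hev hr hb)) with h | h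
      · exact .inl h
      · refine .inr ⟨h, fun h' => hm ((hU (hsame h)).1 h'), ?_⟩
        intro k hk _ _ e hka
        refine hB ⟨cmp m, ?_, fun x hx y hy => hconn m hx hy, ?_, ?_, ?_⟩
        · intro v hv
          rcases hv.1.cases_head with h3 | ⟨z, ⟨q, h3⟩, -⟩
          · subst h3; exact .rule hb hr
          · rcases hv.2.cases_head with h4 | ⟨z', ⟨q', h4⟩, -⟩
            · subst h4; exact .rule hb hr
            · exact h4.ks.2
        · intro v hv p
          obtain ⟨p', h3⟩ := hconn m (x := m) ⟨.refl, .refl⟩ hv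
          have h4 : ∀ p, Rch p m := fun p => by cases p; exacts [hmQ.1, hmQ.2]
          have h5 := hwalk (h4 (xor p p')) h3
          rwa [Bool.xor_assoc, Bool.xor_self, Bool.xor_false] at h5
        · exact not_not.1 hm
        · exact ⟨k, hsame e, m, ⟨.refl, .refl⟩, b, hsame h, a, hr, hka⟩
  · intro a b m hr hb hm
    have h3 : Rch false b := hstep hm.1 (hev hr hb)
    constructor
    · by_cases h : Rch true b
      · exact .inr ⟨h3, h⟩
      · exact .inl ⟨h3, h⟩
    · intro ha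
      have h4 : Rch true a := hstep hm.1 (hod hr hb ha)
      by_cases h : Rch false a
      · exact .inr ⟨h, h4⟩
      · exact .inl ⟨h4, h⟩
  · intro a b m hr hb hm
    have h3 : Rch true b := hstep hm.1 (hev hr hb)
    constructor
    · by_cases h : Rch false b
      · exact .inr ⟨h, h3⟩
      · exact .inl ⟨h3, h⟩
    · intro ha
      have h4 : Rch false a := hstep hm.1 (hod hr hb ha)
      by_cases h : Rch true a
      · exact .inr ⟨h4, h⟩
      · exact .inl ⟨h4, h⟩
  · intro a b c hr ha hb hc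
    have h0 : Rch false a := ⟨a, .nil, ha, b, hb, c, hc, hr⟩
    by_cases h : Rch true a
    · exact .inl ⟨h0, h⟩
    · exact .inr ⟨h0, h⟩
  · exact fun a ha hE => hE.2 ha.2
  · exact fun a ha hO => hO.2 ha.1
  · exact fun a ha hO => hO.2 ha.1

end Vale.Agent.P340
end

section

/-! Bounded ranks such that the set `U` only depends on the rank. -/

namespace Vale.Agent.P340

universe u
variable {S : Type u} {P : Spec S} {C : Set S}

open Relation

/-- As `RankedM`; moreover `U` only depends on the rank, and the ranks are bounded. -/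
def RankedM' (P : Spec S) (C : Set S) : Prop :=
  ∃ (Q U E O : Set S) (rk : S → ℕ),
    (∀ a b m, P.rule a b m → KS P C b → m ∈ Q → b ∈ Q ∧ (KS P C a → a ∈ Q)) ∧
    (∀ a b m, P.rule a b m → KS P C b → m ∈ Q → m ∈ U →
      (rk b < rk m ∨ (rk b = rk m ∧ b ∈ U)) ∧ (KS P C a → rk a < rk m)) ∧
    (∀ a b m, P.rule a b m → KS P C b → m ∈ Q → m ∉ U →
      (KS P C a → rk a < rk m ∨ (rk a = rk m ∧ a ∉ U)) ∧
      (rk b < rk m ∨ (rk b = rk m ∧ b ∉ U ∧
        ∀ k, KS P C k → k ∈ Q → k ∉ U → rk k = rk m → ¬ KS P {k} a))) ∧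
    (∀ a b m, P.rule a b m → KS P C b → m ∈ E →
      (b ∈ E ∨ b ∈ Q) ∧ (KS P C a → a ∈ O ∨ a ∈ Q)) ∧
    (∀ a b m, P.rule a b m → KS P C b → m ∈ O →
      (b ∈ O ∨ b ∈ Q) ∧ (KS P C a → a ∈ E ∨ a ∈ Q)) ∧
    (∀ a b c, P.rule a b c → KS P C a → b ∈ C → c ∈ C → a ∈ Q ∨ a ∈ E) ∧
    (∀ a, a ∈ Q → a ∉ E) ∧ (∀ a, a ∈ Q → a ∉ O) ∧ (∀ a, a ∈ E → a ∉ O) ∧
    (∀ a b, rk a = rk b → (a ∈ U ↔ b ∈ U)) ∧ ∃ R, ∀ s, rk s < R

theorem rankedM'_or_bad [Finite S] : RankedM' P C ∨ ∃ V, BadK P C V := by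
  by_cases hB : ∃ V, BadK P C V
  · exact .inr hB
  left
  let R : S → S → Prop := fun x m => ∃ q, KE P C q m x
  obtain ⟨rk, h1, h2⟩ := exists_rank R
  let Rch : Bool → S → Prop := fun p v => ∃ q, KW P C Set.univ q p v ∧ KS P C q ∧
    ∃ b ∈ C, ∃ c ∈ C, P.rule q b c
  have hstep : ∀ {p q : Bool} {m x : S}, Rch p m → KE P C q m x → Rch (xor p q) x := by
    rintro p q m x ⟨r, h3, h4⟩ h5
    exact ⟨r, h3.step trivial trivial h5, h4⟩
  have hwalk : ∀ {p q : Bool} {V : Set S} {m x : S}, Rch p m → KW P C V m q x →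
      Rch (xor p q) x := by
    rintro p q V m x ⟨r, h3, h4⟩ h5
    exact ⟨r, h3.trans (h5.mono (Set.subset_univ _)), h4⟩
  -- the component of a sort
  let cmp : S → Set S := fun m => {x | ReflTransGen R m x ∧ ReflTransGen R x m}
  have hwk : ∀ (m : S) {x y : S}, x ∈ cmp m → y ∈ cmp m → ReflTransGen R y x →
      ∃ p, KW P C (cmp m) x p y := by
    intro m x y hx hy h
    have key : ∀ {z : S}, ReflTransGen R z x → ReflTransGen R y z → z ∈ cmp m ∧
        ∃ p, KW P C (cmp m) x p z := by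
      intro z hz
      induction hz using ReflTransGen.head_induction_on with
      | refl => exact fun _ => ⟨hx, _, .nil⟩
      | @head z w hzw hwx ih =>
        intro hyz
        obtain ⟨h3, p, h4⟩ := ih (hyz.tail hzw)
        obtain ⟨q, hq⟩ := hzw
        have hz' : z ∈ cmp m := ⟨hy.1.trans hyz, .head ⟨q, hq⟩ h3.2⟩
        exact ⟨hz', _, h4.step h3 hz' hq⟩
    exact (key h .refl).2
  have hconn : ∀ (m : S) {x y : S}, x ∈ cmp m → y ∈ cmp m → ∃ p, KW P C (cmp m) x p y :=
    fun m x y hx hy => hwk m hx hy (hy.2.trans hx.1)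
  have hsame : ∀ {x m : S}, rk x = rk m → x ∈ cmp m := fun e =>
    ⟨(h2 _ _ e).2, (h2 _ _ e).1⟩
  have hcmp : ∀ {x y m : S}, x ∈ cmp m → (y ∈ cmp x ↔ y ∈ cmp m) := by
    intro x y m hx
    exact ⟨fun h => ⟨hx.1.trans h.1, h.2.trans hx.2⟩, fun h => ⟨hx.2.trans h.1, h.2.trans hx.1⟩⟩
  let U : Set S := {v | ¬ ∃ y ∈ cmp v, ∃ x ∈ cmp v, KE P C true y x}
  have hU : ∀ {x m : S}, x ∈ cmp m → (x ∈ U ↔ m ∈ U) := by
    intro x m hx
    refine not_congr (exists_congr fun y => and_congr (hcmp hx) (exists_congr fun z =>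
      and_congr (hcmp hx) Iff.rfl))
  have hle : ∀ {q : Bool} {m x : S}, KE P C q m x → rk x ≤ rk m := fun h => h1 _ _ ⟨_, h⟩
  have hev : ∀ {a b m : S}, P.rule a b m → KS P C b → KE P C false m b := fun h h' => ⟨_, h, h'⟩
  have hod : ∀ {a b m : S}, P.rule a b m → KS P C b → KS P C a → KE P C true m a :=
    fun h h' h'' => ⟨_, h, h', h''⟩
  refine ⟨{v | Rch false v ∧ Rch true v}, U,
    {v | Rch false v ∧ ¬ Rch true v}, {v | Rch true v ∧ ¬ Rch false v}, rk,
    ?_, ?_, ?_, ?_, ?_, ?_, ?_, ?_, ?_, ?_, ?_⟩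
  · intro a b m hr hb hm
    exact ⟨⟨hstep hm.1 (hev hr hb), hstep hm.2 (hev hr hb)⟩,
      fun ha => ⟨hstep hm.2 (hod hr hb ha), hstep hm.1 (hod hr hb ha)⟩⟩
  · intro a b m hr hb _ hm
    constructor
    · rcases lt_or_eq_of_le (hle (hev hr hb)) with h | h
      · exact .inl h
      · exact .inr ⟨h, (hU (hsame h)).2 hm⟩
    · intro ha
      refine lt_of_le_of_ne (hle (hod hr hb ha)) fun e => ?_
      exact hm ⟨m, ⟨.refl, .refl⟩, a, hsame e, hod hr hb ha⟩
  · intro a b m hr hb hmQ hm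
    constructor
    · intro ha
      rcases lt_or_eq_of_le (hle (hod hr hb ha)) with h | h
      · exact .inl h
      · exact .inr ⟨h, fun h' => hm ((hU (hsame h)).1 h')⟩
    · rcases lt_or_eq_of_le (hle (hev hr hb)) with h | h
      · exact .inl h
      · refine .inr ⟨h, fun h' => hm ((hU (hsame h)).1 h'), ?_⟩
        intro k hk _ _ e hka
        refine hB ⟨cmp m, ?_, fun x hx y hy => hconn m hx hy, ?_, ?_, ?_⟩
        · intro v hv
          rcases hv.1.cases_head with h3 | ⟨z, ⟨q, h3⟩, -⟩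
          · subst h3; exact .rule hb hr
          · rcases hv.2.cases_head with h4 | ⟨z', ⟨q', h4⟩, -⟩
            · subst h4; exact .rule hb hr
            · exact h4.ks.2
        · intro v hv p
          obtain ⟨p', h3⟩ := hconn m (x := m) ⟨.refl, .refl⟩ hv
          have h4 : ∀ p, Rch p m := fun p => by cases p; exacts [hmQ.1, hmQ.2]
          have h5 := hwalk (h4 (xor p p')) h3
          rwa [Bool.xor_assoc, Bool.xor_self, Bool.xor_false] at h5
        · exact not_not.1 hm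
        · exact ⟨k, hsame e, m, ⟨.refl, .refl⟩, b, hsame h, a, hr, hka⟩
  · intro a b m hr hb hm
    have h3 : Rch false b := hstep hm.1 (hev hr hb)
    constructor
    · by_cases h : Rch true b
      · exact .inr ⟨h3, h⟩
      · exact .inl ⟨h3, h⟩
    · intro ha
      have h4 : Rch true a := hstep hm.1 (hod hr hb ha)
      by_cases h : Rch false a
      · exact .inr ⟨h, h4⟩
      · exact .inl ⟨h4, h⟩
  · intro a b m hr hb hm
    have h3 : Rch true b := hstep hm.1 (hev hr hb)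
    constructor
    · by_cases h : Rch false b
      · exact .inr ⟨h, h3⟩
      · exact .inl ⟨h3, h⟩
    · intro ha
      have h4 : Rch false a := hstep hm.1 (hod hr hb ha)
      by_cases h : Rch true a
      · exact .inr ⟨h4, h⟩
      · exact .inl ⟨h4, h⟩
  · intro a b c hr ha hb hc
    have h0 : Rch false a := ⟨a, .nil, ha, b, hb, c, hc, hr⟩
    by_cases h : Rch true a
    · exact .inl ⟨h0, h⟩
    · exact .inr ⟨h0, h⟩
  · exact fun a ha hE => hE.2 ha.2
  · exact fun a ha hO => hO.2 ha.1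
  · exact fun a ha hO => hO.2 ha.1
  · exact fun a b e => hU (hsame e)
  · obtain ⟨K, hK⟩ := (Set.finite_range rk).bddAbove
    exact ⟨K + 1, fun s => Nat.lt_succ_of_le (hK ⟨s, rfl⟩)⟩

end Vale.Agent.P340
end

section

/-! The data of a model from ranks. -/

namespace Vale.Agent.P340

namespace NM

open Tm
open W (LvOk)

universe u
variable {S : Type u} {P : Spec S} {lv : S → ℕ} {i : ℕ} {D : Ctx S}

/-- The data of a model for a level whose kinds can be ranked. -/
theorem setup_of_ranked (hR : RankedM' P {c | lv c = i}) (hW : WNKindVar P) (hlv : LvOk P lv)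
    (hD : WFC P D) (hN : NCtx P D)
    (hsat : ∀ L s, J P D L (Tm.sort s) → ∃ n, D n = some L) :
    ∃ (Q U E O : Set S) (rk : S → ℕ) (R : ℕ),
      (⟨P, lv, i, Q, U, E, O, rk, R, D, hD⟩ : Par S).Setup := by
  obtain ⟨Q, U, E, O, rk, q1, u1, u2, e1, o1, q2, d1, d2, d3, uc, R, rb⟩ := hR
  refine ⟨Q, U, E, O, rk, R, hW, ?_, hN, hlv, ?_⟩
  · exact
      { q1 := q1
        u1 := fun a b m h1 h2 h3 h4 => u1 a b m h1 h2 h3 h4
        u2 := fun a b m h1 h2 h3 h4 => u2 a b m h1 h2 h3 h4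
        e1 := e1
        o1 := o1
        q2 := q2
        dqe := d1
        dqo := d2
        deo := d3
        uc := uc
        rb := rb }
  · intro L s hL
    obtain ⟨n, hn⟩ := hsat L s hL
    exact ⟨_, .var hn⟩

end NM

end Vale.Agent.P340
end

section

/-! Soundness of the models. -/

namespace Vale.Agent.P340.W

universe u v
variable {S : Type u} {P : Spec S} {lv : S → ℕ} {i : ℕ} {G D : Ctx S}

open Relation

theorem Ty.sub {M : MTm S} {T : Tm S} (h : Ty P G M T) {σ : ℕ → MTm S}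
    (hσ : SubC P G D (fun n => (σ n).er)) (hσ' : ∀ n, Ok P D (σ n)) :
    Ty P D (M.sub σ) (T.sub fun n => (σ n).er) :=
  ⟨h.1.sub hσ hσ', by rw [MTm.er_sub]; exact h.2.sub hσ⟩

/-- Valid substitutions. -/
structure Env (m : Mod.{u, v} P lv i D) (G : Ctx S) (e : m.E) (γ : ℕ → MTm S) : Prop where
  val : m.Val G e
  ok : ∀ n, Ok P D (γ n)
  er : (fun n => (γ n).er) = m.th e
  mem : ∀ n B, G n = some B → γ n ∈ DS P lv i D G (m.th e) B (m.I G e B)
  wo : ∀ n B, G n = some B → ¬ Lc P lv (i + 1) G B → Wo P lv i D (γ n)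

theorem Env.push (hW : WNKindVar P) (hG : WFC P G) (hN : NCtx P G) {m : Mod.{u, v} P lv i D}
    {e e' : m.E} {γ : ℕ → MTm S} (h : Env m G e γ) {A : Tm S} {a : S}
    (hA : J P G A (Tm.sort a)) {q : MTm S}
    (hq : q ∈ DS P lv i D G (m.th e) A (m.I G e A))
    (hqw : Lc P lv (i + 1) G A ∨ Wo P lv i D q ∧ ∃ d, q.er = Tm.var d)
    (he : m.Ext G e A q.er e') : Env m (push A G) e' (MTm.scons q γ) := by
  have hθ := m.ext_th he
  have hQ : J P D q.er (A.sub (m.th e)) := hq.2.1.2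
  have hqd : Lc P lv (i + 1) G A ∨ ∃ d, q.er = Tm.var d := hqw.imp_right fun h => h.2
  have hr : ∀ {C : Tm S} {c : S}, J P G C (Tm.sort c) →
      Lc P lv (i + 1) (Vale.Agent.P340.push A G) (Tm.wk C) → Lc P lv (i + 1) G C :=
    fun hC hl => Lc.of_rens hW (renC_wk G A) (hG.push hA) hG hN hC hl
  refine ⟨m.ext_val hG hN h.val hA hQ hqd he, ?_, ?_, ?_, ?_⟩
  · intro n
    cases n with
    | zero => exact hq.2.1.1
    | succ n => exact h.ok n
  · rw [MTm.er_scons, h.er, hθ]
  · intro n B hB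
    rw [hθ]
    cases n with
    | zero =>
      simp only [push_zero, Option.some.injEq] at hB
      subst hB
      have e1 : (Tm.wk A).sub (Tm.scons q.er (m.th e)) = A.sub (m.th e) := Tm.sub_scons_wk _ _ _
      refine ⟨hq.1, by rw [e1]; exact hq.2.1, fun l1 l2 => ?_⟩
      rw [e1] at l2
      have l1' := hr hA l1
      have := m.weak hG hN h.val hA hQ hqd he hA l1' l2
      rw [this]
      exact hq.2.2 l1' l2
    | succ n =>
      rw [push_succ, Option.map_eq_some_iff] at hB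
      obtain ⟨C, hC, rfl⟩ := hB
      obtain ⟨c, hc⟩ := hG n C hC
      have e1 : (Tm.wk C).sub (Tm.scons q.er (m.th e)) = C.sub (m.th e) := Tm.sub_scons_wk _ _ _
      have h1 := h.mem n C hC
      refine ⟨h1.1, by rw [e1]; exact h1.2.1, fun l1 l2 => ?_⟩
      rw [e1] at l2
      have l1' := hr hc l1
      have := m.weak hG hN h.val hA hQ hqd he hc l1' l2
      rw [this]
      exact h1.2.2 l1' l2
  · intro n B hB hl
    cases n with
    | zero =>
      simp only [push_zero, Option.some.injEq] at hB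
      subst hB
      rcases hqw with hl' | hqw
      · exact absurd (hl'.ren (renC_wk G A)) hl
      · exact hqw.1
    | succ n =>
      rw [push_succ, Option.map_eq_some_iff] at hB
      obtain ⟨C, hC, rfl⟩ := hB
      exact h.wo n C hC fun hl' => hl (hl'.ren (renC_wk G A))

theorem sound (hW : WNKindVar P) (hlv : LvOk P lv) (hD : WFC P D) (hDN : NCtx P D)
    (hsat : ∀ L s, J P D L (Tm.sort s) → ∃ n, D n = some L) (m : Mod.{u, v} P lv i D)
    {M : MTm S} : ∀ {G : Ctx S} {e : m.E} {γ : ℕ → MTm S} {T : Tm S}, WFC P G → NCtx P G →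
    Env m G e γ → Ok P G M → J P G M.er T → Nm P lv (i + 1) G M →
    Wn P lv i D (M.sub γ) ∧
    (∀ t, J P G T (Tm.sort t) → Lc P lv (i + 1) G T → ¬ Lc P lv i D (T.sub (m.th e)) →
      M.sub γ ∈ m.I G e T) ∧
    (¬ M.IsLam → ¬ Lc P lv (i + 1) G T → Wo P lv i D (M.sub γ)) := by
  have ofwo : ∀ {G : Ctx S} {e : m.E} {T : Tm S} {N : MTm S} {Q : Prop}, WFC P G → NCtx P G →
      m.Val G e → Wo P lv i D N →
      Wn P lv i D N ∧
      (∀ t, J P G T (Tm.sort t) → Lc P lv (i + 1) G T → ¬ Lc P lv i D (T.sub (m.th e)) →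
        N ∈ m.I G e T) ∧
      (Q → ¬ Lc P lv (i + 1) G T → Wo P lv i D N) := fun hG hN hv h =>
    ⟨h.wn, fun t h1 h2 h3 => (m.cr hG hN hv h1 h2 h3).wo h, fun _ _ => h⟩
  have gen : ∀ {G : Ctx S} {e : m.E} {γ : ℕ → MTm S} {A : Tm S} {N : MTm S} {a : S} {B : Tm S},
      WFC P G → NCtx P G → Env m G e γ → J P G A (Tm.sort a) → Ok P (push A G) N →
      J P (push A G) N.er B →
      (∀ {e' : m.E} {γ' : ℕ → MTm S}, Env m (push A G) e' γ' → Wn P lv i D (N.sub γ')) →
      Wn P lv i (push (A.sub (m.th e)) D) (N.sub (MTm.ups γ)) := by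
    intro G e γ A N a B hG hN hE hA hO hB ih
    have hS := m.sub hE.val
    have hA' : J P D (A.sub (m.th e)) (Tm.sort a) := hA.sub hS
    obtain ⟨d, hd⟩ := hsat _ _ hA'
    have hdt : J P D (Tm.var d) (A.sub (m.th e)) := .var hd
    obtain ⟨e', he'⟩ := m.ext_ex hG hN hE.val hA hdt (.inr ⟨d, rfl⟩)
    have hq : (MTm.var d) ∈ DS P lv i D G (m.th e) A (m.I G e A) :=
      DS.wo (fun l1 l2 => m.cr hG hN hE.val hA l1 l2) (wo_var hdt) ⟨.var d, hdt⟩
    have h1 := ih (hE.push hW hG hN hA hq (.inr ⟨wo_var hdt, d, rfl⟩) he')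
    rw [← MTm.inst_ups] at h1
    have hE' : SubC P G D (fun n => (γ n).er) := by rw [hE.er]; exact hS
    have h2 : Ty P (push (A.sub (m.th e)) D) (N.sub (MTm.ups γ)) (B.sub (Tm.ups (m.th e))) := by
      have h3 : Ty P (push A G) N B := ⟨hO, hB⟩
      have h4 := h3.sub (σ := MTm.ups γ) (D := push (A.sub (m.th e)) D)
        (by rw [MTm.er_ups, hE.er]; exact hS.up A)
        (fun n => by
          cases n with
          | zero => exact .var 0
          | succ n => exact (hE.ok n).ren (renC_wk _ _))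
      rw [MTm.er_ups, hE.er] at h4
      exact h4
    exact wn_body hW hD hDN hA' hd h2 h1
  induction M with
  | var n =>
    intro G e γ T hG hN hE hO hT hM
    obtain ⟨A, h1, h2⟩ := hT.var_inv
    obtain ⟨a, ha⟩ := hG n A h1
    have h3 := hE.mem n A h1
    refine ⟨h3.1, fun t k1 k2 k3 => ?_, fun _ k2 => ?_⟩
    · have l1 : Lc P lv (i + 1) G A := k2.conv h2.symm
      have l2 : ¬ Lc P lv i D (A.sub (m.th e)) := fun h => k3 (h.conv (h2.sub _))
      rw [← m.sib hG hN hE.val ha k1 l1 l2 (.conv h2)]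
      exact h3.2.2 l1 l2
    · exact hE.wo n A h1 fun h => k2 (h.conv h2)
  | sort s =>
    intro G e γ T hG hN hE hO hT hM
    obtain ⟨t, h1, h2⟩ := hT.sort_inv
    exact ofwo hG hN hE.val (wo_sort (A := Tm.sort t) (.sort h1))
  | app F N ihF ihN =>
    intro G e γ T hG hN hE hO hT hM
    obtain ⟨A, B, h1, h2, h3⟩ := hT.app_inv
    have hS := m.sub hE.val
    have hS' : SubC P G D (fun n => (γ n).er) := by rw [hE.er]; exact hS
    obtain ⟨s3, hP⟩ : ∃ s, J P G (Tm.pi A B) (Tm.sort s) := by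
      rcases h1.correct hG with ⟨s, e⟩ | h
      · cases e
      · exact h
    obtain ⟨s1, s2, s3', p1, p2, p3, p4⟩ := hP.pi_inv
    cases hO with
    | app o1 o2 =>
      cases hM with
      | app m1 m2 m3 =>
        obtain ⟨f1, f2, f3⟩ := ihF hG hN hE o1 h1 m1
        obtain ⟨n1, n2, n3⟩ := ihN hG hN hE o2 h2 m2
        have hTy : Ty P D (MTm.app (F.sub γ) (N.sub γ)) (T.sub (m.th e)) := by
          have := Ty.sub (M := MTm.app F N) ⟨.app o1 o2, hT⟩ hS' hE.ok
          rw [hE.er] at this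
          exact this
        have hFy : Ty P D (F.sub γ) ((Tm.pi A B).sub (m.th e)) := by
          have := Ty.sub (M := F) ⟨o1, h1⟩ hS' hE.ok
          rw [hE.er] at this
          exact this
        have hNy : Ty P D (N.sub γ) (A.sub (m.th e)) := by
          have := Ty.sub (M := N) ⟨o2, h2⟩ hS' hE.ok
          rw [hE.er] at this
          exact this
        by_cases hl : Lc P lv (i + 1) G (Tm.pi A B)
        · have hlT : Lc P lv (i + 1) G T := (hl.inst hlv hG h2).conv h3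
          by_cases hl' : Lc P lv i D ((Tm.pi A B).sub (m.th e))
          · refine ⟨Wn.app_low hD f1 n1 ⟨_, hTy⟩ hFy.2 hl', fun t k1 k2 k3 => ?_,
              fun _ k2 => absurd hlT k2⟩
            refine absurd ?_ k3
            have h5 := Lc.inst (A := A.sub (m.th e)) (B := B.sub (Tm.ups (m.th e))) hlv hD hl'
              hNy.2
            refine h5.conv ?_
            rw [MTm.er_sub, hE.er, ← Tm.sub_inst]
            exact h3.sub _
          · have hr := f2 _ hP hl hl'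
            have h5 := m.pi_app hG hN hE.val hP hl hl' h2 _ hFy hr (N.sub γ)
              ⟨n1, hNy, fun l1 l2 => n2 _ p1 l1 l2⟩ (by rw [MTm.er_sub, hE.er])
            refine ⟨h5.1, fun t k1 k2 k3 => ?_, fun _ k2 => absurd hlT k2⟩
            have l1 : Lc P lv (i + 1) G (Tm.inst B N.er) := hl.inst hlv hG h2
            have l2 : ¬ Lc P lv i D ((Tm.inst B N.er).sub (m.th e)) :=
              fun h => k3 (h.conv (h3.sub _))
            rw [← m.sib hG hN hE.val (p2.inst_sort h2) k1 l1 l2 (.conv h3)]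
            exact h5.2.2 l1 l2
        · have hF : ¬ F.IsLam := by
            intro h
            obtain ⟨T', k1, k2⟩ := m3 h
            exact hl (k2.sib (k1.sib h1))
          exact ofwo hG hN hE.val ((f3 hF hl).app n1 ⟨_, hTy⟩)
  | lam A N ihA ihN =>
    intro G e γ T hG hN hE hO hT hM
    obtain ⟨B, s, h1, h2, h3⟩ := hT.lam_inv
    obtain ⟨s1, s2, s3, p1, p2, p3, p4⟩ := h2.pi_inv
    have hS := m.sub hE.val
    have hS' : SubC P G D (fun n => (γ n).er) := by rw [hE.er]; exact hS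
    have hTy : Ty P D (MTm.lam (A.sub γ) (N.sub (MTm.ups γ))) (T.sub (m.th e)) := by
      have := Ty.sub (M := MTm.lam A N) ⟨hO, hT⟩ hS' hE.ok
      rw [hE.er] at this
      exact this
    cases hO with
    | lam o1 o2 =>
      cases hM with
      | lam m1 m2 =>
        obtain ⟨a1, -, -⟩ := ihA hG hN hE o1 p1 m1
        have hb := gen hG hN hE p1 o2 h1 fun hE' =>
          (ihN (hG.push p1) (hN.push p1) hE' o2 h1 m2).1
        have hw : Wn P lv i D (MTm.lam (A.sub γ) (N.sub (MTm.ups γ))) := by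
          refine Wn.lam hD a1 ?_ hTy
          rw [MTm.er_sub, hE.er]
          exact hb
        refine ⟨hw, fun t k1 k2 k3 => ?_, fun k => absurd trivial k⟩
        have hsib : Sib (Tm.pi A.er B) T := .conv h3
        have l1 : Lc P lv (i + 1) G (Tm.pi A.er B) := k2.sib hsib.symm
        have l2 : ¬ Lc P lv i D ((Tm.pi A.er B).sub (m.th e)) :=
          fun h => k3 (h.sib (hsib.sub _))
        rw [← m.sib hG hN hE.val h2 k1 l1 l2 hsib]
        have hTy' : Ty P D (MTm.lam (A.sub γ) (N.sub (MTm.ups γ)))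
            ((Tm.pi A.er B).sub (m.th e)) := hTy.conv (h2.sub hS) (h3.symm.sub _)
        refine m.pi_lam hG hN hE.val h2 l1 l2 _ hw hTy' fun q hq e' he' => ?_
        have hE' := hE.push hW hG hN p1 hq (.inl (l1.piL hlv hG)) he'
        obtain ⟨b1, b2, -⟩ := ihN (hG.push p1) (hN.push p1) hE' o2 h1 m2
        have hθ := m.ext_th he'
        have hbase : MTm.inst (N.sub (MTm.ups γ)) q ∈
            DS P lv i D (push A.er G) (m.th e') B (m.I (push A.er G) e' B) := by
          rw [MTm.inst_ups]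
          refine ⟨b1, ?_, fun j1 j2 => b2 _ p2 j1 j2⟩
          have := Ty.sub (M := N) (D := D) ⟨o2, h1⟩ (by rw [hE'.er]; exact m.sub hE'.val) hE'.ok
          rw [hE'.er] at this
          exact this
        have hX : Lc P lv (i + 1) (push A.er G) B → ¬ Lc P lv i D (B.sub (m.th e')) →
            CR P lv i D (m.I (push A.er G) e' B) :=
          fun j1 j2 => m.cr (hG.push p1) (hN.push p1) hE'.val p2 j1 j2
        refine DS.exp hX (.root (.lam _ _ _)) ?_
          (DS.ins hX (.here _) a1 (DS.ins hX (.here _) hq.1 hbase))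
        refine ⟨.app hTy.1 hq.2.1.1, ?_⟩
        have h6 : J P D (Tm.app (MTm.lam (A.sub γ) (N.sub (MTm.ups γ))).er q.er) _ :=
          .app hTy'.2 hq.2.1.2
        rw [Tm.inst_ups] at h6
        rw [hθ]
        exact h6
  | pi A N ihA ihN =>
    intro G e γ T hG hN hE hO hT hM
    obtain ⟨s1, s2, s3, p1, p2, p3, p4⟩ := hT.pi_inv
    have hS := m.sub hE.val
    have hS' : SubC P G D (fun n => (γ n).er) := by rw [hE.er]; exact hS
    have hTy : Ty P D (MTm.pi (A.sub γ) (N.sub (MTm.ups γ))) (T.sub (m.th e)) := by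
      have := Ty.sub (M := MTm.pi A N) ⟨hO, hT⟩ hS' hE.ok
      rw [hE.er] at this
      exact this
    cases hO with
    | pi o1 o2 =>
      cases hM with
      | pi m1 m2 =>
        obtain ⟨a1, -, -⟩ := ihA hG hN hE o1 p1 m1
        have hb := gen hG hN hE p1 o2 p2 fun hE' =>
          (ihN (hG.push p1) (hN.push p1) hE' o2 p2 m2).1
        refine ofwo hG hN hE.val (Wo.pi hD a1 ?_ hTy)
        rw [MTm.er_sub, hE.er]
        exact hb
  | mem M Q ihM ihQ =>
    intro G e γ T hG hN hE hO hT hM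
    cases hO with
    | mem o1 o2 o3 =>
      cases hM with
      | mem m1 m2 =>
        obtain ⟨a1, a2, a3⟩ := ihM hG hN hE o1 hT m1
        obtain ⟨b1, -, -⟩ := ihQ hG hN hE o2 o3 m2
        exact ⟨a1.ins (.here _) b1,
          fun t k1 k2 k3 => (m.cr hG hN hE.val k1 k2 k3).ins (.here _) b1 (a2 t k1 k2 k3),
          fun k1 k2 => (a3 k1 k2).ins (.here _) b1⟩

end Vale.Agent.P340.W
end

section

/-! Arbitrary rules: dummy arguments, negations and universal quantification in a maximal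
consistent context. -/

namespace Vale.Agent.P340.Vy

universe u
variable {S : Type u} {P : Spec S}

open Tm

/-- New constants: a falsity, a truth and its proof for every sort. -/
inductive Cst (S : Type u) : Type u where
  | bot (s : S) : Cst S
  | top (s : S) : Cst S
  | pt (s : S) : Cst S

/-- Expressions with the new constants. -/
abbrev X (S : Type u) := Tm (S ⊕ Cst S)

/-- The specification with the new constants. -/
def ext (P : Spec S) : Spec (S ⊕ Cst S) where
  ax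
    | .inl s, .inl t => P.ax s t
    | .inr (.bot s), .inl t => t = s
    | .inr (.top s), .inl t => t = s
    | .inr (.pt s), .inr (.top t) => t = s
    | _, _ => False
  rule
    | .inl a, .inl b, .inl d => P.rule a b d
    | _, _, _ => False

abbrev so (s : S) : X S := sort (Sum.inl s)
abbrev cb (s : S) : X S := sort (Sum.inr (.bot s))
abbrev ct (s : S) : X S := sort (Sum.inr (.top s))
abbrev cp (s : S) : X S := sort (Sum.inr (.pt s))

theorem jcb (s : S) {G : Ctx (S ⊕ Cst S)} : J (ext P) G (cb s) (so s) :=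
  .sort (show s = s from rfl)
theorem jct (s : S) {G : Ctx (S ⊕ Cst S)} : J (ext P) G (ct s) (so s) :=
  .sort (show s = s from rfl)
theorem jcp (s : S) {G : Ctx (S ⊕ Cst S)} : J (ext P) G (cp s) (ct s) :=
  .sort (show s = s from rfl)
theorem jax {s t : S} (h : P.ax s t) {G : Ctx (S ⊕ Cst S)} : J (ext P) G (so s) (so t) :=
  .sort h

theorem jpi {G : Ctx (S ⊕ Cst S)} {A B : X S} {s1 s2 s3 : S}
    (hA : J (ext P) G A (so s1)) (hB : J (ext P) (push A G) B (so s2))
    (h : P.rule s1 s2 s3) : J (ext P) G (pi A B) (so s3) := .pi hA hB h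

theorem wk_eq_sub (A : X S) : wk A = A.sub (fun n => var (n + 1)) := ren_eq_sub A _

/-- Replacing the variable `0` by a term over a new context of the same length. -/
def cut (N e : X S) : X S := e.sub (scons N fun n => var (n + 1))

theorem inst_cut (N e Q : X S) : inst (cut N e) Q = inst e (inst N Q) := by
  unfold cut inst
  rw [sub_sub]
  congr 1
  funext n
  cases n <;> rfl

theorem sub_cut (N e : X S) (σ : ℕ → X S) :
    (cut N e).sub (ups σ) = cut (N.sub (ups σ)) (e.sub (ups σ)) := by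
  unfold cut
  rw [sub_sub, sub_sub]
  congr 1
  funext n
  cases n with
  | zero => rfl
  | succ n =>
    show wk (σ n) = (wk (σ n)).sub _
    rw [sub_scons_wk, wk_eq_sub]

theorem J_cut {G : Ctx (S ⊕ Cst S)} {A A' N M B : X S} (h : J (ext P) (push A G) M B)
    (hN : J (ext P) (push A' G) N (wk A)) :
    J (ext P) (push A' G) (cut N M) (cut N B) := by
  refine h.sub (SubC.scons ?_ ?_)
  · intro n C hC
    rw [← wk_eq_sub]
    exact .var (by rw [push_succ, hC]; rfl)
  · rw [← wk_eq_sub]; exact hN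

/-- Dummy steps between sorts. -/
inductive AR (P : Spec S) (a : S) : List S → S → Prop where
  | nil : AR P a [] a
  | cons {L : List S} {b b' l : S} : AR P a L b → P.rule l b b' → AR P a (l :: L) b'

/-- Dummy arrows. -/
def arr : List S → X S → X S
  | [], A => A
  | l :: L, A => pi (ct l) (wk (arr L A))

/-- Dummy abstractions. -/
def lms : List S → X S → X S
  | [], x => x
  | l :: L, x => lam (ct l) (wk (lms L x))

/-- Dummy applications. -/
def aps : List S → X S → X S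
  | [], x => x
  | l :: L, x => aps L (app x (cp l))

@[simp] theorem sub_arr (L : List S) (A : X S) (σ : ℕ → X S) :
    (arr L A).sub σ = arr L (A.sub σ) := by
  induction L with
  | nil => rfl
  | cons l L ih => simp only [arr, sub, sub_wk, ih]

@[simp] theorem sub_lms (L : List S) (A : X S) (σ : ℕ → X S) :
    (lms L A).sub σ = lms L (A.sub σ) := by
  induction L with
  | nil => rfl
  | cons l L ih => simp only [lms, sub, sub_wk, ih]

@[simp] theorem sub_aps (L : List S) : ∀ (A : X S) (σ : ℕ → X S),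
    (aps L A).sub σ = aps L (A.sub σ) := by
  induction L with
  | nil => intro A σ; rfl
  | cons l L ih => intro A σ; simp only [aps, ih, sub]

@[simp] theorem wk_arr (L : List S) (A : X S) : wk (arr L A) = arr L (wk A) := by
  rw [wk_eq_sub, sub_arr, ← wk_eq_sub]
variable {G : Ctx (S ⊕ Cst S)}

theorem arr_typ {a b : S} {L : List S} (h : AR P a L b) {A : X S}
    (hA : J (ext P) G A (so a)) : J (ext P) G (arr L A) (so b) := by
  induction h with
  | nil => exact hA
  | cons _ hr ih => exact jpi (jct _) (ih.wk _) hr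

theorem lms_typ {a b : S} {L : List S} (h : AR P a L b) {A x : X S}
    (hA : J (ext P) G A (so a)) (hx : J (ext P) G x A) : J (ext P) G (lms L x) (arr L A) := by
  induction h with
  | nil => exact hx
  | cons h hr ih => exact .lam (ih.wk _) (jpi (jct _) ((arr_typ h hA).wk _) hr)

theorem aps_typ {A : X S} : ∀ {L : List S} {x : X S}, J (ext P) G x (arr L A) →
    J (ext P) G (aps L x) A := by
  intro L
  induction L with
  | nil => intro x h; exact h
  | cons l L ih =>
    intro x h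
    have h1 := J.app (B := wk (arr L A)) h (jcp l)
    rw [inst_wk] at h1
    exact ih h1

theorem aps_conv (L : List S) : ∀ {x y : X S}, Conv x y → Conv (aps L x) (aps L y) := by
  induction L with
  | nil => intro x y h; exact h
  | cons l L ih => intro x y h; exact ih (h.app (.refl _))

theorem aps_lms (L : List S) (x : X S) : Conv (aps L (lms L x)) x := by
  induction L with
  | nil => exact .refl _
  | cons l L ih =>
    refine (aps_conv L ?_).trans ih
    have h := Step.beta (ct l) (wk (lms L x)) (cp l)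
    rw [inst_wk] at h
    exact .rel _ _ h

/-- A negation with dummy arguments. -/
structure NE (S : Type u) where
  L1 : List S
  b : S
  L3 : List S

/-- The negation. -/
def neg (n : NE S) (A : X S) : X S := arr n.L3 (pi (arr n.L1 A) (cb n.b))

/-- The sorts of a negation. -/
def NT (P : Spec S) (F : S → Prop) (n : NE S) (i j : S) : Prop :=
  F n.b ∧ ∃ a m, AR P i n.L1 a ∧ P.rule a n.b m ∧ AR P m n.L3 j

/-- Walks of negations. -/
inductive NP (P : Spec S) (F : S → Prop) (a : S) : List (NE S) → S → Prop where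
  | nil : NP P F a [] a
  | cons {l : List (NE S)} {b b' : S} {n : NE S} : NP P F a l b → NT P F n b b' →
      NP P F a (n :: l) b'

/-- Iterated negation. -/
def nn : List (NE S) → X S → X S
  | [], A => A
  | n :: l, A => neg n (nn l A)

@[simp] theorem sub_neg (n : NE S) (A : X S) (σ : ℕ → X S) :
    (neg n A).sub σ = neg n (A.sub σ) := by simp only [neg, sub_arr, sub]

@[simp] theorem sub_nn (l : List (NE S)) (A : X S) (σ : ℕ → X S) :
    (nn l A).sub σ = nn l (A.sub σ) := by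
  induction l with
  | nil => rfl
  | cons n l ih => simp only [nn, sub_neg, ih]

@[simp] theorem wk_neg (n : NE S) (A : X S) : wk (neg n A) = neg n (wk A) := by
  rw [wk_eq_sub, sub_neg, ← wk_eq_sub]
theorem neg_typ {F : S → Prop} {n : NE S} {i j : S} (h : NT P F n i j) {A : X S}
    (hA : J (ext P) G A (so i)) : J (ext P) G (neg n A) (so j) := by
  obtain ⟨-, a, m, h1, h2, h3⟩ := h
  exact arr_typ h3 (jpi (arr_typ h1 hA) (jcb _) h2)

theorem nn_typ {F : S → Prop} {l : List (NE S)} {i j : S} (h : NP P F i l j) {A : X S}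
    (hA : J (ext P) G A (so i)) : J (ext P) G (nn l A) (so j) := by
  induction h with
  | nil => exact hA
  | cons _ h ih => exact neg_typ h ih

/-- All falsities imply each other. -/
def Co (P : Spec S) (F : S → Prop) (G : Ctx (S ⊕ Cst S)) : Prop :=
  ∀ b b', F b → F b' → ∃ E, J (ext P) (push (cb b) G) E (cb b')

theorem Co.push {F : S → Prop} (h : Co P F G) (A : X S) : Co P F (push A G) := by
  intro b b' hb hb'
  obtain ⟨E, hE⟩ := h b b' hb hb'
  exact ⟨_, hE.ren ((renC_wk G A).up (cb b))⟩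

theorem Co.to {F : S → Prop} (h : Co P F G) {b b' : S} (hb : F b) (hb' : F b') {M : X S}
    (hM : J (ext P) G M (cb b)) : ∃ M', J (ext P) G M' (cb b') := by
  obtain ⟨E, hE⟩ := h b b' hb hb'
  exact ⟨_, hE.inst hM⟩

/-- Maximal consistent contexts. -/
structure Mx (P : Spec S) (F : S → Prop) (G : Ctx (S ⊕ Cst S)) : Prop where
  wf : WFC (ext P) G
  co : Co P F G
  con : ∀ b, F b → ∀ M, ¬ J (ext P) G M (cb b)
  hen : ∀ (K D : X S) (s1 s2 : S ⊕ Cst S), J (ext P) G K (sort s1) →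
    J (ext P) (push K G) D (sort s2) →
    (∃ t, J (ext P) G t K ∧ ∃ u, J (ext P) G u (inst D t)) ∨
    ∃ M b, F b ∧ J (ext P) (push D (push K G)) M (cb b)

/-- Inhabitation. -/
def Tr (P : Spec S) (G : Ctx (S ⊕ Cst S)) (A : X S) : Prop := ∃ M, J (ext P) G M A

theorem tr_conv {A B : X S} {s s' : S ⊕ Cst S} (hA : J (ext P) G A (sort s))
    (hB : J (ext P) G B (sort s')) (hc : Conv A B) : Tr P G A ↔ Tr P G B :=
  ⟨fun ⟨M, h⟩ => ⟨M, .conv h hB hc⟩, fun ⟨M, h⟩ => ⟨M, .conv h hA hc.symm⟩⟩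

variable {F : S → Prop}

theorem neg_app {n : NE S} {i j : S} (h : NT P F n i j) {A M N : X S}
    (hA : J (ext P) G A (so i)) (hM : J (ext P) G M (neg n A)) (hN : J (ext P) G N A) :
    ∃ Q, J (ext P) G Q (cb n.b) := by
  obtain ⟨-, a, m, h1, h2, h3⟩ := h
  exact ⟨_, (aps_typ hM).app (lms_typ h1 hA hN)⟩

/-- A negation is inhabited if the proposition leads to the falsity. -/
theorem neg_intro {n : NE S} {i j : S} (h : NT P F n i j) {A M : X S}
    (hA : J (ext P) G A (so i)) (hM : J (ext P) (push A G) M (cb n.b)) :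
    ∃ Q, J (ext P) G Q (neg n A) := by
  obtain ⟨-, a, m, h1, h2, h3⟩ := h
  have h4 : J (ext P) (Vale.Agent.P340.push (arr n.L1 A) G) (var 0) (wk (arr n.L1 A)) := .var rfl
  rw [wk_arr] at h4
  have h5 := J_cut hM (aps_typ h4)
  have h6 : J (ext P) G (pi (arr n.L1 A) (cb n.b)) (so m) := jpi (arr_typ h1 hA) (jcb _) h2
  exact ⟨_, lms_typ h3 h6 (.lam h5 h6)⟩

theorem tr_neg (hG : Mx P F G) {n : NE S} {i j : S} (h : NT P F n i j) {A : X S}
    (hA : J (ext P) G A (so i)) : Tr P G (neg n A) ↔ ¬ Tr P G A := by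
  constructor
  · rintro ⟨M, hM⟩ ⟨N, hN⟩
    obtain ⟨Q, hQ⟩ := neg_app h hA hM hN
    exact hG.con _ h.1 _ hQ
  · intro hn
    rcases hG.hen A (wk A) _ _ hA (hA.wk A) with ⟨t, ht, -⟩ | ⟨M, b', hb', hM⟩
    · exact absurd ⟨t, ht⟩ hn
    · have h1 : J (ext P) (push A G) (inst M (var 0)) (cb b') := hM.inst (.var rfl)
      obtain ⟨M', hM'⟩ := (hG.co.push A).to hb' h.1 h1
      exact neg_intro h hA hM'

theorem tr_nn (hG : Mx P F G) {A : X S} {i j : S} {l : List (NE S)} (hl : NP P F i l j)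
    (hA : J (ext P) G A (so i)) : Tr P G (nn l A) ↔ (Even l.length ↔ Tr P G A) := by
  induction hl with
  | nil => simp only [nn, List.length_nil, Even.zero, true_iff]
  | @cons l b b' n hl hn ih =>
    have h1 : Tr P G (nn (n :: l) A) ↔ ¬ Tr P G (nn l A) := tr_neg hG hn (nn_typ hl hA)
    rw [h1, ih, List.length_cons, Nat.even_add_one]
    (clear * - ih h1; tauto)

/-- Universal quantification of a negation. -/
theorem tr_Q (hG : Mx P F G) {n : NE S} {i j s c : S} (h : NT P F n i j) {K D : X S}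
    (hK : J (ext P) G K (so s)) (hD : J (ext P) (push K G) D (so i)) (hr : P.rule s j c) :
    Tr P G (pi K (neg n D)) ↔ ∀ t, J (ext P) G t K → ¬ Tr P G (inst D t) := by
  constructor
  · rintro ⟨M, hM⟩ t ht ⟨u, hu⟩
    have h1 := hM.app ht
    have h2 : inst (neg n D) t = neg n (inst D t) := sub_neg _ _ _
    rw [h2] at h1
    obtain ⟨Q, hQ⟩ := neg_app h (hD.inst ht) h1 hu
    exact hG.con _ h.1 _ hQ
  · intro hn
    rcases hG.hen K D _ _ hK hD with ⟨t, ht, u, hu⟩ | ⟨M, b', hb', hM⟩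
    · exact absurd ⟨u, hu⟩ (hn t ht)
    · obtain ⟨M', hM'⟩ := ((hG.co.push K).push D).to hb' h.1 hM
      obtain ⟨Q, hQ⟩ := neg_intro h hD hM'
      exact ⟨lam K Q, .lam hQ (jpi hK (neg_typ h hD) hr)⟩

end Vale.Agent.P340.Vy
end

section

/-! Classical logic at one sort, powers, covers and polymorphic kinds. -/

namespace Vale.Agent.P340.Vy

universe u
variable {S : Type u} {P : Spec S}

open Tm

/-- Data for the connectives. -/
structure Cdat (S : Type u) where
  i0 : S
  w : Bool → S → S → List (NE S)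
  a1 : S
  b1 : S
  c1 : S

/-- The conditions on the data for the connectives. -/
structure Cok (P : Spec S) (F : S → Prop) (C : Set S) (d : Cdat S) : Prop where
  i0 : d.i0 ∈ C
  a1 : d.a1 ∈ C
  b1 : d.b1 ∈ C
  c1 : d.c1 ∈ C
  r : P.rule d.a1 d.b1 d.c1
  pth : ∀ b, ∀ i ∈ C, ∀ j ∈ C, NP P F i (d.w b i j) j
  pos : ∀ b, ∀ i ∈ C, ∀ j ∈ C, d.w b i j ≠ []
  odd : ∀ i ∈ C, ∀ j ∈ C, ¬ Even (d.w true i j).length
  even : ∀ i ∈ C, ∀ j ∈ C, Even (d.w false i j).length

section
variable (d : Cdat S)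

def NAND (A B : X S) : X S :=
  nn (d.w false d.c1 d.i0) (pi (nn (d.w false d.i0 d.a1) A) (wk (nn (d.w true d.i0 d.b1) B)))
def NOT (A : X S) : X S := NAND d A A
def IMP (A B : X S) : X S := NAND d A (NOT d B)
def AND (A B : X S) : X S := NOT d (NAND d A B)
def OR (A B : X S) : X S := NAND d (NOT d A) (NOT d B)
def ALL (b c : S) (K e : X S) : X S := nn (d.w false c d.i0) (pi K (nn (d.w false d.i0 b) e))

@[simp] theorem sub_NAND (A B : X S) (σ : ℕ → X S) :
    (NAND d A B).sub σ = NAND d (A.sub σ) (B.sub σ) := by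
  simp only [NAND, sub_nn, sub, sub_wk]
@[simp] theorem sub_NOT (A : X S) (σ : ℕ → X S) : (NOT d A).sub σ = NOT d (A.sub σ) := by
  simp only [NOT, sub_NAND]
@[simp] theorem sub_IMP (A B : X S) (σ : ℕ → X S) :
    (IMP d A B).sub σ = IMP d (A.sub σ) (B.sub σ) := by
  simp only [IMP, sub_NAND, sub_NOT]
@[simp] theorem sub_AND (A B : X S) (σ : ℕ → X S) :
    (AND d A B).sub σ = AND d (A.sub σ) (B.sub σ) := by
  simp only [AND, sub_NAND, sub_NOT]
@[simp] theorem sub_OR (A B : X S) (σ : ℕ → X S) :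
    (OR d A B).sub σ = OR d (A.sub σ) (B.sub σ) := by
  simp only [OR, sub_NAND, sub_NOT]
@[simp] theorem sub_ALL (b c : S) (K e : X S) (σ : ℕ → X S) :
    (ALL d b c K e).sub σ = ALL d b c (K.sub σ) (e.sub (ups σ)) := by
  simp only [ALL, sub_nn, sub]
end

theorem NP.cons_inv {F : S → Prop} {a b : S} {l : List (NE S)} (h : NP P F a l b)
    (hl : l ≠ []) : ∃ n l' b', l = n :: l' ∧ NP P F a l' b' ∧ NT P F n b' b := by
  cases h with
  | nil => exact absurd rfl hl
  | @cons l' b' _ n h h' => exact ⟨n, l', b', rfl, h, h'⟩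

section
variable {F : S → Prop} {C : Set S} {d : Cdat S} (hd : Cok P F C d) {D : Ctx (S ⊕ Cst S)}
include hd

theorem NAND_typ {A B : X S} (hA : J (ext P) D A (so d.i0)) (hB : J (ext P) D B (so d.i0)) :
    J (ext P) D (NAND d A B) (so d.i0) := by
  refine nn_typ (hd.pth _ _ hd.c1 _ hd.i0) (jpi (nn_typ (hd.pth _ _ hd.i0 _ hd.a1) hA) ?_ hd.r)
  exact (nn_typ (hd.pth _ _ hd.i0 _ hd.b1) hB).wk _
theorem NOT_typ {A : X S} (hA : J (ext P) D A (so d.i0)) : J (ext P) D (NOT d A) (so d.i0) :=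
  NAND_typ hd hA hA
theorem IMP_typ {A B : X S} (hA : J (ext P) D A (so d.i0)) (hB : J (ext P) D B (so d.i0)) :
    J (ext P) D (IMP d A B) (so d.i0) := NAND_typ hd hA (NOT_typ hd hB)
theorem AND_typ {A B : X S} (hA : J (ext P) D A (so d.i0)) (hB : J (ext P) D B (so d.i0)) :
    J (ext P) D (AND d A B) (so d.i0) := NOT_typ hd (NAND_typ hd hA hB)
theorem OR_typ {A B : X S} (hA : J (ext P) D A (so d.i0)) (hB : J (ext P) D B (so d.i0)) :
    J (ext P) D (OR d A B) (so d.i0) := NAND_typ hd (NOT_typ hd hA) (NOT_typ hd hB)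
theorem ALL_typ {b c q : S} (hb : b ∈ C) (hc : c ∈ C) (hr : P.rule q b c) {K e : X S}
    (hK : J (ext P) D K (so q)) (he : J (ext P) (push K D) e (so d.i0)) :
    J (ext P) D (ALL d b c K e) (so d.i0) :=
  nn_typ (hd.pth _ _ hc _ hd.i0) (jpi hK (nn_typ (hd.pth _ _ hd.i0 _ hb) he) hr)

variable (hG : Mx P F D)
include hG

theorem tr_mvf {i j : S} (hi : i ∈ C) (hj : j ∈ C) {A : X S} (hA : J (ext P) D A (so i)) :
    Tr P D (nn (d.w false i j) A) ↔ Tr P D A := by
  rw [tr_nn hG (hd.pth _ _ hi _ hj) hA]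
  have := hd.even i hi j hj
  (clear * - this; tauto)

theorem tr_NAND {A B : X S} (hA : J (ext P) D A (so d.i0)) (hB : J (ext P) D B (so d.i0)) :
    Tr P D (NAND d A B) ↔ ¬ (Tr P D A ∧ Tr P D B) := by
  have h1 := nn_typ (hd.pth false _ hd.i0 _ hd.a1) hA
  have h2 := nn_typ (hd.pth true _ hd.i0 _ hd.b1) hB
  unfold NAND
  rw [tr_mvf hd hG hd.c1 hd.i0 (jpi h1 (h2.wk _) hd.r)]
  have h3 := tr_nn hG (hd.pth true _ hd.i0 _ hd.b1) hB
  have h4 := hd.odd _ hd.i0 _ hd.b1
  have h5 := hd.pth true _ hd.i0 _ hd.b1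
  have h6 := tr_mvf hd hG hd.i0 hd.a1 hA
  obtain ⟨n, l, b, e, hl, hn⟩ := h5.cons_inv (hd.pos _ _ hd.i0 _ hd.b1)
  rw [e] at h3 h4 ⊢
  have h7 : wk (nn (n :: l) B) = neg n (wk (nn l B)) := wk_neg _ _
  have h8 : ∀ t, inst (wk (nn l B)) t = nn l B := fun t => inst_wk _ _
  have h9 := nn_typ hl hB
  rw [h7, tr_Q hG hn h1 (h9.wk _) hd.r]
  have h10 : Tr P D (nn (n :: l) B) ↔ ¬ Tr P D (nn l B) := tr_neg hG hn h9
  constructor
  · rintro h ⟨hA', hB'⟩
    obtain ⟨t, ht⟩ := h6.2 hA'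
    have := h t ht
    rw [h8] at this
    (clear * - h6 h3 h10 h4 hB' this hA'; tauto)
  · intro h t ht
    rw [h8]
    have : Tr P D A := h6.1 ⟨t, ht⟩
    (clear * - h6 h3 h10 h h4 this; tauto)

theorem tr_NOT {A : X S} (hA : J (ext P) D A (so d.i0)) : Tr P D (NOT d A) ↔ ¬ Tr P D A := by
  unfold NOT
  rw [tr_NAND hd hG hA hA]
  (clear * -; tauto)
theorem tr_IMP {A B : X S} (hA : J (ext P) D A (so d.i0)) (hB : J (ext P) D B (so d.i0)) :
    Tr P D (IMP d A B) ↔ (Tr P D A → Tr P D B) := by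
  unfold IMP
  rw [tr_NAND hd hG hA (NOT_typ hd hB), tr_NOT hd hG hB]
  (clear * -; tauto)
theorem tr_AND {A B : X S} (hA : J (ext P) D A (so d.i0)) (hB : J (ext P) D B (so d.i0)) :
    Tr P D (AND d A B) ↔ (Tr P D A ∧ Tr P D B) := by
  unfold AND
  rw [tr_NOT hd hG (NAND_typ hd hA hB), tr_NAND hd hG hA hB]
  (clear * -; tauto)
theorem tr_OR {A B : X S} (hA : J (ext P) D A (so d.i0)) (hB : J (ext P) D B (so d.i0)) :
    Tr P D (OR d A B) ↔ (Tr P D A ∨ Tr P D B) := by
  unfold OR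
  rw [tr_NAND hd hG (NOT_typ hd hA) (NOT_typ hd hB), tr_NOT hd hG hA, tr_NOT hd hG hB]
  (clear * -; tauto)

theorem tr_ALL {b c q : S} (hb : b ∈ C) (hc : c ∈ C) (hr : P.rule q b c) {K e : X S}
    (hK : J (ext P) D K (so q)) (he : J (ext P) (push K D) e (so d.i0)) :
    Tr P D (ALL d b c K e) ↔ ∀ t, J (ext P) D t K → Tr P D (inst e t) := by
  unfold ALL
  rw [tr_mvf hd hG hc hd.i0 (jpi hK (nn_typ (hd.pth _ _ hd.i0 _ hb) he) hr)]
  have h4 := hd.even _ hd.i0 _ hb
  have h5 := hd.pth false _ hd.i0 _ hb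
  have h6 := hd.pos false _ hd.i0 _ hb
  obtain ⟨n, l, b', e', hl, hn⟩ := h5.cons_inv h6
  rw [e'] at h4 ⊢
  show Tr P D (pi K (neg n (nn l e))) ↔ _
  rw [tr_Q hG hn hK (nn_typ hl he) hr]
  refine forall_congr' fun t => forall_congr' fun ht => ?_
  have h7 : inst (nn l e) t = nn l (inst e t) := sub_nn _ _ _
  have h8 : J (ext P) D (inst e t) (so d.i0) := he.inst ht
  rw [h7, tr_nn hG hl h8]
  rw [List.length_cons, Nat.even_add_one] at h4
  (clear * - h4; tauto)

end

/-! Powers. -/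

/-- A power with dummy arguments. -/
structure PE (S : Type u) where
  L1 : List S
  j : S
  L2 : List S
  L3 : List S

/-- The sorts of a power. -/
def PT (P : Spec S) (C : Set S) (g : PE S) (v v' : S) : Prop :=
  g.j ∈ C ∧ ∃ a t b m, AR P v g.L1 a ∧ P.ax g.j t ∧ AR P t g.L2 b ∧ P.rule a b m ∧ AR P m g.L3 v'

def pw (g : PE S) (A : X S) : X S := arr g.L3 (pi (arr g.L1 A) (arr g.L2 (so g.j)))
def mem0 (g : PE S) (p x : X S) : X S := aps g.L2 (app (aps g.L3 p) (lms g.L1 x))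
def ME (d : Cdat S) (g : PE S) (p x : X S) : X S := nn (d.w false g.j d.i0) (mem0 g p x)
def LM (d : Cdat S) (g : PE S) (A e : X S) : X S :=
  lms g.L3 (lam (arr g.L1 A) (cut (aps g.L1 (var 0)) (lms g.L2 (nn (d.w false d.i0 g.j) e))))

@[simp] theorem sub_pw (g : PE S) (A : X S) (σ : ℕ → X S) :
    (pw g A).sub σ = pw g (A.sub σ) := by simp only [pw, sub_arr, sub]
@[simp] theorem sub_mem0 (g : PE S) (p x : X S) (σ : ℕ → X S) :
    (mem0 g p x).sub σ = mem0 g (p.sub σ) (x.sub σ) := by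
  simp only [mem0, sub_aps, sub, sub_lms]
@[simp] theorem sub_ME (d : Cdat S) (g : PE S) (p x : X S) (σ : ℕ → X S) :
    (ME d g p x).sub σ = ME d g (p.sub σ) (x.sub σ) := by
  simp only [ME, sub_nn, sub_mem0]
@[simp] theorem sub_LM (d : Cdat S) (g : PE S) (A e : X S) (σ : ℕ → X S) :
    (LM d g A e).sub σ = LM d g (A.sub σ) (e.sub (ups σ)) := by
  simp only [LM, sub_lms, sub, sub_arr, sub_cut, sub_aps, sub_nn]; rfl
@[simp] theorem wk_pw (g : PE S) (A : X S) : wk (pw g A) = pw g (wk A) := by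
  rw [wk_eq_sub, sub_pw, ← wk_eq_sub]

section
variable {F : S → Prop} {C : Set S} {d : Cdat S} {D : Ctx (S ⊕ Cst S)}

theorem pw_typ {g : PE S} {v v' : S} (h : PT P C g v v') {A : X S}
    (hA : J (ext P) D A (so v)) : J (ext P) D (pw g A) (so v') := by
  obtain ⟨-, a, t, b, m, h1, h2, h3, h4, h5⟩ := h
  exact arr_typ h5 (jpi (arr_typ h1 hA) (arr_typ h3 (jax h2)) h4)

theorem mem0_typ {g : PE S} {v v' : S} (h : PT P C g v v') {A p x : X S}
    (hA : J (ext P) D A (so v)) (hp : J (ext P) D p (pw g A)) (hx : J (ext P) D x A) :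
    J (ext P) D (mem0 g p x) (so g.j) := by
  obtain ⟨-, a, t, b, m, h1, h2, h3, h4, h5⟩ := h
  have h6 := (aps_typ hp).app (lms_typ h1 hA hx)
  have h7 : inst (arr g.L2 (so g.j)) (lms g.L1 x) = arr g.L2 (so g.j) := sub_arr _ _ _
  rw [h7] at h6
  exact aps_typ h6

variable (hd : Cok P F C d)
include hd

theorem ME_typ {g : PE S} {v v' : S} (h : PT P C g v v') {A p x : X S}
    (hA : J (ext P) D A (so v)) (hp : J (ext P) D p (pw g A)) (hx : J (ext P) D x A) :
    J (ext P) D (ME d g p x) (so d.i0) :=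
  nn_typ (hd.pth _ _ h.1 _ hd.i0) (mem0_typ h hA hp hx)

theorem LM_typ {g : PE S} {v v' : S} (h : PT P C g v v') {A e : X S}
    (hA : J (ext P) D A (so v)) (he : J (ext P) (push A D) e (so d.i0)) :
    J (ext P) D (LM d g A e) (pw g A) := by
  have hp := hd.pth false _ hd.i0 _ h.1
  obtain ⟨-, a, t, b, m, h1, h2, h3, h4, h5⟩ := h
  have h6 : J (ext P) D (pi (arr g.L1 A) (arr g.L2 (so g.j))) (so m) :=
    jpi (arr_typ h1 hA) (arr_typ h3 (jax h2)) h4
  refine lms_typ h5 h6 (.lam ?_ h6)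
  have h7 : J (ext P) (push A D) (lms g.L2 (nn (d.w false d.i0 g.j) e)) (arr g.L2 (so g.j)) :=
    lms_typ h3 (jax h2) (nn_typ hp he)
  have h8 : J (ext P) (push (arr g.L1 A) D) (var 0) (wk (arr g.L1 A)) := .var rfl
  rw [wk_arr] at h8
  have h9 := J_cut h7 (aps_typ h8)
  have h10 : cut (aps g.L1 (var 0)) (arr g.L2 (so g.j)) = arr g.L2 (so g.j) := sub_arr _ _ _
  rwa [h10] at h9

omit hd in
theorem LM_conv (g : PE S) (A e x : X S) :
    Conv (mem0 g (LM d g A e) x) (nn (d.w false d.i0 g.j) (inst e x)) := by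
  unfold mem0 LM
  have h1 := aps_lms g.L3 (lam (arr g.L1 A)
    (cut (aps g.L1 (var 0)) (lms g.L2 (nn (d.w false d.i0 g.j) e))))
  have h2 : inst (cut (aps g.L1 (var 0)) (lms g.L2 (nn (d.w false d.i0 g.j) e))) (lms g.L1 x) =
      inst (lms g.L2 (nn (d.w false d.i0 g.j) e)) (aps g.L1 (lms g.L1 x)) := by
    rw [inst_cut]
    congr 1
    exact sub_aps _ _ _
  have h3 := Step.beta (arr g.L1 A)
    (cut (aps g.L1 (var 0)) (lms g.L2 (nn (d.w false d.i0 g.j) e))) (lms g.L1 x)
  rw [h2] at h3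
  have h4 : Conv (inst (lms g.L2 (nn (d.w false d.i0 g.j) e)) (aps g.L1 (lms g.L1 x)))
      (inst (lms g.L2 (nn (d.w false d.i0 g.j) e)) x) := (Conv.refl _).inst (aps_lms _ _)
  have h5 : inst (lms g.L2 (nn (d.w false d.i0 g.j) e)) x =
      lms g.L2 (nn (d.w false d.i0 g.j) (inst e x)) := by
    unfold inst; rw [sub_lms, sub_nn]
  rw [h5] at h4
  refine (aps_conv g.L2 (((h1.app (.refl _)).trans (.rel _ _ h3)).trans h4)).trans ?_
  exact aps_lms _ _

variable (hG : Mx P F D)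
include hG

theorem tr_beta {g : PE S} {v v' : S} (h : PT P C g v v') {A e x : X S}
    (hA : J (ext P) D A (so v)) (he : J (ext P) (push A D) e (so d.i0))
    (hx : J (ext P) D x A) : Tr P D (ME d g (LM d g A e) x) ↔ Tr P D (inst e x) := by
  have h1 := mem0_typ h hA (LM_typ hd h hA he) hx
  have h2 : J (ext P) D (inst e x) (so d.i0) := he.inst hx
  unfold ME
  rw [tr_mvf hd hG h.1 hd.i0 h1,
    tr_conv h1 (nn_typ (hd.pth false _ hd.i0 _ h.1) h2) (LM_conv g A e x),
    tr_mvf hd hG hd.i0 h.1 h2]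

end

/-! Covers. -/

/-- Iterated double powers. -/
def Pw2 : List (PE S × PE S) → X S → X S
  | [], A => A
  | (g, h) :: l, A => pw g (pw h (Pw2 l A))

/-- Walks of double powers. -/
inductive RP2 (P : Spec S) (C : Set S) (a : S) : List (PE S × PE S) → S → Prop where
  | nil : RP2 P C a [] a
  | cons {l : List (PE S × PE S)} {s s' s'' : S} {g h : PE S} : RP2 P C a l s →
      PT P C h s s' → PT P C g s' s'' → RP2 P C a ((g, h) :: l) s''

/-- Insertion into iterated double powers. -/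
def eta (d : Cdat S) : List (PE S × PE S) → X S → X S → X S
  | [], _, R => R
  | (g, h) :: l, B, R => LM d g (pw h (Pw2 l B)) (ME d h (var 0) (wk (eta d l B R)))

/-- Evaluation of elements of iterated double powers. -/
def ET (d : Cdat S) : List (PE S × PE S) → X S → X S → X S → X S
  | [], _, e, Φ => inst e Φ
  | (g, h) :: l, B, e, Φ => ME d g Φ (LM d h (Pw2 l B)
    (ET d l (wk B) (e.ren (up Nat.succ)) (var 0)))

theorem sub_up (e : X S) (σ : ℕ → X S) :
    (e.ren (up Nat.succ)).sub (ups (ups σ)) = (e.sub (ups σ)).ren (up Nat.succ) := by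
  rw [sub_ren, ren_sub]
  congr 1
  funext n
  cases n with
  | zero => rfl
  | succ n =>
    show wk (wk (σ n)) = (wk (σ n)).ren (up Nat.succ)
    rw [ren_wk]; rfl

theorem sub_up_single (e N : X S) : (e.ren (up Nat.succ)).sub (ups (single N)) = e := by
  rw [sub_ren]
  have : (fun n => ups (single N) (up Nat.succ n)) = (var : ℕ → X S) := by
    funext n; cases n <;> rfl
  rw [this, sub_var]

@[simp] theorem sub_Pw2 (l : List (PE S × PE S)) (A : X S) (σ : ℕ → X S) :
    (Pw2 l A).sub σ = Pw2 l (A.sub σ) := by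
  induction l with
  | nil => rfl
  | cons k l ih => simp only [Pw2, sub_pw, ih]

@[simp] theorem wk_Pw2 (l : List (PE S × PE S)) (A : X S) :
    wk (Pw2 l A) = Pw2 l (wk A) := by rw [wk_eq_sub, sub_Pw2, ← wk_eq_sub]

@[simp] theorem sub_eta (d : Cdat S) (l : List (PE S × PE S)) (B R : X S) (σ : ℕ → X S) :
    (eta d l B R).sub σ = eta d l (B.sub σ) (R.sub σ) := by
  induction l with
  | nil => rfl
  | cons i l ih => simp only [eta, sub_LM, sub_pw, sub_Pw2, sub_ME, sub_wk, ih]; rfl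

@[simp] theorem sub_ET (d : Cdat S) (l : List (PE S × PE S)) : ∀ (B e Φ : X S) (σ : ℕ → X S),
    (ET d l B e Φ).sub σ = ET d l (B.sub σ) (e.sub (ups σ)) (Φ.sub σ) := by
  induction l with
  | nil => intro B e Φ σ; exact sub_inst _ _ _
  | cons i l ih =>
    intro B e Φ σ
    simp only [ET, sub_ME, sub_LM, sub_Pw2, ih, sub_wk, sub_up]; rfl

section
variable {F : S → Prop} {C : Set S} {d : Cdat S} {D : Ctx (S ⊕ Cst S)}

theorem Pw2_typ {l : List (PE S × PE S)} {v s : S} (hl : RP2 P C v l s) {A : X S}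
    (hA : J (ext P) D A (so v)) : J (ext P) D (Pw2 l A) (so s) := by
  induction hl with
  | nil => exact hA
  | cons _ h1 h2 ih => exact pw_typ h2 (pw_typ h1 ih)

variable (hd : Cok P F C d)
include hd

theorem eta_typ {l : List (PE S × PE S)} {v s : S} (hl : RP2 P C v l s) {B R : X S}
    (hB : J (ext P) D B (so v)) (hR : J (ext P) D R B) :
    J (ext P) D (eta d l B R) (Pw2 l B) := by
  induction hl with
  | nil => exact hR
  | @cons l s s' s'' g h hl h1 h2 ih =>
    have h3 := Pw2_typ hl hB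
    have h4 := pw_typ h1 h3
    refine LM_typ hd h2 h4 ?_
    have h5 : J (ext P) (push (pw h (Pw2 l B)) D) (var 0) (wk (pw h (Pw2 l B))) := .var rfl
    rw [wk_pw] at h5
    exact ME_typ hd h1 (h3.wk _) h5 (ih.wk _)

theorem ET_typ {l : List (PE S × PE S)} {v s : S} (hl : RP2 P C v l s) :
    ∀ {D : Ctx (S ⊕ Cst S)} {B e Φ : X S}, J (ext P) D B (so v) →
    J (ext P) (push B D) e (so d.i0) → J (ext P) D Φ (Pw2 l B) →
    J (ext P) D (ET d l B e Φ) (so d.i0) := by
  induction hl with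
  | nil => intro D B e Φ hB he hΦ; exact he.inst hΦ
  | @cons l s s' s'' g h hl h1 h2 ih =>
    intro D B e Φ hB he hΦ
    have h3 := Pw2_typ hl hB
    have h5 : J (ext P) (push (Pw2 l B) D) (var 0) (wk (Pw2 l B)) := .var rfl
    rw [wk_Pw2] at h5
    exact ME_typ hd h2 (pw_typ h1 h3) hΦ
      (LM_typ hd h1 h3 (ih (hB.wk _) (he.ren ((renC_wk D _).up B)) h5))

theorem tr_ET (hG : Mx P F D) {l : List (PE S × PE S)} {v s : S} (hl : RP2 P C v l s)
    {B e R : X S} (hB : J (ext P) D B (so v)) (he : J (ext P) (push B D) e (so d.i0))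
    (hR : J (ext P) D R B) : Tr P D (ET d l B e (eta d l B R)) ↔ Tr P D (inst e R) := by
  induction hl with
  | nil => exact Iff.rfl
  | @cons l s s' s'' g h hl h1 h2 ih =>
    have h3 := Pw2_typ hl hB
    have h4 := pw_typ h1 h3
    have hη := eta_typ hd hl hB hR
    have h5 : J (ext P) (push (pw h (Pw2 l B)) D) (var 0) (wk (pw h (Pw2 l B))) := .var rfl
    rw [wk_pw] at h5
    have h6 := ME_typ hd h1 (h3.wk _) h5 (hη.wk (pw h (Pw2 l B)))
    have h7 : J (ext P) (push (Pw2 l B) D) (var 0) (wk (Pw2 l B)) := .var rfl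
    rw [wk_Pw2] at h7
    have h8 := ET_typ hd hl (hB.wk (Pw2 l B)) (he.ren ((renC_wk D _).up B)) h7
    have h9 := LM_typ hd h1 h3 h8
    have e1 : inst (ME d h (var 0) (wk (eta d l B R))) (LM d h (Pw2 l B)
        (ET d l (wk B) (e.ren (up Nat.succ)) (var 0))) = ME d h (LM d h (Pw2 l B)
        (ET d l (wk B) (e.ren (up Nat.succ)) (var 0))) (eta d l B R) := by
      unfold inst
      rw [sub_ME, sub_single_wk]; rfl
    have e2 : inst (ET d l (wk B) (e.ren (up Nat.succ)) (var 0)) (eta d l B R) =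
        ET d l B e (eta d l B R) := by
      unfold inst
      rw [sub_ET, sub_single_wk, sub_up_single]; rfl
    show Tr P D (ME d g (LM d g (pw h (Pw2 l B)) (ME d h (var 0) (wk (eta d l B R))))
      (LM d h (Pw2 l B) (ET d l (wk B) (e.ren (up Nat.succ)) (var 0)))) ↔ _
    rw [tr_beta hd hG h2 h4 h6 h9, e1, tr_beta hd hG h1 h3 h8 hη, e2]
    exact ih

end

/-- A power with a cover. -/
structure CE (S : Type u) where
  g : PE S
  l : List (PE S × PE S)
  qb : S
  qc : S

/-- The sorts of a covered power. -/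
def CT (P : Spec S) (C : Set S) (h : CE S) (v v' : S) : Prop :=
  PT P C h.g v v' ∧ ∃ q, RP2 P C v' h.l q ∧ h.qb ∈ C ∧ h.qc ∈ C ∧ P.rule q h.qb h.qc

section
variable (d : Cdat S) (h : CE S)

def pc (A : X S) : X S := pw h.g A
def me (p x : X S) : X S := ME d h.g p x
def cd (A : X S) : X S := Pw2 h.l (pw h.g A)
def pr (A Φ : X S) : X S := LM d h.g A (ET d h.l (pw h.g (wk A)) (ME d h.g (var 0) (var 1)) (wk Φ))
def LP (A e : X S) : X S := pr d h A (eta d h.l (pw h.g A) (LM d h.g A e))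
def AL (A e : X S) : X S := ALL d h.qb h.qc (cd h A) (cut (pr d h (wk A) (var 0)) e)

@[simp] theorem sub_pc (A : X S) (σ : ℕ → X S) : (pc h A).sub σ = pc h (A.sub σ) := sub_pw _ _ _
@[simp] theorem wk_pc (A : X S) : wk (pc h A) = pc h (wk A) := wk_pw _ _
@[simp] theorem sub_me (p x : X S) (σ : ℕ → X S) :
    (me d h p x).sub σ = me d h (p.sub σ) (x.sub σ) := sub_ME _ _ _ _ _
@[simp] theorem sub_cd (A : X S) (σ : ℕ → X S) : (cd h A).sub σ = cd h (A.sub σ) := by
  simp only [cd, sub_Pw2, sub_pw]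
@[simp] theorem wk_cd (A : X S) : wk (cd h A) = cd h (wk A) := by
  rw [wk_eq_sub, sub_cd, ← wk_eq_sub]
@[simp] theorem sub_pr (A Φ : X S) (σ : ℕ → X S) :
    (pr d h A Φ).sub σ = pr d h (A.sub σ) (Φ.sub σ) := by
  simp only [pr, sub_LM, sub_ET, sub_pw, sub_ME, sub_wk]; rfl
@[simp] theorem sub_LP (A e : X S) (σ : ℕ → X S) :
    (LP d h A e).sub σ = LP d h (A.sub σ) (e.sub (ups σ)) := by
  simp only [LP, sub_pr, sub_eta, sub_pw, sub_LM]
@[simp] theorem sub_AL (A e : X S) (σ : ℕ → X S) :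
    (AL d h A e).sub σ = AL d h (A.sub σ) (e.sub (ups σ)) := by
  simp only [AL, sub_ALL, sub_cd, sub_cut, sub_pr, sub_wk]; rfl

/-- The elements in the range of the cover. -/
def dom (P : Spec S) (G : Ctx (S ⊕ Cst S)) (A p : X S) : Prop :=
  ∃ Φ, J (ext P) G Φ (cd h A) ∧ p = pr d h A Φ

end

section
variable {F : S → Prop} {C : Set S} {d : Cdat S} {D : Ctx (S ⊕ Cst S)} {h : CE S} {v v' : S}

theorem pc_typ (hh : CT P C h v v') {A : X S} (hA : J (ext P) D A (so v)) :
    J (ext P) D (pc h A) (so v') := pw_typ hh.1 hA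

variable (hd : Cok P F C d)
include hd

theorem me_typ (hh : CT P C h v v') {A p x : X S} (hA : J (ext P) D A (so v))
    (hp : J (ext P) D p (pc h A)) (hx : J (ext P) D x A) :
    J (ext P) D (me d h p x) (so d.i0) := ME_typ hd hh.1 hA hp hx

theorem pr0_typ (hh : CT P C h v v') {A Φ x : X S} (hA : J (ext P) D A (so v))
    (hΦ : J (ext P) D Φ (cd h A)) (hx : J (ext P) D x A) :
    J (ext P) D (ET d h.l (pw h.g A) (ME d h.g (var 0) (wk x)) Φ) (so d.i0) := by
  obtain ⟨h1, q, h2, -⟩ := hh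
  refine ET_typ hd h2 (pw_typ h1 hA) ?_ hΦ
  have h3 : J (ext P) (push (pw h.g A) D) (var 0) (wk (pw h.g A)) := .var rfl
  rw [wk_pw] at h3
  exact ME_typ hd h1 (hA.wk _) h3 (hx.wk _)

theorem pr_typ (hh : CT P C h v v') {A Φ : X S} (hA : J (ext P) D A (so v))
    (hΦ : J (ext P) D Φ (cd h A)) : J (ext P) D (pr d h A Φ) (pc h A) := by
  refine LM_typ hd hh.1 hA ?_
  have h1 := hΦ.wk A
  rw [wk_cd] at h1
  exact pr0_typ hd hh (hA.wk A) h1 (.var rfl)

theorem LP_typ (hh : CT P C h v v') {A e : X S} (hA : J (ext P) D A (so v))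
    (he : J (ext P) (push A D) e (so d.i0)) : J (ext P) D (LP d h A e) (pc h A) := by
  refine pr_typ hd hh hA ?_
  have h1 := LM_typ hd hh.1 hA he
  obtain ⟨h2, q, h3, -⟩ := hh
  exact eta_typ hd h3 (pw_typ h2 hA) h1

theorem AL_typ (hh : CT P C h v v') {A e : X S} (hA : J (ext P) D A (so v))
    (he : J (ext P) (push (pc h A) D) e (so d.i0)) : J (ext P) D (AL d h A e) (so d.i0) := by
  obtain ⟨q, h3, h4, h5, h6⟩ := hh.2
  refine ALL_typ hd h4 h5 h6 (Pw2_typ h3 (pw_typ hh.1 hA)) ?_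
  refine J_cut he ?_
  have h1 : J (ext P) (push (cd h A) D) (var 0) (wk (cd h A)) := .var rfl
  rw [wk_cd] at h1
  rw [wk_pc]
  exact pr_typ hd hh (hA.wk _) h1

theorem dom.typ (hh : CT P C h v v') {A p : X S} (hA : J (ext P) D A (so v))
    (hp : dom d h P D A p) : J (ext P) D p (pc h A) := by
  obtain ⟨Φ, h1, rfl⟩ := hp
  exact pr_typ hd hh hA h1

theorem dom_LP (hh : CT P C h v v') {A e : X S} (hA : J (ext P) D A (so v))
    (he : J (ext P) (push A D) e (so d.i0)) : dom d h P D A (LP d h A e) := by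
  have h1 := LM_typ hd hh.1 hA he
  obtain ⟨h2, q, h3, -⟩ := hh
  exact ⟨_, eta_typ hd h3 (pw_typ h2 hA) h1, rfl⟩

variable (hG : Mx P F D)
include hG

theorem tr_LP (hh : CT P C h v v') {A e x : X S} (hA : J (ext P) D A (so v))
    (he : J (ext P) (push A D) e (so d.i0)) (hx : J (ext P) D x A) :
    Tr P D (me d h (LP d h A e) x) ↔ Tr P D (inst e x) := by
  have h1 := LM_typ hd hh.1 hA he
  have hh' := hh
  obtain ⟨h2, q, h3, -⟩ := hh
  have h4 := eta_typ hd h3 (pw_typ h2 hA) h1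
  have h5 := h4.wk A
  rw [wk_Pw2, wk_pw] at h5
  have h6 : J (ext P) (push A D) (ET d h.l (pw h.g (wk A)) (ME d h.g (var 0) (var 1))
      (wk (eta d h.l (pw h.g A) (LM d h.g A e)))) (so d.i0) :=
    pr0_typ hd hh' (hA.wk A) h5 (x := var 0) (.var rfl)
  have e1 : inst (ET d h.l (pw h.g (wk A)) (ME d h.g (var 0) (var 1))
      (wk (eta d h.l (pw h.g A) (LM d h.g A e)))) x =
      ET d h.l (pw h.g A) (ME d h.g (var 0) (wk x))
        (eta d h.l (pw h.g A) (LM d h.g A e)) := by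
    unfold inst
    rw [sub_ET, sub_pw, sub_single_wk, sub_ME, sub_single_wk]; rfl
  have h7 : J (ext P) (push (pw h.g A) D) (var 0) (wk (pw h.g A)) := .var rfl
  rw [wk_pw] at h7
  have h8 := ME_typ hd h2 (hA.wk _) h7 (hx.wk _)
  have e2 : inst (ME d h.g (var 0) (wk x)) (LM d h.g A e) = ME d h.g (LM d h.g A e) x := by
    unfold inst
    rw [sub_ME, sub_single_wk]; rfl
  unfold me LP pr
  rw [tr_beta hd hG h2 hA h6 hx, e1, tr_ET hd hG h3 (pw_typ h2 hA) h8 h1, e2,
    tr_beta hd hG h2 hA he hx]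

theorem tr_AL (hh : CT P C h v v') {A e : X S} (hA : J (ext P) D A (so v))
    (he : J (ext P) (push (pc h A) D) e (so d.i0)) :
    Tr P D (AL d h A e) ↔ ∀ p, dom d h P D A p → Tr P D (inst e p) := by
  obtain ⟨q, h3, h4, h5, h6⟩ := hh.2
  have h1 : J (ext P) (push (cd h A) D) (var 0) (wk (cd h A)) := .var rfl
  rw [wk_cd] at h1
  have h7 : J (ext P) (push (cd h A) D) (cut (pr d h (wk A) (var 0)) e) (so d.i0) := by
    refine J_cut he ?_
    rw [wk_pc]
    exact pr_typ hd hh (hA.wk _) h1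
  have h8 : J (ext P) D (cd h A) (so q) := Pw2_typ h3 (pw_typ hh.1 hA)
  unfold AL
  rw [tr_ALL hd hG h4 h5 h6 h8 h7]
  have e1 : ∀ t, inst (cut (pr d h (wk A) (var 0)) e) t = inst e (pr d h A t) := by
    intro t
    rw [inst_cut]
    congr 1
    unfold inst
    rw [sub_pr, sub_single_wk]; rfl
  constructor
  · rintro hl p ⟨Φ, h8, rfl⟩
    have := hl Φ h8
    rwa [e1] at this
  · intro hl t ht
    rw [e1]
    exact hl _ ⟨t, ht, rfl⟩

end

/-! Polymorphic kinds. -/

/-- A polymorphic kind with dummy arguments. -/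
structure ZE (S : Type u) where
  L : List S
  k : S

/-- The sorts of a polymorphic kind. -/
def ZT (P : Spec S) (z : ZE S) (b m : S) : Prop :=
  ∃ k1 k2, P.ax z.k k1 ∧ AR P k1 z.L k2 ∧ P.rule k2 b m

section
variable (z : ZE S)

def ZK (Y : X S) : X S := pi (arr z.L (so z.k)) (cut (aps z.L (var 0)) Y)
def ZA (q A : X S) : X S := app q (lms z.L A)
def ZL (e : X S) : X S := lam (arr z.L (so z.k)) (cut (aps z.L (var 0)) e)

@[simp] theorem sub_ZK (Y : X S) (σ : ℕ → X S) : (ZK z Y).sub σ = ZK z (Y.sub (ups σ)) := by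
  simp only [ZK, sub, sub_arr, sub_cut, sub_aps]; rfl
@[simp] theorem sub_ZA (q A : X S) (σ : ℕ → X S) :
    (ZA z q A).sub σ = ZA z (q.sub σ) (A.sub σ) := by
  simp only [ZA, sub, sub_lms]
@[simp] theorem sub_ZL (e : X S) (σ : ℕ → X S) : (ZL z e).sub σ = ZL z (e.sub (ups σ)) := by
  simp only [ZL, sub, sub_arr, sub_cut, sub_aps]; rfl
end

section
variable {z : ZE S} {b m : S} {D : Ctx (S ⊕ Cst S)}

theorem ZK_typ (h : ZT P z b m) {Y : X S} (hY : J (ext P) (push (so z.k) D) Y (so b)) :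
    J (ext P) D (ZK z Y) (so m) := by
  obtain ⟨k1, k2, h1, h2, h3⟩ := h
  have h4 : J (ext P) (push (arr z.L (so z.k)) D) (var 0) (wk (arr z.L (so z.k))) := .var rfl
  rw [wk_arr] at h4
  exact jpi (arr_typ h2 (jax h1)) (J_cut hY (aps_typ h4)) h3

theorem inst_cut_aps (L : List S) (Y Q : X S) :
    inst (cut (aps L (var 0)) Y) Q = inst Y (aps L Q) := by
  rw [inst_cut]
  congr 1
  exact sub_aps _ _ _

theorem ZA_typ (h : ZT P z b m) {Y q A : X S} (hY : J (ext P) (push (so z.k) D) Y (so b))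
    (hq : J (ext P) D q (ZK z Y)) (hA : J (ext P) D A (so z.k)) :
    J (ext P) D (ZA z q A) (inst Y A) := by
  obtain ⟨k1, k2, h1, h2, h3⟩ := h
  have h5 := hq.app (lms_typ h2 (jax h1) hA)
  rw [inst_cut_aps] at h5
  exact .conv h5 (hY.inst_sort hA) ((Conv.refl _).inst (aps_lms _ _))

theorem ZL_typ (h : ZT P z b m) {Y e : X S} (hY : J (ext P) (push (so z.k) D) Y (so b))
    (he : J (ext P) (push (so z.k) D) e Y) : J (ext P) D (ZL z e) (ZK z Y) := by
  have h0 := ZK_typ h hY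
  have h4 : J (ext P) (push (arr z.L (so z.k)) D) (var 0) (wk (arr z.L (so z.k))) := .var rfl
  rw [wk_arr] at h4
  exact .lam (J_cut he (aps_typ h4)) h0

theorem ZA_conv (e A : X S) : Conv (ZA z (ZL z e) A) (inst e A) := by
  have h := Step.beta (arr z.L (so z.k)) (cut (aps z.L (var 0)) e) (lms z.L A)
  rw [inst_cut_aps] at h
  exact Conv.trans (.rel _ _ h) ((Conv.refl _).inst (aps_lms _ _))

end

end Vale.Agent.P340.Vy
end

section

/-! Leibniz equality, pairs and iterated singletons. -/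

namespace Vale.Agent.P340.Vy

universe u
variable {S : Type u} {P : Spec S}

open Tm

section
variable (d : Cdat S) (h h' : CE S)

/-- Existential quantification over the elements in the range of a cover. -/
def EX (A e : X S) : X S := NOT d (AL d h A (NOT d e))
/-- Leibniz equality. -/
def EQ (A a b : X S) : X S := AL d h A (IMP d (me d h (var 0) (wk a)) (me d h (var 0) (wk b)))
/-- Singletons. -/
def SG (A a : X S) : X S := LP d h A (EQ d h (wk A) (var 0) (wk a))
/-- Unordered pairs. -/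
def DB (A a b : X S) : X S :=
  LP d h A (OR d (EQ d h (wk A) (var 0) (wk a)) (EQ d h (wk A) (var 0) (wk b)))
/-- Ordered pairs. -/
def PR (A a b : X S) : X S := LP d h' (pc h A)
  (OR d (EQ d h' (wk (pc h A)) (var 0) (wk (SG d h A a)))
    (EQ d h' (wk (pc h A)) (var 0) (wk (DB d h A a b))))

@[simp] theorem sub_EX (A e : X S) (σ : ℕ → X S) :
    (EX d h A e).sub σ = EX d h (A.sub σ) (e.sub (ups σ)) := by
  simp only [EX, sub_NOT, sub_AL]
@[simp] theorem sub_EQ (A a b : X S) (σ : ℕ → X S) :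
    (EQ d h A a b).sub σ = EQ d h (A.sub σ) (a.sub σ) (b.sub σ) := by
  simp only [EQ, sub_AL, sub_IMP, sub_me, sub_wk]; rfl
@[simp] theorem sub_SG (A a : X S) (σ : ℕ → X S) :
    (SG d h A a).sub σ = SG d h (A.sub σ) (a.sub σ) := by
  simp only [SG, sub_LP, sub_EQ, sub_wk]; rfl
@[simp] theorem sub_DB (A a b : X S) (σ : ℕ → X S) :
    (DB d h A a b).sub σ = DB d h (A.sub σ) (a.sub σ) (b.sub σ) := by
  simp only [DB, sub_LP, sub_OR, sub_EQ, sub_wk]; rfl
@[simp] theorem sub_PR (A a b : X S) (σ : ℕ → X S) :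
    (PR d h h' A a b).sub σ = PR d h h' (A.sub σ) (a.sub σ) (b.sub σ) := by
  simp only [PR, sub_LP, sub_OR, sub_EQ, sub_wk, sub_pc, sub_SG, sub_DB]; rfl

end

/-- Walks of covered powers. -/
inductive CP (P : Spec S) (C : Set S) (a : S) : List (CE S) → S → Prop where
  | nil : CP P C a [] a
  | cons {l : List (CE S)} {b b' : S} {h : CE S} : CP P C a l b → CT P C h b b' →
      CP P C a (h :: l) b'

/-- Iterated powers. -/
def Pl : List (CE S) → X S → X S
  | [], A => A
  | h :: l, A => pc h (Pl l A)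

/-- Iterated singletons. -/
def sgs (d : Cdat S) : List (CE S) → X S → X S → X S
  | [], _, a => a
  | h :: l, A, a => SG d h (Pl l A) (sgs d l A a)

@[simp] theorem sub_Pl (l : List (CE S)) (A : X S) (σ : ℕ → X S) :
    (Pl l A).sub σ = Pl l (A.sub σ) := by
  induction l with
  | nil => rfl
  | cons h l ih => simp only [Pl, sub_pc, ih]

@[simp] theorem wk_Pl (l : List (CE S)) (A : X S) : wk (Pl l A) = Pl l (wk A) := by
  rw [wk_eq_sub, sub_Pl, ← wk_eq_sub]

@[simp] theorem sub_sgs (d : Cdat S) (l : List (CE S)) (A a : X S) (σ : ℕ → X S) :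
    (sgs d l A a).sub σ = sgs d l (A.sub σ) (a.sub σ) := by
  induction l with
  | nil => rfl
  | cons h l ih => simp only [sgs, sub_SG, sub_Pl, ih]

section
variable {F : S → Prop} {C : Set S} {d : Cdat S} (hd : Cok P F C d) {D : Ctx (S ⊕ Cst S)}
  {h h' h'' : CE S} {v v' v'' v3 : S} (hh : CT P C h v v') (hh' : CT P C h' v' v'')
  (hh'' : CT P C h'' v'' v3)
include hd hh

theorem EX_typ {A e : X S} (hA : J (ext P) D A (so v))
    (he : J (ext P) (push (pc h A) D) e (so d.i0)) : J (ext P) D (EX d h A e) (so d.i0) :=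
  NOT_typ hd (AL_typ hd hh hA (NOT_typ hd he))

omit hd hh in
theorem var0_pc (A : X S) : J (ext P) (push (pc h A) D) (var 0) (pc h (wk A)) := by
  have h3 : J (ext P) (push (pc h A) D) (var 0) (wk (pc h A)) := .var rfl
  rwa [wk_pc] at h3

theorem EQ0_typ {A a b : X S} (hA : J (ext P) D A (so v)) (ha : J (ext P) D a A)
    (hb : J (ext P) D b A) : J (ext P) (push (pc h A) D)
      (IMP d (me d h (var 0) (wk a)) (me d h (var 0) (wk b))) (so d.i0) :=
  IMP_typ hd (me_typ hd hh (hA.wk _) (var0_pc A) (ha.wk _))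
    (me_typ hd hh (hA.wk _) (var0_pc A) (hb.wk _))

theorem EQ_typ {A a b : X S} (hA : J (ext P) D A (so v)) (ha : J (ext P) D a A)
    (hb : J (ext P) D b A) : J (ext P) D (EQ d h A a b) (so d.i0) :=
  AL_typ hd hh hA (EQ0_typ hd hh hA ha hb)

theorem SG0_typ {A a : X S} (hA : J (ext P) D A (so v)) (ha : J (ext P) D a A) :
    J (ext P) (push A D) (EQ d h (wk A) (var 0) (wk a)) (so d.i0) :=
  EQ_typ hd hh (hA.wk _) (.var rfl) (ha.wk _)

theorem SG_typ {A a : X S} (hA : J (ext P) D A (so v)) (ha : J (ext P) D a A) :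
    J (ext P) D (SG d h A a) (pc h A) := LP_typ hd hh hA (SG0_typ hd hh hA ha)

theorem DB0_typ {A a b : X S} (hA : J (ext P) D A (so v)) (ha : J (ext P) D a A)
    (hb : J (ext P) D b A) : J (ext P) (push A D)
      (OR d (EQ d h (wk A) (var 0) (wk a)) (EQ d h (wk A) (var 0) (wk b))) (so d.i0) :=
  OR_typ hd (SG0_typ hd hh hA ha) (SG0_typ hd hh hA hb)

theorem DB_typ {A a b : X S} (hA : J (ext P) D A (so v)) (ha : J (ext P) D a A)
    (hb : J (ext P) D b A) : J (ext P) D (DB d h A a b) (pc h A) :=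
  LP_typ hd hh hA (DB0_typ hd hh hA ha hb)

include hh' in
theorem PR0_typ {A a b : X S} (hA : J (ext P) D A (so v)) (ha : J (ext P) D a A)
    (hb : J (ext P) D b A) : J (ext P) (push (pc h A) D)
      (OR d (EQ d h' (wk (pc h A)) (var 0) (wk (SG d h A a)))
        (EQ d h' (wk (pc h A)) (var 0) (wk (DB d h A a b)))) (so d.i0) :=
  OR_typ hd (SG0_typ hd hh' (pc_typ hh hA) (SG_typ hd hh hA ha))
    (SG0_typ hd hh' (pc_typ hh hA) (DB_typ hd hh hA ha hb))

include hh' in
theorem PR_typ {A a b : X S} (hA : J (ext P) D A (so v)) (ha : J (ext P) D a A)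
    (hb : J (ext P) D b A) : J (ext P) D (PR d h h' A a b) (pc h' (pc h A)) :=
  LP_typ hd hh' (pc_typ hh hA) (PR0_typ hd hh hh' hA ha hb)

omit hd hh in
theorem Pl_typ {l : List (CE S)} {a b : S} (hl : CP P C a l b) {A : X S}
    (hA : J (ext P) D A (so a)) : J (ext P) D (Pl l A) (so b) := by
  induction hl with
  | nil => exact hA
  | cons _ h ih => exact pc_typ h ih

omit hh in
theorem sgs_typ {l : List (CE S)} {a b : S} (hl : CP P C a l b) {A x : X S}
    (hA : J (ext P) D A (so a)) (hx : J (ext P) D x A) :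
    J (ext P) D (sgs d l A x) (Pl l A) := by
  induction hl with
  | nil => exact hx
  | cons hl h ih => exact SG_typ hd h (Pl_typ hl hA) ih

/-! Truth. -/

omit hd hh in
/-- Indiscernibility. -/
def Leq (P : Spec S) (d : Cdat S) (G : Ctx (S ⊕ Cst S)) (A a b : X S) : Prop :=
  ∀ e, J (ext P) (push A G) e (so d.i0) → (Tr P G (inst e a) ↔ Tr P G (inst e b))

omit hd hh in
theorem Leq.refl (A a : X S) : Leq P d D A a a := fun _ _ => Iff.rfl
omit hd hh in
theorem Leq.symm {A a b : X S} (h : Leq P d D A a b) : Leq P d D A b a :=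
  fun e he => (h e he).symm
omit hd hh in
theorem Leq.trans {A a b c : X S} (h : Leq P d D A a b) (h' : Leq P d D A b c) :
    Leq P d D A a c := fun e he => (h e he).trans (h' e he)

omit hd hh in
/-- Congruence. -/
theorem Leq.term {A B a b N : X S} (h : Leq P d D A a b)
    (hN : J (ext P) (push A D) N (wk B)) : Leq P d D B (inst N a) (inst N b) := by
  intro e he
  have h1 := h (cut N e) (J_cut he hN)
  rwa [inst_cut, inst_cut] at h1

variable (hG : Mx P F D)
include hG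

theorem tr_EX {A e : X S} (hA : J (ext P) D A (so v))
    (he : J (ext P) (push (pc h A) D) e (so d.i0)) :
    Tr P D (EX d h A e) ↔ ∃ p, dom d h P D A p ∧ Tr P D (inst e p) := by
  unfold EX
  rw [tr_NOT hd hG (AL_typ hd hh hA (NOT_typ hd he)), tr_AL hd hG hh hA (NOT_typ hd he)]
  constructor
  · intro hn
    by_contra hc
    refine hn fun p hp => ?_
    have e1 : inst (NOT d e) p = NOT d (inst e p) := sub_NOT _ _ _
    rw [e1, tr_NOT hd hG (he.inst (hp.typ hd hh hA))]
    exact fun ht => hc ⟨p, hp, ht⟩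
  · rintro ⟨p, hp, ht⟩ hn
    have h1 := hn p hp
    have e1 : inst (NOT d e) p = NOT d (inst e p) := sub_NOT _ _ _
    rw [e1, tr_NOT hd hG (he.inst (hp.typ hd hh hA))] at h1
    exact h1 ht

theorem tr_EQ {A a b : X S} (hA : J (ext P) D A (so v)) (ha : J (ext P) D a A)
    (hb : J (ext P) D b A) : Tr P D (EQ d h A a b) ↔ Leq P d D A a b := by
  unfold EQ
  rw [tr_AL hd hG hh hA (EQ0_typ hd hh hA ha hb)]
  have e1 : ∀ p, inst (IMP d (me d h (var 0) (wk a)) (me d h (var 0) (wk b))) p =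
      IMP d (me d h p a) (me d h p b) := by
    intro p
    unfold inst
    simp only [sub_IMP, sub_me, sub_single_wk]; rfl
  have e2 : ∀ p, dom d h P D A p → (Tr P D (inst (IMP d (me d h (var 0) (wk a))
      (me d h (var 0) (wk b))) p) ↔ (Tr P D (me d h p a) → Tr P D (me d h p b))) := by
    intro p hp
    have hp' := hp.typ hd hh hA
    rw [e1, tr_IMP hd hG (me_typ hd hh hA hp' ha) (me_typ hd hh hA hp' hb)]
  constructor
  · intro hl e he
    have h1 : ∀ e, J (ext P) (push A D) e (so d.i0) → Tr P D (inst e a) →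
        Tr P D (inst e b) := by
      intro e he h3
      have h4 := (e2 _ (dom_LP hd hh hA he)).1 (hl _ (dom_LP hd hh hA he))
      rw [tr_LP hd hG hh hA he ha, tr_LP hd hG hh hA he hb] at h4
      exact h4 h3
    refine ⟨h1 e he, fun h3 => ?_⟩
    by_contra h4
    have e3 : ∀ x, inst (NOT d e) x = NOT d (inst e x) := fun x => sub_NOT _ _ _
    have h5 := h1 (NOT d e) (NOT_typ hd he)
    rw [e3, e3, tr_NOT hd hG (he.inst ha), tr_NOT hd hG (he.inst hb)] at h5
    exact h5 h4 h3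
  · intro hl p hp
    rw [e2 p hp]
    have hp' := hp.typ hd hh hA
    have h1 := me_typ (D := push A D) hd hh (hA.wk A) (by
      have := hp'.wk A; rwa [wk_pc] at this) (x := var 0) (.var rfl)
    have h2 := hl _ h1
    have e3 : ∀ x, inst (me d h (wk p) (var 0)) x = me d h p x := by
      intro x
      unfold inst
      rw [sub_me, sub_single_wk]; rfl
    rw [e3, e3] at h2
    exact h2.1

theorem tr_SG {A a x : X S} (hA : J (ext P) D A (so v)) (ha : J (ext P) D a A)
    (hx : J (ext P) D x A) : Tr P D (me d h (SG d h A a) x) ↔ Leq P d D A x a := by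
  unfold SG
  rw [tr_LP hd hG hh hA (SG0_typ hd hh hA ha) hx]
  have e1 : inst (EQ d h (wk A) (var 0) (wk a)) x = EQ d h A x a := by
    unfold inst
    rw [sub_EQ, sub_single_wk, sub_single_wk]; rfl
  rw [e1, tr_EQ hd hh hG hA hx ha]

theorem tr_DB {A a b x : X S} (hA : J (ext P) D A (so v)) (ha : J (ext P) D a A)
    (hb : J (ext P) D b A) (hx : J (ext P) D x A) :
    Tr P D (me d h (DB d h A a b) x) ↔ Leq P d D A x a ∨ Leq P d D A x b := by
  unfold DB
  rw [tr_LP hd hG hh hA (DB0_typ hd hh hA ha hb) hx]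
  have e1 : inst (OR d (EQ d h (wk A) (var 0) (wk a)) (EQ d h (wk A) (var 0) (wk b))) x =
      OR d (EQ d h A x a) (EQ d h A x b) := by
    unfold inst
    simp only [sub_OR, sub_EQ, sub_single_wk]; rfl
  rw [e1, tr_OR hd hG (EQ_typ hd hh hA hx ha) (EQ_typ hd hh hA hx hb),
    tr_EQ hd hh hG hA hx ha, tr_EQ hd hh hG hA hx hb]

/-- Members of indiscernible predicates. -/
theorem Leq.mem {A p q x : X S} (hA : J (ext P) D A (so v))
    (hl : Leq P d D (pc h A) p q) (hx : J (ext P) D x A) :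
    Tr P D (me d h p x) ↔ Tr P D (me d h q x) := by
  have h1 := me_typ (D := push (pc h A) D) hd hh (hA.wk _) (var0_pc A) (hx.wk _)
  have h2 := hl _ h1
  have e3 : ∀ q, inst (me d h (var 0) (wk x)) q = me d h q x := by
    intro q
    unfold inst
    rw [sub_me, sub_single_wk]; rfl
  rwa [e3, e3] at h2

theorem SG_inj {A a b : X S} (hA : J (ext P) D A (so v)) (ha : J (ext P) D a A)
    (hb : J (ext P) D b A) (hl : Leq P d D (pc h A) (SG d h A a) (SG d h A b)) :
    Leq P d D A a b := by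
  have h1 := Leq.mem hd hh hG hA hl ha
  rw [tr_SG hd hh hG hA ha ha, tr_SG hd hh hG hA hb ha] at h1
  exact h1.1 (Leq.refl _ _)

omit hG in
theorem SG_congr {A a b : X S} (hA : J (ext P) D A (so v)) (hl : Leq P d D A a b) :
    Leq P d D (pc h A) (SG d h A a) (SG d h A b) := by
  have h1 : J (ext P) (push A D) (SG d h (wk A) (var 0)) (wk (pc h A)) := by
    rw [wk_pc]; exact SG_typ hd hh (hA.wk A) (.var rfl)
  have h2 := hl.term h1
  have e1 : ∀ x, inst (SG d h (wk A) (var 0)) x = SG d h A x := by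
    intro x
    unfold inst
    rw [sub_SG, sub_single_wk]; rfl
  rwa [e1, e1] at h2

include hh'

theorem tr_PR {A a b x : X S} (hA : J (ext P) D A (so v)) (ha : J (ext P) D a A)
    (hb : J (ext P) D b A) (hx : J (ext P) D x (pc h A)) :
    Tr P D (me d h' (PR d h h' A a b) x) ↔
      Leq P d D (pc h A) x (SG d h A a) ∨ Leq P d D (pc h A) x (DB d h A a b) := by
  have hA' := pc_typ hh hA
  have ha' := SG_typ hd hh hA ha
  have hb' := DB_typ hd hh hA ha hb
  unfold PR
  rw [tr_LP hd hG hh' hA' (PR0_typ hd hh hh' hA ha hb) hx]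
  have e1 : inst (OR d (EQ d h' (wk (pc h A)) (var 0) (wk (SG d h A a)))
      (EQ d h' (wk (pc h A)) (var 0) (wk (DB d h A a b)))) x =
      OR d (EQ d h' (pc h A) x (SG d h A a)) (EQ d h' (pc h A) x (DB d h A a b)) := by
    unfold inst
    simp only [sub_OR, sub_EQ, sub_single_wk]; rfl
  rw [e1, tr_OR hd hG (EQ_typ hd hh' hA' hx ha') (EQ_typ hd hh' hA' hx hb'),
    tr_EQ hd hh' hG hA' hx ha', tr_EQ hd hh' hG hA' hx hb']

theorem PR_congr {A a b a' b' : X S} (hA : J (ext P) D A (so v)) (ha' : J (ext P) D a' A)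
    (hb : J (ext P) D b A) (hl : Leq P d D A a a') (hl' : Leq P d D A b b') :
    Leq P d D (pc h' (pc h A)) (PR d h h' A a b) (PR d h h' A a' b') := by
  have h1 : J (ext P) (push A D) (PR d h h' (wk A) (var 0) (wk b)) (wk (pc h' (pc h A))) := by
    rw [wk_pc, wk_pc]; exact PR_typ hd hh hh' (hA.wk A) (.var rfl) (hb.wk A)
  have h2 := hl.term h1
  have e1 : ∀ x, inst (PR d h h' (wk A) (var 0) (wk b)) x = PR d h h' A x b := by
    intro x
    unfold inst
    rw [sub_PR, sub_single_wk, sub_single_wk]; rfl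
  rw [e1, e1] at h2
  have h3 : J (ext P) (push A D) (PR d h h' (wk A) (wk a') (var 0)) (wk (pc h' (pc h A))) := by
    rw [wk_pc, wk_pc]; exact PR_typ hd hh hh' (hA.wk A) (ha'.wk A) (.var rfl)
  have h4 := hl'.term h3
  have e2 : ∀ x, inst (PR d h h' (wk A) (wk a') (var 0)) x = PR d h h' A a' x := by
    intro x
    unfold inst
    rw [sub_PR, sub_single_wk, sub_single_wk]; rfl
  rw [e2, e2] at h4
  exact h2.trans h4

/-- Ordered pairs determine their components. -/
theorem PR_inj {A a b a' b' : X S} (hA : J (ext P) D A (so v)) (ha : J (ext P) D a A)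
    (hb : J (ext P) D b A) (ha' : J (ext P) D a' A) (hb' : J (ext P) D b' A)
    (hl : Leq P d D (pc h' (pc h A)) (PR d h h' A a b) (PR d h h' A a' b')) :
    Leq P d D A a a' ∧ Leq P d D A b b' := by
  have hA' := pc_typ hh hA
  have m1 : ∀ x, J (ext P) D x (pc h A) →
      ((Leq P d D (pc h A) x (SG d h A a) ∨ Leq P d D (pc h A) x (DB d h A a b)) ↔
      (Leq P d D (pc h A) x (SG d h A a') ∨ Leq P d D (pc h A) x (DB d h A a' b'))) := by
    intro x hx
    have h1 := Leq.mem hd hh' hG hA' hl hx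
    rwa [tr_PR hd hh hh' hG hA ha hb hx, tr_PR hd hh hh' hG hA ha' hb' hx] at h1
  -- equality of singletons and doubletons
  have ss : ∀ {a a' : X S}, J (ext P) D a A → J (ext P) D a' A →
      Leq P d D (pc h A) (SG d h A a) (SG d h A a') → Leq P d D A a a' :=
    fun ha ha' h1 => SG_inj hd hh hG hA ha ha' h1
  have sd : ∀ {a a' b' : X S}, J (ext P) D a A → J (ext P) D a' A → J (ext P) D b' A →
      Leq P d D (pc h A) (SG d h A a) (DB d h A a' b') → Leq P d D A a' a ∧ Leq P d D A b' a := by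
    intro a a' b' ha ha' hb' h1
    have h2 := Leq.mem hd hh hG hA h1 ha'
    have h3 := Leq.mem hd hh hG hA h1 hb'
    rw [tr_SG hd hh hG hA ha ha', tr_DB hd hh hG hA ha' hb' ha'] at h2
    rw [tr_SG hd hh hG hA ha hb', tr_DB hd hh hG hA ha' hb' hb'] at h3
    exact ⟨h2.2 (.inl (Leq.refl _ _)), h3.2 (.inr (Leq.refl _ _))⟩
  have dd : ∀ {a b a' b' : X S}, J (ext P) D a A → J (ext P) D b A → J (ext P) D a' A →
      J (ext P) D b' A → Leq P d D (pc h A) (DB d h A a b) (DB d h A a' b') →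
      (Leq P d D A b a' ∨ Leq P d D A b b') := by
    intro a b a' b' ha hb ha' hb' h1
    have h2 := Leq.mem hd hh hG hA h1 hb
    rw [tr_DB hd hh hG hA ha hb hb, tr_DB hd hh hG hA ha' hb' hb] at h2
    exact h2.1 (.inr (Leq.refl _ _))
  have tS := SG_typ hd hh hA ha
  have tS' := SG_typ hd hh hA ha'
  have tD := DB_typ hd hh hA ha hb
  have tD' := DB_typ hd hh hA ha' hb'
  have q1 := (m1 _ tS).1 (.inl (Leq.refl _ _))
  have q2 := (m1 _ tD).1 (.inr (Leq.refl _ _))
  have q3 := (m1 _ tS').2 (.inl (Leq.refl _ _))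
  have q4 := (m1 _ tD').2 (.inr (Leq.refl _ _))
  have e1 : Leq P d D A a a' := by
    rcases q1 with h1 | h1
    · exact ss ha ha' h1
    · exact (sd ha ha' hb' h1).1.symm
  refine ⟨e1, ?_⟩
  rcases q2 with h1 | h1
  · -- {a, b} = {a'}
    obtain ⟨h2, h3⟩ := sd ha' ha hb h1.symm
    rcases q4 with h4 | h4
    · obtain ⟨h5, h6⟩ := sd ha ha' hb' h4.symm
      exact (h3.trans e1.symm).trans h6.symm
    · rcases dd ha' hb' ha hb h4 with h5 | h5
      · exact (h3.trans e1.symm).trans h5.symm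
      · exact h5.symm
  · rcases dd ha hb ha' hb' h1 with h2 | h2
    · rcases dd ha' hb' ha hb h1.symm with h3 | h3
      · exact (h2.trans e1.symm).trans h3.symm
      · exact h3.symm
    · exact h2

end

end Vale.Agent.P340.Vy
end

section

/-! The terms of the paradox: coded pointed graphs on iterated powers of a kind. -/

namespace Vale.Agent.P340.Vy

universe u
variable {S : Type u} {P : Spec S}

open Tm

/-- The data of the paradox. -/
structure Pdat (S : Type u) extends Cdat S where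
  hN : CE S
  h1 : CE S
  h2 : CE S
  h3 : CE S
  h4 : CE S
  h5 : CE S
  h6 : CE S
  hz : CE S
  ho : CE S
  z : ZE S
  L : List (CE S)
  L2 : List (CE S)
  vL : S
  v0 : S
  v1 : S
  v2 : S
  v3 : S
  v4 : S
  v5 : S
  b : S
  m : S
  vO : S
  vP : S

/-- The conditions on the data. -/
structure Pok (P : Spec S) (F : S → Prop) (C : Set S) (d : Pdat S) : Prop where
  ok : Cok P F C d.toCdat
  L : CP P C d.z.k d.L d.vL
  hN : CT P C d.hN d.vL d.v0
  h1 : CT P C d.h1 d.v0 d.v1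
  h2 : CT P C d.h2 d.v1 d.v2
  h3 : CT P C d.h3 d.v2 d.v3
  h4 : CT P C d.h4 d.v3 d.v4
  h5 : CT P C d.h5 d.v4 d.v5
  h6 : CT P C d.h6 d.v5 d.b
  z : ZT P d.z d.b d.m
  hz : CT P C d.hz d.m d.vO
  ho : CT P C d.ho d.vO d.vP
  L2 : CP P C d.vO d.L2 d.z.k

namespace Pdat

variable (d : Pdat S)

abbrev c : Cdat S := d.toCdat

/-- Nodes over the kind `κ`. -/
def Nk (κ : X S) : X S := pc d.hN (Pl d.L κ)
/-- Pairs of nodes. -/
def Qk (κ : X S) : X S := pc d.h2 (pc d.h1 (d.Nk κ))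
/-- Relations on nodes. -/
def Rk (κ : X S) : X S := pc d.h3 (d.Qk κ)
/-- Pairs of a relation and a coded node. -/
def Xk (κ : X S) : X S := pc d.h5 (pc d.h4 (d.Rk κ))
def Yk (κ : X S) : X S := pc d.h6 (d.Xk κ)
/-- A pair of nodes. -/
def e2 (κ a b : X S) : X S := PR d.c d.h1 d.h2 (d.Nk κ) a b
/-- A node as a relation. -/
def up (κ x : X S) : X S :=
  SG d.c d.h3 (d.Qk κ) (SG d.c d.h2 (pc d.h1 (d.Nk κ)) (SG d.c d.h1 (d.Nk κ) x))
/-- A pointed graph. -/
def pt (κ r x : X S) : X S := PR d.c d.h4 d.h5 (d.Rk κ) r (d.up κ x)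
/-- Classes of pointed graphs. -/
def Z : X S := ZK d.z (d.Yk (var 0))
/-- The universe. -/
def Om : X S := pc d.hz d.Z
/-- The element of the universe given by a pointed graph. -/
def ii (κ s : X S) : X S := LP d.c d.hz d.Z (me d.c d.h6 (ZA d.z (var 0) (wk κ)) (wk s))
/-- The class of the pointed graphs of which `u` is a child; `κ` is the variable `1`, the
pointed graph is the variable `0`. -/
def qb (κ s u : X S) : X S :=
  EX d.c d.h3 (d.Qk κ) (EX d.c d.hN (Pl d.L (wk κ)) (EX d.c d.hN (Pl d.L (wk (wk κ)))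
    (AND d.c (EQ d.c d.h6 (d.Xk (wk (wk (wk κ)))) (wk (wk (wk s)))
      (d.pt (wk (wk (wk κ))) (var 2) (var 1)))
    (AND d.c (me d.c d.h3 (var 2) (d.e2 (wk (wk (wk κ))) (var 1) (var 0)))
      (EQ d.c d.ho d.Om (wk (wk (wk u)))
        (d.ii (wk (wk (wk κ))) (d.pt (wk (wk (wk κ))) (var 2) (var 0))))))))
def qc (u : X S) : X S :=
  ZL d.z (LP d.c d.h6 (d.Xk (var 0)) (d.qb (var 1) (var 0) (wk (wk u))))
/-- `u` is a child of `t`. -/
def CH (t u : X S) : X S := me d.c d.hz t (d.qc u)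
/-- All children of `t` satisfy `Y`. -/
def Bx (Y t : X S) : X S :=
  AL d.c d.hz d.Z (IMP d.c (d.CH (wk t) (var 0)) (me d.c d.ho (wk Y) (var 0)))
/-- `Y` is progressive. -/
def Pg (Y : X S) : X S :=
  AL d.c d.hz d.Z (IMP d.c (d.Bx (wk Y) (var 0)) (me d.c d.ho (wk Y) (var 0)))
/-- `t` is well-founded. -/
def Wf (t : X S) : X S :=
  AL d.c d.ho d.Om (IMP d.c (d.Pg (var 0)) (me d.c d.ho (var 0) (wk t)))
/-- The kind over which the final graph lives. -/
def A : X S := Pl d.L2 d.Om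
/-- The node of an element of the universe. -/
def nd (y : X S) : X S := SG d.c d.hN (Pl d.L d.A) (sgs d.c d.L d.A (sgs d.c d.L2 d.Om y))
/-- The root. -/
def rt : X S := LP d.c d.hN (Pl d.L d.A) (NOT d.c (ct d.i0))
/-- The relation of the final graph; the pair of nodes is `p`. -/
def rb (p : X S) : X S := OR d.c
  (EX d.c d.hz d.Z (EX d.c d.hz d.Z (AND d.c (d.CH (var 1) (var 0))
    (EQ d.c d.h3 (d.Qk d.A) (wk (wk p)) (d.e2 d.A (d.nd (var 1)) (d.nd (var 0)))))))
  (EX d.c d.hz d.Z (AND d.c (d.Wf (var 0))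
    (EQ d.c d.h3 (d.Qk d.A) (wk p) (d.e2 d.A d.rt (d.nd (var 0))))))
def rW : X S := LP d.c d.h3 (d.Qk d.A) (d.rb (var 0))
/-- The copy of `y` in the final graph. -/
def hat (y : X S) : X S := d.ii d.A (d.pt d.A d.rW (d.nd y))
/-- The element given by the final graph. -/
def zW : X S := d.ii d.A (d.pt d.A d.rW d.rt)

@[simp] theorem sub_Nk (κ : X S) (σ : ℕ → X S) : (d.Nk κ).sub σ = d.Nk (κ.sub σ) := by
  simp only [Nk, sub_pc, sub_Pl]
@[simp] theorem sub_Qk (κ : X S) (σ : ℕ → X S) : (d.Qk κ).sub σ = d.Qk (κ.sub σ) := by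
  simp only [Qk, sub_pc, sub_Nk]
@[simp] theorem sub_Rk (κ : X S) (σ : ℕ → X S) : (d.Rk κ).sub σ = d.Rk (κ.sub σ) := by
  simp only [Rk, sub_pc, sub_Qk]
@[simp] theorem sub_Xk (κ : X S) (σ : ℕ → X S) : (d.Xk κ).sub σ = d.Xk (κ.sub σ) := by
  simp only [Xk, sub_pc, sub_Rk]
@[simp] theorem sub_Yk (κ : X S) (σ : ℕ → X S) : (d.Yk κ).sub σ = d.Yk (κ.sub σ) := by
  simp only [Yk, sub_pc, sub_Xk]
@[simp] theorem sub_e2 (κ a b : X S) (σ : ℕ → X S) :
    (d.e2 κ a b).sub σ = d.e2 (κ.sub σ) (a.sub σ) (b.sub σ) := by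
  simp only [e2, sub_PR, sub_Nk]
@[simp] theorem sub_upp (κ a : X S) (σ : ℕ → X S) :
    (d.up κ a).sub σ = d.up (κ.sub σ) (a.sub σ) := by
  simp only [up, sub_SG, sub_Qk, sub_pc, sub_Nk]
@[simp] theorem sub_pt (κ r a : X S) (σ : ℕ → X S) :
    (d.pt κ r a).sub σ = d.pt (κ.sub σ) (r.sub σ) (a.sub σ) := by
  simp only [pt, sub_PR, sub_Rk, sub_upp]
@[simp] theorem sub_Z (σ : ℕ → X S) : d.Z.sub σ = d.Z := by
  simp only [Z, sub_ZK, sub_Yk]; rfl
@[simp] theorem sub_Om (σ : ℕ → X S) : d.Om.sub σ = d.Om := by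
  simp only [Om, sub_pc, sub_Z]
@[simp] theorem sub_ii (κ s : X S) (σ : ℕ → X S) :
    (d.ii κ s).sub σ = d.ii (κ.sub σ) (s.sub σ) := by
  simp only [ii, sub_LP, sub_Z, sub_me, sub_ZA, sub_wk]; rfl
@[simp] theorem sub_qb (κ s u : X S) (σ : ℕ → X S) :
    (d.qb κ s u).sub σ = d.qb (κ.sub σ) (s.sub σ) (u.sub σ) := by
  simp only [qb, sub_EX, sub_Qk, sub_Pl, sub_AND, sub_EQ, sub_Xk, sub_wk, sub_pt, sub_me, sub_e2,
    sub_Om, sub_ii]; rfl
@[simp] theorem sub_qc (u : X S) (σ : ℕ → X S) : (d.qc u).sub σ = d.qc (u.sub σ) := by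
  simp only [qc, sub_ZL, sub_LP, sub_Xk, sub_qb, sub_wk]; rfl
@[simp] theorem sub_CH (t u : X S) (σ : ℕ → X S) :
    (d.CH t u).sub σ = d.CH (t.sub σ) (u.sub σ) := by
  simp only [CH, sub_me, sub_qc]
@[simp] theorem sub_Bx (Y t : X S) (σ : ℕ → X S) :
    (d.Bx Y t).sub σ = d.Bx (Y.sub σ) (t.sub σ) := by
  simp only [Bx, sub_AL, sub_Z, sub_IMP, sub_CH, sub_me, sub_wk]; rfl
@[simp] theorem sub_Pg (Y : X S) (σ : ℕ → X S) : (d.Pg Y).sub σ = d.Pg (Y.sub σ) := by
  simp only [Pg, sub_AL, sub_Z, sub_IMP, sub_Bx, sub_wk, sub_me]; rfl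
@[simp] theorem sub_Wf (t : X S) (σ : ℕ → X S) : (d.Wf t).sub σ = d.Wf (t.sub σ) := by
  simp only [Wf, sub_AL, sub_Om, sub_IMP, sub_Pg, sub_me, sub_wk]; rfl
@[simp] theorem sub_A (σ : ℕ → X S) : d.A.sub σ = d.A := by
  simp only [A, sub_Pl, sub_Om]
@[simp] theorem sub_nd (y : X S) (σ : ℕ → X S) : (d.nd y).sub σ = d.nd (y.sub σ) := by
  simp only [nd, sub_SG, sub_Pl, sub_sgs, sub_A, sub_Om]
@[simp] theorem sub_rt (σ : ℕ → X S) : d.rt.sub σ = d.rt := by
  simp only [rt, sub_LP, sub_Pl, sub_A, sub_NOT]; rfl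
@[simp] theorem sub_rb (p : X S) (σ : ℕ → X S) : (d.rb p).sub σ = d.rb (p.sub σ) := by
  simp only [rb, sub_OR, sub_EX, sub_Z, sub_AND, sub_CH, sub_EQ, sub_Qk, sub_A, sub_wk, sub_e2,
    sub_nd, sub_Wf, sub_rt]; rfl
@[simp] theorem sub_rW (σ : ℕ → X S) : d.rW.sub σ = d.rW := by
  simp only [rW, sub_LP, sub_Qk, sub_A, sub_rb]; rfl
@[simp] theorem sub_hat (y : X S) (σ : ℕ → X S) : (d.hat y).sub σ = d.hat (y.sub σ) := by
  simp only [hat, sub_ii, sub_A, sub_pt, sub_rW, sub_nd]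

@[simp] theorem wk_Nk (κ : X S) : wk (d.Nk κ) = d.Nk (wk κ) := by
  rw [wk_eq_sub, sub_Nk, ← wk_eq_sub]
@[simp] theorem wk_Qk (κ : X S) : wk (d.Qk κ) = d.Qk (wk κ) := by
  rw [wk_eq_sub, sub_Qk, ← wk_eq_sub]
@[simp] theorem wk_Rk (κ : X S) : wk (d.Rk κ) = d.Rk (wk κ) := by
  rw [wk_eq_sub, sub_Rk, ← wk_eq_sub]
@[simp] theorem wk_Xk (κ : X S) : wk (d.Xk κ) = d.Xk (wk κ) := by
  rw [wk_eq_sub, sub_Xk, ← wk_eq_sub]
@[simp] theorem wk_Z : wk d.Z = d.Z := by rw [wk_eq_sub, sub_Z]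
@[simp] theorem wk_Om : wk d.Om = d.Om := by rw [wk_eq_sub, sub_Om]
@[simp] theorem wk_A : wk d.A = d.A := by rw [wk_eq_sub, sub_A]
variable {d} {F : S → Prop} {C : Set S} (h : Pok P F C d) {D : Ctx (S ⊕ Cst S)}
include h

theorem Nk_typ {κ : X S} (hκ : J (ext P) D κ (so d.z.k)) : J (ext P) D (d.Nk κ) (so d.v0) :=
  pc_typ h.hN (Pl_typ h.L hκ)
theorem N1_typ {κ : X S} (hκ : J (ext P) D κ (so d.z.k)) :
    J (ext P) D (pc d.h1 (d.Nk κ)) (so d.v1) := pc_typ h.h1 (Nk_typ h hκ)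
theorem Qk_typ {κ : X S} (hκ : J (ext P) D κ (so d.z.k)) : J (ext P) D (d.Qk κ) (so d.v2) :=
  pc_typ h.h2 (N1_typ h hκ)
theorem Rk_typ {κ : X S} (hκ : J (ext P) D κ (so d.z.k)) : J (ext P) D (d.Rk κ) (so d.v3) :=
  pc_typ h.h3 (Qk_typ h hκ)
theorem R1_typ {κ : X S} (hκ : J (ext P) D κ (so d.z.k)) :
    J (ext P) D (pc d.h4 (d.Rk κ)) (so d.v4) := pc_typ h.h4 (Rk_typ h hκ)
theorem Xk_typ {κ : X S} (hκ : J (ext P) D κ (so d.z.k)) : J (ext P) D (d.Xk κ) (so d.v5) :=
  pc_typ h.h5 (R1_typ h hκ)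
theorem Yk_typ {κ : X S} (hκ : J (ext P) D κ (so d.z.k)) : J (ext P) D (d.Yk κ) (so d.b) :=
  pc_typ h.h6 (Xk_typ h hκ)

theorem e2_typ {κ a b : X S} (hκ : J (ext P) D κ (so d.z.k)) (ha : J (ext P) D a (d.Nk κ))
    (hb : J (ext P) D b (d.Nk κ)) : J (ext P) D (d.e2 κ a b) (d.Qk κ) :=
  PR_typ h.ok h.h1 h.h2 (Nk_typ h hκ) ha hb

theorem up_typ {κ x : X S} (hκ : J (ext P) D κ (so d.z.k)) (hx : J (ext P) D x (d.Nk κ)) :
    J (ext P) D (d.up κ x) (d.Rk κ) :=
  SG_typ h.ok h.h3 (Qk_typ h hκ) (SG_typ h.ok h.h2 (N1_typ h hκ)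
    (SG_typ h.ok h.h1 (Nk_typ h hκ) hx))

theorem pt_typ {κ r x : X S} (hκ : J (ext P) D κ (so d.z.k)) (hr : J (ext P) D r (d.Rk κ))
    (hx : J (ext P) D x (d.Nk κ)) : J (ext P) D (d.pt κ r x) (d.Xk κ) :=
  PR_typ h.ok h.h4 h.h5 (Rk_typ h hκ) hr (up_typ h hκ hx)

theorem Y0_typ : J (ext P) (push (so d.z.k) D) (d.Yk (var 0)) (so d.b) := Yk_typ h (.var rfl)

theorem Z_typ : J (ext P) D d.Z (so d.m) := ZK_typ h.z (Y0_typ h)

theorem Om_typ : J (ext P) D d.Om (so d.vO) := pc_typ h.hz (Z_typ h)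

omit h in
theorem inst_Yk (κ : X S) : inst (d.Yk (var 0)) κ = d.Yk κ := sub_Yk _ _ _

theorem ZAt {κ q : X S} (hκ : J (ext P) D κ (so d.z.k)) (hq : J (ext P) D q d.Z) :
    J (ext P) D (ZA d.z q κ) (pc d.h6 (d.Xk κ)) := by
  have h1 := ZA_typ h.z (Y0_typ h) hq hκ
  rwa [inst_Yk] at h1

theorem ii0_typ {κ s : X S} (hκ : J (ext P) D κ (so d.z.k)) (hs : J (ext P) D s (d.Xk κ)) :
    J (ext P) (push d.Z D) (me d.c d.h6 (ZA d.z (var 0) (wk κ)) (wk s)) (so d.i0) := by
  have hv : J (ext P) (push d.Z D) (var 0) (wk d.Z) := .var rfl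
  rw [wk_Z] at hv
  have hs' := hs.wk d.Z
  rw [wk_Xk] at hs'
  exact me_typ h.ok h.h6 (Xk_typ h (hκ.wk _)) (ZAt h (hκ.wk _) hv) hs'

theorem ii_typ {κ s : X S} (hκ : J (ext P) D κ (so d.z.k)) (hs : J (ext P) D s (d.Xk κ)) :
    J (ext P) D (d.ii κ s) d.Om := LP_typ h.ok h.hz (Z_typ h) (ii0_typ h hκ hs)

/-- The matrix of `qb`. -/
theorem qm_typ {κ s u r x n : X S} (hκ : J (ext P) D κ (so d.z.k))
    (hs : J (ext P) D s (d.Xk κ)) (hu : J (ext P) D u d.Om) (hr : J (ext P) D r (d.Rk κ))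
    (hx : J (ext P) D x (d.Nk κ)) (hn : J (ext P) D n (d.Nk κ)) :
    J (ext P) D (AND d.c (EQ d.c d.h6 (d.Xk κ) s (d.pt κ r x))
      (AND d.c (me d.c d.h3 r (d.e2 κ x n)) (EQ d.c d.ho d.Om u (d.ii κ (d.pt κ r n)))))
      (so d.i0) :=
  AND_typ h.ok (EQ_typ h.ok h.h6 (Xk_typ h hκ) hs (pt_typ h hκ hr hx))
    (AND_typ h.ok (me_typ h.ok h.h3 (Qk_typ h hκ) hr (e2_typ h hκ hx hn))
      (EQ_typ h.ok h.ho (Om_typ h) hu (ii_typ h hκ (pt_typ h hκ hr hn))))

omit h in
theorem var0_Nk (κ : X S) : J (ext P) (push (pc d.hN (Pl d.L κ)) D) (var 0) (d.Nk (wk κ)) := by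
  have h1 := var0_pc (P := P) (D := D) (h := d.hN) (Pl d.L κ)
  rwa [wk_Pl] at h1

omit h in
theorem var0_Rk (κ : X S) : J (ext P) (push (pc d.h3 (d.Qk κ)) D) (var 0) (d.Rk (wk κ)) := by
  have h1 := var0_pc (P := P) (D := D) (h := d.h3) (d.Qk κ)
  rwa [wk_Qk] at h1

theorem qb3_typ {κ s u r x : X S} (hκ : J (ext P) D κ (so d.z.k))
    (hs : J (ext P) D s (d.Xk κ)) (hu : J (ext P) D u d.Om) (hr : J (ext P) D r (d.Rk κ))
    (hx : J (ext P) D x (d.Nk κ)) :
    J (ext P) (push (pc d.hN (Pl d.L κ)) D)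
      (AND d.c (EQ d.c d.h6 (d.Xk (wk κ)) (wk s) (d.pt (wk κ) (wk r) (wk x)))
      (AND d.c (me d.c d.h3 (wk r) (d.e2 (wk κ) (wk x) (var 0)))
        (EQ d.c d.ho d.Om (wk u) (d.ii (wk κ) (d.pt (wk κ) (wk r) (var 0))))))
      (so d.i0) := by
  have hs' := hs.wk (pc d.hN (Pl d.L κ))
  have hu' := hu.wk (pc d.hN (Pl d.L κ))
  have hr' := hr.wk (pc d.hN (Pl d.L κ))
  have hx' := hx.wk (pc d.hN (Pl d.L κ))
  rw [wk_Xk] at hs'
  rw [wk_Om] at hu'
  rw [wk_Rk] at hr'
  rw [wk_Nk] at hx'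
  exact qm_typ h (hκ.wk _) hs' hu' hr' hx' (var0_Nk κ)

theorem qb2_typ {κ s u r : X S} (hκ : J (ext P) D κ (so d.z.k))
    (hs : J (ext P) D s (d.Xk κ)) (hu : J (ext P) D u d.Om) (hr : J (ext P) D r (d.Rk κ)) :
    J (ext P) (push (pc d.hN (Pl d.L κ)) D) (EX d.c d.hN (Pl d.L (wk κ))
      (AND d.c (EQ d.c d.h6 (d.Xk (wk (wk κ))) (wk (wk s))
        (d.pt (wk (wk κ)) (wk (wk r)) (var 1)))
      (AND d.c (me d.c d.h3 (wk (wk r)) (d.e2 (wk (wk κ)) (var 1) (var 0)))
        (EQ d.c d.ho d.Om (wk (wk u)) (d.ii (wk (wk κ)) (d.pt (wk (wk κ)) (wk (wk r))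
          (var 0))))))) (so d.i0) := by
  have hs' := hs.wk (pc d.hN (Pl d.L κ))
  have hu' := hu.wk (pc d.hN (Pl d.L κ))
  have hr' := hr.wk (pc d.hN (Pl d.L κ))
  rw [wk_Xk] at hs'
  rw [wk_Om] at hu'
  rw [wk_Rk] at hr'
  have h9 := qb3_typ h (hκ.wk _) hs' hu' hr' (var0_Nk κ)
  have e0 : (wk (var 0) : X S) = var 1 := rfl
  rw [e0] at h9
  exact EX_typ h.ok h.hN (Pl_typ h.L (hκ.wk _)) h9

theorem qb1_typ {κ s u : X S} (hκ : J (ext P) D κ (so d.z.k))
    (hs : J (ext P) D s (d.Xk κ)) (hu : J (ext P) D u d.Om) :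
    J (ext P) (push (pc d.h3 (d.Qk κ)) D) (EX d.c d.hN (Pl d.L (wk κ))
      (EX d.c d.hN (Pl d.L (wk (wk κ)))
      (AND d.c (EQ d.c d.h6 (d.Xk (wk (wk (wk κ)))) (wk (wk (wk s)))
        (d.pt (wk (wk (wk κ))) (var 2) (var 1)))
      (AND d.c (me d.c d.h3 (var 2) (d.e2 (wk (wk (wk κ))) (var 1) (var 0)))
        (EQ d.c d.ho d.Om (wk (wk (wk u)))
          (d.ii (wk (wk (wk κ))) (d.pt (wk (wk (wk κ))) (var 2) (var 0)))))))) (so d.i0) := by
  have hs' := hs.wk (pc d.h3 (d.Qk κ))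
  have hu' := hu.wk (pc d.h3 (d.Qk κ))
  rw [wk_Xk] at hs'
  rw [wk_Om] at hu'
  have h9 := qb2_typ h (hκ.wk _) hs' hu' (var0_Rk κ)
  have e0 : (wk (wk (var 0)) : X S) = var 2 := rfl
  rw [e0] at h9
  exact EX_typ h.ok h.hN (Pl_typ h.L (hκ.wk _)) h9

theorem qb_typ {κ s u : X S} (hκ : J (ext P) D κ (so d.z.k))
    (hs : J (ext P) D s (d.Xk κ)) (hu : J (ext P) D u d.Om) :
    J (ext P) D (d.qb κ s u) (so d.i0) :=
  EX_typ h.ok h.h3 (Qk_typ h hκ) (qb1_typ h hκ hs hu)

theorem qc1_typ {κ u : X S} (hκ : J (ext P) D κ (so d.z.k)) (hu : J (ext P) D u d.Om) :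
    J (ext P) (push (d.Xk κ) D) (d.qb (wk κ) (var 0) (wk u)) (so d.i0) := by
  have hs : J (ext P) (push (d.Xk κ) D) (var 0) (wk (d.Xk κ)) := .var rfl
  rw [wk_Xk] at hs
  have hu' := hu.wk (d.Xk κ)
  rw [wk_Om] at hu'
  exact qb_typ h (hκ.wk _) hs hu'

theorem qc0_typ {κ u : X S} (hκ : J (ext P) D κ (so d.z.k)) (hu : J (ext P) D u d.Om) :
    J (ext P) D (LP d.c d.h6 (d.Xk κ) (d.qb (wk κ) (var 0) (wk u))) (d.Yk κ) :=
  LP_typ h.ok h.h6 (Xk_typ h hκ) (qc1_typ h hκ hu)

theorem qc_typ {u : X S} (hu : J (ext P) D u d.Om) : J (ext P) D (d.qc u) d.Z := by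
  have hu' := hu.wk (so d.z.k)
  rw [wk_Om] at hu'
  exact ZL_typ h.z (Y0_typ h) (qc0_typ h (.var rfl) hu')

theorem CH_typ {t u : X S} (ht : J (ext P) D t d.Om) (hu : J (ext P) D u d.Om) :
    J (ext P) D (d.CH t u) (so d.i0) := me_typ h.ok h.hz (Z_typ h) ht (qc_typ h hu)

omit h in
theorem var0_Om : J (ext P) (push (pc d.hz d.Z) D) (var 0) d.Om := by
  have h1 := var0_pc (P := P) (D := D) (h := d.hz) d.Z
  rwa [wk_Z] at h1

omit h in
theorem var0_PO : J (ext P) (push (pc d.ho d.Om) D) (var 0) (pc d.ho d.Om) := by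
  have h1 := var0_pc (P := P) (D := D) (h := d.ho) d.Om
  rwa [wk_Om] at h1

omit h in
theorem wkPO {Y B : X S} (hY : J (ext P) D Y (pc d.ho d.Om)) :
    J (ext P) (push B D) (wk Y) (pc d.ho d.Om) := by
  have := hY.wk B
  rwa [wk_pc, wk_Om] at this

omit h in
theorem wkO {t B : X S} (ht : J (ext P) D t d.Om) : J (ext P) (push B D) (wk t) d.Om := by
  have := ht.wk B
  rwa [wk_Om] at this

theorem Bx0_typ {Y t : X S} (hY : J (ext P) D Y (pc d.ho d.Om)) (ht : J (ext P) D t d.Om) :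
    J (ext P) (push (pc d.hz d.Z) D)
      (IMP d.c (d.CH (wk t) (var 0)) (me d.c d.ho (wk Y) (var 0))) (so d.i0) :=
  IMP_typ h.ok (CH_typ h (wkO ht) var0_Om) (me_typ h.ok h.ho (Om_typ h) (wkPO hY) var0_Om)

theorem Bx_typ {Y t : X S} (hY : J (ext P) D Y (pc d.ho d.Om)) (ht : J (ext P) D t d.Om) :
    J (ext P) D (d.Bx Y t) (so d.i0) := AL_typ h.ok h.hz (Z_typ h) (Bx0_typ h hY ht)

theorem Pg0_typ {Y : X S} (hY : J (ext P) D Y (pc d.ho d.Om)) :
    J (ext P) (push (pc d.hz d.Z) D)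
      (IMP d.c (d.Bx (wk Y) (var 0)) (me d.c d.ho (wk Y) (var 0))) (so d.i0) :=
  IMP_typ h.ok (Bx_typ h (wkPO hY) var0_Om) (me_typ h.ok h.ho (Om_typ h) (wkPO hY) var0_Om)

theorem Pg_typ {Y : X S} (hY : J (ext P) D Y (pc d.ho d.Om)) :
    J (ext P) D (d.Pg Y) (so d.i0) := AL_typ h.ok h.hz (Z_typ h) (Pg0_typ h hY)

theorem Wf0_typ {t : X S} (ht : J (ext P) D t d.Om) : J (ext P) (push (pc d.ho d.Om) D)
    (IMP d.c (d.Pg (var 0)) (me d.c d.ho (var 0) (wk t))) (so d.i0) :=
  IMP_typ h.ok (Pg_typ h var0_PO) (me_typ h.ok h.ho (Om_typ h) var0_PO (wkO ht))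

theorem Wf_typ {t : X S} (ht : J (ext P) D t d.Om) : J (ext P) D (d.Wf t) (so d.i0) :=
  AL_typ h.ok h.ho (Om_typ h) (Wf0_typ h ht)

theorem A_typ : J (ext P) D d.A (so d.z.k) := Pl_typ h.L2 (Om_typ h)

theorem nd_typ {y : X S} (hy : J (ext P) D y d.Om) : J (ext P) D (d.nd y) (d.Nk d.A) :=
  SG_typ h.ok h.hN (Pl_typ h.L (A_typ h))
    (sgs_typ h.ok h.L (A_typ h) (sgs_typ h.ok h.L2 (Om_typ h) hy))

theorem rt0_typ : J (ext P) D (NOT d.c (ct d.i0)) (so d.i0) := NOT_typ h.ok (jct _)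

theorem rt_typ : J (ext P) D d.rt (d.Nk d.A) := LP_typ h.ok h.hN (Pl_typ h.L (A_typ h)) (rt0_typ h)

theorem rbA_typ {p y y' : X S} (hp : J (ext P) D p (d.Qk d.A)) (hy : J (ext P) D y d.Om)
    (hy' : J (ext P) D y' d.Om) : J (ext P) D (AND d.c (d.CH y y')
      (EQ d.c d.h3 (d.Qk d.A) p (d.e2 d.A (d.nd y) (d.nd y')))) (so d.i0) :=
  AND_typ h.ok (CH_typ h hy hy') (EQ_typ h.ok h.h3 (Qk_typ h (A_typ h)) hp
    (e2_typ h (A_typ h) (nd_typ h hy) (nd_typ h hy')))

theorem rbB_typ {p y : X S} (hp : J (ext P) D p (d.Qk d.A)) (hy : J (ext P) D y d.Om) :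
    J (ext P) D (AND d.c (d.Wf y)
      (EQ d.c d.h3 (d.Qk d.A) p (d.e2 d.A d.rt (d.nd y)))) (so d.i0) :=
  AND_typ h.ok (Wf_typ h hy) (EQ_typ h.ok h.h3 (Qk_typ h (A_typ h)) hp
    (e2_typ h (A_typ h) (rt_typ h) (nd_typ h hy)))

omit h in
theorem wkQ {p B : X S} (hp : J (ext P) D p (d.Qk d.A)) :
    J (ext P) (push B D) (wk p) (d.Qk d.A) := by
  have := hp.wk B
  rwa [wk_Qk, wk_A] at this

theorem rbA1_typ {p y : X S} (hp : J (ext P) D p (d.Qk d.A)) (hy : J (ext P) D y d.Om) :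
    J (ext P) (push (pc d.hz d.Z) D) (AND d.c (d.CH (wk y) (var 0))
      (EQ d.c d.h3 (d.Qk d.A) (wk p) (d.e2 d.A (d.nd (wk y)) (d.nd (var 0))))) (so d.i0) :=
  rbA_typ h (wkQ hp) (wkO hy) var0_Om

theorem rbA2_typ {p : X S} (hp : J (ext P) D p (d.Qk d.A)) :
    J (ext P) (push (pc d.hz d.Z) D) (EX d.c d.hz d.Z (AND d.c (d.CH (var 1) (var 0))
      (EQ d.c d.h3 (d.Qk d.A) (wk (wk p)) (d.e2 d.A (d.nd (var 1)) (d.nd (var 0))))))
      (so d.i0) :=
  EX_typ h.ok h.hz (Z_typ h) (rbA1_typ h (wkQ hp) var0_Om)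

theorem rbB1_typ {p : X S} (hp : J (ext P) D p (d.Qk d.A)) :
    J (ext P) (push (pc d.hz d.Z) D) (AND d.c (d.Wf (var 0))
      (EQ d.c d.h3 (d.Qk d.A) (wk p) (d.e2 d.A d.rt (d.nd (var 0))))) (so d.i0) :=
  rbB_typ h (wkQ hp) var0_Om

theorem rb_typ {p : X S} (hp : J (ext P) D p (d.Qk d.A)) : J (ext P) D (d.rb p) (so d.i0) :=
  OR_typ h.ok (EX_typ h.ok h.hz (Z_typ h) (rbA2_typ h hp))
    (EX_typ h.ok h.hz (Z_typ h) (rbB1_typ h hp))

theorem rW0_typ : J (ext P) (push (d.Qk d.A) D) (d.rb (var 0)) (so d.i0) := by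
  have h1 : J (ext P) (push (d.Qk d.A) D) (var 0) (wk (d.Qk d.A)) := .var rfl
  rw [wk_Qk, wk_A] at h1
  exact rb_typ h h1

theorem rW_typ : J (ext P) D d.rW (d.Rk d.A) :=
  LP_typ h.ok h.h3 (Qk_typ h (A_typ h)) (rW0_typ h)

theorem hat_typ {y : X S} (hy : J (ext P) D y d.Om) : J (ext P) D (d.hat y) d.Om :=
  ii_typ h (A_typ h) (pt_typ h (A_typ h) (rW_typ h) (nd_typ h hy))

theorem zW_typ : J (ext P) D d.zW d.Om :=
  ii_typ h (A_typ h) (pt_typ h (A_typ h) (rW_typ h) (rt_typ h))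

end Pdat

end Vale.Agent.P340.Vy
end

section

/-! The contradiction in a maximal consistent context. -/

namespace Vale.Agent.P340.Vy

universe u
variable {S : Type u} {P : Spec S}

open Tm

theorem wk_conv {A B : X S} (h : Conv A B) : Conv (wk A) (wk B) := h.ren _

theorem arr_conv (L : List S) {A B : X S} (h : Conv A B) : Conv (arr L A) (arr L B) := by
  induction L with
  | nil => exact h
  | cons l L ih => exact (Conv.refl _).pi (wk_conv ih)

theorem nn_conv (l : List (NE S)) {A B : X S} (h : Conv A B) : Conv (nn l A) (nn l B) := by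
  induction l with
  | nil => exact h
  | cons n l ih => exact arr_conv _ ((arr_conv _ ih).pi (.refl _))

theorem me_conv (d : Cdat S) (h : CE S) {p q : X S} (hc : Conv p q) (x : X S) :
    Conv (me d h p x) (me d h q x) :=
  nn_conv _ (aps_conv _ ((aps_conv _ hc).app (.refl _)))

section
variable {F : S → Prop} {C : Set S} {d : Cdat S} (hd : Cok P F C d) {D : Ctx (S ⊕ Cst S)}
include hd

theorem Leq.arg {h : CE S} {v v' : S} (hh : CT P C h v v') {A p a b : X S}
    (hA : J (ext P) D A (so v)) (hp : J (ext P) D p (pc h A)) (hl : Leq P d D A a b) :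
    Tr P D (me d h p a) ↔ Tr P D (me d h p b) := by
  have hp' := hp.wk A
  rw [wk_pc] at hp'
  have h1 := hl _ (me_typ hd hh (hA.wk A) hp' (x := var 0) (.var rfl))
  have e3 : ∀ x, inst (me d h (wk p) (var 0)) x = me d h p x := by
    intro x
    unfold inst
    rw [sub_me, sub_single_wk]; rfl
  rwa [e3, e3] at h1

theorem sgs_inj (hG : Mx P F D) {l : List (CE S)} {a b : S} (hl : CP P C a l b) {A x y : X S}
    (hA : J (ext P) D A (so a)) (hx : J (ext P) D x A) (hy : J (ext P) D y A)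
    (he : Leq P d D (Pl l A) (sgs d l A x) (sgs d l A y)) : Leq P d D A x y := by
  induction hl with
  | nil => exact he
  | cons hl h ih =>
    exact ih (SG_inj hd h hG (Pl_typ hl hA) (sgs_typ hd hl hA hx) (sgs_typ hd hl hA hy) he)

end

namespace Pdat

variable {d : Pdat S} {F : S → Prop} {C : Set S} (h : Pok P F C d) {D : Ctx (S ⊕ Cst S)}
  (hG : Mx P F D)
include h hG

theorem tr_qm {κ s u r x n : X S} (hκ : J (ext P) D κ (so d.z.k))
    (hs : J (ext P) D s (d.Xk κ)) (hu : J (ext P) D u d.Om) (hr : J (ext P) D r (d.Rk κ))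
    (hx : J (ext P) D x (d.Nk κ)) (hn : J (ext P) D n (d.Nk κ)) :
    Tr P D (AND d.c (EQ d.c d.h6 (d.Xk κ) s (d.pt κ r x))
      (AND d.c (me d.c d.h3 r (d.e2 κ x n)) (EQ d.c d.ho d.Om u (d.ii κ (d.pt κ r n))))) ↔
    (Leq P d.c D (d.Xk κ) s (d.pt κ r x) ∧ Tr P D (me d.c d.h3 r (d.e2 κ x n)) ∧
      Leq P d.c D d.Om u (d.ii κ (d.pt κ r n))) := by
  have h1 := EQ_typ h.ok h.h6 (Xk_typ h hκ) hs (pt_typ h hκ hr hx)
  have h2 := me_typ h.ok h.h3 (Qk_typ h hκ) hr (e2_typ h hκ hx hn)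
  have h3 := EQ_typ h.ok h.ho (Om_typ h) hu (ii_typ h hκ (pt_typ h hκ hr hn))
  rw [tr_AND h.ok hG h1 (AND_typ h.ok h2 h3), tr_AND h.ok hG h2 h3,
    tr_EQ h.ok h.h6 hG (Xk_typ h hκ) hs (pt_typ h hκ hr hx),
    tr_EQ h.ok h.ho hG (Om_typ h) hu (ii_typ h hκ (pt_typ h hκ hr hn))]

omit h hG in
theorem dN_typ (h : Pok P F C d) {κ x : X S} (hκ : J (ext P) D κ (so d.z.k))
    (hx : dom d.c d.hN P D (Pl d.L κ) x) : J (ext P) D x (d.Nk κ) :=
  hx.typ h.ok h.hN (Pl_typ h.L hκ)

omit h hG in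
theorem dR_typ (h : Pok P F C d) {κ x : X S} (hκ : J (ext P) D κ (so d.z.k))
    (hx : dom d.c d.h3 P D (d.Qk κ) x) : J (ext P) D x (d.Rk κ) :=
  hx.typ h.ok h.h3 (Qk_typ h hκ)

omit h hG in
theorem dO_typ (h : Pok P F C d) {x : X S} (hx : dom d.c d.hz P D d.Z x) :
    J (ext P) D x d.Om := hx.typ h.ok h.hz (Z_typ h)

omit h hG in
theorem dP_typ (h : Pok P F C d) {x : X S} (hx : dom d.c d.ho P D d.Om x) :
    J (ext P) D x (pc d.ho d.Om) := hx.typ h.ok h.ho (Om_typ h)

theorem tr_qb {κ s u : X S} (hκ : J (ext P) D κ (so d.z.k))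
    (hs : J (ext P) D s (d.Xk κ)) (hu : J (ext P) D u d.Om) :
    Tr P D (d.qb κ s u) ↔ ∃ r, dom d.c d.h3 P D (d.Qk κ) r ∧
      ∃ x, dom d.c d.hN P D (Pl d.L κ) x ∧ ∃ n, dom d.c d.hN P D (Pl d.L κ) n ∧
      (Leq P d.c D (d.Xk κ) s (d.pt κ r x) ∧ Tr P D (me d.c d.h3 r (d.e2 κ x n)) ∧
      Leq P d.c D d.Om u (d.ii κ (d.pt κ r n))) := by
  unfold qb
  rw [tr_EX h.ok h.h3 hG (Qk_typ h hκ) (qb1_typ h hκ hs hu)]
  refine exists_congr fun r => and_congr_right fun hr => ?_
  have hr' := dR_typ h hκ hr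
  have e1 : inst (EX d.c d.hN (Pl d.L (wk κ)) (EX d.c d.hN (Pl d.L (wk (wk κ)))
      (AND d.c (EQ d.c d.h6 (d.Xk (wk (wk (wk κ)))) (wk (wk (wk s)))
        (d.pt (wk (wk (wk κ))) (var 2) (var 1)))
      (AND d.c (me d.c d.h3 (var 2) (d.e2 (wk (wk (wk κ))) (var 1) (var 0)))
        (EQ d.c d.ho d.Om (wk (wk (wk u)))
          (d.ii (wk (wk (wk κ))) (d.pt (wk (wk (wk κ))) (var 2) (var 0)))))))) r =
      EX d.c d.hN (Pl d.L κ) (EX d.c d.hN (Pl d.L (wk κ))
      (AND d.c (EQ d.c d.h6 (d.Xk (wk (wk κ))) (wk (wk s))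
        (d.pt (wk (wk κ)) (wk (wk r)) (var 1)))
      (AND d.c (me d.c d.h3 (wk (wk r)) (d.e2 (wk (wk κ)) (var 1) (var 0)))
        (EQ d.c d.ho d.Om (wk (wk u)) (d.ii (wk (wk κ)) (d.pt (wk (wk κ)) (wk (wk r))
          (var 0))))))) := by
    unfold inst
    simp only [sub_EX, sub_Pl, sub_AND, sub_EQ, sub_Xk, sub_wk, sub_single_wk, sub_pt, sub_me,
      sub_e2, sub_Om, sub_ii]
    rfl
  rw [e1, tr_EX h.ok h.hN hG (Pl_typ h.L hκ) (qb2_typ h hκ hs hu hr')]
  refine exists_congr fun x => and_congr_right fun hx => ?_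
  have hx' := dN_typ h hκ hx
  have e2 : inst (EX d.c d.hN (Pl d.L (wk κ))
      (AND d.c (EQ d.c d.h6 (d.Xk (wk (wk κ))) (wk (wk s))
        (d.pt (wk (wk κ)) (wk (wk r)) (var 1)))
      (AND d.c (me d.c d.h3 (wk (wk r)) (d.e2 (wk (wk κ)) (var 1) (var 0)))
        (EQ d.c d.ho d.Om (wk (wk u)) (d.ii (wk (wk κ)) (d.pt (wk (wk κ)) (wk (wk r))
          (var 0))))))) x =
      EX d.c d.hN (Pl d.L κ)
      (AND d.c (EQ d.c d.h6 (d.Xk (wk κ)) (wk s) (d.pt (wk κ) (wk r) (wk x)))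
      (AND d.c (me d.c d.h3 (wk r) (d.e2 (wk κ) (wk x) (var 0)))
        (EQ d.c d.ho d.Om (wk u) (d.ii (wk κ) (d.pt (wk κ) (wk r) (var 0)))))) := by
    unfold inst
    simp only [sub_EX, sub_Pl, sub_AND, sub_EQ, sub_Xk, sub_wk, sub_single_wk, sub_pt, sub_me,
      sub_e2, sub_Om, sub_ii]
    rfl
  rw [e2, tr_EX h.ok h.hN hG (Pl_typ h.L hκ) (qb3_typ h hκ hs hu hr' hx')]
  refine exists_congr fun n => and_congr_right fun hn => ?_
  have e3 : inst (AND d.c (EQ d.c d.h6 (d.Xk (wk κ)) (wk s) (d.pt (wk κ) (wk r) (wk x)))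
      (AND d.c (me d.c d.h3 (wk r) (d.e2 (wk κ) (wk x) (var 0)))
        (EQ d.c d.ho d.Om (wk u) (d.ii (wk κ) (d.pt (wk κ) (wk r) (var 0)))))) n =
      AND d.c (EQ d.c d.h6 (d.Xk κ) s (d.pt κ r x))
      (AND d.c (me d.c d.h3 r (d.e2 κ x n)) (EQ d.c d.ho d.Om u (d.ii κ (d.pt κ r n)))) := by
    unfold inst
    simp only [sub_AND, sub_EQ, sub_Xk, sub_single_wk, sub_pt, sub_me, sub_e2, sub_Om, sub_ii]
    rfl
  rw [e3]
  exact tr_qm h hG hκ hs hu hr' hx' (dN_typ h hκ hn)

/-- Children of the elements given by pointed graphs. -/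
theorem tr_CHi {κ s u : X S} (hκ : J (ext P) D κ (so d.z.k))
    (hs : J (ext P) D s (d.Xk κ)) (hu : J (ext P) D u d.Om) :
    Tr P D (d.CH (d.ii κ s) u) ↔ Tr P D (d.qb κ s u) := by
  have hq := qc_typ h hu
  have hX := Xk_typ h hκ
  unfold CH ii
  rw [tr_LP h.ok hG h.hz (Z_typ h) (ii0_typ h hκ hs) hq]
  have e1 : inst (me d.c d.h6 (ZA d.z (var 0) (wk κ)) (wk s)) (d.qc u) =
      me d.c d.h6 (ZA d.z (d.qc u) κ) s := by
    unfold inst
    simp only [sub_me, sub_ZA, sub_single_wk]; rfl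
  have e2 : inst (LP d.c d.h6 (d.Xk (var 0)) (d.qb (var 1) (var 0) (wk (wk u)))) κ =
      LP d.c d.h6 (d.Xk κ) (d.qb (wk κ) (var 0) (wk u)) := by
    unfold inst
    simp only [sub_LP, sub_Xk, sub_qb, sub_wk, sub_single_wk]; rfl
  have h1 : Conv (ZA d.z (d.qc u) κ) (LP d.c d.h6 (d.Xk κ) (d.qb (wk κ) (var 0) (wk u))) := by
    rw [← e2]; exact ZA_conv _ _
  have h2 := me_typ h.ok h.h6 hX (ZAt h hκ hq) hs
  have h3 := me_typ h.ok h.h6 hX (qc0_typ h hκ hu) hs
  have e3 : inst (d.qb (wk κ) (var 0) (wk u)) s = d.qb κ s u := by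
    unfold inst
    simp only [sub_qb, sub_single_wk]; rfl
  rw [e1, tr_conv h2 h3 (me_conv d.c d.h6 h1 s),
    tr_LP h.ok hG h.h6 hX (qc1_typ h hκ hu) hs, e3]

theorem up_inj {κ x y : X S} (hκ : J (ext P) D κ (so d.z.k)) (hx : J (ext P) D x (d.Nk κ))
    (hy : J (ext P) D y (d.Nk κ)) (hl : Leq P d.c D (d.Rk κ) (d.up κ x) (d.up κ y)) :
    Leq P d.c D (d.Nk κ) x y := by
  have hN := Nk_typ h hκ
  have h1 := SG_typ h.ok h.h1 hN hx
  have h2 := SG_typ h.ok h.h1 hN hy
  have h3 := SG_inj h.ok h.h3 hG (Qk_typ h hκ) (SG_typ h.ok h.h2 (N1_typ h hκ) h1)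
    (SG_typ h.ok h.h2 (N1_typ h hκ) h2) hl
  exact SG_inj h.ok h.h1 hG hN hx hy (SG_inj h.ok h.h2 hG (N1_typ h hκ) h1 h2 h3)

omit hG in
theorem up_congr {κ x y : X S} (hκ : J (ext P) D κ (so d.z.k))
    (hl : Leq P d.c D (d.Nk κ) x y) : Leq P d.c D (d.Rk κ) (d.up κ x) (d.up κ y) :=
  SG_congr h.ok h.h3 (Qk_typ h hκ) (SG_congr h.ok h.h2 (N1_typ h hκ)
    (SG_congr h.ok h.h1 (Nk_typ h hκ) hl))

omit hG in
theorem ii_congr {κ s s' : X S} (hκ : J (ext P) D κ (so d.z.k))
    (hl : Leq P d.c D (d.Xk κ) s s') : Leq P d.c D d.Om (d.ii κ s) (d.ii κ s') := by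
  have hs : J (ext P) (push (d.Xk κ) D) (var 0) (wk (d.Xk κ)) := .var rfl
  rw [wk_Xk] at hs
  have h1 : J (ext P) (push (d.Xk κ) D) (d.ii (wk κ) (var 0)) (wk d.Om) := by
    rw [wk_Om]; exact ii_typ h (hκ.wk _) hs
  have h2 := hl.term h1
  have e1 : ∀ s, inst (d.ii (wk κ) (var 0)) s = d.ii κ s := by
    intro s
    unfold inst
    simp only [sub_ii, sub_single_wk]; rfl
  rwa [e1, e1] at h2

theorem pt_congr {κ r r' x x' : X S} (hκ : J (ext P) D κ (so d.z.k))
    (hr' : J (ext P) D r' (d.Rk κ)) (hx : J (ext P) D x (d.Nk κ))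
    (hl : Leq P d.c D (d.Rk κ) r r') (hl' : Leq P d.c D (d.Nk κ) x x') :
    Leq P d.c D (d.Xk κ) (d.pt κ r x) (d.pt κ r' x') :=
  PR_congr h.ok h.h4 h.h5 hG (Rk_typ h hκ) hr' (up_typ h hκ hx) hl (up_congr h hκ hl')

/-- Children in the final graph. -/
theorem tr_CHg {x u : X S} (hx : dom d.c d.hN P D (Pl d.L d.A) x) (hu : J (ext P) D u d.Om) :
    Tr P D (d.CH (d.ii d.A (d.pt d.A d.rW x)) u) ↔
      ∃ n, dom d.c d.hN P D (Pl d.L d.A) n ∧ Tr P D (me d.c d.h3 d.rW (d.e2 d.A x n)) ∧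
        Leq P d.c D d.Om u (d.ii d.A (d.pt d.A d.rW n)) := by
  have hA := A_typ (D := D) h
  have hrW := rW_typ (D := D) h
  have hx' := dN_typ h hA hx
  rw [tr_CHi h hG hA (pt_typ h hA hrW hx') hu, tr_qb h hG hA (pt_typ h hA hrW hx') hu]
  constructor
  · rintro ⟨r, hr, y, hy, n, hn, h1, h2, h3⟩
    have hr' := dR_typ h hA hr
    have hy' := dN_typ h hA hy
    have hn' := dN_typ h hA hn
    obtain ⟨h4, h5⟩ := PR_inj h.ok h.h4 h.h5 hG (Rk_typ h hA) hrW (up_typ h hA hx') hr'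
      (up_typ h hA hy') h1
    have h6 := up_inj h hG hA hx' hy' h5
    refine ⟨n, hn, ?_, h3.trans (ii_congr h hA (pt_congr h hG hA hrW hn' h4.symm
      (Leq.refl _ _)))⟩
    have h7 := Leq.mem h.ok h.h3 hG (Qk_typ h hA) h4 (e2_typ h hA hy' hn')
    have h8 : Leq P d.c D (d.Qk d.A) (d.e2 d.A x n) (d.e2 d.A y n) :=
      PR_congr h.ok h.h1 h.h2 hG (Nk_typ h hA) hy' hn' h6 (Leq.refl _ _)
    exact (Leq.arg h.ok h.h3 (Qk_typ h hA) hrW h8).2 (h7.2 h2)
  · rintro ⟨n, hn, h1, h2⟩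
    exact ⟨d.rW, dom_LP h.ok h.h3 (Qk_typ h hA) (rW0_typ h), x, hx, n, hn, Leq.refl _ _, h1, h2⟩

theorem tr_rW {p : X S} (hp : J (ext P) D p (d.Qk d.A)) :
    Tr P D (me d.c d.h3 d.rW p) ↔
      (∃ y, dom d.c d.hz P D d.Z y ∧ ∃ y', dom d.c d.hz P D d.Z y' ∧ Tr P D (d.CH y y') ∧
        Leq P d.c D (d.Qk d.A) p (d.e2 d.A (d.nd y) (d.nd y'))) ∨
      (∃ y, dom d.c d.hz P D d.Z y ∧ Tr P D (d.Wf y) ∧
        Leq P d.c D (d.Qk d.A) p (d.e2 d.A d.rt (d.nd y))) := by
  have hA := A_typ (D := D) h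
  have hQ := Qk_typ h hA
  have hZ := Z_typ (D := D) h
  unfold rW
  rw [tr_LP h.ok hG h.h3 hQ (rW0_typ h) hp]
  have e0 : inst (d.rb (var 0)) p = d.rb p := by
    unfold inst; rw [sub_rb]; rfl
  rw [e0]
  unfold rb
  rw [tr_OR h.ok hG (EX_typ h.ok h.hz hZ (rbA2_typ h hp)) (EX_typ h.ok h.hz hZ (rbB1_typ h hp)),
    tr_EX h.ok h.hz hG hZ (rbA2_typ h hp), tr_EX h.ok h.hz hG hZ (rbB1_typ h hp)]
  refine or_congr ?_ ?_
  · refine exists_congr fun y => and_congr_right fun hy => ?_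
    have hy' := dO_typ h hy
    have e1 : inst (EX d.c d.hz d.Z (AND d.c (d.CH (var 1) (var 0))
        (EQ d.c d.h3 (d.Qk d.A) (wk (wk p)) (d.e2 d.A (d.nd (var 1)) (d.nd (var 0)))))) y =
        EX d.c d.hz d.Z (AND d.c (d.CH (wk y) (var 0))
        (EQ d.c d.h3 (d.Qk d.A) (wk p) (d.e2 d.A (d.nd (wk y)) (d.nd (var 0))))) := by
      unfold inst
      simp only [sub_EX, sub_Z, sub_AND, sub_CH, sub_EQ, sub_Qk, sub_A, sub_wk, sub_single_wk,
        sub_e2, sub_nd]
      rfl
    rw [e1, tr_EX h.ok h.hz hG hZ (rbA1_typ h hp hy')]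
    refine exists_congr fun y' => and_congr_right fun hy1 => ?_
    have hy1' := dO_typ h hy1
    have e2 : inst (AND d.c (d.CH (wk y) (var 0))
        (EQ d.c d.h3 (d.Qk d.A) (wk p) (d.e2 d.A (d.nd (wk y)) (d.nd (var 0))))) y' =
        AND d.c (d.CH y y') (EQ d.c d.h3 (d.Qk d.A) p (d.e2 d.A (d.nd y) (d.nd y'))) := by
      unfold inst
      simp only [sub_AND, sub_CH, sub_EQ, sub_Qk, sub_A, sub_single_wk, sub_e2, sub_nd]
      rfl
    have h1 := CH_typ h hy' hy1'
    have h2 := e2_typ h hA (nd_typ h hy') (nd_typ h hy1')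
    rw [e2, tr_AND h.ok hG h1 (EQ_typ h.ok h.h3 hQ hp h2), tr_EQ h.ok h.h3 hG hQ hp h2]
  · refine exists_congr fun y => and_congr_right fun hy => ?_
    have hy' := dO_typ h hy
    have e2 : inst (AND d.c (d.Wf (var 0))
        (EQ d.c d.h3 (d.Qk d.A) (wk p) (d.e2 d.A d.rt (d.nd (var 0))))) y =
        AND d.c (d.Wf y) (EQ d.c d.h3 (d.Qk d.A) p (d.e2 d.A d.rt (d.nd y))) := by
      unfold inst
      simp only [sub_AND, sub_Wf, sub_EQ, sub_Qk, sub_A, sub_single_wk, sub_e2, sub_nd, sub_rt]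
      rfl
    have h1 := Wf_typ h hy'
    have h2 := e2_typ h hA (rt_typ h) (nd_typ h hy')
    rw [e2, tr_AND h.ok hG h1 (EQ_typ h.ok h.h3 hQ hp h2), tr_EQ h.ok h.h3 hG hQ hp h2]

theorem nd_inj {y y' : X S} (hy : J (ext P) D y d.Om) (hy' : J (ext P) D y' d.Om)
    (hl : Leq P d.c D (d.Nk d.A) (d.nd y) (d.nd y')) : Leq P d.c D d.Om y y' := by
  have hA := A_typ (D := D) h
  have hO := Om_typ (D := D) h
  have h1 := sgs_typ h.ok h.L2 hO hy
  have h2 := sgs_typ h.ok h.L2 hO hy'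
  have h3 := SG_inj h.ok h.hN hG (Pl_typ h.L hA) (sgs_typ h.ok h.L hA h1)
    (sgs_typ h.ok h.L hA h2) hl
  exact sgs_inj h.ok hG h.L2 hO hy hy' (sgs_inj h.ok hG h.L hA h1 h2 h3)

theorem nd_rt {y : X S} (hy : J (ext P) D y d.Om) :
    ¬ Leq P d.c D (d.Nk d.A) (d.nd y) d.rt := by
  intro hl
  have hA := A_typ (D := D) h
  have hO := Om_typ (D := D) h
  have h1 := sgs_typ h.ok h.L hA (sgs_typ h.ok h.L2 hO hy)
  have hP := Pl_typ h.L hA
  have h2 := Leq.mem h.ok h.hN hG hP hl h1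
  have h3 : Tr P D (me d.c d.hN (d.nd y) (sgs d.c d.L d.A (sgs d.c d.L2 d.Om y))) :=
    (tr_SG h.ok h.hN hG hP h1 h1).2 (Leq.refl _ _)
  have h4 : ¬ Tr P D (me d.c d.hN d.rt (sgs d.c d.L d.A (sgs d.c d.L2 d.Om y))) := by
    unfold rt
    rw [tr_LP h.ok hG h.hN hP (rt0_typ h) h1]
    show ¬ Tr P D (inst (NOT d.c (ct d.i0)) _)
    have e1 : ∀ x, inst (NOT d.c (ct d.i0)) x = NOT d.c (ct d.i0) := fun x => sub_NOT _ _ _
    rw [e1, tr_NOT h.ok hG (jct _)]
    exact fun hn => hn ⟨_, jcp _⟩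
  exact h4 (h2.1 h3)

omit hG in
theorem nd_dom {y : X S} (hy : J (ext P) D y d.Om) :
    dom d.c d.hN P D (Pl d.L d.A) (d.nd y) := by
  have hA := A_typ (D := D) h
  exact dom_LP h.ok h.hN (Pl_typ h.L hA) (SG0_typ h.ok h.hN (Pl_typ h.L hA)
    (sgs_typ h.ok h.L hA (sgs_typ h.ok h.L2 (Om_typ h) hy)))

omit hG in
theorem rt_dom : dom d.c d.hN P D (Pl d.L d.A) d.rt :=
  dom_LP h.ok h.hN (Pl_typ h.L (A_typ h)) (rt0_typ h)

omit hG in
theorem ii_dom {κ s : X S} (hκ : J (ext P) D κ (so d.z.k)) (hs : J (ext P) D s (d.Xk κ)) :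
    dom d.c d.hz P D d.Z (d.ii κ s) := dom_LP h.ok h.hz (Z_typ h) (ii0_typ h hκ hs)

omit hG in
theorem hat_dom {y : X S} (hy : J (ext P) D y d.Om) : dom d.c d.hz P D d.Z (d.hat y) :=
  ii_dom h (A_typ h) (pt_typ h (A_typ h) (rW_typ h) (nd_typ h hy))

omit hG in
theorem zW_dom : dom d.c d.hz P D d.Z d.zW :=
  ii_dom h (A_typ h) (pt_typ h (A_typ h) (rW_typ h) (rt_typ h))

theorem CH_congr {y y1 u : X S} (hu : J (ext P) D u d.Om) (hl : Leq P d.c D d.Om y y1) :
    Tr P D (d.CH y u) ↔ Tr P D (d.CH y1 u) := by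
  have h0 : J (ext P) (push d.Om D) (var 0) (wk d.Om) := .var rfl
  rw [wk_Om] at h0
  have h1 := hl _ (CH_typ h h0 (wkO hu))
  have e1 : ∀ y, inst (d.CH (var 0) (wk u)) y = d.CH y u := by
    intro y
    unfold inst
    rw [sub_CH, sub_single_wk]; rfl
  rwa [e1, e1] at h1

theorem ii_rW_congr {n n' : X S} (hn : J (ext P) D n (d.Nk d.A))
    (hl : Leq P d.c D (d.Nk d.A) n n') : Leq P d.c D d.Om (d.ii d.A (d.pt d.A d.rW n))
      (d.ii d.A (d.pt d.A d.rW n')) :=
  ii_congr h (A_typ h) (pt_congr h hG (A_typ h) (rW_typ h) hn (Leq.refl _ _) hl)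

/-- Children of copies. -/
theorem tr_hat {y u : X S} (hy : dom d.c d.hz P D d.Z y) (hu : J (ext P) D u d.Om) :
    Tr P D (d.CH (d.hat y) u) ↔ ∃ y', dom d.c d.hz P D d.Z y' ∧ Tr P D (d.CH y y') ∧
      Leq P d.c D d.Om u (d.hat y') := by
  have hA := A_typ (D := D) h
  have hy' := dO_typ h hy
  have hn := nd_typ h hy'
  unfold hat
  rw [tr_CHg h hG (nd_dom h hy') hu]
  constructor
  · rintro ⟨n, hn1, h1, h2⟩
    have hn1' := dN_typ h hA hn1
    rw [tr_rW h hG (e2_typ h hA hn hn1')] at h1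
    rcases h1 with ⟨y1, hy1, y2, hy2, h3, h4⟩ | ⟨y1, hy1, h3, h4⟩
    · have hy1' := dO_typ h hy1
      have hy2' := dO_typ h hy2
      obtain ⟨h5, h6⟩ := PR_inj h.ok h.h1 h.h2 hG (Nk_typ h hA) hn hn1' (nd_typ h hy1')
        (nd_typ h hy2') h4
      exact ⟨y2, hy2, (CH_congr h hG hy2' (nd_inj h hG hy' hy1' h5)).2 h3,
        h2.trans (ii_rW_congr h hG hn1' h6)⟩
    · have hy1' := dO_typ h hy1
      obtain ⟨h5, -⟩ := PR_inj h.ok h.h1 h.h2 hG (Nk_typ h hA) hn hn1' (rt_typ h)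
        (nd_typ h hy1') h4
      exact absurd h5 (nd_rt h hG hy')
  · rintro ⟨y', hy1, h1, h2⟩
    have hy1' := dO_typ h hy1
    refine ⟨d.nd y', nd_dom h hy1', ?_, h2⟩
    rw [tr_rW h hG (e2_typ h hA hn (nd_typ h hy1'))]
    exact .inl ⟨y, hy, y', hy1, h1, Leq.refl _ _⟩

/-- Children of the element given by the final graph. -/
theorem tr_zW {u : X S} (hu : J (ext P) D u d.Om) :
    Tr P D (d.CH d.zW u) ↔ ∃ y, dom d.c d.hz P D d.Z y ∧ Tr P D (d.Wf y) ∧
      Leq P d.c D d.Om u (d.hat y) := by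
  have hA := A_typ (D := D) h
  have hn := rt_typ (D := D) h
  unfold zW
  rw [tr_CHg h hG (rt_dom h) hu]
  constructor
  · rintro ⟨n, hn1, h1, h2⟩
    have hn1' := dN_typ h hA hn1
    rw [tr_rW h hG (e2_typ h hA hn hn1')] at h1
    rcases h1 with ⟨y1, hy1, y2, hy2, h3, h4⟩ | ⟨y1, hy1, h3, h4⟩
    · have hy1' := dO_typ h hy1
      have hy2' := dO_typ h hy2
      obtain ⟨h5, -⟩ := PR_inj h.ok h.h1 h.h2 hG (Nk_typ h hA) hn hn1' (nd_typ h hy1')
        (nd_typ h hy2') h4
      exact absurd h5.symm (nd_rt h hG hy1')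
    · have hy1' := dO_typ h hy1
      obtain ⟨-, h6⟩ := PR_inj h.ok h.h1 h.h2 hG (Nk_typ h hA) hn hn1' hn (nd_typ h hy1') h4
      exact ⟨y1, hy1, h3, h2.trans (ii_rW_congr h hG hn1' h6)⟩
  · rintro ⟨y', hy1, h1, h2⟩
    have hy1' := dO_typ h hy1
    refine ⟨d.nd y', nd_dom h hy1', ?_, h2⟩
    rw [tr_rW h hG (e2_typ h hA hn (nd_typ h hy1'))]
    exact .inr ⟨y', hy1, h1, Leq.refl _ _⟩

theorem tr_Bx {Y t : X S} (hY : J (ext P) D Y (pc d.ho d.Om)) (ht : J (ext P) D t d.Om) :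
    Tr P D (d.Bx Y t) ↔ ∀ u, dom d.c d.hz P D d.Z u → Tr P D (d.CH t u) →
      Tr P D (me d.c d.ho Y u) := by
  unfold Bx
  rw [tr_AL h.ok hG h.hz (Z_typ h) (Bx0_typ h hY ht)]
  refine forall_congr' fun u => forall_congr' fun hu => ?_
  have hu' := dO_typ h hu
  have e1 : inst (IMP d.c (d.CH (wk t) (var 0)) (me d.c d.ho (wk Y) (var 0))) u =
      IMP d.c (d.CH t u) (me d.c d.ho Y u) := by
    unfold inst
    simp only [sub_IMP, sub_CH, sub_me, sub_single_wk]; rfl
  rw [e1, tr_IMP h.ok hG (CH_typ h ht hu') (me_typ h.ok h.ho (Om_typ h) hY hu')]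

theorem tr_Pg {Y : X S} (hY : J (ext P) D Y (pc d.ho d.Om)) :
    Tr P D (d.Pg Y) ↔ ∀ t, dom d.c d.hz P D d.Z t → (∀ u, dom d.c d.hz P D d.Z u →
      Tr P D (d.CH t u) → Tr P D (me d.c d.ho Y u)) → Tr P D (me d.c d.ho Y t) := by
  unfold Pg
  rw [tr_AL h.ok hG h.hz (Z_typ h) (Pg0_typ h hY)]
  refine forall_congr' fun t => forall_congr' fun ht => ?_
  have ht' := dO_typ h ht
  have e1 : inst (IMP d.c (d.Bx (wk Y) (var 0)) (me d.c d.ho (wk Y) (var 0))) t =
      IMP d.c (d.Bx Y t) (me d.c d.ho Y t) := by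
    unfold inst
    simp only [sub_IMP, sub_Bx, sub_me, sub_single_wk]; rfl
  rw [e1, tr_IMP h.ok hG (Bx_typ h hY ht') (me_typ h.ok h.ho (Om_typ h) hY ht'),
    tr_Bx h hG hY ht']

theorem tr_Wf {t : X S} (ht : J (ext P) D t d.Om) : Tr P D (d.Wf t) ↔
    ∀ Y, dom d.c d.ho P D d.Om Y → Tr P D (d.Pg Y) → Tr P D (me d.c d.ho Y t) := by
  unfold Wf
  rw [tr_AL h.ok hG h.ho (Om_typ h) (Wf0_typ h ht)]
  refine forall_congr' fun Y => forall_congr' fun hY => ?_
  have hY' := dP_typ h hY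
  have e1 : inst (IMP d.c (d.Pg (var 0)) (me d.c d.ho (var 0) (wk t))) Y =
      IMP d.c (d.Pg Y) (me d.c d.ho Y t) := by
    unfold inst
    simp only [sub_IMP, sub_Pg, sub_me, sub_single_wk]; rfl
  rw [e1, tr_IMP h.ok hG (Pg_typ h hY') (me_typ h.ok h.ho (Om_typ h) hY' ht)]

/-- The paradox. -/
theorem paradox : False := by
  have hO := Om_typ (D := D) h
  have h0 : J (ext P) (push d.Om D) (var 0) d.Om := by
    have : J (ext P) (push d.Om D) (var 0) (wk d.Om) := .var rfl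
    rwa [wk_Om] at this
  -- copies of children are children of copies
  have s1 : ∀ a b, dom d.c d.hz P D d.Z a → dom d.c d.hz P D d.Z b → Tr P D (d.CH a b) →
      Tr P D (d.CH (d.hat a) (d.hat b)) := by
    intro a b ha hb hab
    rw [tr_hat h hG ha (hat_typ h (dO_typ h hb))]
    exact ⟨b, hb, hab, Leq.refl _ _⟩
  -- copies of well-founded elements are well-founded
  have s2 : ∀ y, dom d.c d.hz P D d.Z y → Tr P D (d.Wf y) → Tr P D (d.Wf (d.hat y)) := by
    intro y hy hw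
    have hy' := dO_typ h hy
    rw [tr_Wf h hG (hat_typ h hy')]
    intro Y hY hp
    have hY' := dP_typ h hY
    have he : J (ext P) (push d.Om D) (me d.c d.ho (wk Y) (d.hat (var 0))) (so d.i0) :=
      me_typ h.ok h.ho (Om_typ h) (wkPO hY') (hat_typ h h0)
    have hY1 := dom_LP h.ok h.ho hO he
    have e1 : ∀ t, inst (me d.c d.ho (wk Y) (d.hat (var 0))) t = me d.c d.ho Y (d.hat t) := by
      intro t
      unfold inst
      rw [sub_me, sub_single_wk, sub_hat]; rfl
    have e2 : ∀ t, J (ext P) D t d.Om → (Tr P D (me d.c d.ho (LP d.c d.ho d.Om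
        (me d.c d.ho (wk Y) (d.hat (var 0)))) t) ↔ Tr P D (me d.c d.ho Y (d.hat t))) := by
      intro t ht
      rw [tr_LP h.ok hG h.ho hO he ht, e1]
    rw [tr_Wf h hG hy'] at hw
    have h1 := hw _ hY1 ?_
    · rwa [e2 y hy'] at h1
    · rw [tr_Pg h hG (dP_typ h hY1)]
      intro t ht h2
      rw [e2 t (dO_typ h ht)]
      rw [tr_Pg h hG hY'] at hp
      refine hp _ (hat_dom h (dO_typ h ht)) fun u hu h3 => ?_
      rw [tr_hat h hG ht (dO_typ h hu)] at h3
      obtain ⟨y1, hy1, h4, h5⟩ := h3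
      have h6 := h2 y1 hy1 h4
      rw [e2 y1 (dO_typ h hy1)] at h6
      exact (Leq.arg h.ok h.ho hO hY' h5).2 h6
  -- the element given by the final graph is well-founded
  have s3 : Tr P D (d.Wf d.zW) := by
    rw [tr_Wf h hG (zW_typ h)]
    intro Y hY hp
    have hY' := dP_typ h hY
    have hp' := hp
    rw [tr_Pg h hG hY'] at hp'
    refine hp' _ (zW_dom h) fun u hu h1 => ?_
    rw [tr_zW h hG (dO_typ h hu)] at h1
    obtain ⟨y, hy, h2, h3⟩ := h1
    have h4 := s2 y hy h2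
    rw [tr_Wf h hG (hat_typ h (dO_typ h hy))] at h4
    exact (Leq.arg h.ok h.ho hO hY' h3).2 (h4 Y hY hp)
  -- no well-founded element has its copy as child
  have he : J (ext P) (push d.Om D) (NOT d.c (d.CH (var 0) (d.hat (var 0)))) (so d.i0) :=
    NOT_typ h.ok (CH_typ h h0 (hat_typ h h0))
  have hY1 := dom_LP h.ok h.ho hO he
  have e1 : ∀ t, inst (NOT d.c (d.CH (var 0) (d.hat (var 0)))) t =
      NOT d.c (d.CH t (d.hat t)) := by
    intro t
    unfold inst
    rw [sub_NOT, sub_CH, sub_hat]; rfl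
  have e2 : ∀ t, J (ext P) D t d.Om → (Tr P D (me d.c d.ho (LP d.c d.ho d.Om
      (NOT d.c (d.CH (var 0) (d.hat (var 0))))) t) ↔ ¬ Tr P D (d.CH t (d.hat t))) := by
    intro t ht
    rw [tr_LP h.ok hG h.ho hO he ht, e1, tr_NOT h.ok hG (CH_typ h ht (hat_typ h ht))]
  have s4 : Tr P D (d.Pg (LP d.c d.ho d.Om (NOT d.c (d.CH (var 0) (d.hat (var 0)))))) := by
    rw [tr_Pg h hG (dP_typ h hY1)]
    intro t ht h1
    have ht' := dO_typ h ht
    rw [e2 t ht']
    intro h2
    have h3 := h1 _ (hat_dom h ht') h2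
    rw [e2 _ (hat_typ h ht')] at h3
    exact h3 (s1 _ _ ht (hat_dom h ht') h2)
  have s5 := s3
  rw [tr_Wf h hG (zW_typ h)] at s5
  have s6 := s5 _ hY1 s4
  rw [e2 _ (zW_typ h)] at s6
  refine s6 ?_
  rw [tr_zW h hG (hat_typ h (zW_typ h))]
  exact ⟨_, zW_dom h, s3, Leq.refl _ _⟩

end Pdat

end Vale.Agent.P340.Vy
end

section

/-! Replacing the new constants by terms. -/

namespace Vale.Agent.P340.Vy

universe u
variable {S : Type u} {P : Spec S}

open Tm

/-- Replace the constant `k` by `f k` and the variable `n` by `σ n`. -/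
def tr : (Cst S → Tm S) → (ℕ → Tm S) → X S → Tm S
  | _, σ, var n => σ n
  | _, _, sort (.inl s) => sort s
  | f, _, sort (.inr k) => f k
  | f, σ, app M N => app (tr f σ M) (tr f σ N)
  | f, σ, lam A M => lam (tr f σ A) (tr (fun k => wk (f k)) (ups σ) M)
  | f, σ, pi A B => pi (tr f σ A) (tr (fun k => wk (f k)) (ups σ) B)

theorem tr_ren (M : X S) : ∀ (f : Cst S → Tm S) (σ : ℕ → Tm S) (r : ℕ → ℕ),
    tr f σ (M.ren r) = tr f (fun n => σ (r n)) M := by
  induction M with
  | var n => intros; rfl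
  | sort s => intros; cases s <;> rfl
  | app M N ihM ihN => intros; simp only [ren, tr, ihM, ihN]
  | lam A M ihA ihM => intro f σ r; simp only [ren, tr, ihA, ihM, ups_up]
  | pi A M ihA ihM => intro f σ r; simp only [ren, tr, ihA, ihM, ups_up]

theorem ren_tr (M : X S) : ∀ (f : Cst S → Tm S) (σ : ℕ → Tm S) (r : ℕ → ℕ),
    (tr f σ M).ren r = tr (fun k => (f k).ren r) (fun n => (σ n).ren r) M := by
  induction M with
  | var n => intros; rfl
  | sort s => intros; cases s <;> rfl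
  | app M N ihM ihN => intros; simp only [tr, ren, ihM, ihN]
  | lam A M ihA ihM => intro f σ r; simp only [ren, tr, ihA, ihM, ren_ups, ren_wk]
  | pi A M ihA ihM => intro f σ r; simp only [ren, tr, ihA, ihM, ren_ups, ren_wk]

theorem sub_tr (M : X S) : ∀ (f : Cst S → Tm S) (σ τ : ℕ → Tm S),
    (tr f σ M).sub τ = tr (fun k => (f k).sub τ) (fun n => (σ n).sub τ) M := by
  induction M with
  | var n => intros; rfl
  | sort s => intros; cases s <;> rfl
  | app M N ihM ihN => intros; simp only [tr, sub, ihM, ihN]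
  | lam A M ihA ihM => intro f σ r; simp only [sub, tr, ihA, ihM, sub_ups, sub_wk]
  | pi A M ihA ihM => intro f σ r; simp only [sub, tr, ihA, ihM, sub_ups, sub_wk]

theorem tr_wk (f : Cst S → Tm S) (σ : ℕ → Tm S) (M : X S) :
    tr (fun k => wk (f k)) (ups σ) (wk M) = wk (tr f σ M) := by
  unfold wk
  rw [tr_ren, ren_tr]; rfl

theorem tr_ups (f : Cst S → Tm S) (σ : ℕ → Tm S) (τ : ℕ → X S) :
    (fun n => tr (fun k => wk (f k)) (ups σ) (ups τ n)) = ups (fun n => tr f σ (τ n)) := by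
  funext n; cases n with
  | zero => rfl
  | succ n => exact tr_wk f σ (τ n)

theorem tr_sub (M : X S) : ∀ (f : Cst S → Tm S) (σ : ℕ → Tm S) (τ : ℕ → X S),
    tr f σ (M.sub τ) = tr f (fun n => tr f σ (τ n)) M := by
  induction M with
  | var n => intros; rfl
  | sort s => intros; cases s <;> rfl
  | app M N ihM ihN => intros; simp only [sub, tr, ihM, ihN]
  | lam A M ihA ihM => intro f σ τ; simp only [sub, tr, ihA, ihM, tr_ups]
  | pi A M ihA ihM => intro f σ τ; simp only [sub, tr, ihA, ihM, tr_ups]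

theorem tr_inst (f : Cst S → Tm S) (σ : ℕ → Tm S) (M N : X S) :
    tr f σ (inst M N) = inst (tr (fun k => wk (f k)) (ups σ) M) (tr f σ N) := by
  unfold inst
  rw [tr_sub, sub_tr]
  congr 1
  · funext k; exact (sub_single_wk _ _).symm
  · funext n
    cases n with
    | zero => rfl
    | succ n => exact (sub_single_wk _ _).symm

theorem step_tr {M N : X S} (h : Step M N) : ∀ (f : Cst S → Tm S) (σ : ℕ → Tm S),
    Step (tr f σ M) (tr f σ N) := by
  induction h with
  | beta A M N => intro f σ; rw [tr_inst]; exact .beta _ _ _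
  | appL N _ ih => intro f σ; exact .appL _ (ih f σ)
  | appR M _ ih => intro f σ; exact .appR _ (ih f σ)
  | lamL M _ ih => intro f σ; exact .lamL _ (ih f σ)
  | lamR A _ ih => intro f σ; exact .lamR _ (ih _ _)
  | piL B _ ih => intro f σ; exact .piL _ (ih f σ)
  | piR A _ ih => intro f σ; exact .piR _ (ih _ _)

theorem conv_tr {M N : X S} (h : Conv M N) (f : Cst S → Tm S) (σ : ℕ → Tm S) :
    Conv (tr f σ M) (tr f σ N) := by
  induction h with
  | rel _ _ h => exact .rel _ _ (step_tr h f σ)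
  | refl _ => exact .refl _
  | symm _ _ _ ih => exact .symm ih
  | trans _ _ _ _ _ ih ih' => exact .trans ih ih'

/-- Products ending with a variable or a sort. -/
def BAt : Tm S → Prop
  | var _ => True
  | sort _ => True
  | pi _ B => BAt B
  | _ => False

theorem BAt.ren {M : Tm S} : ∀ {r : ℕ → ℕ}, BAt M → BAt (M.ren r) := by
  induction M with
  | var n => intro r _; trivial
  | sort s => intro r _; trivial
  | app _ _ _ _ => intro r h; exact h.elim
  | lam _ _ _ _ => intro r h; exact h.elim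
  | pi A B _ ih => intro r h; exact ih (r := Tm.up r) h

/-- Normal terms that are not abstractions. -/
def Atom (M : Tm S) : Prop := Normal M ∧ (∀ A B, M ≠ lam A B) ∧ BAt M

theorem step_of_ren {M : Tm S} : ∀ {r : ℕ → ℕ} {N : Tm S}, Step (M.ren r) N →
    ∃ N', N = N'.ren r ∧ Step M N' := by
  induction M with
  | var n => intro r N h; cases h
  | sort s => intro r N h; cases h
  | app M N ihM ihN =>
    intro r Q h
    simp only [ren] at h
    generalize e : M.ren r = M' at h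
    cases h with
    | beta A B _ =>
      cases M with
      | lam A' M' =>
        simp only [ren, lam.injEq] at e
        obtain ⟨rfl, rfl⟩ := e
        exact ⟨_, (ren_inst _ _ _).symm, .beta _ _ _⟩
      | var n => cases e
      | sort s => cases e
      | app _ _ => cases e
      | pi _ _ => cases e
    | appL _ h =>
      obtain ⟨Q', e', k⟩ := ihM (by rw [e]; exact h)
      subst e'; exact ⟨_, rfl, .appL _ k⟩
    | appR _ h =>
      obtain ⟨Q', e', k⟩ := ihN h
      subst e'; subst e; exact ⟨_, rfl, .appR _ k⟩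
  | lam M N ihM ihN =>
    intro r Q h
    cases h with
    | lamL _ h => obtain ⟨Q, e, k⟩ := ihM h; subst e; exact ⟨_, rfl, .lamL _ k⟩
    | lamR _ h => obtain ⟨Q, e, k⟩ := ihN h; subst e; exact ⟨_, rfl, .lamR _ k⟩
  | pi M N ihM ihN =>
    intro r Q h
    cases h with
    | piL _ h => obtain ⟨Q, e, k⟩ := ihM h; subst e; exact ⟨_, rfl, .piL _ k⟩
    | piR _ h => obtain ⟨Q, e, k⟩ := ihN h; subst e; exact ⟨_, rfl, .piR _ k⟩

theorem Atom.wk {M : Tm S} (h : Atom M) : Atom (Tm.wk M) := by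
  refine ⟨fun N hN => ?_, fun A B e => ?_, h.2.2.ren⟩
  · obtain ⟨N', -, h'⟩ := step_of_ren hN
    exact h.1 _ h'
  · cases M with
    | lam A' M' => exact h.2.1 _ _ rfl
    | var n => cases e
    | sort s => cases e
    | app _ _ => cases e
    | pi _ _ => cases e

theorem atom_var (n : ℕ) : Atom (var n : Tm S) :=
  ⟨normal_var n, (fun _ _ e => by cases e), trivial⟩

theorem atom_sort (s : S) : Atom (sort s : Tm S) :=
  ⟨normal_sort s, (fun _ _ e => by cases e), trivial⟩

theorem Atom.pi {A B : Tm S} (hA : Atom A) (hB : Atom B) : Atom (Tm.pi A B) :=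
  ⟨Normal.pi hA.1 hB.1, (fun _ _ e => by cases e), hB.2.2⟩

/-- The elements of products ending with a variable or a sort have normal forms. -/
theorem BAt.hnm (hW : WNKindVar P) {K : Tm S} : ∀ {G : Ctx S} {M : Tm S}, WFC P G →
    NCtx P G → BAt K → (∃ s, J P G K (sort s)) → J P G M K → HN M := by
  induction K with
  | var n =>
    intro G M hG hN h _ hM
    exact hN.hnv hW hM
  | app F N _ _ => intro G M hG hN h _ hM; exact h.elim
  | sort s =>
    intro G M hG hN h _ hM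
    exact hN.hn hW hM
  | pi A B _ ih =>
    intro G M hG hN h hK hM
    obtain ⟨c, hK⟩ := hK
    obtain ⟨a, b, c', k1, k2, k3, k4⟩ := hK.pi_inv
    exact (ih (hG.push k1) (hN.push k1) h ⟨b, k2⟩ hM.app_var).of_app_var hW hG hN hM rfl
  | lam A M _ _ => intro G M' hG hN h _ hM; exact h.elim

theorem atom_ups {σ : ℕ → Tm S} (h : ∀ n, Atom (σ n)) (n : ℕ) : Atom (ups σ n) := by
  cases n with
  | zero => exact atom_var _
  | succ n => exact (h n).wk

/-- Steps of translated terms lift. -/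
theorem step_of_tr {M : X S} : ∀ {f : Cst S → Tm S} {σ : ℕ → Tm S} {N : Tm S},
    (∀ k, Atom (f k)) → (∀ n, Atom (σ n)) → Step (tr f σ M) N →
    ∃ N', N = tr f σ N' ∧ Step M N' := by
  induction M with
  | var n => intro f σ N hf hσ h; exact ((hσ n).1 _ h).elim
  | sort s =>
    intro f σ N hf hσ h
    cases s with
    | inl s => cases h
    | inr k => exact ((hf k).1 _ h).elim
  | app M N ihM ihN =>
    intro f σ Q hf hσ h
    simp only [tr] at h
    generalize e : tr f σ M = M' at h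
    cases h with
    | beta A B _ =>
      cases M with
      | var n => exact ((hσ n).2.1 A B e).elim
      | sort s =>
        cases s with
        | inl s => cases e
        | inr k => exact ((hf k).2.1 A B e).elim
      | app _ _ => cases e
      | pi _ _ => cases e
      | lam A' M' =>
        simp only [tr, Tm.lam.injEq] at e
        obtain ⟨rfl, rfl⟩ := e
        exact ⟨_, (tr_inst f σ _ _).symm, .beta _ _ _⟩
    | appL _ h =>
      obtain ⟨Q', e', k⟩ := ihM hf hσ (by rw [e]; exact h)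
      subst e'; exact ⟨_, rfl, .appL _ k⟩
    | appR _ h =>
      obtain ⟨Q', e', k⟩ := ihN hf hσ h
      subst e'; subst e; exact ⟨_, rfl, .appR _ k⟩
  | lam M N ihM ihN =>
    intro f σ Q hf hσ h
    cases h with
    | lamL _ h => obtain ⟨Q, e, k⟩ := ihM hf hσ h; subst e; exact ⟨_, rfl, .lamL _ k⟩
    | lamR _ h =>
      obtain ⟨Q, e, k⟩ := ihN (fun k => (hf k).wk) (atom_ups hσ) h
      subst e; exact ⟨_, rfl, .lamR _ k⟩
  | pi M N ihM ihN =>
    intro f σ Q hf hσ h
    cases h with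
    | piL _ h => obtain ⟨Q, e, k⟩ := ihM hf hσ h; subst e; exact ⟨_, rfl, .piL _ k⟩
    | piR _ h =>
      obtain ⟨Q, e, k⟩ := ihN (fun k => (hf k).wk) (atom_ups hσ) h
      subst e; exact ⟨_, rfl, .piR _ k⟩

theorem red_of_tr {f : Cst S → Tm S} {σ : ℕ → Tm S} (hf : ∀ k, Atom (f k))
    (hσ : ∀ n, Atom (σ n)) {M : X S} {N : Tm S} (h : Red (tr f σ M) N) :
    ∃ N', N = tr f σ N' ∧ Red M N' := by
  induction h with
  | refl => exact ⟨M, rfl, .refl _⟩
  | tail _ h ih =>
    obtain ⟨Q, rfl, h1⟩ := ih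
    obtain ⟨R, h2, h3⟩ := step_of_tr hf hσ h
    exact ⟨R, h2, h1.trans (.step h3)⟩

/-! The new constants that are types have old sorts. -/

/-- One old sort. -/
def ext1 (S : Type u) : Spec (Unit ⊕ Cst S) where
  ax
    | .inl _, .inl _ => True
    | .inr (.bot _), .inl _ => True
    | .inr (.top _), .inl _ => True
    | .inr (.pt s), .inr (.top t) => t = s
    | _, _ => False
  rule
    | .inl _, .inl _, .inl _ => True
    | _, _, _ => False

theorem functional_ext1 : Functional (ext1 S) where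
  ax {s t t'} h h' := by
    rcases s with s | (s | s | s) <;> rcases t with t | (t | t | t) <;>
      rcases t' with t' | (t' | t' | t') <;> simp only [ext1] at h h' ⊢
    rw [h, h']
  rule {s1 s2 s3 s3'} h h' := by
    rcases s1 with s1 | s1 <;> rcases s2 with s2 | s2 <;> rcases s3 with s3 | s3 <;>
      rcases s3' with s3' | s3' <;> simp only [ext1] at h h' ⊢

theorem mor_ext1 : Mor (ext P) (ext1 S) (Sum.map (fun _ => ()) id) where
  ax {s t} h := by
    rcases s with s | (s | s | s) <;> rcases t with t | (t | t | t) <;>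
      simp only [ext] at h <;> first | trivial | exact h
  rule {s t r} h := by
    rcases s with s | s <;> rcases t with t | t <;> rcases r with r | r <;>
      simp only [ext] at h <;> trivial

/-- Types of sorts. -/
theorem ext_ax_inv {s t : S ⊕ Cst S} (h : (ext P).ax s t) :
    (∃ t', t = .inl t') ∨ ∃ a, t = .inr (.top a) ∧ s = .inr (.pt a) := by
  rcases s with s | (s | s | s) <;> rcases t with t | (t | t | t) <;> simp only [ext] at h
  · exact .inl ⟨t, rfl⟩
  · exact .inl ⟨t, rfl⟩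
  · exact .inl ⟨t, rfl⟩
  · subst h; exact .inr ⟨_, rfl, rfl⟩

theorem ext_rule_inl {s1 s2 s3 : S ⊕ Cst S} (h : (ext P).rule s1 s2 s3) :
    ∃ t1 t2 t3, s1 = .inl t1 ∧ s2 = .inl t2 ∧ s3 = .inl t3 ∧ P.rule t1 t2 t3 := by
  rcases s1 with s1 | s1 <;> rcases s2 with s2 | s2 <;> rcases s3 with s3 | s3 <;>
    simp only [ext] at h
  exact ⟨_, _, _, rfl, rfl, rfl, h⟩

theorem no_bad {Γ : List (X S)} (hΓ : WF (ext P) Γ) {A B : X S} {k : Cst S}
    (hB : T (ext P) Γ B (sort (.inr k))) (hc : Conv A B)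
    (hA : (∃ s, A = so s) ∨ ∃ s, T (ext P) Γ A (so s)) : False := by
  rcases hA with ⟨s, rfl⟩ | ⟨s, hs⟩
  · have h1 := hB.red hΓ hc.symm.red_sort
    obtain ⟨t, h2, h3⟩ := h1.sort_inv
    cases h3.sort_inj
    rcases ext_ax_inv h2 with ⟨t', e⟩ | ⟨a, -, e⟩ <;> cases e
  · have := functional_ext1.conv_sort (hΓ.map mor_ext1) (hs.map mor_ext1) (hB.map mor_ext1)
      (hc.map _)
    cases this

/-- Contexts whose types have old sorts. -/
inductive WFi (P : Spec S) : List (X S) → Prop where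
  | nil : WFi P []
  | cons {Γ : List (X S)} {A : X S} {s : S} : WFi P Γ → T (ext P) Γ A (so s) → WFi P (A :: Γ)

theorem WFi.wf {Γ : List (X S)} (h : WFi P Γ) : WF (ext P) Γ := by
  induction h with
  | nil => exact .nil
  | cons _ h ih => exact .cons ih h

theorem WFi.has {Γ : List (X S)} (h : WFi P Γ) : ∀ {n : ℕ} {A : X S},
    Has Γ n A → ∃ s, T (ext P) Γ A (so s) := by
  induction h with
  | nil => intro n A h; cases h
  | cons _ hA ih =>
    intro n B h
    cases h with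
    | zero => exact ⟨_, hA.wk _⟩
    | succ _ h => obtain ⟨s, hs⟩ := ih h; exact ⟨s, hs.wk _⟩

theorem pi_inl {Γ : List (X S)} {A B : X S} {s : S ⊕ Cst S}
    (h : T (ext P) Γ (pi A B) (sort s)) : ∃ s1 s2 s3, T (ext P) Γ A (so s1) ∧
      T (ext P) (A :: Γ) B (so s2) ∧ s = .inl s3 := by
  obtain ⟨s1, s2, s3, h1, h2, h3, h4⟩ := h.pi_inv
  obtain ⟨t1, t2, t3, rfl, rfl, rfl, -⟩ := ext_rule_inl h3
  exact ⟨t1, t2, t3, h1, h2, h4.sort_inj.symm⟩

theorem T_ct (s : S) {Γ : List (X S)} : T (ext P) Γ (ct s) (so s) := .sort (show s = s from rfl)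
theorem WFi.correct {Γ : List (X S)} (hΓ : WFi P Γ) {M A : X S}
    (h : T (ext P) Γ M A) : (∃ s, A = so s) ∨ ∃ s, T (ext P) Γ A (so s) := by
  induction h with
  | sort h =>
    rcases ext_ax_inv h with ⟨t', rfl⟩ | ⟨a, rfl, -⟩
    · exact .inl ⟨_, rfl⟩
    · exact .inr ⟨_, T_ct a⟩
  | var h => exact .inr (hΓ.has h)
  | pi _ _ h _ _ =>
    obtain ⟨_, _, t3, -, -, rfl, -⟩ := ext_rule_inl h
    exact .inl ⟨_, rfl⟩
  | lam _ h _ _ =>
    obtain ⟨s1, s2, s3, -, -, rfl⟩ := pi_inl h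
    exact .inr ⟨_, h⟩
  | app h1 h2 ih1 _ =>
    rcases ih1 hΓ with ⟨s, h⟩ | ⟨s, h⟩
    · cases h
    · obtain ⟨s1, s2, s3, h3, h4, -⟩ := pi_inl h
      exact .inr ⟨s2, h4.inst_sort h2⟩
  | @conv Γ M A B s _ h hc ih _ =>
    cases s with
    | inl s => exact .inr ⟨_, h⟩
    | inr k => exact (no_bad hΓ.wf h hc (ih hΓ)).elim

/-- Translations of the constants. -/
structure Fok (P : Spec S) (Δ : List (Tm S)) (f : Cst S → Tm S) : Prop where
  atom : ∀ k, Atom (f k)
  bot : ∀ s, T P Δ (f (.bot s)) (sort s)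
  top : ∀ s, T P Δ (f (.top s)) (sort s)
  pt : ∀ s, T P Δ (f (.pt s)) (f (.top s))

theorem Fok.wk {Δ : List (Tm S)} {f : Cst S → Tm S} (h : Fok P Δ f) (A : Tm S) :
    Fok P (A :: Δ) (fun k => Tm.wk (f k)) :=
  ⟨fun k => (h.atom k).wk, fun s => (h.bot s).wk _, fun s => (h.top s).wk _,
    fun s => (h.pt s).wk _⟩

/-- Typing of translated terms. -/
theorem T_tr {Γ : List (X S)} {M A : X S} (h : T (ext P) Γ M A) :
    ∀ {f : Cst S → Tm S} {σ : ℕ → Tm S} {Δ : List (Tm S)}, WFi P Γ → Fok P Δ f →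
    (∀ n B, Has Γ n B → T P Δ (σ n) (tr f σ B)) → T P Δ (tr f σ M) (tr f σ A) := by
  have hpush : ∀ {Γ : List (X S)} {A : X S} {f : Cst S → Tm S} {σ : ℕ → Tm S}
      {Δ : List (Tm S)}, (∀ n B, Has Γ n B → T P Δ (σ n) (tr f σ B)) →
      ∀ n B, Has (A :: Γ) n B → T P (tr f σ A :: Δ) (ups σ n)
        (tr (fun k => Tm.wk (f k)) (ups σ) B) := by
    intro Γ A f σ Δ h n B hB
    cases hB with
    | zero => rw [tr_wk]; exact .var (.zero _ _)
    | succ _ hB => rw [tr_wk]; exact (h _ _ hB).wk _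
  induction h with
  | @sort Γ s t h =>
    intro f σ Δ _ hf hσ
    rcases s with s | (s | s | s) <;> rcases t with t | (t | t | t) <;> simp only [ext] at h
    · exact .sort h
    · subst h; exact hf.bot _
    · subst h; exact hf.top _
    · subst h; exact hf.pt _
  | var h => intro f σ Δ _ hf hσ; exact hσ _ _ h
  | pi hA _ h ih ih' =>
    intro f σ Δ hΓ hf hσ
    obtain ⟨t1, t2, t3, rfl, rfl, rfl, h⟩ := ext_rule_inl h
    exact .pi (ih hΓ hf hσ) (ih' (.cons hΓ hA) (hf.wk _) (hpush hσ)) h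
  | lam _ h ih ih' =>
    intro f σ Δ hΓ hf hσ
    obtain ⟨s1, s2, s3, h3, h4, rfl⟩ := pi_inl h
    exact .lam (ih (.cons hΓ h3) (hf.wk _) (hpush hσ)) (ih' hΓ hf hσ)
  | app _ _ ih ih' =>
    intro f σ Δ hΓ hf hσ
    rw [tr_inst]
    exact .app (ih hΓ hf hσ) (ih' hΓ hf hσ)
  | @conv Γ M A B s hM h hc ih ih' =>
    intro f σ Δ hΓ hf hσ
    cases s with
    | inl s => exact .conv (ih hΓ hf hσ) (ih' hΓ hf hσ) (conv_tr hc f σ)
    | inr k => exact (no_bad hΓ.wf h hc (hΓ.correct hM)).elim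

/-! Base contexts. -/

/-- Sorts with types in some context. -/
inductive Liv (P : Spec S) : S → Prop where
  | ax {s t : S} : P.ax s t → Liv P s
  | ty {s t : S} : P.ax t s → Liv P s
  | rule {a b s : S} : P.rule a b s → Liv P a → Liv P b → Liv P s

theorem T_wks {Δ : List (Tm S)} : ∀ (Ξ : List (Tm S)) {M A : Tm S}, T P Δ M A →
    Atom M → (∃ s, A = sort s) → ∃ M', Atom M' ∧ T P (Ξ ++ Δ) M' A := by
  intro Ξ
  induction Ξ with
  | nil => intro M A h hM _; exact ⟨M, hM, h⟩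
  | cons B Ξ ih =>
    intro M A h hM hA
    obtain ⟨M', h1, h2⟩ := ih h hM hA
    obtain ⟨s, rfl⟩ := hA
    exact ⟨_, h1.wk, h2.wk B⟩

theorem exists_type {s : S} (hs : Liv P s) : ∀ (Δ : List (Tm S)), WF P Δ →
    ∃ (Ξ : List (Tm S)) (M : Tm S), WF P (Ξ ++ Δ) ∧ Atom M ∧ T P (Ξ ++ Δ) M (sort s) := by
  induction hs with
  | @ax s t h =>
    intro Δ hΔ
    exact ⟨[sort s], var 0, .cons hΔ (.sort h), atom_var 0, .var (.zero _ _)⟩
  | @ty s t h => intro Δ hΔ; exact ⟨[], sort t, hΔ, atom_sort t, .sort h⟩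
  | @rule a b s h _ _ iha ihb =>
    intro Δ hΔ
    obtain ⟨Ξ1, B, h1, h2, h3⟩ := ihb Δ hΔ
    obtain ⟨Ξ2, A, h4, h5, h6⟩ := iha _ h1
    obtain ⟨B', h7, h8⟩ := T_wks Ξ2 h3 h2 ⟨_, rfl⟩
    refine ⟨Ξ2 ++ Ξ1, pi A (wk B'), ?_, h5.pi h7.wk, ?_⟩
    · rw [List.append_assoc]; exact h4
    · rw [List.append_assoc]; exact .pi h6 (h8.wk _) h

open Classical in
/-- Translations of the constants exist. -/
theorem exists_Fok [Finite S] (hl : ∀ s, Liv P s) : ∃ (Δ : List (Tm S)) (f : Cst S → Tm S),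
    WF P Δ ∧ Fok P Δ f := by
  have key : ∀ L : List S, ∃ (Δ : List (Tm S)) (g : S → Tm S × Tm S), WF P Δ ∧
      ∀ s ∈ L, Atom (g s).1 ∧ Atom (g s).2 ∧ T P Δ (g s).1 (sort s) ∧
        T P Δ (g s).2 (g s).1 := by
    intro L
    induction L with
    | nil => exact ⟨[], fun s => (sort s, sort s), .nil, fun s hs => by cases hs⟩
    | cons s0 L ih =>
      obtain ⟨Δ, g, h1, h2⟩ := ih
      obtain ⟨Ξ, M, h3, h4, h5⟩ := exists_type (hl s0) Δ h1
      -- weakening of the old pairs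
      have hw : ∀ (Ξ : List (Tm S)) (p : Tm S × Tm S) (s : S), Atom p.1 → Atom p.2 →
          T P Δ p.1 (sort s) → T P Δ p.2 p.1 → ∃ p' : Tm S × Tm S, Atom p'.1 ∧ Atom p'.2 ∧
            T P (Ξ ++ Δ) p'.1 (sort s) ∧ T P (Ξ ++ Δ) p'.2 p'.1 := by
        intro Ξ p s k1 k2 k3 k4
        induction Ξ with
        | nil => exact ⟨p, k1, k2, k3, k4⟩
        | cons B Ξ ih =>
          obtain ⟨p', m1, m2, m3, m4⟩ := ih
          exact ⟨(wk p'.1, wk p'.2), m1.wk, m2.wk, m3.wk B, m4.wk B⟩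
      have hg : ∀ s, ∃ p : Tm S × Tm S, s ∈ s0 :: L → Atom p.1 ∧ Atom p.2 ∧
          T P (M :: (Ξ ++ Δ)) p.1 (sort s) ∧ T P (M :: (Ξ ++ Δ)) p.2 p.1 := by
        intro s
        by_cases hs : s = s0
        · subst hs
          exact ⟨(wk M, var 0), fun _ => ⟨h4.wk, atom_var 0, h5.wk _, .var (.zero _ _)⟩⟩
        · by_cases hs' : s ∈ L
          · obtain ⟨k1, k2, k3, k4⟩ := h2 s hs'
            obtain ⟨p, hp⟩ := hw (M :: Ξ) (g s) s k1 k2 k3 k4
            exact ⟨p, fun _ => hp⟩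
          · exact ⟨(var 0, var 0), fun h => by
              rcases List.mem_cons.1 h with h | h
              · exact absurd h hs
              · exact absurd h hs'⟩
      choose g' hg' using hg
      exact ⟨M :: (Ξ ++ Δ), g', .cons h3 h5, hg'⟩
  have : Set.Finite (Set.univ : Set S) := Set.toFinite _
  obtain ⟨Δ, g, h1, h2⟩ := key this.toFinset.toList
  have h2 := fun s => h2 s (by simp)
  let f : Cst S → Tm S := fun k => match k with
    | .bot s => (g s).1
    | .top s => (g s).1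
    | .pt s => (g s).2
  refine ⟨Δ, f, h1, ⟨?_, fun s => (h2 s).2.2.1, fun s => (h2 s).2.2.1, fun s => (h2 s).2.2.2⟩⟩
  intro k
  cases k with
  | bot s => exact (h2 s).1
  | top s => exact (h2 s).1
  | pt s => exact (h2 s).2.1

/-- Translations of contexts. -/
theorem exists_ctx {Γ : List (X S)} (hΓ : WFi P Γ) {Δ : List (Tm S)} {f : Cst S → Tm S}
    (hΔ : WF P Δ) (hf : Fok P Δ f) :
    ∃ (Δ' : List (Tm S)) (f' : Cst S → Tm S) (σ : ℕ → Tm S), WF P Δ' ∧ Fok P Δ' f' ∧
      (∀ n, Atom (σ n)) ∧ ∀ n B, Has Γ n B → T P Δ' (σ n) (tr f' σ B) := by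
  induction hΓ with
  | nil => exact ⟨Δ, f, var, hΔ, hf, atom_var, fun n B h => by cases h⟩
  | @cons Γ A s hΓ hA ih =>
    obtain ⟨Δ', f', σ, h1, h2, h4, h5⟩ := ih
    refine ⟨tr f' σ A :: Δ', fun k => wk (f' k), ups σ, .cons h1 (T_tr hA hΓ h2 h5),
      h2.wk _, atom_ups h4, ?_⟩
    intro n B hB
    cases hB with
    | zero => rw [tr_wk]; exact .var (.zero _ _)
    | succ _ hB => rw [tr_wk]; exact (h5 _ _ hB).wk _

/-- If the specification is weakly normalizing, so are the elements of the new constants. -/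
theorem wn_ext [Finite S] (hl : ∀ s, Liv P s) (hw : WNKindVar P) {Γ : List (X S)} (hΓ : WFi P Γ)
    {M : X S} {b : S} (h : T (ext P) Γ M (cb b)) : ∃ N, Red M N ∧ Normal N := by
  obtain ⟨Δ, f, h1, h2⟩ := exists_Fok hl
  obtain ⟨Δ', f', σ, k1, k2, k4, k5⟩ := exists_ctx hΓ h1 h2
  have h3 : T P Δ' (tr f' σ M) (f' (.bot b)) := T_tr h hΓ k2 k5
  have h4 : T P Δ' (f' (.bot b)) (sort b) := k2.bot b
  obtain ⟨N, hr, hn⟩ : HN (tr f' σ M) :=
    (k2.atom (.bot b)).2.2.hnm hw k1.wfc (FCtx.ofList k1).nctx ⟨b, h4.toJ⟩ h3.toJ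
  obtain ⟨N', rfl, hr'⟩ := red_of_tr k2.atom k4 hr
  exact ⟨N', hr', fun Q hQ => hn _ (step_tr hQ f' σ)⟩

end Vale.Agent.P340.Vy
end

section

/-! Links between falsities, and the failure of weak normalization. -/

namespace Vale.Agent.P340.Vy

universe u
variable {S : Type u} {P : Spec S}

open Tm

/-- False types. -/
def FT (L : List S) (b : S) : X S := arr L (cb b)

/-- Types of links. -/
def LT (L M : List S) (b b' : S) : X S := arr L (pi (FT M b) (cb b'))

theorem wk_FT (L : List S) (b : S) : wk (FT L b) = FT L b := wk_arr _ _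

theorem wk_LT (L M : List S) (b b' : S) : wk (LT L M b b') = LT L M b b' := by
  unfold LT
  rw [wk_arr]
  congr 1
  show pi (wk (FT M b)) (cb b') = _
  rw [wk_FT]

theorem FT_cons (l : S) (L : List S) (b : S) : FT (l :: L) b = pi (ct l) (FT L b) := by
  show pi (ct l) (wk (FT L b)) = _
  rw [wk_FT]

theorem LT_cons (l : S) (L M : List S) (b b' : S) :
    LT (l :: L) M b b' = pi (ct l) (LT L M b b') := by
  show pi (ct l) (wk (LT L M b b')) = _
  rw [wk_LT]

theorem sort_FT {s : S ⊕ Cst S} (hs : ∀ b, s ≠ .inr (.bot b)) {L : List S} {b : S}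
    (h : Conv (sort s) (FT L b)) : False := by
  cases L with
  | nil => exact hs b (Conv.sort_inj h)
  | cons l L => rw [FT_cons] at h; exact h.sort_pi

theorem LT_FT {M : List S} (hM : M ≠ []) {b b' : S} : ∀ {L L' : List S} {b1 : S},
    ¬ Conv (LT L M b b') (FT L' b1) := by
  intro L
  induction L with
  | nil =>
    intro L' b1 h
    have h' : Conv (pi (FT M b) (cb b')) (FT L' b1) := h
    cases L' with
    | nil => exact h'.symm.sort_pi
    | cons l' L' =>
      rw [FT_cons] at h'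
      have h1 := h'.pi_inj.1
      cases M with
      | nil => exact hM rfl
      | cons m M => rw [FT_cons] at h1; exact h1.symm.sort_pi
  | cons l L ih =>
    intro L' b1 h
    rw [LT_cons] at h
    cases L' with
    | nil => exact h.symm.sort_pi
    | cons l' L' =>
      rw [FT_cons] at h
      exact ih h.pi_inj.2

/-- All types of the context are truths or links. -/
def Gd (Γ : List (X S)) : Prop :=
  ∀ A ∈ Γ, (∃ a, A = ct a) ∨ ∃ L M b b', M ≠ [] ∧ A = LT L M b b'

theorem Gd.has {Γ : List (X S)} (hΓ : Gd Γ) {n : ℕ} {A : X S} (h : Has Γ n A) :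
    (∃ a, A = ct a) ∨ ∃ L M b b', M ≠ [] ∧ A = LT L M b b' := by
  induction h with
  | zero Γ A =>
    rcases hΓ A (by simp) with ⟨a, rfl⟩ | ⟨L, M, b, b', h, rfl⟩
    · exact .inl ⟨a, rfl⟩
    · exact .inr ⟨L, M, b, b', h, wk_LT _ _ _ _⟩
  | succ B _ ih =>
    rcases ih fun A hA => hΓ A (by simp [hA]) with ⟨a, rfl⟩ | ⟨L, M, b, b', h, rfl⟩
    · exact .inl ⟨a, rfl⟩
    · exact .inr ⟨L, M, b, b', h, wk_LT _ _ _ _⟩

/-- No false type has a normal inhabitant. -/
theorem normal_gd (M : X S) : ∀ {Γ : List (X S)}, Gd Γ → ∀ {A : X S}, T (ext P) Γ M A →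
    Normal M → (∀ L b, ¬ Conv A (FT L b)) ∧
      (((∃ n, M = var n) ∨ ∃ M1 M2, M = app M1 M2) → (∃ a, Conv A (ct a)) ∨
        ∃ L M' b b', M' ≠ [] ∧ Conv A (LT L M' b b')) := by
  induction M with
  | var n =>
    intro Γ hΓ A h _
    obtain ⟨A', h1, h2⟩ := h.var_inv
    rcases hΓ.has h1 with ⟨a, rfl⟩ | ⟨L, M, b, b', hM, rfl⟩
    · exact ⟨fun L b hk => sort_FT (fun b => by simp) (h2.trans hk), fun _ => .inl ⟨a, h2.symm⟩⟩
    · exact ⟨fun L b hk => LT_FT hM (h2.trans hk), fun _ => .inr ⟨L, M, b, b', hM, h2.symm⟩⟩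
  | sort s =>
    intro Γ hΓ A h _
    obtain ⟨t, h1, h2⟩ := h.sort_inv
    refine ⟨fun L b hk => sort_FT (s := t) ?_ (h2.trans hk), ?_⟩
    · rcases ext_ax_inv h1 with ⟨t', rfl⟩ | ⟨a, rfl, -⟩ <;> intro b <;> simp
    · rintro (⟨n, e⟩ | ⟨_, _, e⟩) <;> cases e
  | pi A B _ _ =>
    intro Γ hΓ A h _
    obtain ⟨s1, s2, s3, -, -, h1, h2⟩ := h.pi_inv
    obtain ⟨_, _, t3, -, -, rfl, -⟩ := ext_rule_inl h1
    refine ⟨fun L b hk => sort_FT (s := .inl t3) (fun b => by simp) (h2.trans hk), ?_⟩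
    rintro (⟨n, e⟩ | ⟨_, _, e⟩) <;> cases e
  | lam B M ihB ihM =>
    intro Γ hΓ A h hn
    obtain ⟨C, s, h1, -, h2⟩ := h.lam_inv
    refine ⟨fun L b hk => ?_, ?_⟩
    · have hk' := h2.trans hk
      cases L with
      | nil => exact hk'.symm.sort_pi
      | cons l L =>
        rw [FT_cons] at hk'
        obtain ⟨h3, h4⟩ := hk'.pi_inj
        have h5 : B = ct l := ((hn.lamL).red h3.red_sort).symm
        subst h5
        have hΓ' : Gd (ct l :: Γ) := by
          intro A hA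
          rcases List.mem_cons.1 hA with rfl | hA
          · exact .inl ⟨l, rfl⟩
          · exact hΓ A hA
        exact (ihM hΓ' h1 hn.lamR).1 L b h4
    · rintro (⟨n, e⟩ | ⟨_, _, e⟩) <;> cases e
  | app M N ihM ihN =>
    intro Γ hΓ A h hn
    obtain ⟨A1, B1, h1, h2, h3⟩ := h.app_inv
    have hh : (∃ n, M = var n) ∨ ∃ M1 M2, M = app M1 M2 := by
      cases M with
      | var n => exact .inl ⟨n, rfl⟩
      | app M1 M2 => exact .inr ⟨M1, M2, rfl⟩
      | sort s =>
        obtain ⟨t, h4, h5⟩ := h1.sort_inv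
        exact (h5.sort_pi).elim
      | pi A B =>
        obtain ⟨s1, s2, s3, -, -, -, h5⟩ := h1.pi_inv
        exact (h5.sort_pi).elim
      | lam A M => exact (hn _ (.beta _ _ _)).elim
    have key : ∃ L M' b b', M' ≠ [] ∧ Conv A (LT L M' b b') := by
      rcases (ihM hΓ h1 hn.appL).2 hh with ⟨a, h4⟩ | ⟨L, M', b, b', hM, h4⟩
      · exact (h4.symm.sort_pi).elim
      · cases L with
        | nil => exact ((ihN hΓ h2 hn.appR).1 _ _ h4.pi_inj.1).elim
        | cons l L =>
          rw [LT_cons] at h4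
          have h5 := h4.pi_inj.2.inst (Conv.refl N)
          have h6 : inst (LT L M' b b') N = LT L M' b b' := by
            have := inst_wk (LT L M' b b') N
            rwa [wk_LT] at this
          rw [h6] at h5
          exact ⟨L, M', b, b', hM, h3.symm.trans h5⟩
    obtain ⟨L, M', b, b', hM, h4⟩ := key
    exact ⟨fun L1 b1 hk => LT_FT hM (h4.symm.trans hk), fun _ => .inr ⟨L, M', b, b', hM, h4⟩⟩

/-! Base contexts. -/

/-- The type of a link. -/
def LK (k : S × NE S × S) : X S := neg k.2.1 (pi (ct k.1) (cb k.2.2))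

theorem arr_append (L L' : List S) (A : X S) : arr (L ++ L') A = arr L (arr L' A) := by
  induction L with
  | nil => rfl
  | cons l L ih => simp only [List.cons_append, arr, ih]

theorem LK_eq (k : S × NE S × S) :
    LK k = LT k.2.1.L3 (k.2.1.L1 ++ [k.1]) k.2.2 k.2.1.b := by
  unfold LK LT FT neg
  rw [arr_append]; rfl

/-- The conditions on a link. -/
def LKok (P : Spec S) (F : S → Prop) (k : S × NE S × S) : Prop :=
  F k.2.2 ∧ ∃ c j, P.rule k.1 k.2.2 c ∧ NT P F k.2.1 c j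

theorem LK_arg {F : S → Prop} {k : S × NE S × S} {c : S} (h : P.rule k.1 k.2.2 c)
    {G : Ctx (S ⊕ Cst S)} : J (ext P) G (pi (ct k.1) (cb k.2.2)) (so c) :=
  jpi (jct _) (jcb _) h

theorem wfi_links {F : S → Prop} {L : List (S × NE S × S)} (hL : ∀ k ∈ L, LKok P F k) :
    WFi P (L.map LK) := by
  induction L with
  | nil => exact .nil
  | cons k L ih =>
    obtain ⟨-, c, j, h1, h2⟩ := hL k (by simp)
    have h3 : J (ext P) (ofList (L.map LK)) (LK k) (so j) :=
      neg_typ h2 (LK_arg (F := F) h1)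
    exact .cons (ih fun k hk => hL k (by simp [hk])) (h3.toT rfl)

theorem gd_links (L : List (S × NE S × S)) : Gd (L.map LK) := by
  intro A hA
  obtain ⟨k, -, rfl⟩ := List.mem_map.1 hA
  exact .inr ⟨_, _, _, _, by simp, LK_eq k⟩

theorem has_links {L : List (S × NE S × S)} {k : S × NE S × S} (h : k ∈ L) :
    ∃ n, Has (L.map LK) n (LK k) := by
  have hw : ∀ k : S × NE S × S, wk (LK k) = LK k := fun k => by rw [LK_eq, wk_LT]
  induction L with
  | nil => cases h
  | cons k' L ih =>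
    rcases List.mem_cons.1 h with rfl | h
    · refine ⟨0, ?_⟩
      have h1 := Has.zero (L.map LK) (LK k)
      rw [hw] at h1
      exact h1
    · obtain ⟨n, hn⟩ := ih h
      refine ⟨n + 1, ?_⟩
      have h1 := Has.succ (LK k') hn
      rw [hw] at h1
      exact h1

theorem ofList_none {Γ : List (X S)} : ∀ {n : ℕ}, Γ.length ≤ n → ofList Γ n = none := by
  induction Γ with
  | nil => intro n _; rfl
  | cons B Γ ih =>
    intro n h
    cases n with
    | zero => simp only [List.length_cons, nonpos_iff_eq_zero, Nat.add_eq_zero_iff, List.length_eq_zero_iff, one_ne_zero, and_false] at h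
    | succ n =>
      show (ofList Γ n).map wk = none
      rw [ih (by simpa only [List.length_cons, add_le_add_iff_right] using h)]; rfl

/-- One falsity leads to another. -/
def CoR (P : Spec S) (G : Ctx (S ⊕ Cst S)) (b b' : S) : Prop :=
  ∃ E, J (ext P) (push (cb b) G) E (cb b')

theorem CoR.trans {G : Ctx (S ⊕ Cst S)} {b b' b'' : S} (h : CoR P G b b')
    (h' : CoR P G b' b'') : CoR P G b b'' := by
  obtain ⟨E, hE⟩ := h
  obtain ⟨E', hE'⟩ := h'
  exact ⟨_, J_cut (B := cb b'') hE' (N := E) (A' := cb b) hE⟩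

theorem CoR.link {F : S → Prop} {G : Ctx (S ⊕ Cst S)} {k : S × NE S × S} (hk : LKok P F k)
    {n : ℕ} (hn : G n = some (LK k)) : CoR P G k.2.2 k.2.1.b := by
  obtain ⟨-, c, j, h1, h2⟩ := hk
  have h3 : J (ext P) (push (cb k.2.2) G) (var (n + 1)) (wk (LK k)) := (J.var hn).wk _
  have h4 : wk (LK k) = LK k := by rw [LK_eq, wk_LT]
  rw [h4] at h3
  have h5 : J (ext P) (push (cb k.2.2) G) (pi (ct k.1) (cb k.2.2)) (so c) :=
    LK_arg (F := F) h1
  have h6 : J (ext P) (push (cb k.2.2) G) (lam (ct k.1) (var 1)) (pi (ct k.1) (cb k.2.2)) := by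
    refine .lam ?_ h5
    exact .var (n := 1) (A := cb k.2.2) rfl
  obtain ⟨Q, hQ⟩ := neg_app h2 h5 h3 h6
  exact ⟨Q, hQ⟩

theorem countable_cst [Countable S] : Countable (Cst S) := by
  refine Function.Injective.countable (β := Fin 3 × S) (f := fun k => match k with
    | .bot s => (0, s)
    | .top s => (1, s)
    | .pt s => (2, s)) ?_
  intro a b h
  cases a <;> cases b <;> simp at h <;> simp [h]

/-- The paradox excludes weak normalization. -/
theorem not_wn [Finite S] {F : S → Prop} {C : Set S} {d : Pdat S} (h : Pok P F C d)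
    (hl : ∀ s, Liv P s) {L : List (S × NE S × S)} (hL : ∀ k ∈ L, LKok P F k)
    (hF : ∀ b b', F b → F b' →
      Relation.ReflTransGen (fun x y => ∃ k ∈ L, k.2.2 = x ∧ k.2.1.b = y) b b') : ¬ WNKindVar P := by
  intro hw
  have hΓ : WFi P (L.map LK) := wfi_links hL
  have hno : ∀ M b, ¬ T (ext P) (L.map LK) M (cb b) := by
    intro M b hM
    obtain ⟨N, hr, hn⟩ := wn_ext hl hw hΓ hM
    exact (normal_gd N (gd_links L) (hM.red hΓ.wf hr) hn).1 [] b (.refl _)
  have : Countable S := Finite.to_countable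
  have : Countable (Cst S) := countable_cst
  have hC : Con (ext P) (fun s => ∃ b, F b ∧ s = Sum.inr (.bot b)) (ofList (L.map LK)) := by
    rintro M s ⟨b, -, rfl⟩ hM
    exact hno M b (hM.toT rfl)
  obtain ⟨G, h1, h2, h3, h4⟩ := exists_henkin (n0 := (L.map LK).length)
    (fun n hn => ofList_none hn) hΓ.wf.wfc hC
  refine Pdat.paradox h (D := G) ⟨h1, ?_, fun b hb M hM => h3 M _ ⟨b, hb, rfl⟩ hM, ?_⟩
  · intro b b' hb hb'
    have h5 := hF b b' hb hb'
    induction h5 with
    | refl => exact ⟨var 0, .var rfl⟩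
    | @tail b1 b2 h6 h7 ih =>
      obtain ⟨k, hk, rfl, rfl⟩ := h7
      obtain ⟨n, hn⟩ := has_links hk
      have hk' := hL k hk
      exact CoR.trans (ih hk'.1) (CoR.link hk' (h2 _ _ (ofList_has hn)))
  · intro K D s1 s2 hK hD
    rcases h4 K D s1 s2 hK hD with h5 | ⟨M, s, ⟨b, hb, rfl⟩, hM⟩
    · exact .inl h5
    · exact .inr ⟨M, b, hb, hM⟩

end Vale.Agent.P340.Vy
end

section

/-! From graphs of sorts to the data of the paradox. -/

namespace Vale.Agent.P340.Vy

universe u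
variable {S : Type u} {P : Spec S}

open Tm

/-- Walks with labelled edges, with the number of edges labelled `true`. -/
inductive GW (R : Bool → S → S → Prop) (a : S) : ℕ → S → Prop where
  | nil : GW R a 0 a
  | even {n : ℕ} {b c : S} : GW R a n b → R false b c → GW R a n c
  | odd {n : ℕ} {b c : S} : GW R a n b → R true b c → GW R a (n + 1) c

theorem GW.trans {R : Bool → S → S → Prop} {a b c : S} {n m : ℕ} (h : GW R a n b)
    (h' : GW R b m c) : GW R a (n + m) c := by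
  induction h' with
  | nil => exact h
  | even _ h' ih => exact .even ih h'
  | odd _ h' ih => exact .odd ih h'

theorem GW.mono {R R' : Bool → S → S → Prop} (hR : ∀ q a b, R q a b → R' q a b) {a b : S}
    {n : ℕ} (h : GW R a n b) : GW R' a n b := by
  induction h with
  | nil => exact .nil
  | even _ h ih => exact .even ih (hR _ _ _ h)
  | odd _ h ih => exact .odd ih (hR _ _ _ h)

/-- Steps between propositions of sorts in `C`. -/
def RC (P : Spec S) (C : Set S) (q : Bool) (i j : S) : Prop :=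
  i ∈ C ∧ j ∈ C ∧ if q then ∃ b, P.rule i b j else ∃ a, P.rule a i j

/-- The sorts of the falsities. -/
def Lf (P : Spec S) (C : Set S) (b : S) : Prop := ∃ a ∈ C, ∃ c ∈ C, P.rule a b c

theorem np_of_gw {C : Set S} {i j : S} {n : ℕ} (h : GW (RC P C) i n j) :
    (n = 0 → ∃ L, AR P i L j) ∧
      (n ≠ 0 → ∃ l : List (NE S), l.length = n ∧ NP P (Lf P C) i l j) := by
  induction h with
  | nil => exact ⟨fun _ => ⟨[], .nil⟩, fun h => absurd rfl h⟩
  | @even n b c _ h ih =>
    obtain ⟨hb, hc, a, ha⟩ := h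
    refine ⟨fun hn => ?_, fun hn => ?_⟩
    · obtain ⟨L, hL⟩ := ih.1 hn
      exact ⟨_, .cons hL ha⟩
    · obtain ⟨l, h1, h2⟩ := ih.2 hn
      cases h2 with
      | nil => exact absurd h1.symm hn
      | @cons l b1 _ n1 h2 h3 =>
        obtain ⟨h4, a1, m1, h5, h6, h7⟩ := h3
        exact ⟨⟨n1.L1, n1.b, a :: n1.L3⟩ :: l, h1, .cons h2 ⟨h4, a1, m1, h5, h6, .cons h7 ha⟩⟩
  | @odd n b c _ h ih =>
    obtain ⟨hb, hc, x, hx⟩ := h
    refine ⟨fun hn => by omega, fun _ => ?_⟩
    by_cases hn : n = 0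
    · obtain ⟨L, hL⟩ := ih.1 hn
      subst hn
      exact ⟨[⟨L, x, []⟩], rfl, .cons .nil ⟨⟨b, hb, c, hc, hx⟩, b, c, hL, hx, .nil⟩⟩
    · obtain ⟨l, h1, h2⟩ := ih.2 hn
      exact ⟨⟨[], x, []⟩ :: l, by rw [List.length_cons, h1],
        .cons h2 ⟨⟨b, hb, c, hc, hx⟩, b, c, .nil, hx, .nil⟩⟩

/-- Dummy steps to the sorts of kinds. -/
theorem ks_ar {C : Set S} {b : S} (h : KS P C b) :
    ∃ j ∈ C, ∃ t L, P.ax j t ∧ AR P t L b := by
  induction h with
  | @ax c m hc h => exact ⟨c, hc, m, [], h, .nil⟩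
  | @rule a b m _ h ih =>
    obtain ⟨j, hj, t, L, h1, h2⟩ := ih
    exact ⟨j, hj, t, a :: L, h1, .cons h2 h⟩

/-- Steps between kinds. -/
def RK (P : Spec S) (C : Set S) (q : Bool) (a m : S) : Prop :=
  KS P C a ∧ if q then ∃ b, KS P C b ∧ P.rule a b m else ∃ y, P.rule y a m

/-- Steps between kinds with sorts in `V`. -/
def RV (P : Spec S) (C V : Set S) (q : Bool) (a m : S) : Prop := a ∈ V ∧ m ∈ V ∧ RK P C q a m

/-- Walks of powers with vertices in `V`. -/
inductive PV (P : Spec S) (C V : Set S) (a : S) : List (PE S) → S → Prop where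
  | nil : a ∈ V → PV P C V a [] a
  | cons {l : List (PE S)} {b b' : S} {g : PE S} : PV P C V a l b → PT P C g b b' → b' ∈ V →
      PV P C V a (g :: l) b'

theorem pv_of_gw {C V : Set S} {i j : S} {n : ℕ} (h : GW (RV P C V) i n j) (hi : i ∈ V) :
    (n = 0 → ∃ L, AR P i L j) ∧
      (n ≠ 0 → ∃ l : List (PE S), l.length = n ∧ PV P C V i l j) := by
  induction h with
  | nil => exact ⟨fun _ => ⟨[], .nil⟩, fun h => absurd rfl h⟩
  | @even n b c _ h ih =>
    obtain ⟨hb, hc, -, a, ha⟩ := h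
    refine ⟨fun hn => ?_, fun hn => ?_⟩
    · obtain ⟨L, hL⟩ := ih.1 hn
      exact ⟨_, .cons hL ha⟩
    · obtain ⟨l, h1, h2⟩ := ih.2 hn
      cases h2 with
      | nil _ => exact absurd h1.symm hn
      | @cons l b1 _ g h2 h3 _ =>
        obtain ⟨h4, a1, t1, b2, m1, h5, h6, h7, h8, h9⟩ := h3
        exact ⟨⟨g.L1, g.j, g.L2, a :: g.L3⟩ :: l, h1,
          .cons h2 ⟨h4, a1, t1, b2, m1, h5, h6, h7, h8, .cons h9 ha⟩ hc⟩
  | @odd n b c _ h ih =>
    obtain ⟨hb, hc, -, x, hx, hr⟩ := h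
    obtain ⟨j, hj, t, L2, k1, k2⟩ := ks_ar hx
    refine ⟨fun hn => by omega, fun _ => ?_⟩
    by_cases hn : n = 0
    · obtain ⟨L, hL⟩ := ih.1 hn
      subst hn
      exact ⟨[⟨L, j, L2, []⟩], rfl, .cons (.nil hi) ⟨hj, b, t, x, c, hL, k1, k2, hr, .nil⟩ hc⟩
    · obtain ⟨l, h1, h2⟩ := ih.2 hn
      exact ⟨⟨[], j, L2, []⟩ :: l, by rw [List.length_cons, h1],
        .cons h2 ⟨hj, b, t, x, c, .nil, k1, k2, hr, .nil⟩ hc⟩

theorem PV.pair {C V : Set S} {i : S} : ∀ (n : ℕ) {j : S} {l : List (PE S)},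
    PV P C V i l j → l.length = 2 * n → ∃ l', RP2 P C i l' j := by
  intro n
  induction n with
  | zero =>
    intro j l h hl
    cases h with
    | nil _ => exact ⟨[], .nil⟩
    | cons _ _ _ => simp at hl
  | succ n ih =>
    intro j l h hl
    cases h with
    | nil _ => simp at hl
    | cons h h1 _ =>
      cases h with
      | nil _ => simp at hl; omega
      | cons h h2 _ =>
        simp only [List.length_cons] at hl
        obtain ⟨l', h3⟩ := ih h (by omega)
        exact ⟨_, .cons h3 h2 h1⟩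

/-- The conditions for the paradox on the sorts of kinds. -/
structure Bad (P : Spec S) (C V : Set S) : Prop where
  ks : ∀ v ∈ V, KS P C v
  scc : ∀ v ∈ V, ∀ v' ∈ V, ∃ n, GW (RV P C V) v n v'
  odd : ∃ a ∈ V, ∃ m ∈ V, ∃ b, KS P C b ∧ P.rule a b m
  cov : ∀ v ∈ V, ∃ q n, Even n ∧ GW (RK P C) v n q ∧ ∃ b ∈ C, ∃ c ∈ C, P.rule q b c
  poly : ∃ k ∈ V, ∃ b ∈ V, ∃ m ∈ V, ∃ a, KS P {k} a ∧ P.rule a b m

theorem Bad.long {C V : Set S} (h : Bad P C V) {v v' : S} (hv : v ∈ V) (hv' : v' ∈ V)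
    (N : ℕ) : ∃ n, N ≤ n ∧ GW (RV P C V) v n v' := by
  obtain ⟨a, ha, m, hm, b, hb, hr⟩ := h.odd
  have hstep : RV P C V true a m := ⟨ha, hm, h.ks a ha, b, hb, hr⟩
  have key : ∃ n, N ≤ n ∧ GW (RV P C V) v n v := by
    induction N with
    | zero => exact ⟨0, le_rfl, .nil⟩
    | succ N ih =>
      obtain ⟨n, h1, h2⟩ := ih
      obtain ⟨n1, h3⟩ := h.scc v hv a ha
      obtain ⟨n2, h4⟩ := h.scc m hm v hv
      exact ⟨_, by omega, h2.trans ((h3.odd hstep).trans h4)⟩
  obtain ⟨n, h1, h2⟩ := key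
  obtain ⟨n1, h3⟩ := h.scc v hv v' hv'
  exact ⟨n + n1, by omega, h2.trans h3⟩

theorem GW.ks {C : Set S} {v q : S} {n : ℕ} (h : GW (RK P C) v n q) (hv : KS P C v) :
    KS P C q := by
  induction h with
  | nil => exact hv
  | even _ h ih =>
    obtain ⟨h1, y, h2⟩ := h
    exact .rule h1 h2
  | odd _ h ih =>
    obtain ⟨h1, b, h2, h3⟩ := h
    exact .rule h2 h3

/-- Covers. -/
theorem Bad.cover {C V : Set S} (h : Bad P C V) {v : S} (hv : v ∈ V) :
    ∃ l q qb qc, RP2 P C v l q ∧ qb ∈ C ∧ qc ∈ C ∧ P.rule q qb qc := by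
  obtain ⟨q, n, h1, h2, b, hb, c, hc, hr⟩ := h.cov v hv
  obtain ⟨n1, h3, h4⟩ := h.long hv hv 1
  let W : Set S := {x | KS P C x}
  have h5 : GW (RK P C) v (n1 + n1 + n) q :=
    ((h4.trans h4).mono fun _ _ _ h => h.2.2).trans h2
  have h6 : GW (RV P C W) v (n1 + n1 + n) q := by
    have key : ∀ {n q}, GW (RK P C) v n q → GW (RV P C W) v n q := by
      intro n q hq
      induction hq with
      | nil => exact .nil
      | @even n b c hq h1 ih =>
        refine .even ih ⟨hq.ks (h.ks v hv), ?_, h1⟩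
        exact (GW.even hq h1).ks (h.ks v hv)
      | @odd n b c hq h1 ih =>
        refine .odd ih ⟨hq.ks (h.ks v hv), ?_, h1⟩
        exact (GW.odd hq h1).ks (h.ks v hv)
    exact key h5
  obtain ⟨l, h7, h8⟩ := (pv_of_gw h6 (h.ks v hv)).2 (by omega)
  obtain ⟨k, hk⟩ := h1
  obtain ⟨l', h9⟩ := h8.pair (n1 + k) (by omega)
  exact ⟨l', q, b, c, h9, hb, hc, hr⟩

theorem cp_of_pv {C V : Set S} (h : Bad P C V) {i j : S} {l : List (PE S)}
    (hl : PV P C V i l j) : ∃ l' : List (CE S), l'.length = l.length ∧ CP P C i l' j := by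
  induction hl with
  | nil _ => exact ⟨[], rfl, .nil⟩
  | @cons l b b' g _ h1 h2 ih =>
    obtain ⟨l', h3, h4⟩ := ih
    obtain ⟨lc, q, qb, qc, h5, h6, h7, h8⟩ := h.cover h2
    exact ⟨⟨g, lc, qb, qc⟩ :: l', by rw [List.length_cons, List.length_cons, h3],
      .cons h4 ⟨h1, q, h5, h6, h7, h8⟩⟩

theorem Bad.path {C V : Set S} (h : Bad P C V) {v v' : S} (hv : v ∈ V) (hv' : v' ∈ V)
    (N : ℕ) : ∃ l : List (CE S), N ≤ l.length ∧ CP P C v l v' := by
  obtain ⟨n, h1, h2⟩ := h.long hv hv' (N + 1)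
  obtain ⟨l, h3, h4⟩ := (pv_of_gw h2 hv).2 (by omega)
  obtain ⟨l', h5, h6⟩ := cp_of_pv h h4
  exact ⟨l', by omega, h6⟩

theorem CP.snoc {C : Set S} {a b : S} {l : List (CE S)} (h : CP P C a l b) (hl : l ≠ []) :
    ∃ l' g c, l = l' ++ [g] ∧ CT P C g a c ∧ CP P C c l' b := by
  induction h with
  | nil => exact absurd rfl hl
  | @cons l b b' g h h' ih =>
    by_cases hl' : l = []
    · subst hl'
      cases h
      exact ⟨[], g, b', rfl, h', .nil⟩
    · obtain ⟨l', g', c, h1, h2, h3⟩ := ih hl'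
      exact ⟨g :: l', g', c, by rw [h1]; rfl, h2, .cons h3 h'⟩

/-! The block. -/

/-- The conditions on the block. -/
structure Blk (P : Spec S) (C : Set S) : Prop where
  bin : ∃ a ∈ C, ∃ b ∈ C, ∃ c ∈ C, P.rule a b c
  par : ∀ i ∈ C, ∀ j ∈ C, ∀ p : Bool, ∃ n, (Even n ↔ p = false) ∧ GW (RC P C) i n j

theorem Blk.np {C : Set S} (h : Blk P C) (p : Bool) {i j : S} (hi : i ∈ C) (hj : j ∈ C) :
    ∃ l, l ≠ [] ∧ (Even l.length ↔ p = false) ∧ NP P (Lf P C) i l j := by
  obtain ⟨n1, h1, h2⟩ := h.par i hi i hi true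
  obtain ⟨n2, h3, h4⟩ := h.par i hi j hj (!p)
  have h0 : ¬ Even n1 := by simp only [Bool.true_eq_false, iff_false, Nat.not_even_iff_odd] at h1; simpa only [Nat.not_even_iff_odd] using h1
  have h5 : n1 + n2 ≠ 0 := by
    intro e
    have : n1 = 0 := by omega
    subst this
    exact h0 ⟨0, rfl⟩
  obtain ⟨l, h6, h7⟩ := (np_of_gw (h2.trans h4)).2 h5
  refine ⟨l, fun e => h5 (by rw [← h6, e]; rfl), ?_, h7⟩
  rw [h6, Nat.even_add]
  cases p
  · have h8 : ¬ Even n2 := by
      intro h9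
      have := h3.1 h9
      simp at this
    simp only [h0, h8]
  · have h8 : Even n2 := h3.2 rfl
    simp only [h0, h8, iff_true, Bool.true_eq_false]

end Vale.Agent.P340.Vy
end

section

/-! From graphs of sorts to the paradox. -/

namespace Vale.Agent.P340.Vy

universe u
variable {S : Type u} {P : Spec S} {C V : Set S}

open Tm

theorem Blk.cok (h : Blk P C) : ∃ d : Cdat S, Cok P (Lf P C) C d := by
  classical
  obtain ⟨a, ha, b, hb, c, hc, hr⟩ := h.bin
  have h1 : ∀ (p : Bool) (i j : S), ∃ l : List (NE S), i ∈ C → j ∈ C →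
      l ≠ [] ∧ (Even l.length ↔ p = false) ∧ NP P (Lf P C) i l j := by
    intro p i j
    by_cases hi : i ∈ C ∧ j ∈ C
    · obtain ⟨l, h1⟩ := h.np p hi.1 hi.2
      exact ⟨l, fun _ _ => h1⟩
    · exact ⟨[], fun h1 h2 => absurd ⟨h1, h2⟩ hi⟩
  choose w hw using h1
  refine ⟨⟨a, w, a, b, c⟩, ha, ha, hb, hc, hr, fun p i hi j hj => (hw p i j hi hj).2.2,
    fun p i hi j hj => (hw p i j hi hj).1, fun i hi j hj he => ?_,
    fun i hi j hj => (hw false i j hi hj).2.1.2 rfl⟩
  have := (hw true i j hi hj).2.1.1 he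
  simp at this

theorem CP.cons_inv {a b : S} {l : List (CE S)} {n : ℕ} (h : CP P C a l b)
    (hl : n + 1 ≤ l.length) :
    ∃ g l' b', l = g :: l' ∧ n ≤ l'.length ∧ CP P C a l' b' ∧ CT P C g b' b := by
  cases h with
  | nil => simp only [List.length_nil, nonpos_iff_eq_zero, Nat.add_eq_zero_iff, one_ne_zero, and_false] at hl
  | @cons l b1 _ g h h' =>
    exact ⟨g, l, b1, rfl, by simpa only [List.length_cons, add_le_add_iff_right] using hl, h, h'⟩

theorem Bad.pok (hB : Blk P C) (h : Bad P C V) : ∃ d : Pdat S, Pok P (Lf P C) C d := by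
  obtain ⟨c, hc⟩ := hB.cok
  obtain ⟨k, hk, b, hb, m, hm, a, ha, hr⟩ := h.poly
  obtain ⟨k', hk', k1, L0, g1, g2⟩ := ks_ar ha
  obtain rfl : k' = k := hk'
  obtain ⟨l, hl, hp⟩ := h.path hk hb 7
  obtain ⟨h6, l, v5, rfl, hl, hp, e6⟩ := hp.cons_inv hl
  obtain ⟨h5, l, v4, rfl, hl, hp, e5⟩ := hp.cons_inv hl
  obtain ⟨h4, l, v3, rfl, hl, hp, e4⟩ := hp.cons_inv hl
  obtain ⟨h3, l, v2, rfl, hl, hp, e3⟩ := hp.cons_inv hl
  obtain ⟨h2, l, v1, rfl, hl, hp, e2⟩ := hp.cons_inv hl
  obtain ⟨h1, l, v0, rfl, hl, hp, e1⟩ := hp.cons_inv hl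
  obtain ⟨hN, l, vL, rfl, hl, hp, eN⟩ := hp.cons_inv hl
  obtain ⟨l2, hl2, hp2⟩ := h.path hm hk 2
  obtain ⟨l3, hz, vO, rfl, ez, hp3⟩ := hp2.snoc (by intro e; simp [e] at hl2)
  obtain ⟨l4, ho, vP, e', eo, hp4⟩ := hp3.snoc (by intro e; simp only [e, List.nil_append, List.length_cons, List.length_nil, zero_add, Nat.not_ofNat_le_one] at hl2)
  exact ⟨⟨c, hN, h1, h2, h3, h4, h5, h6, hz, ho, ⟨L0, k'⟩, l, l3, vL, v0, v1, v2, v3, v4, v5,
    b, m, vO, vP⟩, hc, hp, eN, e1, e2, e3, e4, e5, e6, ⟨k1, a, g1, g2, hr⟩, ez, eo, hp3⟩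

/-- Links between falsities. -/
def LinkRel (P : Spec S) (C : Set S) (x y : S) : Prop :=
  ∃ k, LKok P (Lf P C) k ∧ k.2.2 = x ∧ k.2.1.b = y

theorem link_walk {a b c a' : S} {n : ℕ} (h : GW (RC P C) c n a') (hr : P.rule a b c)
    (ha : a ∈ C) (hc : c ∈ C) :
    ∃ b1 a1 c1 L, a1 ∈ C ∧ c1 ∈ C ∧ Relation.ReflTransGen (LinkRel P C) b b1 ∧
      P.rule a1 b1 c1 ∧ AR P c1 L a' := by
  induction h with
  | nil => exact ⟨b, a, c, [], ha, hc, .refl, hr, .nil⟩
  | @even n x y _ h ih =>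
    obtain ⟨b1, a1, c1, L, h1, h2, h3, h4, h5⟩ := ih
    obtain ⟨hx, hy, z, hz⟩ := h
    exact ⟨b1, a1, c1, z :: L, h1, h2, h3, h4, .cons h5 hz⟩
  | @odd n x y _ h ih =>
    obtain ⟨b1, a1, c1, L, h1, h2, h3, h4, h5⟩ := ih
    obtain ⟨hx, hy, z, hz⟩ := h
    refine ⟨z, x, y, [], hx, hy, h3.tail ?_, hz, .nil⟩
    exact ⟨⟨a1, ⟨L, z, []⟩, b1⟩, ⟨⟨a1, h1, c1, h2, h4⟩, c1, y, h4, ⟨x, hx, y, hy, hz⟩, x, y,
      h5, hz, .nil⟩, rfl, rfl⟩

theorem links [Finite S] (hB : Blk P C) : ∃ L : List (S × NE S × S),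
    (∀ k ∈ L, LKok P (Lf P C) k) ∧ ∀ b b', Lf P C b → Lf P C b' →
      Relation.ReflTransGen (fun x y => ∃ k ∈ L, k.2.2 = x ∧ k.2.1.b = y) b b' := by
  classical
  have := Fintype.ofFinite S
  let f : S × S → Option (S × NE S × S) := fun p =>
    if h : LinkRel P C p.1 p.2 then some h.choose else none
  have hf : ∀ p k, f p = some k → LKok P (Lf P C) k ∧ k.2.2 = p.1 ∧ k.2.1.b = p.2 := by
    intro p k h
    by_cases hp : LinkRel P C p.1 p.2
    · simp only [f, dif_pos hp, Option.some.injEq] at h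
      subst h
      exact hp.choose_spec
    · simp [f, dif_neg hp] at h
  refine ⟨(Finset.univ : Finset (S × S)).toList.filterMap f, ?_, ?_⟩
  · intro k hk
    obtain ⟨p, -, hp⟩ := List.mem_filterMap.1 hk
    exact (hf p k hp).1
  · intro b b' hb hb'
    have key : Relation.ReflTransGen (LinkRel P C) b b' := by
      obtain ⟨a, ha, c, hc, hr⟩ := hb
      obtain ⟨a', ha', c', hc', hr'⟩ := hb'
      obtain ⟨n, -, hn⟩ := hB.par c hc a' ha' true
      obtain ⟨b1, a1, c1, L, h1, h2, h3, h4, h5⟩ := link_walk hn hr ha hc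
      refine h3.tail ?_
      exact ⟨⟨a1, ⟨L, b', []⟩, b1⟩, ⟨⟨a1, h1, c1, h2, h4⟩, c1, c', h4,
        ⟨a', ha', c', hc', hr'⟩, a', c', h5, hr', .nil⟩, rfl, rfl⟩
    refine Relation.ReflTransGen.mono (r := LinkRel P C) (fun x y hxy => ?_) _ _ key
    have h1 : f (x, y) = some hxy.choose := dif_pos hxy
    exact ⟨hxy.choose, List.mem_filterMap.2 ⟨(x, y), by simp only [Finset.mem_toList, Finset.mem_univ], h1⟩, hxy.choose_spec.2⟩

/-- The paradox in terms of the graphs of sorts. -/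
theorem not_wn_of_bad [Finite S] (hl : ∀ s, Liv P s) (hB : Blk P C) (hV : Bad P C V) :
    ¬ WNKindVar P := by
  obtain ⟨d, hd⟩ := hV.pok hB
  obtain ⟨L, h1, h2⟩ := links hB
  exact not_wn hd hl h1 h2

end Vale.Agent.P340.Vy
end

section

/-! The model of a block without products of two types of the block. -/

namespace Vale.Agent.P340

universe u
variable {S : Type u} {P : Spec S} {C : Set S}

open Tm

/-- No rule has all three components in `C`. -/
def Lin (P : Spec S) (C : Set S) : Prop := ∀ a b c, P.rule a b c → a ∈ C → b ∈ C → c ∉ C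

namespace PolL

/-- Candidates. -/
abbrev Cd (C : Set S) : Type u := {X : Set (LTm (Lb S)) // CR (labs C) X}

/-- The largest candidate. -/
def top (C : Set S) : Cd C := ⟨snS (labs C), cr_sn⟩

/-- The smallest candidate. -/
def bot (C : Set S) : Cd C :=
  haveI : Nonempty (Cd C) := ⟨top C⟩
  ⟨{M | ∀ Y : Cd C, M ∈ Y.1}, cr_inter fun Y : Cd C => Y.2⟩

theorem bot_le {Y : Set (LTm (Lb S))} (h : CR (labs C) Y) : (bot C).1 ⊆ Y :=
  fun _ hM => hM ⟨Y, h⟩

/-- Extension of an assignment of candidates. -/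
def cons (X : Cd C) (ρ : ℕ → Cd C) : ℕ → Cd C
  | 0 => X
  | n + 1 => ρ n

/-- Change of an assignment at one variable. -/
def upd (ρ : ℕ → Cd C) (x : ℕ) (X : Cd C) : ℕ → Cd C := fun n => if n = x then X else ρ n

theorem upd_cons (ρ : ℕ → Cd C) (x : ℕ) (X Z : Cd C) :
    upd (cons Z ρ) (x + 1) X = cons Z (upd ρ x X) := by
  funext n
  cases n with
  | zero => rfl
  | succ n =>
    show (if n + 1 = x + 1 then X else ρ n) = if n = x then X else ρ n
    by_cases h : n = x
    · rw [if_pos h, if_pos (by rw [h])]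
    · rw [if_neg h, if_neg (fun h' => h (Nat.succ.inj h'))]

/-- The head variable. -/
def hdv : Tm S → Option ℕ
  | var n => some n
  | app F _ => hdv F
  | _ => none

/-- The interpretation of normal types. -/
def I (P : Spec S) (C : Set S) : Tm S → Ctx S → (ℕ → Cd C) → Set (LTm (Lb S))
  | pi A B, G, ρ => {T | SnX (labs C) T ∧ ∀ a b c, J P G A (sort a) →
      J P (push A G) B (sort b) → P.rule a b c → c ∈ C → ∀ X : Cd C,
        T ∈ arr (some (a, b, c)) (DS C a (I P C A G ρ)) (DS C b (I P C B (push A G) (cons X ρ)))}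
  | var n, _, ρ => (ρ n).1
  | app F _, _, ρ => match hdv F with
    | some n => (ρ n).1
    | none => snS (labs C)
  | _, _, _ => snS (labs C)

theorem I_hd {M : Tm S} {n : ℕ} (h : hdv M = some n) (G : Ctx S) (ρ : ℕ → Cd C) :
    I P C M G ρ = (ρ n).1 := by
  cases M with
  | var k => cases h; rfl
  | app F N =>
    have h' : hdv F = some n := h
    show (match hdv F with
      | some n => (ρ n).1
      | none => snS (labs C)) = _
    rw [h']
  | _ => cases h

theorem cr_I (M : Tm S) : ∀ (G : Ctx S) (ρ : ℕ → Cd C), CR (labs C) (I P C M G ρ) := by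
  induction M with
  | pi A B ihA ihB =>
    intro G ρ
    have h := cr_inf (X := labs C)
      (ι := {i : (S × S × S) × Cd C // J P G A (sort i.1.1) ∧ J P (push A G) B (sort i.1.2.1) ∧
        P.rule i.1.1 i.1.2.1 i.1.2.2 ∧ i.1.2.2 ∈ C})
      (Y := fun i => arr (some (i.1.1.1, i.1.1.2.1, i.1.1.2.2)) (DS C i.1.1.1 (I P C A G ρ))
        (DS C i.1.1.2.1 (I P C B (push A G) (cons i.1.2 ρ))))
      (fun i => cr_arr (DS.cr fun _ => ihA _ _) (DS.cr fun _ => ihB _ _))
    have e : I P C (pi A B) G ρ = {M | SnX (labs C) M ∧ ∀ i : {i : (S × S × S) × Cd C //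
        J P G A (sort i.1.1) ∧ J P (push A G) B (sort i.1.2.1) ∧
        P.rule i.1.1 i.1.2.1 i.1.2.2 ∧ i.1.2.2 ∈ C},
        M ∈ arr (some (i.1.1.1, i.1.1.2.1, i.1.1.2.2)) (DS C i.1.1.1 (I P C A G ρ))
        (DS C i.1.1.2.1 (I P C B (push A G) (cons i.1.2 ρ)))} := by
      ext T
      exact ⟨fun h => ⟨h.1, fun i => h.2 _ _ _ i.2.1 i.2.2.1 i.2.2.2.1 i.2.2.2.2 _⟩,
        fun h => ⟨h.1, fun a b c h1 h2 h3 h4 X => h.2 ⟨((a, b, c), X), h1, h2, h3, h4⟩⟩⟩
    rw [e]; exact h
  | var n => intro G ρ; exact (ρ n).2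
  | app F N _ _ =>
    intro G ρ
    show CR _ (match hdv F with
      | some n => (ρ n).1
      | none => snS (labs C))
    cases hdv F with
    | none => exact cr_sn
    | some n => exact (ρ n).2
  | _ => intro G ρ; exact cr_sn

theorem I_pi (hP : Functional P) {A B : Tm S} {G : Ctx S} {a b c : S}
    (hA : J P G A (sort a)) (hB : J P (push A G) B (sort b)) (hr : P.rule a b c)
    (ρ : ℕ → Cd C) :
    I P C (pi A B) G ρ = {T | SnX (labs C) T ∧ (c ∈ C → ∀ X : Cd C,
        T ∈ arr (some (a, b, c)) (DS C a (I P C A G ρ))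
          (DS C b (I P C B (push A G) (cons X ρ))))} := by
  ext T
  constructor
  · intro h; exact ⟨h.1, fun hc => h.2 a b c hA hB hr hc⟩
  · intro h
    refine ⟨h.1, fun a' b' c' h1 h2 h3 h4 => ?_⟩
    cases hP.sortJ hA h1
    cases hP.sortJ hB h2
    cases hP.rule hr h3
    exact h.2 h4

/-- Invariance under a change of the context. -/
theorem I_ctx (M : Tm S) : ∀ {G G' : Ctx S} (ρ : ℕ → Cd C), CLe P G G' → CLe P G' G →
    I P C M G ρ = I P C M G' ρ := by
  induction M with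
  | pi A B ihA ihB =>
    intro G G' ρ h h'
    have eA := ihA ρ h h'
    have eB := fun X : Cd C => ihB (cons X ρ) (h.push A) (h'.push A)
    simp only [I, eA, eB]
    ext T
    refine and_congr Iff.rfl ⟨fun k a b c h1 h2 h3 => ?_, fun k a b c h1 h2 h3 => ?_⟩
    · exact k a b c (h1.le h') (h2.le (h'.push A)) h3
    · exact k a b c (h1.le h) (h2.le (h.push A)) h3
  | _ => intros; rfl

theorem hdv_step {M N : Tm S} (h : Step M N) : ∀ {n : ℕ}, hdv M = some n → hdv N = some n := by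
  induction h with
  | beta A M N => intro n h; cases h
  | appL N _ ih => intro n h; exact ih h
  | appR M _ _ => intro n h; exact h
  | _ => intro n h; cases h

theorem hdv_red {M N : Tm S} (h : Red M N) {n : ℕ} (hn : hdv M = some n) : hdv N = some n := by
  induction h with
  | refl => exact hn
  | tail _ hs ih => exact hdv_step hs ih

theorem hdv_sub {M : Tm S} {n k : ℕ} (h : hdv M = some n) {σ : ℕ → Tm S} (hk : σ n = var k) :
    hdv (M.sub σ) = some k := by
  induction M with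
  | var m => cases h; show hdv (σ n) = _; rw [hk]; rfl
  | app F N ih _ => exact ih h
  | _ => cases h

theorem hdv_ex {G : Ctx S} {M A B : Tm S} (hn : Normal M) (hl : ∀ Q R, M ≠ lam Q R)
    (hM : J P G M (pi A B)) : ∃ n D, hdv M = some n ∧ G n = some D := by
  induction M generalizing A B with
  | var n =>
    obtain ⟨D, h1, -⟩ := hM.var_inv
    exact ⟨n, D, rfl, h1⟩
  | sort s =>
    obtain ⟨t, -, h⟩ := hM.sort_inv
    exact absurd h (fun h => h.sort_pi)
  | app F N ih _ =>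
    obtain ⟨A', B', h1, -, -⟩ := hM.app_inv
    refine ih hn.appL ?_ h1
    rintro Q R rfl
    exact hn _ (.beta _ _ _)
  | lam A1 M _ _ => exact absurd rfl (hl _ _)
  | pi A' B' _ _ =>
    obtain ⟨_, _, _, -, -, -, h⟩ := hM.pi_inv
    exact absurd h (fun h => h.sort_pi)

/-- Substitutions of variables for variables with the same candidates. -/
def VOk (G : Ctx S) (σ : ℕ → Tm S) (ρ ρ' : ℕ → Cd C) (p : ℕ → Prop) : Prop :=
  ∀ n A, p n → G n = some A → ∃ k, σ n = var k ∧ ρ' k = ρ n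

theorem VOk.up {G : Ctx S} {σ : ℕ → Tm S} {ρ ρ' : ℕ → Cd C} {p : ℕ → Prop}
    (h : VOk G σ ρ ρ' p) (A : Tm S) (X : Cd C) {q : ℕ → Prop} (hq : ∀ n, q (n + 1) → p n) :
    VOk (push A G) (ups σ) (cons X ρ) (cons X ρ') q := by
  intro n B hn hB
  cases n with
  | zero => exact ⟨0, rfl, rfl⟩
  | succ n =>
    rw [push_succ, Option.map_eq_some_iff] at hB
    obtain ⟨B, hB, -⟩ := hB
    obtain ⟨k, h1, h2⟩ := h n B (hq n hn) hB
    exact ⟨k + 1, by show wk (σ n) = _; rw [h1]; rfl, h2⟩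

theorem ds_mono {a : S} {Y Y' : Set (LTm (Lb S))} (h : a ∈ C → Y ⊆ Y') : DS C a Y ⊆ DS C a Y' :=
  fun _ hT => ⟨hT.1, fun ha => h ha (hT.2 ha)⟩

theorem arr_mono {l : Lb S} {Y Y' Z Z' : Set (LTm (Lb S))} (h1 : Y' ⊆ Y) (h2 : Z ⊆ Z') :
    arr l Y Z ⊆ arr l Y' Z' := fun _ hT _ hN => h2 (hT _ (h1 hN))

/-- The normal form of a product after substitution. -/
theorem nf_sub_pi (hW : WNKindVar P) {G D : Ctx S} {σ : ℕ → Tm S} {A B : Tm S} {a b : S}
    (hD : WFC P D) (hN : NCtx P D) (hσ : SubC P G D σ) (h1 : J P G A (sort a))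
    (h2 : J P (push A G) B (sort b)) :
    nf ((pi A B).sub σ) = pi (nf (A.sub σ)) (nf (B.sub (ups σ))) ∧
    J P D (nf (A.sub σ)) (sort a) ∧ J P (push (nf (A.sub σ)) D) (nf (B.sub (ups σ))) (sort b) ∧
    CLe P (push (A.sub σ) D) (push (nf (A.sub σ)) D) ∧
    CLe P (push (nf (A.sub σ)) D) (push (A.sub σ) D) ∧
    WFC P (push (A.sub σ) D) ∧ NCtx P (push (A.sub σ) D) := by
  have kA : J P D (A.sub σ) (sort a) := h1.sub hσ
  have hD' := hD.push kA
  have kB : J P (push (A.sub σ) D) (B.sub (ups σ)) (sort b) := h2.sub (hσ.up A)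
  have nA : HN (A.sub σ) := hN.hn hW kA
  have nB : HN (B.sub (ups σ)) := (hN.push kA).hn hW kB
  have kA' := kA.red hD nA.red
  have l1 : CLe P (push (A.sub σ) D) (push (nf (A.sub σ)) D) := CLe.conv kA nA.red.conv
  have l2 : CLe P (push (nf (A.sub σ)) D) (push (A.sub σ) D) := CLe.conv kA' nA.red.conv.symm
  exact ⟨nA.nf_pi nB, kA', (kB.red hD' nB.red).le l1, l1, l2, hD', hN.push kA⟩

theorem I_sub (hP : Functional P) (hW : WNKindVar P) (M : Tm S) : ∀ {G D : Ctx S} {σ : ℕ → Tm S} {c : S}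
    {ρ ρ' : ℕ → Cd C}, WFC P D → NCtx P D → SubC P G D σ →
    VOk G σ ρ ρ' (fun _ => True) → Normal M → J P G M (sort c) →
    I P C (nf (M.sub σ)) D ρ' = I P C M G ρ := by
  induction M with
  | var n =>
    intro G D σ c ρ ρ' hD hN hσ hv hn hM
    obtain ⟨A', h1, -⟩ := hM.var_inv
    obtain ⟨k, hk, hk'⟩ := hv n A' trivial h1
    show I P C (nf (σ n)) D ρ' = (ρ n).1
    rw [hk, nf_normal (normal_var k), ← hk']; rfl
  | sort s =>
    intro G D σ c ρ ρ' hD hN hσ hv hn hM
    show I P C (nf (sort s)) D ρ' = _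
    rw [nf_normal (normal_sort s)]; rfl
  | app F N _ _ =>
    intro G D σ c ρ ρ' hD hN hσ hv hn hM
    obtain ⟨A', B', h1, -, -⟩ := hM.app_inv
    obtain ⟨n, A1, h2, h3⟩ := hdv_ex hn.appL (by rintro Q R rfl; exact hn _ (.beta _ _ _)) h1
    obtain ⟨k, hk, hk'⟩ := hv n A1 trivial h3
    have h4 : hdv (app F N) = some n := h2
    have h5 : hdv ((app F N).sub σ) = some k := hdv_sub h4 hk
    have h6 : HN ((app F N).sub σ) := hN.hn hW (hM.sub hσ)
    rw [I_hd (hdv_red h6.red h5), I_hd h4, hk']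
  | lam A M _ _ =>
    intro G D σ c ρ ρ' hD hN hσ hv hn hM
    obtain ⟨B, a, b, c, -, -, -, -, h⟩ := hM.lam_inv'
    exact absurd h.symm (fun h => h.sort_pi)
  | pi A B ihA ihB =>
    intro G D σ c ρ ρ' hD hN hσ hv hn hM
    obtain ⟨a, b, c', h1, h2, h3, -⟩ := hM.pi_inv
    obtain ⟨e, k1, k2, l1, l2, hD', hN'⟩ := nf_sub_pi hW hD hN hσ h1 h2
    rw [e, I_pi hP k1 k2 h3, I_pi hP h1 h2 h3, ihA hD hN hσ hv hn.piL h1]
    have eB : ∀ X : Cd C, I P C (nf (B.sub (ups σ))) (push (nf (A.sub σ)) D) (cons X ρ') =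
        I P C B (push A G) (cons X ρ) := by
      intro X
      rw [← I_ctx _ _ l1 l2]
      exact ihB hD' hN' (hσ.up A) (hv.up A X fun _ _ => trivial) hn.piR h2
    simp only [eB]

/-- Substitution for one variable, up to inclusions. -/
theorem I_key (hP : Functional P) (hW : WNKindVar P) (hL : Lin P C) (M : Tm S) : ∀ {G : Ctx S} {c : S},
    WFC P G → Normal M → J P G M (sort c) → c ∈ C → ∃ X Y : Cd C,
      ∀ {D : Ctx S} {σ : ℕ → Tm S} {x : ℕ} {ρ ρ' : ℕ → Cd C}, WFC P D → NCtx P D →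
        SubC P G D σ → VOk G σ ρ ρ' (fun n => n ≠ x) →
        I P C M G (upd ρ x X) ⊆ I P C (nf (M.sub σ)) D ρ' ∧
        I P C (nf (M.sub σ)) D ρ' ⊆ I P C M G (upd ρ x Y) := by
  have hhd : ∀ {M : Tm S} {G : Ctx S} {c : S} {n : ℕ} {A : Tm S}, hdv M = some n →
      G n = some A → J P G M (sort c) → ∀ {D : Ctx S} {σ : ℕ → Tm S} {x : ℕ} {ρ ρ' : ℕ → Cd C},
        WFC P D → NCtx P D → SubC P G D σ → VOk G σ ρ ρ' (fun n => n ≠ x) →
        I P C M G (upd ρ x (bot C)) ⊆ I P C (nf (M.sub σ)) D ρ' ∧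
        I P C (nf (M.sub σ)) D ρ' ⊆ I P C M G (upd ρ x (top C)) := by
    intro M G c n A hh hG hM D σ x ρ ρ' hD hN hσ hv
    rw [I_hd hh, I_hd hh]
    unfold upd
    by_cases hx : n = x
    · rw [if_pos hx, if_pos hx]
      exact ⟨bot_le (cr_I _ _ _), fun T hT => (cr_I _ _ _).sn hT⟩
    · rw [if_neg hx, if_neg hx]
      obtain ⟨k, hk, hk'⟩ := hv n A hx hG
      have h6 : HN (M.sub σ) := hN.hn hW (hM.sub hσ)
      rw [I_hd (hdv_red h6.red (hdv_sub hh hk)), hk']
      exact ⟨fun _ h => h, fun _ h => h⟩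
  induction M with
  | var n =>
    intro G c hG hn hM hc
    obtain ⟨A', h1, -⟩ := hM.var_inv
    exact ⟨bot C, top C, fun hD hN hσ hv => hhd rfl h1 hM hD hN hσ hv⟩
  | sort s =>
    intro G c hG hn hM hc
    refine ⟨bot C, top C, fun hD hN hσ hv => ?_⟩
    have e : nf ((sort s : Tm S)) = sort s := nf_normal (normal_sort s)
    constructor
    · show _ ⊆ I P C (nf (sort s)) _ _
      rw [e]; exact fun _ h => h
    · show I P C (nf (sort s)) _ _ ⊆ _
      rw [e]; exact fun _ h => h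
  | app F N _ _ =>
    intro G c hG hn hM hc
    obtain ⟨A', B', h1, -, -⟩ := hM.app_inv
    obtain ⟨n, A1, h2, h3⟩ := hdv_ex hn.appL (by rintro Q R rfl; exact hn _ (.beta _ _ _)) h1
    exact ⟨bot C, top C, fun hD hN hσ hv => hhd (M := app F N) h2 h3 hM hD hN hσ hv⟩
  | lam A M _ _ =>
    intro G c hG hn hM hc
    obtain ⟨B, a, b, c, -, -, -, -, h⟩ := hM.lam_inv'
    exact absurd h.symm (fun h => h.sort_pi)
  | pi A B ihA ihB =>
    intro G c hG hn hM hc
    obtain ⟨a, b, c', h1, h2, h3, h4⟩ := hM.pi_inv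
    cases h4.sort_inj
    by_cases ha : a ∈ C
    · have hb : b ∉ C := fun hb => hL _ _ _ h3 ha hb hc
      obtain ⟨X, Y, h⟩ := ihA hG hn.piL h1 ha
      refine ⟨Y, X, fun {D σ x ρ ρ'} hD hN hσ hv => ?_⟩
      obtain ⟨e, k1, k2, l1, l2, hD', hN'⟩ := nf_sub_pi hW hD hN hσ h1 h2
      obtain ⟨i1, i2⟩ := h hD hN hσ hv
      rw [e, I_pi hP k1 k2 h3, I_pi hP h1 h2 h3, I_pi hP h1 h2 h3]
      constructor
      · rintro T ⟨t1, t2⟩
        refine ⟨t1, fun _ X' => ?_⟩
        exact arr_mono (ds_mono fun _ => i2) (ds_mono fun hb' => absurd hb' hb) (t2 hc X')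
      · rintro T ⟨t1, t2⟩
        refine ⟨t1, fun _ X' => ?_⟩
        exact arr_mono (ds_mono fun _ => i1) (ds_mono fun hb' => absurd hb' hb) (t2 hc X')
    · by_cases hb : b ∈ C
      · obtain ⟨X, Y, h⟩ := ihB (hG.push h1) hn.piR h2 hb
        refine ⟨X, Y, fun {D σ x ρ ρ'} hD hN hσ hv => ?_⟩
        obtain ⟨e, k1, k2, l1, l2, hD', hN'⟩ := nf_sub_pi hW hD hN hσ h1 h2
        have hi : ∀ Z : Cd C, I P C B (push A G) (cons Z (upd ρ x X)) ⊆
            I P C (nf (B.sub (ups σ))) (push (nf (A.sub σ)) D) (cons Z ρ') ∧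
            I P C (nf (B.sub (ups σ))) (push (nf (A.sub σ)) D) (cons Z ρ') ⊆
            I P C B (push A G) (cons Z (upd ρ x Y)) := by
          intro Z
          rw [← I_ctx _ _ l1 l2, ← upd_cons, ← upd_cons]
          exact h (x := x + 1) (ρ := cons Z ρ) hD' hN' (hσ.up A)
            (hv.up A Z fun n hn' hx => hn' (by rw [hx]))
        rw [e, I_pi hP k1 k2 h3, I_pi hP h1 h2 h3, I_pi hP h1 h2 h3]
        constructor
        · rintro T ⟨t1, t2⟩
          refine ⟨t1, fun _ Z => ?_⟩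
          exact arr_mono (ds_mono fun ha' => absurd ha' ha) (ds_mono fun _ => (hi Z).1) (t2 hc Z)
        · rintro T ⟨t1, t2⟩
          refine ⟨t1, fun _ Z => ?_⟩
          exact arr_mono (ds_mono fun ha' => absurd ha' ha) (ds_mono fun _ => (hi Z).2) (t2 hc Z)
      · refine ⟨bot C, bot C, fun {D σ x ρ ρ'} hD hN hσ hv => ?_⟩
        obtain ⟨e, k1, k2, l1, l2, hD', hN'⟩ := nf_sub_pi hW hD hN hσ h1 h2
        rw [e, I_pi hP k1 k2 h3, I_pi hP h1 h2 h3]
        constructor
        · rintro T ⟨t1, t2⟩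
          refine ⟨t1, fun _ Z => ?_⟩
          exact arr_mono (ds_mono fun ha' => absurd ha' ha) (ds_mono fun hb' => absurd hb' hb)
            (t2 hc Z)
        · rintro T ⟨t1, t2⟩
          refine ⟨t1, fun _ Z => ?_⟩
          exact arr_mono (ds_mono fun ha' => absurd ha' ha) (ds_mono fun hb' => absurd hb' hb)
            (t2 hc Z)

/-- The model. -/
def model (hP : Functional P) (hW : WNKindVar P) (hL : Lin P C) : Model.{u, u} P C where
  E := ℕ → Cd C
  Ok G _ := NCtx P G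
  Ext _ e _ e' := ∃ X, e' = cons X e
  I G e A := I P C (nf A) G e
  cr _ _ _ _ := cr_I _ _ _
  conv {G e A B c} hG hN hA hB hc h := by
    rw [(hN.hn hW hA).eq_of_conv h]
  ext_ok _ hN hA _ := hN.push hA
  ext_ex _ _ _ := ⟨_, top C, rfl⟩
  pi_app {G e A B N a b c} hG hN hA hB hr hc hNA := by
    intro T hT N' hN'
    have nA := hN.hn hW hA
    have nB := (hN.push hA).hn hW hB
    have hA' := hA.red hG nA.red
    have l1 : CLe P (push A G) (push (nf A) G) := CLe.conv hA nA.red.conv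
    have l2 : CLe P (push (nf A) G) (push A G) := CLe.conv hA' nA.red.conv.symm
    have hB' := hB.red (hG.push hA) nB.red
    rw [nA.nf_pi nB, I_pi hP hA' (hB'.le l1) hr] at hT
    refine ⟨(hT.2 hc (top C) N' hN').1, fun hb => ?_⟩
    obtain ⟨X, Y, h⟩ := I_key hP hW hL (nf B) (hG.push hA) nB.normal hB' hb
    have hv : VOk (push A G) (single N) (cons X e) e (fun n => n ≠ 0) := by
      intro n D hn hD
      cases n with
      | zero => exact absurd rfl hn
      | succ n => exact ⟨n, rfl, rfl⟩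
    have h1 := (h hG hN (subC_single hNA) hv).1
    have h3 : HN (inst B N) := hN.hn hW (hB.inst_sort hNA)
    have h4 : nf (inst B N) = nf ((nf B).sub (single N)) :=
      h3.eq_of_conv (nB.red.sub _).conv
    rw [h4]
    apply h1
    have e1 : upd (cons X e) 0 X = cons X e := by
      funext n
      cases n with
      | zero => rfl
      | succ n => rfl
    rw [e1, I_ctx _ _ l1 l2]
    exact (hT.2 hc X N' hN').2 hb
  pi_lam {G e A B a b c} hG hN hA hB hr hc := by
    intro M hM h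
    have nA := hN.hn hW hA
    have nB := (hN.push hA).hn hW hB
    have hA' := hA.red hG nA.red
    have l1 : CLe P (push A G) (push (nf A) G) := CLe.conv hA nA.red.conv
    have l2 : CLe P (push (nf A) G) (push A G) := CLe.conv hA' nA.red.conv.symm
    have hB' := hB.red (hG.push hA) nB.red
    rw [nA.nf_pi nB, I_pi hP hA' (hB'.le l1) hr]
    refine ⟨hM.lam, fun _ X => ?_⟩
    rw [← I_ctx _ _ l1 l2]
    exact lam_arr (DS.cr fun _ => cr_I _ _ _) (DS.cr fun _ => cr_I _ _ _)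
      fun N hN => h N hN _ ⟨X, rfl⟩
  weak {G e e' A B a b} hG hN hA hx hB hb := by
    obtain ⟨X, rfl⟩ := hx
    have nB := hN.hn hW hB
    have hv : VOk G (fun n => var (n + 1)) e (cons X e) (fun _ => True) :=
      fun n _ _ _ => ⟨_, rfl, rfl⟩
    have hs : SubC P G (push A G) (fun n => var (n + 1)) := by
      intro n D hD
      rw [← ren_eq_sub]
      exact .var (by rw [push_succ, hD]; rfl)
    have h1 := I_sub hP hW (nf B) (hG.push hA) (hN.push hA) hs hv nB.normal
      (hB.red hG nB.red)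
    have h3 : HN (wk B) := (hN.push hA).hn hW (hB.wk A)
    have h4 : nf (wk B) = nf ((nf B).sub (fun n => var (n + 1))) := by
      refine h3.eq_of_conv ?_
      rw [← ren_eq_sub]
      exact (nB.red.ren _).conv
    rw [h4, h1]

end PolL

theorem blockSn_L (hP : Functional P) (hW : WNKindVar P) (hL : Lin P C) : BlockSn P C :=
  fun _ _ _ _ hΓ hM h => (PolL.model hP hW hL).sn (e := fun _ => PolL.top C) hP hΓ.wfc
    (FCtx.ofList hΓ).nctx h hM

end Vale.Agent.P340
end

section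

/-! Parity of the walks in a block. -/

namespace Vale.Agent.P340.Vy

universe u
variable {S : Type u} {P : Spec S} {C : Set S}

open Relation

theorem block_gw (s : S) : ∀ i ∈ Block P s, ∀ j ∈ Block P s,
    ∃ n, GW (RC P (Block P s)) i n j := by
  intro i hi j hj
  have h : ReflTransGen (Dep P) j i := hj.2.trans hi.1
  induction h using ReflTransGen.head_induction_on with
  | refl => exact ⟨0, .nil⟩
  | @head x y h h' ih =>
    have hy : y ∈ Block P s := ⟨hj.1.tail h, h'.trans hi.2⟩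
    obtain ⟨n, hn⟩ := ih hy
    obtain ⟨b, h1 | h1⟩ := h
    · exact ⟨_, .odd hn ⟨hy, hj, b, h1⟩⟩
    · exact ⟨_, .even hn ⟨hy, hj, b, h1⟩⟩

theorem gw_parity (hc : ∀ i ∈ C, ∀ j ∈ C, ∃ n, GW (RC P C) i n j)
    (hχ : ¬ ∃ χ, PolE.Even P C χ) :
    ∀ i ∈ C, ∀ j ∈ C, ∀ p : Bool, ∃ n, (Even n ↔ p = false) ∧ GW (RC P C) i n j := by
  classical
  by_cases ho : ∃ s ∈ C, ∃ n, ¬ Even n ∧ GW (RC P C) s n s
  · obtain ⟨s, hs, n, h1, h2⟩ := ho
    intro i hi j hj p
    obtain ⟨n1, h3⟩ := hc i hi s hs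
    obtain ⟨n2, h4⟩ := hc s hs j hj
    by_cases he : Even (n1 + n2) ↔ p = false
    · exact ⟨_, he, h3.trans h4⟩
    · refine ⟨n1 + (n + n2), ?_, h3.trans (h2.trans h4)⟩
      have e : n1 + (n + n2) = n1 + n2 + n := by omega
      rw [e, Nat.even_add (m := n1 + n2)]
      (clear * - he h1; tauto)
  · exfalso
    refine hχ ?_
    have hev : ∀ s ∈ C, ∀ n, GW (RC P C) s n s → Even n := by
      intro s hs n h
      by_contra h'
      exact ho ⟨s, hs, n, h', h⟩
    by_cases hC : ∃ s, s ∈ C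
    · obtain ⟨s, hs⟩ := hC
      have huniq : ∀ x ∈ C, ∀ n m, GW (RC P C) s n x → GW (RC P C) s m x →
          (Even n ↔ Even m) := by
        intro x hx n m h1 h2
        obtain ⟨k, h3⟩ := hc x hx s hs
        have h4 := hev s hs _ (h1.trans h3)
        have h5 := hev s hs _ (h2.trans h3)
        rw [Nat.even_add] at h4 h5
        rw [h4, h5]
      refine ⟨fun x => decide (∃ n, Even n ∧ GW (RC P C) s n x), ?_⟩
      have hval : ∀ x ∈ C, ∀ n, GW (RC P C) s n x →
          ((∃ n, Even n ∧ GW (RC P C) s n x) ↔ Even n) := by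
        intro x hx n h
        exact ⟨fun ⟨m, h1, h2⟩ => (huniq x hx _ _ h h2).2 h1, fun h1 => ⟨n, h1, h⟩⟩
      intro a b c hr hcC
      constructor
      · intro ha he
        obtain ⟨n, hn⟩ := hc s hs a ha
        have h1 := hval a ha n hn
        have h2 := hval c hcC _ (hn.odd ⟨ha, hcC, b, hr⟩)
        have h3 := decide_eq_decide.1 he
        rw [h1, h2, Nat.even_add_one] at h3
        (clear * - h1 h2 h3; tauto)
      · intro hb
        obtain ⟨n, hn⟩ := hc s hs b hb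
        have h1 := hval b hb n hn
        have h2 := hval c hcC _ (hn.even ⟨hb, hcC, a, hr⟩)
        refine decide_eq_decide.2 ?_
        rw [h1, h2]
    · exact ⟨fun _ => true, fun a b c _ hcC => absurd ⟨c, hcC⟩ hC⟩

/-- A block is two-colourable, linear or mixed. -/
theorem blk_cases (s : S) : (∃ χ, PolE.Even P (Block P s) χ) ∨ Lin P (Block P s) ∨
    Blk P (Block P s) := by
  by_cases h1 : ∃ χ, PolE.Even P (Block P s) χ
  · exact .inl h1
  · refine .inr ?_
    by_cases h2 : Lin P (Block P s)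
    · exact .inl h2
    · refine .inr ⟨?_, gw_parity (block_gw s) h1⟩
      by_contra h3
      exact h2 fun a b c hr ha hb hc => h3 ⟨a, ha, b, hb, c, hc, hr⟩

end Vale.Agent.P340.Vy
end

section

/-! Typed terms only use live sorts. -/

namespace Vale.Agent.P340

universe u
variable {S : Type u} {P : Spec S}

open Tm

theorem T.liv {Γ : List (Tm S)} {M C : Tm S} (h : T P Γ M C) :
    WF P Γ → ∀ {s : S}, C = Tm.sort s → Vy.Liv P s := by
  have key : ∀ {Γ : List (Tm S)} {s t : S}, T P Γ (Tm.sort s) (Tm.sort t) → Vy.Liv P s := by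
    intro Γ s t h
    obtain ⟨t', h1, -⟩ := h.sort_inv
    exact .ax h1
  induction h with
  | @sort Γ s t h => intro _ r e; cases e; exact .ty h
  | var h =>
    intro hΓ s e
    subst e
    obtain ⟨t, ht⟩ := hΓ.has h
    exact key ht
  | @pi Γ A B s1 s2 s3 h1 _ h3 ih ih' =>
    intro hΓ s e
    cases e
    exact .rule h3 (ih hΓ rfl) (ih' (.cons hΓ h1) rfl)
  | lam _ _ _ _ => intro _ s e; cases e
  | @app Γ M N A B h1 h2 ih _ =>
    intro hΓ s e
    rcases h1.correct hΓ with ⟨t, h⟩ | ⟨t, h⟩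
    · cases h
    · obtain ⟨s1, s2, s3, h3, h4, -, -⟩ := h.pi_inv
      have h5 := h4.inst_sort h2
      rw [e] at h5
      exact key h5
  | conv _ h _ _ _ => intro _ s e; subst e; exact key h

theorem T.only {Γ : List (Tm S)} {M A : Tm S} (h : T P Γ M A) :
    WF P Γ → T (Vale.Agent.P340.only P {s | Vy.Liv P s}) Γ M A := by
  induction h with
  | sort h => intro _; exact .sort ⟨h, .ax h, .ty h⟩
  | var h => intro _; exact .var h
  | @pi Γ A B s1 s2 s3 h1 h2 h3 ih ih' =>
    intro hΓ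
    have hΓ' : WF P (A :: Γ) := .cons hΓ h1
    have l1 := h1.liv hΓ rfl
    have l2 := h2.liv hΓ' rfl
    exact .pi (ih hΓ) (ih' hΓ') ⟨h3, l1, l2, .rule h3 l1 l2⟩
  | @lam Γ A M B s _ h2 ih ih' =>
    intro hΓ
    obtain ⟨s1, _, _, h3, -, -, -⟩ := h2.pi_inv
    exact .lam (ih (.cons hΓ h3)) (ih' hΓ)
  | app _ _ ih ih' => intro hΓ; exact .app (ih hΓ) (ih' hΓ)
  | conv _ _ h ih ih' => intro hΓ; exact .conv (ih hΓ) (ih' hΓ) h

theorem WF.only {Γ : List (Tm S)} (h : WF P Γ) :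
    WF (Vale.Agent.P340.only P {s | Vy.Liv P s}) Γ := by
  induction h with
  | nil => exact .nil
  | cons h1 h ih => exact .cons ih (h.only h1)

theorem SN_of_live (h : SN (restr P {s | Vy.Liv P s})) : SN P := by
  refine SN_of_subject fun Γ M A hΓ hM => ?_
  have hs : ∃ s : S, Vy.Liv P s := by
    rcases hM.correct hΓ with ⟨s, h⟩ | ⟨s, h⟩
    · exact ⟨s, hM.liv hΓ h⟩
    · exact ⟨s, h.liv hΓ rfl⟩
  obtain ⟨s0, hs0⟩ := hs
  let F : Set S := {s | Vy.Liv P s}
  have hm : Mor (Vale.Agent.P340.only P F) (restr P F) (retr F ⟨s0, hs0⟩) := mor_retr F _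
  have h5 : WF (restr P F) _ := hΓ.only.map hm
  have h6 : T (restr P F) _ _ _ := (hM.only hΓ).map hm
  have h7 : Legal (restr P F) (M.map (retr F ⟨s0, hs0⟩)) := ⟨_, _, .inl (typ_iff.2 ⟨h5, h6⟩)⟩
  exact (SN_iff.1 h _ h7).of_tmap

theorem liv_restr (s : {s | Vy.Liv P s}) : Vy.Liv (restr P {s | Vy.Liv P s}) s := by
  obtain ⟨s, hs⟩ := s
  have key : ∀ {s : S} (_ : Vy.Liv P s) (h : s ∈ {s | Vy.Liv P s}),
      Vy.Liv (restr P {s | Vy.Liv P s}) ⟨s, h⟩ := by
    intro s h
    induction h with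
    | @ax s t h =>
      intro hs
      exact .ax (t := ⟨t, Vy.Liv.ty h⟩) h
    | @ty s t h =>
      intro hs
      exact .ty (t := ⟨t, Vy.Liv.ax h⟩) h
    | @rule a b s h h1 h2 ih1 ih2 =>
      intro hs
      have h3 : (restr P {s | Vy.Liv P s}).rule ⟨a, h1⟩ ⟨b, h2⟩ ⟨s, hs⟩ := h
      exact .rule h3 (ih1 h1) (ih2 h2)
  exact key hs hs

/-! Walks. -/

theorem KW.gw {C V : Set S} {a b : S} {p : Bool} (h : KW P C V a p b) :
    ∀ {c : S} {n : ℕ}, Vy.GW (Vy.RV P C V) a n c →
      ∃ m, (Even m ↔ (Even n ↔ p = false)) ∧ Vy.GW (Vy.RV P C V) b m c := by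
  have tr : ∀ {a b c : S} {q : Bool} {n : ℕ}, Vy.RV P C V q b a → Vy.GW (Vy.RV P C V) a n c →
      ∃ m, (Even m ↔ (Even n ↔ q = false)) ∧ Vy.GW (Vy.RV P C V) b m c := by
    intro a b c q n h h'
    cases q with
    | false => exact ⟨0 + n, by simp only [zero_add, iff_true], (Vy.GW.even .nil h).trans h'⟩
    | true => exact ⟨0 + 1 + n, by simp only [zero_add, Nat.even_add, Nat.not_even_one, false_iff, Nat.not_even_iff_odd, Bool.true_eq_false, iff_false], (Vy.GW.odd .nil h).trans h'⟩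
  induction h with
  | nil => intro c n h; exact ⟨n, by simp only [iff_true], h⟩
  | @step p q b c _ h1 h2 h3 ih =>
    intro d n h
    obtain ⟨m, h4, h5⟩ := ih h
    have h6 : Vy.RV P C V q c b := by
      refine ⟨h2, h1, h3.ks.2, ?_⟩
      cases q with
      | false =>
        obtain ⟨a, h6, -⟩ := h3
        exact ⟨a, h6⟩
      | true =>
        obtain ⟨b', h6, h7, -⟩ := h3
        exact ⟨b', h7, h6⟩
    obtain ⟨m', h7, h8⟩ := tr h6 h5
    refine ⟨m', ?_, h8⟩
    rw [h7, h4]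
    cases p <;> cases q <;> simp

theorem BadK.bad {C V : Set S} (h : BadK P C V) : Vy.Bad P C V where
  ks := h.kind
  scc v hv v' hv' := by
    obtain ⟨p, hp⟩ := h.conn v' hv' v hv
    obtain ⟨m, -, hm⟩ := hp.gw .nil
    exact ⟨m, hm⟩
  odd := by
    obtain ⟨m, hm, a, ha, b, h1, h2, h3⟩ := h.odd
    exact ⟨a, ha, m, hm, b, h2, h1⟩
  cov v hv := by
    obtain ⟨q, hq, -, b, hb, c, hc, hr⟩ := h.cov v hv false
    obtain ⟨m, h1, hm⟩ := hq.gw .nil
    refine ⟨q, m, by simpa only [Even.zero, iff_true] using h1, hm.mono fun _ _ _ h => h.2.2, b, hb, c, hc, hr⟩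
  poly := by
    obtain ⟨k, hk, m, hm, b, hb, a, hr, ha⟩ := h.poly
    exact ⟨k, hk, b, hb, m, hm, a, ha, hr⟩

end Vale.Agent.P340
end

section

/-! Strong normalization of skeletons when kinds do not depend on kinds of kinds. -/

namespace Vale.Agent.P340

namespace C1

open Tm

universe u
variable {S : Type u}

variable {P : Spec S} {ℓ : S → ℤ} {s0 t1 t2 : S} {D : Ctx S} {E : ℕ → ℤ}

variable {G : Ctx S} {Δ : ℕ → ℤ} {θ : ℕ → Tm S} {ρ : ℕ → SV S}

end C1

end Vale.Agent.P340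
end

section

/-! Soundness of the interpretation, and the conclusion. -/

namespace Vale.Agent.P340

namespace C1

open Tm

universe u
variable {S : Type u}
variable {P : Spec S} {ℓ : S → ℤ} {s0 t1 t2 : S} {D : Ctx S} {E : ℕ → ℤ}

end C1

end Vale.Agent.P340
end

section

/-! Case (c1), in the form needed for the classification. -/

namespace Vale.Agent.P340

universe u
variable {S : Type u} {P : Spec S} {ℓ : S → ℤ}

open Tm

end Vale.Agent.P340
end

section

/-! Graded nondependent specifications. -/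

namespace Vale.Agent.P340

universe u

end Vale.Agent.P340
end

section

/-! The dichotomy for graded nondependent specifications and for nondependent tiered ones. -/

namespace Vale.Agent.P340

universe u

theorem wn_of_sn {S : Type u} {P : Spec S} (h : SN P) : WNKindVar P :=
  fun Γ M A hM _ => C1.sn_nf (SN_iff.1 h M ⟨Γ, A, .inl hM⟩)

end Vale.Agent.P340
end

section

/-! Phases and the assembly. -/

namespace Vale.Agent.P340.W

universe u v
variable {S : Type u} {P : Spec S} {lv : S → ℕ} {i : ℕ} {G D : Ctx S}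

open Relation

/-- Interpretations of the types of class `i` exist for all saturated contexts. -/
def HasMod (P : Spec S) (lv : S → ℕ) (i : ℕ) : Prop :=
  ∀ D : Ctx S, WFC P D → NCtx P D → (∀ L s, J P D L (Tm.sort s) → ∃ n, D n = some L) →
    ∃ (m : Mod.{u, v} P lv i D) (e : m.E), m.Val (fun _ => none) e ∧ m.th e = Tm.var

/-- Every typed expression reduces to one all redexes of which are of class below `i`. -/
def Cl (P : Spec S) (lv : S → ℕ) (i : ℕ) : Prop :=
  ∀ (Γ : List (Tm S)) (M : MTm S) (T : Tm S), WF P Γ → Ty P (ofList Γ) M T →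
    ∃ N, Sts M N ∧ Nm P lv i (ofList Γ) N

theorem MTm.ren_eq_sub' (M : MTm S) (r : ℕ → ℕ) : M.sub (fun n => MTm.var (r n)) = M.ren r :=
  (MTm.ren_eq_sub M r).symm

/-- One phase. -/
theorem cl_step [Countable S] (hW : WNKindVar P) (hlv : LvOk P lv) (h : HasMod.{u, v} P lv i)
    (hc : Cl P lv (i + 1)) : Cl P lv i := by
  intro Γ M T hΓ hM
  obtain ⟨D, -, hD, hDN, -, hsat⟩ := exists_satN_ext (P := P) (G := ofList [])
    (fun n A h => by cases h) (FCtx.ofList .nil)
  obtain ⟨m, e0, hv, hth⟩ := h D hD hDN hsat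
  have key : ∀ Γ : List (Tm S), WF P Γ → ∃ (e : m.E) (r : ℕ → ℕ), m.Val (ofList Γ) e ∧
      m.th e = (fun n => Tm.var (r n)) ∧ RenC (ofList Γ) D r := by
    intro Γ hΓ
    induction hΓ with
    | nil => exact ⟨e0, fun n => n, hv, hth, fun n A h => by cases h⟩
    | @cons Γ A a hΓ hA ih =>
      obtain ⟨e, r, h1, h2, h3⟩ := ih
      have hA' := hA.toJ
      have hA2 := hA'.ren h3
      obtain ⟨d, hd⟩ := hsat _ _ hA2
      have hQ : J P D (Tm.var d) (A.sub (m.th e)) := by
        rw [h2, ← Tm.ren_eq_sub]; exact .var hd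
      have hN := (FCtx.ofList hΓ).nctx
      obtain ⟨e', he'⟩ := m.ext_ex hΓ.wfc hN h1 hA' hQ (.inr ⟨d, rfl⟩)
      refine ⟨e', fun n => Nat.casesOn n d r, m.ext_val hΓ.wfc hN h1 hA' hQ (.inr ⟨d, rfl⟩) he', ?_, ?_⟩
      · rw [m.ext_th he', h2]
        funext n; cases n <;> rfl
      · intro n B hB
        cases n with
        | zero =>
          have hB' : some (Tm.wk A) = some B := hB
          cases hB'
          show D d = _
          rw [hd, Tm.wk, Tm.ren_ren]
        | succ n =>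
          have hB' : (ofList Γ n).map Tm.wk = some B := hB
          rw [Option.map_eq_some_iff] at hB'
          obtain ⟨C, hC, rfl⟩ := hB'
          show D (r n) = _
          rw [h3 n C hC, Tm.wk, Tm.ren_ren]
  obtain ⟨e, r, h1, h2, h3⟩ := key Γ hΓ
  have hG := hΓ.wfc
  have hN : NCtx P (ofList Γ) := (FCtx.ofList hΓ).nctx
  have hE : Env m (ofList Γ) e (fun n => MTm.var (r n)) := by
    have hS := m.sub h1
    have hw : ∀ n B, ofList Γ n = some B → J P D (Tm.var (r n)) (B.sub (m.th e)) := by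
      intro n B hB
      have := hS n B hB
      rw [h2] at this ⊢
      exact this
    refine ⟨h1, fun n => .var _, h2.symm, fun n B hB => ?_, fun n B hB _ => wo_var (hw n B hB)⟩
    obtain ⟨b, hb⟩ := hG n B hB
    exact DS.wo (fun l1 l2 => m.cr hG hN h1 hb l1 l2) (wo_var (hw n B hB))
      ⟨.var _, hw n B hB⟩
  obtain ⟨N, h4, h5⟩ := hc Γ M T hΓ hM
  have hNT := hM.sts hG h4
  obtain ⟨⟨-, N', h6, h7⟩, -, -⟩ := sound hW hlv hD hDN hsat m hG hN hE hNT.1 hNT.2 h5
  rw [MTm.ren_eq_sub'] at h6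
  obtain ⟨N'', h8, rfl⟩ := h6.ren_inv
  have hNT' := hNT.sts hG h8
  exact ⟨N'', h4.trans h8, h7.of_ren hW h3 hD hG hN hNT'.1 hNT'.2⟩

/-- Strong normalization from the phases. -/
theorem sn_of_phases {K : ℕ} (hK : ∀ s, lv s < K)
    (h : ∀ i, i < K → Cl P lv (i + 1) → Cl P lv i) : SN P := by
  have h0 : Cl P lv K := fun Γ M T hΓ hM =>
    ⟨M, .refl _, nm_top hK hΓ.wfc hM.1 hM.2⟩
  have h1 : ∀ j, j ≤ K → Cl P lv (K - j) := by
    intro j
    induction j with
    | zero => intro _; exact h0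
    | succ j ih =>
      intro hj
      have h2 := ih (by omega)
      have e : K - j = K - (j + 1) + 1 := by omega
      rw [e] at h2
      exact h _ (by omega) h2
  have h2 : Cl P lv 0 := by
    have := h1 K le_rfl
    rwa [Nat.sub_self] at this
  have hof : ∀ (M : Tm S) (G : Ctx S), Ok P G (MTm.of M) := by
    intro M
    induction M with
    | var n => intro G; exact .var n
    | sort s => intro G; exact .sort s
    | app M N ih ih' => intro G; exact .app (ih G) (ih' G)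
    | lam A M ih ih' => intro G; exact .lam (ih G) (ih' _)
    | pi A M ih ih' => intro G; exact .pi (ih G) (ih' _)
  refine SN_of_subject fun Γ M A hΓ hM => ?_
  obtain ⟨N, h3, h4⟩ := h2 Γ (MTm.of M) A hΓ ⟨hof M _, by rw [MTm.er_of]; exact hM.toJ⟩
  have := sn_of_nf h3 h4.nf
  rwa [MTm.er_of] at this

end Vale.Agent.P340.W
end

section

/-! The model of a block without products of two types of the block, for arbitrary
specifications. -/

namespace Vale.Agent.P340.W

universe u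
variable {S : Type u} {P : Spec S} {lv : S → ℕ} {i : ℕ} {G D : Ctx S}

/-- No rule has all three components of level `i`. -/
def Li (P : Spec S) (lv : S → ℕ) (i : ℕ) : Prop :=
  ∀ a b c, P.rule a b c → lv c = i → lv a = i → lv b ≠ i

namespace ML

open ME

/-- Candidates. -/
abbrev Cd (P : Spec S) (lv : S → ℕ) (i : ℕ) (D : Ctx S) : Type u :=
  {X : Set (MTm S) // CR P lv i D X}

theorem cr_top : CR P lv i D {r | Wn P lv i D r} where
  wn h := h
  wo h := wo_wn h
  exp h hT hM := wn_exp h hT hM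
  ins h hQ hM := wn_ins h hQ hM

/-- The largest candidate. -/
def top (P : Spec S) (lv : S → ℕ) (i : ℕ) (D : Ctx S) : Cd P lv i D := ⟨_, cr_top⟩

theorem cr_inter {ι : Type u} (X : ι → Set (MTm S)) (hX : ∀ j, CR P lv i D (X j)) [Nonempty ι] :
    CR P lv i D {r | ∀ j, r ∈ X j} where
  wn h := (hX (Classical.arbitrary ι)).wn (h _)
  wo h j := (hX j).wo h
  exp h hT hM j := (hX j).exp h hT (hM j)
  ins h hQ hM j := (hX j).ins h hQ (hM j)

/-- The smallest candidate. -/
def bot (P : Spec S) (lv : S → ℕ) (i : ℕ) (D : Ctx S) : Cd P lv i D :=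
  haveI : Nonempty (Cd P lv i D) := ⟨top P lv i D⟩
  ⟨{r | ∀ Y : Cd P lv i D, r ∈ Y.1}, cr_inter (fun Y : Cd P lv i D => Y.1) fun Y => Y.2⟩

theorem bot_le {Y : Set (MTm S)} (h : CR P lv i D Y) : (bot P lv i D).1 ⊆ Y :=
  fun _ hM => hM ⟨Y, h⟩

/-- Extension of an assignment of candidates. -/
def cons (X : Cd P lv i D) (ρ : ℕ → Cd P lv i D) : ℕ → Cd P lv i D
  | 0 => X
  | n + 1 => ρ n

/-- Change of an assignment at one variable. -/
def upd (ρ : ℕ → Cd P lv i D) (x : ℕ) (X : Cd P lv i D) : ℕ → Cd P lv i D :=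
  fun n => if n = x then X else ρ n

theorem upd_cons (ρ : ℕ → Cd P lv i D) (x : ℕ) (X Z : Cd P lv i D) :
    upd (cons Z ρ) (x + 1) X = cons Z (upd ρ x X) := by
  funext n
  cases n with
  | zero => rfl
  | succ n =>
    show (if n + 1 = x + 1 then X else ρ n) = if n = x then X else ρ n
    by_cases h : n = x
    · rw [if_pos h, if_pos (by rw [h])]
    · rw [if_neg h, if_neg (fun h' => h (Nat.succ.inj h'))]

/-- The head variable. -/
def hdv : Tm S → Option ℕ
  | .var n => some n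
  | .app F _ => hdv F
  | _ => none

/-- Function space. -/
def Arr (P : Spec S) (lv : S → ℕ) (i : ℕ) (D G : Ctx S) (θ : ℕ → Tm S) (A B : Tm S)
    (IA : Set (MTm S)) (IB : MTm S → Set (MTm S)) : Set (MTm S) :=
  {r | Wn P lv i D r ∧ (Td P D ((Tm.pi A B).sub θ) r → ∀ q, Wn P lv i D q →
    Ty P D q (A.sub θ) → (Lc P lv (i + 1) G A → ¬ Lc P lv i D (A.sub θ) → q ∈ IA) →
    Wn P lv i D (MTm.app r q) ∧ (Lc P lv (i + 1) (push A G) B →
      ¬ Lc P lv i D (B.sub (Tm.scons q.er θ)) → MTm.app r q ∈ IB q))}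

/-- The interpretation of normal types. -/
def I (P : Spec S) (lv : S → ℕ) (i : ℕ) (D : Ctx S) :
    Tm S → Ctx S → (ℕ → Tm S) → (ℕ → Cd P lv i D) → Set (MTm S)
  | .pi A B, G, θ, ρ => Arr P lv i D G θ A B (I P lv i D A G θ ρ) fun q =>
      {r | ∀ X : Cd P lv i D, r ∈ I P lv i D B (push A G) (Tm.scons q.er θ) (cons X ρ)}
  | .var n, _, _, ρ => (ρ n).1
  | .app F _, _, _, ρ => match hdv F with
    | some n => (ρ n).1
    | none => (top P lv i D).1
  | _, _, _, _ => (top P lv i D).1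

theorem I_hd {M : Tm S} {n : ℕ} (h : hdv M = some n) (G : Ctx S) (θ : ℕ → Tm S)
    (ρ : ℕ → Cd P lv i D) : I P lv i D M G θ ρ = (ρ n).1 := by
  cases M with
  | var k => cases h; rfl
  | app F N =>
    have h' : hdv F = some n := h
    show (match hdv F with
      | some n => (ρ n).1
      | none => (top P lv i D).1) = _
    rw [h']
  | _ => cases h

theorem td_app (hD : WFC P D) {t a B : Tm S} {r q : MTm S} (h : Td P D t r)
    (h' : Sib t (Tm.pi a B)) (hq : Ty P D q a) :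
    Td P D (Tm.inst B q.er) (MTm.app r q) := by
  obtain ⟨t', h1, h2, h3⟩ := h
  obtain ⟨B1, h4, h5⟩ := (h'.symm.trans h1).pi_inv (.refl _)
  rcases h3.correct hD with ⟨s, rfl⟩ | ⟨s, hs⟩
  · exact h4.sort_pi.elim
  · obtain ⟨A', B', h6, h7, h8⟩ := red_pi h4
    have k1 := hs.red hD h6
    obtain ⟨s1, s2, s3, k2, k3, k4, k5⟩ := k1.pi_inv
    have hq' : J P D q.er A' := .conv hq.2 k2 h7.symm
    refine ⟨Tm.inst B' q.er, (h5.convR h8.symm).inst (.refl _), .app h2 hq.1, ?_⟩
    exact .app (.conv h3 k1 h6.conv) hq'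

theorem td_red (hD : WFC P D) {t : Tm S} {M M' : MTm S} (h : Td P D t M) (hs : St M M')
    (hO : Ok P D M') : Td P D t M' := by
  obtain ⟨t', h1, h2⟩ := h
  exact ⟨t', h1, hO, h2.2.red hD hs.er⟩

theorem cr_arr (hD : WFC P D) {θ : ℕ → Tm S} {A B : Tm S} {IA : Set (MTm S)}
    {IB : MTm S → Set (MTm S)} (hB : ∀ q, CR P lv i D (IB q)) :
    CR P lv i D (Arr P lv i D G θ A B IA IB) where
  wn h := h.1
  wo {M} h := by
    refine ⟨wo_wn h, fun hT q hq hqT _ => ?_⟩
    have h6 := td_app hD hT (.refl _) hqT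
    have h7 := wo_app h hq h6.choose_spec.2
    exact ⟨wo_wn h7, fun _ _ => (hB q).wo h7⟩
  exp {M M'} h hT hM := by
    refine ⟨wn_exp h hT hM.1, fun hTd q hq hqT hqI => ?_⟩
    have h6 := td_app hD hTd (.refl _) hqT
    obtain ⟨k1, k2⟩ := hM.2 (td_red hD hTd h hM.1.1.choose_spec.1) q hq hqT hqI
    exact ⟨wn_exp (.appL _ h) ⟨_, h6.choose_spec.2⟩ k1, fun x1 x2 =>
      (hB q).exp (.appL _ h) ⟨_, h6.choose_spec.2⟩ (k2 x1 x2)⟩
  ins {M M' Q} h hQ hM := by
    refine ⟨wn_ins h hQ hM.1, fun hTd q hq hqT hqI => ?_⟩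
    have hTd' : Td P D ((Tm.pi A B).sub θ) M := by
      obtain ⟨t', h1, h2⟩ := hTd
      exact ⟨t', h1, hM.1.1.choose_spec.1, by rw [← ins_er h]; exact h2.2⟩
    obtain ⟨k1, k2⟩ := hM.2 hTd' q hq hqT hqI
    exact ⟨wn_ins (.app _ h) hQ k1, fun x1 x2 => (hB q).ins (.app _ h) hQ (k2 x1 x2)⟩

theorem cr_I (hD : WFC P D) (M : Tm S) : ∀ (G : Ctx S) (θ : ℕ → Tm S) (ρ : ℕ → Cd P lv i D),
    CR P lv i D (I P lv i D M G θ ρ) := by
  haveI : Nonempty (Cd P lv i D) := ⟨top P lv i D⟩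
  induction M with
  | pi A B ihA ihB =>
    intro G θ ρ
    exact cr_arr hD fun q => cr_inter _ fun X : Cd P lv i D => ihB _ _ _
  | var n => intro G θ ρ; exact (ρ n).2
  | app F N _ _ =>
    intro G θ ρ
    show CR P lv i D (match hdv F with
      | some n => (ρ n).1
      | none => (top P lv i D).1)
    cases hdv F with
    | none => exact cr_top
    | some n => exact (ρ n).2
  | _ => intro G θ ρ; exact cr_top

/-- Monotonicity of function spaces: the two types may differ up to the final sort, and the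
contexts may differ. -/
theorem arr_mono {G' : Ctx S} {θ θ' : ℕ → Tm S} {A B A' B' : Tm S} {IA IA' : Set (MTm S)}
    {IB IB' : MTm S → Set (MTm S)}
    (hT : Sib ((Tm.pi A' B').sub θ') ((Tm.pi A B).sub θ))
    (hA : ∀ q, Ty P D q (A'.sub θ') → Ty P D q (A.sub θ))
    (lA : Lc P lv (i + 1) G A → Lc P lv (i + 1) G' A')
    (hI : Lc P lv (i + 1) G A → ¬ Lc P lv i D (A.sub θ) → IA' ⊆ IA)
    (lB : ∀ q, Ty P D q (A'.sub θ') → Lc P lv (i + 1) (push A' G') B' →
      Lc P lv (i + 1) (push A G) B)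
    (hI' : ∀ q, Wn P lv i D q → Ty P D q (A'.sub θ') → Lc P lv (i + 1) (push A G) B →
      ¬ Lc P lv i D (B'.sub (Tm.scons q.er θ')) → IB q ⊆ IB' q) :
    Arr P lv i D G θ A B IA IB ⊆ Arr P lv i D G' θ' A' B' IA' IB' := by
  have hT' := hT.pi_inj
  rintro r ⟨h1, h2⟩
  refine ⟨h1, fun hTd q hq hqT hqI => ?_⟩
  obtain ⟨k1, k2⟩ := h2 (hTd.sib hT) q hq (hA q hqT) fun x1 x2 =>
    hI x1 x2 (hqI (lA x1) fun hl => x2 (hl.conv hT'.1))
  refine ⟨k1, fun x1 x2 => hI' q hq hqT (lB q hqT x1) x2 (k2 (lB q hqT x1) fun hl => x2 ?_)⟩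
  have h3 := hT'.2.inst (.refl q.er)
  rw [Tm.inst_ups, Tm.inst_ups] at h3
  exact hl.sib h3.symm

/-- Equivalent contexts. -/
def CEq (P : Spec S) (G G' : Ctx S) : Prop :=
  SubC P G G' Tm.var ∧ SubC P G' G Tm.var

theorem CEq.symm {G' : Ctx S} (h : CEq P G G') : CEq P G' G := ⟨h.2, h.1⟩

theorem CEq.push {G' : Ctx S} (h : CEq P G G') (A : Tm S) : CEq P (push A G) (push A G') := by
  have h1 := h.1.up A
  have h2 := h.2.up A
  rw [Tm.sub_var, Tm.ups_var] at h1 h2
  exact ⟨h1, h2⟩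

theorem CEq.conv {A A' : Tm S} {a a' : S} (hA : J P G A (Tm.sort a)) (hA' : J P G A' (Tm.sort a'))
    (h : Conv A A') : CEq P (Vale.Agent.P340.push A G) (Vale.Agent.P340.push A' G) := by
  have key : ∀ {A A' : Tm S} {a a' : S}, J P G A (Tm.sort a) → J P G A' (Tm.sort a') →
      Conv A A' → SubC P (Vale.Agent.P340.push A G) (Vale.Agent.P340.push A' G) Tm.var := by
    intro A A' a a' hA hA' h n C hC
    rw [Tm.sub_var]
    cases n with
    | zero =>
      simp only [push_zero, Option.some.injEq] at hC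
      subst hC
      exact .conv (.var rfl) (hA.wk _) (h.symm.ren _)
    | succ n => exact .var hC
  exact ⟨key hA hA' h, key hA' hA h.symm⟩

theorem CEq.lc {G' : Ctx S} (h : CEq P G G') {A : Tm S} {j : ℕ} (hl : Lc P lv j G A) :
    Lc P lv j G' A := by
  have := hl.sub h.1
  rwa [Tm.sub_var] at this

theorem I_ctx (M : Tm S) : ∀ {G G' : Ctx S} (θ : ℕ → Tm S) (ρ : ℕ → Cd P lv i D),
    CEq P G G' → I P lv i D M G θ ρ = I P lv i D M G' θ ρ := by
  have key : ∀ (M : Tm S) {G G' : Ctx S} (θ : ℕ → Tm S) (ρ : ℕ → Cd P lv i D),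
      CEq P G G' → I P lv i D M G θ ρ ⊆ I P lv i D M G' θ ρ := by
    intro M
    induction M with
    | pi A B ihA ihB =>
      intro G G' θ ρ h
      refine arr_mono (.refl _) (fun _ h => h) h.lc (fun _ _ => ihA _ _ h.symm)
        (fun _ _ => (h.push A).symm.lc) fun q _ _ _ _ r hr X => ihB _ _ (h.push A) (hr X)
    | _ => intros; exact fun _ h => h
  intro G G' θ ρ h
  exact Set.Subset.antisymm (key M θ ρ h) (key M θ ρ h.symm)

theorem normal_eq {A B : Tm S} (hA : Normal A) (hB : Normal B) (h : Conv A B) : A = B := by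
  obtain ⟨Q, h1, h2⟩ := h.cr
  rw [← hA.red h1, ← hB.red h2]

/-- Invariance up to the final sort. -/
theorem I_sib (A : Tm S) : ∀ {B : Tm S}, Normal A → Normal B → Sib A B →
    ∀ (G : Ctx S) (θ : ℕ → Tm S) (ρ : ℕ → Cd P lv i D),
    I P lv i D A G θ ρ = I P lv i D B G θ ρ := by
  have key : ∀ (A : Tm S) {B : Tm S}, Normal A → Normal B → Sib A B →
      ∀ (G : Ctx S) (θ : ℕ → Tm S) (ρ : ℕ → Cd P lv i D),
      I P lv i D A G θ ρ ⊆ I P lv i D B G θ ρ := by
    intro A
    induction A with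
    | pi C E _ ihE =>
      intro B hA hB h G θ ρ
      cases h with
      | conv h => rw [normal_eq hA hB h]
      | sort h _ => have e := hA.red h.red_sort; cases e
      | @pi _ _ C1 E1 E2 h1 h2 h3 =>
        have h5 := h1.pi_inj
        obtain ⟨C3, E3, k1, k2, k3⟩ := red_pi h2
        have e := hB.red k1
        subst e
        have e := normal_eq hA.piL hB.piL (h5.1.trans k2.symm)
        subst e
        have hs : Sib E E3 := ((Sib.conv h5.2).trans h3).convR k3.symm
        refine arr_mono (Sib.mkpi (.refl _) (hs.symm.sub _)) (fun _ h => h) (fun h => h)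
          (fun _ _ _ h => h) (fun _ _ hl => hl.sib hs.symm) ?_
        intro q _ _ _ _ r hr X
        exact ihE hA.piR hB.piR hs _ _ _ (hr X)
    | sort s =>
      intro B hA hB h G θ ρ
      obtain ⟨t, ht⟩ := h.sort_inv (.refl _)
      have e := hB.red ht.red_sort
      subst e
      exact fun _ h => h
    | _ =>
      intro B hA hB h G θ ρ
      cases h with
      | conv h => rw [normal_eq hA hB h]
      | sort h _ => have e := hA.red h.red_sort; cases e
      | pi h _ _ =>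
        obtain ⟨_, _, h1, -, -⟩ := red_pi h
        have e := hA.red h1; cases e
  intro B hA hB h G θ ρ
  exact Set.Subset.antisymm (key A hA hB h G θ ρ) (key B hB hA h.symm G θ ρ)

/-- Renamings. -/
theorem I_ren (hW : WNKindVar P) (M : Tm S) : ∀ {G G' : Ctx S} {s : S} {r : ℕ → ℕ}
    {θ θ' : ℕ → Tm S} {ρ ρ' : ℕ → Cd P lv i D}, RenC G G' r → WFC P G → WFC P G' → NCtx P G →
    J P G M (Tm.sort s) → (∀ n, θ' (r n) = θ n) → (∀ n, ρ' (r n) = ρ n) →
    I P lv i D (M.ren r) G' θ' ρ' = I P lv i D M G θ ρ := by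
  have e0 : ∀ {M : Tm S} {r : ℕ → ℕ} {θ θ' : ℕ → Tm S}, (∀ n, θ' (r n) = θ n) →
      (M.ren r).sub θ' = M.sub θ := by
    intro M r θ θ' h
    rw [Tm.sub_ren]
    congr 1
    funext n; exact h n
  induction M with
  | var n =>
    intro G G' s r θ θ' ρ ρ' _ _ _ _ _ _ h
    show (ρ' (r n)).1 = (ρ n).1
    rw [h]
  | sort t => intros; rfl
  | lam A M _ _ => intros; rfl
  | app F N ih _ =>
    intro G G' s r θ θ' ρ ρ' _ _ _ _ _ _ h
    have key : ∀ F : Tm S, hdv (F.ren r) = (hdv F).map r := by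
      intro F
      induction F with
      | app F N ih _ => exact ih
      | _ => rfl
    show (match hdv (F.ren r) with
      | some n => (ρ' n).1
      | none => (top P lv i D).1) = (match hdv F with
      | some n => (ρ n).1
      | none => (top P lv i D).1)
    rw [key F]
    cases hdv F with
    | none => rfl
    | some n => exact congrArg Subtype.val (h n)
  | pi A B ihA ihB =>
    intro G G' s r θ θ' ρ ρ' hr hG hG' hN hM h1 h2
    obtain ⟨a, b, c, k1, k2, k3, k4⟩ := hM.pi_inv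
    have hA := ihA hr hG hG' hN k1 h1 h2
    have hB : ∀ (q : MTm S) (X : Cd P lv i D),
        I P lv i D (B.ren (Tm.up r)) (push (A.ren r) G') (Tm.scons q.er θ') (cons X ρ') =
          I P lv i D B (push A G) (Tm.scons q.er θ) (cons X ρ) := by
      intro q X
      refine ihB (hr.up A) (hG.push k1) (hG'.push (k1.ren hr)) (hN.push k1) k2 ?_ ?_
      · intro n; cases n with
        | zero => rfl
        | succ n => exact h1 n
      · intro n; cases n with
        | zero => rfl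
        | succ n => exact h2 n
    have eA := e0 (M := A) h1
    have ePi := e0 (M := Tm.pi A B) h1
    have h1' : ∀ (q : Tm S) (n : ℕ), Tm.scons q θ' (Tm.up r n) = Tm.scons q θ n := by
      intro q n; cases n with
      | zero => rfl
      | succ n => exact h1 n
    have eB := fun q : Tm S => e0 (M := B) (h1' q)
    refine Set.Subset.antisymm ?_ ?_
    · refine arr_mono (G' := G) (A' := A) (B' := B) (θ' := θ) ?_ ?_ ?_ ?_ ?_ ?_
      · rw [← ePi]; exact .refl _
      · intro q hq; rw [eA]; exact hq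
      · exact fun hl => hl.of_rens hW hr hG' hG hN k1
      · intro _ _; rw [hA]
      · exact fun _ _ hl => hl.ren (hr.up A)
      · intro q _ _ _ _ r hr' X
        rw [← hB]; exact hr' X
    · refine arr_mono (G := G) (A := A) (B := B) (θ := θ) ?_ ?_ ?_ ?_ ?_ ?_
      · show Sib ((Tm.pi (A.ren r) (B.ren (Tm.up r))).sub θ') _
        rw [← ePi]; exact .refl _
      · intro q hq; rw [← eA]; exact hq
      · exact fun hl => hl.ren hr
      · intro _ _; rw [hA]
      · exact fun _ _ hl => hl.of_rens hW (hr.up A) (hG'.push (k1.ren hr)) (hG.push k1)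
          (hN.push k1) k2
      · intro q _ _ _ _ r hr' X
        rw [hB]; exact hr' X

/-- Substitutions of variables for variables with the same candidates. -/
def VOk (G : Ctx S) (σ : ℕ → Tm S) (ρ ρ' : ℕ → Cd P lv i D) (x : ℕ) : Prop :=
  ∀ n A, n ≠ x → G n = some A → ∃ k, σ n = Tm.var k ∧ ρ' k = ρ n

theorem VOk.up {σ : ℕ → Tm S} {ρ ρ' : ℕ → Cd P lv i D} {x : ℕ}
    (h : VOk G σ ρ ρ' x) (A : Tm S) (X : Cd P lv i D) :
    VOk (push A G) (Tm.ups σ) (cons X ρ) (cons X ρ') (x + 1) := by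
  intro n B hn hB
  cases n with
  | zero => exact ⟨0, rfl, rfl⟩
  | succ n =>
    rw [push_succ, Option.map_eq_some_iff] at hB
    obtain ⟨B, hB, -⟩ := hB
    obtain ⟨k, h1, h2⟩ := h n B (fun e => hn (by rw [e])) hB
    exact ⟨k + 1, by show Tm.wk (σ n) = _; rw [h1]; rfl, h2⟩

theorem hdv_step {M N : Tm S} (h : Step M N) : ∀ {n : ℕ}, hdv M = some n → hdv N = some n := by
  induction h with
  | beta A M N => intro n h; cases h
  | appL N _ ih => intro n h; exact ih h
  | appR M _ _ => intro n h; exact h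
  | _ => intro n h; cases h

theorem hdv_red {M N : Tm S} (h : Red M N) {n : ℕ} (hn : hdv M = some n) : hdv N = some n := by
  induction h with
  | refl => exact hn
  | tail _ hs ih => exact hdv_step hs ih

theorem hdv_sub {M : Tm S} {n k : ℕ} (h : hdv M = some n) {σ : ℕ → Tm S}
    (hk : σ n = Tm.var k) : hdv (M.sub σ) = some k := by
  induction M with
  | var m => cases h; show hdv (σ n) = _; rw [hk]; rfl
  | app F N ih _ => exact ih h
  | _ => cases h

theorem hdv_ne {M : Tm S} (h : Ne M) {G : Ctx S} : ∀ {A : Tm S}, J P G M A →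
    ∃ n E, hdv M = some n ∧ G n = some E := by
  induction M with
  | var n =>
    intro A hM
    obtain ⟨E, h1, -⟩ := hM.var_inv
    exact ⟨n, E, rfl, h1⟩
  | app F N ih _ =>
    intro A hM
    obtain ⟨A', B', h1, -, -⟩ := hM.app_inv
    exact ih h h1
  | _ => exact h.elim

/-- Substitution for one variable, up to inclusions. -/
theorem I_key (hW : WNKindVar P) (hlv : LvOk P lv) (hL : Li P lv i) (hD : WFC P D) (M : Tm S) :
    ∀ {G : Ctx S} {s : S}, WFC P G → NCtx P G → Normal M → J P G M (Tm.sort s) →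
      Lc P lv (i + 1) G M → ∃ X Y : Cd P lv i D,
      ∀ {G' : Ctx S} {σ : ℕ → Tm S} {x : ℕ} {θ θ' : ℕ → Tm S} {ρ ρ' : ℕ → Cd P lv i D},
        WFC P G' → NCtx P G' → SubC P G G' σ → SubC P G' D θ' →
        (∀ n, θ n = (σ n).sub θ') → VOk G σ ρ ρ' x → ¬ Lc P lv i D (M.sub θ) →
        I P lv i D M G θ (upd ρ x X) ⊆ I P lv i D (nf (M.sub σ)) G' θ' ρ' ∧
        I P lv i D (nf (M.sub σ)) G' θ' ρ' ⊆ I P lv i D M G θ (upd ρ x Y) := by
  have hhd : ∀ {M : Tm S} {G : Ctx S} {s : S}, Ne M → J P G M (Tm.sort s) →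
      ∀ {G' : Ctx S} {σ : ℕ → Tm S} {x : ℕ} {θ θ' : ℕ → Tm S} {ρ ρ' : ℕ → Cd P lv i D},
        WFC P G' → NCtx P G' → SubC P G G' σ → VOk G σ ρ ρ' x →
        I P lv i D M G θ (upd ρ x (bot P lv i D)) ⊆ I P lv i D (nf (M.sub σ)) G' θ' ρ' ∧
        I P lv i D (nf (M.sub σ)) G' θ' ρ' ⊆ I P lv i D M G θ (upd ρ x (top P lv i D)) := by
    intro M G s hne hM G' σ x θ θ' ρ ρ' hG' hN hσ hv
    obtain ⟨n, E, hh, hn⟩ := hdv_ne hne hM
    rw [I_hd hh, I_hd hh]
    unfold upd
    by_cases hx : n = x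
    · rw [if_pos hx, if_pos hx]
      exact ⟨bot_le (cr_I hD _ _ _ _), fun T hT => (cr_I hD _ _ _ _).wn hT⟩
    · rw [if_neg hx, if_neg hx]
      obtain ⟨k, hk, hk'⟩ := hv n E hx hn
      have h6 : HN (M.sub σ) := hN.hn hW (hM.sub hσ)
      rw [I_hd (hdv_red h6.red (hdv_sub hh hk)), hk']
      exact ⟨fun _ h => h, fun _ h => h⟩
  induction M with
  | var n =>
    intro G s hG hNG hn hM hl
    exact ⟨bot P lv i D, top P lv i D, fun h1 h2 h3 _ _ h4 _ =>
      hhd (M := Tm.var n) trivial hM h1 h2 h3 h4⟩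
  | app F N _ _ =>
    intro G s hG hNG hn hM hl
    exact ⟨bot P lv i D, top P lv i D, fun h1 h2 h3 _ _ h4 _ =>
      hhd (ne_of_app hM hn) hM h1 h2 h3 h4⟩
  | sort t =>
    intro G s hG hNG hn hM hl
    refine ⟨bot P lv i D, top P lv i D, ?_⟩
    intro G' σ x θ θ' ρ ρ' h1 h2 h3 _ _ h4 _
    have e : nf ((Tm.sort t : Tm S)) = Tm.sort t := nf_normal (normal_sort t)
    constructor
    · show _ ⊆ I P lv i D (nf (Tm.sort t)) _ _ _
      rw [e]; exact fun _ h => h
    · show I P lv i D (nf (Tm.sort t)) _ _ _ ⊆ _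
      rw [e]; exact fun _ h => h
  | lam A M _ _ =>
    intro G s hG hNG hn hM hl
    obtain ⟨B, s', -, -, h⟩ := hM.lam_inv
    exact absurd h.symm (fun h => h.sort_pi)
  | pi A B ihA ihB =>
    intro G s hG hNG hn hM hl
    obtain ⟨a, b, c, k1, k2, k3, -⟩ := hM.pi_inv
    -- the components of the two products, and the comparison of the function spaces
    obtain ⟨A1, B1, a0, b0, c0, e1, e2, e3, e4, e5, e6, e7, e8⟩ := hl.pi_inv hlv hG
    have vA : Lc P lv (i + 1) G A := hl.piL hlv hG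
    have vB : Lc P lv (i + 1) (push A G) B := hl.piR hlv hG k1
    have xA : ∀ {j : ℕ}, lv a0 < j → Lc P lv j G A := fun h =>
      ⟨A1, a0, .conv e1.symm, e3, h⟩
    have xB : ∀ {j : ℕ}, lv b0 < j → Lc P lv j (push A G) B := fun h =>
      ⟨B1, b0, e2.symm, e4.ctx e3 e1, h⟩
    have hcase : lv a0 < i ∨ lv b0 < i ∨ lv c0 < i := by
      by_contra h
      exact hL _ _ _ e5 (by (clear * - e6 e7 e8 h; omega)) (by omega) (by omega)
    -- general comparison
    have cmp : ∀ {G' : Ctx S} {σ : ℕ → Tm S} {x : ℕ} {θ θ' : ℕ → Tm S}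
        {ρ ρ' : ℕ → Cd P lv i D} {X Y : Cd P lv i D},
        WFC P G' → NCtx P G' → SubC P G G' σ → SubC P G' D θ' →
        (∀ n, θ n = (σ n).sub θ') → VOk G σ ρ ρ' x →
        (¬ Lc P lv i D (A.sub θ) →
          I P lv i D A G θ (upd ρ x Y) ⊆ I P lv i D (nf (A.sub σ)) G' θ' ρ' ∧
          I P lv i D (nf (A.sub σ)) G' θ' ρ' ⊆ I P lv i D A G θ (upd ρ x X)) →
        (∀ (q : MTm S) (Z : Cd P lv i D), Ty P D q (A.sub θ) →
          ¬ Lc P lv i D (B.sub (Tm.scons q.er θ)) →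
          I P lv i D B (push A G) (Tm.scons q.er θ) (upd (cons Z ρ) (x + 1) X) ⊆
            I P lv i D (nf (B.sub (Tm.ups σ))) (push (A.sub σ) G') (Tm.scons q.er θ')
              (cons Z ρ') ∧
          I P lv i D (nf (B.sub (Tm.ups σ))) (push (A.sub σ) G') (Tm.scons q.er θ')
              (cons Z ρ') ⊆
            I P lv i D B (push A G) (Tm.scons q.er θ) (upd (cons Z ρ) (x + 1) Y)) →
        I P lv i D (Tm.pi A B) G θ (upd ρ x X) ⊆
          I P lv i D (nf ((Tm.pi A B).sub σ)) G' θ' ρ' ∧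
        I P lv i D (nf ((Tm.pi A B).sub σ)) G' θ' ρ' ⊆
          I P lv i D (Tm.pi A B) G θ (upd ρ x Y) := by
      intro G' σ x θ θ' ρ ρ' X Y hG' hNG' hσ hθ' hθ hv hIA hIB
      have j1 := k1.sub hσ
      have j2 := k2.sub (hσ.up A)
      have nA := hNG'.hn hW j1
      have nB := (hNG'.push j1).hn hW j2
      have eθ : ∀ T : Tm S, (T.sub σ).sub θ' = T.sub θ := by
        intro T
        rw [Tm.sub_sub]
        congr 1
        funext n; exact (hθ n).symm
      have eθ' : ∀ (q T : Tm S), (T.sub (Tm.ups σ)).sub (Tm.scons q θ') =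
          T.sub (Tm.scons q θ) := by
        intro q T
        rw [Tm.sub_sub]
        congr 1
        funext n
        cases n with
        | zero => rfl
        | succ n =>
          show (Tm.wk (σ n)).sub (Tm.scons q θ') = θ n
          rw [Tm.sub_scons_wk, hθ]
      have enf : nf ((Tm.pi A B).sub σ) = Tm.pi (nf (A.sub σ)) (nf (B.sub (Tm.ups σ))) :=
        nA.nf_pi nB
      have cA : Conv (A.sub θ) ((nf (A.sub σ)).sub θ') := by
        rw [← eθ A]; exact nA.red.conv.sub _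
      have cB : ∀ q : Tm S, Conv (B.sub (Tm.scons q θ))
          ((nf (B.sub (Tm.ups σ))).sub (Tm.scons q θ')) := by
        intro q; rw [← eθ' q B]; exact nB.red.conv.sub _
      have hPi : Conv ((Tm.pi A B).sub θ)
          ((Tm.pi (nf (A.sub σ)) (nf (B.sub (Tm.ups σ)))).sub θ') := by
        rw [← eθ, ← enf]
        exact ((hNG'.hn hW (hM.sub hσ)).red.conv).sub _
      have l1 : J P D (A.sub θ) (Tm.sort a) := by rw [← eθ A]; exact j1.sub hθ'
      have l2 : J P D ((nf (A.sub σ)).sub θ') (Tm.sort a) := (j1.red hG' nA.red).sub hθ'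
      have tyA : ∀ q : MTm S, Ty P D q (A.sub θ) → Ty P D q ((nf (A.sub σ)).sub θ') :=
        fun q hq => ⟨hq.1, .conv hq.2 l2 cA⟩
      have tyA' : ∀ q : MTm S, Ty P D q ((nf (A.sub σ)).sub θ') → Ty P D q (A.sub θ) :=
        fun q hq => ⟨hq.1, .conv hq.2 l1 cA.symm⟩
      have ctxe : CEq P (push (A.sub σ) G') (push (nf (A.sub σ)) G') :=
        CEq.conv j1 (j1.red hG' nA.red) nA.red.conv
      have lA' : Lc P lv (i + 1) G' (nf (A.sub σ)) := (vA.sub hσ).conv nA.red.conv
      have lB' : Lc P lv (i + 1) (push (nf (A.sub σ)) G') (nf (B.sub (Tm.ups σ))) :=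
        ctxe.lc ((vB.sub (hσ.up A)).conv nB.red.conv)
      rw [enf]
      constructor
      · refine arr_mono (.conv hPi.symm) tyA' (fun _ => lA') (fun _ hn => (hIA hn).2)
          (fun _ _ _ => vB) ?_
        intro q hq hqT _ hn r hr Z
        rw [← I_ctx _ _ _ ctxe]
        have hn' : ¬ Lc P lv i D (B.sub (Tm.scons q.er θ)) := fun hl' => hn (hl'.conv (cB _))
        refine (hIB q Z (tyA' q hqT) hn').1 ?_
        rw [upd_cons]
        exact hr Z
      · refine arr_mono (.conv hPi) tyA (fun _ => vA)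
          (fun _ hn => (hIA fun hl' => hn (hl'.conv cA)).1) (fun _ _ _ => lB') ?_
        intro q hq hqT _ hn r hr Z
        have h3 : r ∈ I P lv i D (nf (B.sub (Tm.ups σ))) (push (nf (A.sub σ)) G')
            (Tm.scons q.er θ') (cons Z ρ') := hr Z
        rw [← I_ctx _ _ _ ctxe] at h3
        have h4 := (hIB q Z hqT hn).2 h3
        rw [upd_cons] at h4
        exact h4
    rcases hcase with h | h | h
    · -- the domain is low
      obtain ⟨X, Y, hXY⟩ := ihB (hG.push k1) (hNG.push k1) hn.piR k2 vB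
      refine ⟨X, Y, ?_⟩
      intro G' σ x θ θ' ρ ρ' hG' hNG' hσ hθ' hθ hv hnl
      have hθD : SubC P G D θ := by
        intro n E hE
        rw [hθ n]
        have := (hσ n E hE).sub hθ'
        rw [Tm.sub_sub] at this
        have e : (fun n => (σ n).sub θ') = θ := funext fun n => (hθ n).symm
        rwa [e] at this
      refine cmp hG' hNG' hσ hθ' hθ hv (fun hn' => absurd ((xA h).sub hθD) hn') ?_
      intro q Z hq hnB
      have hq' : J P D q.er ((A.sub σ).sub θ') := by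
        have e : (A.sub σ).sub θ' = A.sub θ := by
          rw [Tm.sub_sub]; congr 1; funext n; exact (hθ n).symm
        rw [e]; exact hq.2
      refine hXY (hG'.push (k1.sub hσ)) (hNG'.push (k1.sub hσ)) (hσ.up A) (hθ'.scons hq') ?_
        (hv.up A Z) hnB
      intro n
      cases n with
      | zero => rfl
      | succ n =>
        show θ n = (Tm.wk (σ n)).sub (Tm.scons q.er θ')
        rw [Tm.sub_scons_wk, hθ]
    · -- the codomain is low
      obtain ⟨X, Y, hXY⟩ := ihA hG hNG hn.piL k1 vA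
      refine ⟨Y, X, ?_⟩
      intro G' σ x θ θ' ρ ρ' hG' hNG' hσ hθ' hθ hv hnl
      have hθD : SubC P G D θ := by
        intro n E hE
        rw [hθ n]
        have := (hσ n E hE).sub hθ'
        rw [Tm.sub_sub] at this
        have e : (fun n => (σ n).sub θ') = θ := funext fun n => (hθ n).symm
        rwa [e] at this
      refine cmp hG' hNG' hσ hθ' hθ hv (fun hn' => hXY hG' hNG' hσ hθ' hθ hv hn') ?_
      intro q Z hq hnB
      exact absurd ((xB h).sub (hθD.scons hq.2)) hnB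
    · -- the product is low
      refine ⟨bot P lv i D, bot P lv i D, ?_⟩
      intro G' σ x θ θ' ρ ρ' hG' hNG' hσ hθ' hθ hv hnl
      exfalso
      have hθD : SubC P G D θ := by
        intro n E hE
        rw [hθ n]
        have := (hσ n E hE).sub hθ'
        rw [Tm.sub_sub] at this
        have e : (fun n => (σ n).sub θ') = θ := funext fun n => (hθ n).symm
        rwa [e] at this
      have h5 : Lc P lv i G (Tm.pi A B) :=
        ⟨Tm.pi A1 B1, c0, (Sib.mkpi e1 e2).symm, .pi e3 e4 e5, h⟩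
      exact hnl (h5.sub hθD)

/-- The model. -/
def model (hW : WNKindVar P) (hlv : LvOk P lv) (hL : Li P lv i) (hD : WFC P D) :
    Mod.{u, u} P lv i D where
  E := (ℕ → Tm S) × (ℕ → Cd P lv i D)
  th e := e.1
  Val G e := SubC P G D e.1
  Ext _ e _ Q e' := ∃ X, e' = (Tm.scons Q e.1, cons X e.2)
  I G e A := I P lv i D (nf A) G e.1 e.2
  sub h := h
  cr _ _ _ _ _ _ := cr_I hD _ _ _ _
  sib {G e A B a b} hG hN he hA hB hl hn h := by
    have nA := hN.hn hW hA
    have nB := hN.hn hW hB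
    exact I_sib (nf A) nA.normal nB.normal
      (((Sib.conv nA.red.conv.symm).trans h).convR nB.red.conv) _ _ _
  ext_th h := by obtain ⟨X, rfl⟩ := h; rfl
  ext_val {G e e' A Q a} _ _ he _ hQ _ h := by obtain ⟨X, rfl⟩ := h; exact he.scons hQ
  ext_ex _ _ _ _ _ _ := ⟨_, top P lv i D, rfl⟩
  weak {G e e' A B Q a b} hG hN _ hA _ _ h hB hl hn := by
    obtain ⟨X, rfl⟩ := h
    have nB := hN.hn hW hB
    have e : nf (Tm.wk B) = (nf B).ren Nat.succ :=
      nf_eq (nB.red.ren _) (normal_ren nB.normal _)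
    rw [e]
    exact I_ren hW (nf B) (renC_wk G A) hG (hG.push hA) hN (hB.red hG nB.red)
      (fun _ => rfl) fun _ => rfl
  pi_app {G e A B N c} hG hNG he hPi hl hn hNA := by
    intro r hr hI q hq hqN
    obtain ⟨a, b, c', k1, k2, k3, k4⟩ := hPi.pi_inv
    have nA := hNG.hn hW k1
    have nB := (hNG.push k1).hn hW k2
    have hqA : Ty P D q (A.sub e.1) := hq.2.1
    have enf : nf (Tm.pi A B) = Tm.pi (nf A) (nf B) := nA.nf_pi nB
    rw [enf] at hI
    have cA : Conv (A.sub e.1) ((nf A).sub e.1) := nA.red.conv.sub _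
    have jA := k1.red hG nA.red
    have ctxe : CEq P (push A G) (push (nf A) G) := CEq.conv k1 jA nA.red.conv
    have lA := hl.piL hlv hG
    have lB := hl.piR hlv hG k1
    have hI2 := hI.2 ⟨_, .conv (by
        show Conv ((Tm.pi (nf A) (nf B)).sub e.1) ((Tm.pi A B).sub e.1)
        rw [← enf]; exact ((hNG.hn hW hPi).red.conv.symm).sub _), hr⟩ q hq.1
      ⟨hqA.1, .conv hqA.2 (jA.sub he) cA⟩
      fun x1 x2 => hq.2.2 lA fun hl' => x2 (hl'.conv cA)
    have e1 : B.sub (Tm.scons q.er e.1) = (Tm.inst B N).sub e.1 := by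
      rw [← Tm.inst_ups, hqN, Tm.sub_inst]
    have hty : Ty P D (MTm.app r q) ((Tm.inst B N).sub e.1) := by
      rw [← e1, ← Tm.inst_ups]
      exact ⟨.app hr.1 hqA.1, .app hr.2 hqA.2⟩
    refine ⟨hI2.1, hty, fun hl' hn' => ?_⟩
    have hnB : ¬ Lc P lv i D (B.sub (Tm.scons q.er e.1)) := by rw [e1]; exact hn'
    have jB := k2.red (hG.push k1) nB.red
    obtain ⟨X, Y, hXY⟩ := I_key hW hlv hL hD (nf B) (hG.push k1) (hNG.push k1) nB.normal jB
      (lB.conv nB.red.conv)
    have hcB : Conv ((nf B).sub (Tm.scons q.er e.1)) (B.sub (Tm.scons q.er e.1)) :=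
      nB.red.conv.symm.sub _
    have hI3 := hI2.2 (ctxe.lc (lB.conv nB.red.conv)) (fun hl'' => hnB (hl''.conv hcB)) X
    rw [← I_ctx _ _ _ ctxe] at hI3
    have hv : VOk (push A G) (Tm.single N) (cons X e.2) e.2 0 := by
      intro n E hn hE
      cases n with
      | zero => exact absurd rfl hn
      | succ n => exact ⟨n, rfl, rfl⟩
    have eθ : ∀ n, Tm.scons q.er e.1 n = (Tm.single N n).sub e.1 := by
      intro n
      cases n with
      | zero => exact hqN
      | succ n => rfl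
    have h5 := (hXY hG hNG (subC_single hNA) he eθ hv fun hl'' => hnB (hl''.conv hcB)).1
    have e2 : upd (cons X e.2) 0 X = cons X e.2 := by
      funext n
      cases n with
      | zero => rfl
      | succ n => rfl
    rw [e2] at h5
    have h6 : nf (Tm.inst B N) = nf ((nf B).sub (Tm.single N)) :=
      (hNG.hn hW (k2.inst_sort hNA)).eq_of_conv (nB.red.sub _).conv
    show MTm.app r q ∈ I P lv i D (nf (Tm.inst B N)) G e.1 e.2
    rw [h6]
    exact h5 hI3
  pi_lam {G e A B c} hG hNG he hPi hl hn := by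
    intro r hWr hr h
    obtain ⟨a, b, c', k1, k2, k3, k4⟩ := hPi.pi_inv
    have nA := hNG.hn hW k1
    have nB := (hNG.push k1).hn hW k2
    have enf : nf (Tm.pi A B) = Tm.pi (nf A) (nf B) := nA.nf_pi nB
    have cA : Conv (A.sub e.1) ((nf A).sub e.1) := nA.red.conv.sub _
    have jA := k1.red hG nA.red
    have ctxe : CEq P (push A G) (push (nf A) G) := CEq.conv k1 jA nA.red.conv
    have lA := hl.piL hlv hG
    have lB := hl.piR hlv hG k1
    show r ∈ I P lv i D (nf (Tm.pi A B)) G e.1 e.2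
    rw [enf]
    refine ⟨hWr, fun _ q hq hqT hqI => ?_⟩
    have hqA : Ty P D q (A.sub e.1) := ⟨hqT.1, .conv hqT.2 (k1.sub he) cA.symm⟩
    have h1 : ∀ X : Cd P lv i D, _ := fun X => h q ⟨hq, hqA, fun x1 x2 =>
      hqI (x1.conv nA.red.conv) fun hl' => x2 (hl'.conv cA.symm)⟩ _ ⟨X, rfl⟩
    refine ⟨(h1 (top P lv i D)).1, fun x1 x2 X => ?_⟩
    rw [← I_ctx _ _ _ ctxe]
    exact (h1 X).2.2 lB fun hl' => x2 (hl'.conv (nB.red.conv.sub _))

end ML

end Vale.Agent.P340.W
end

section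

/-! The phases of the two-colourable and of the linear blocks. -/

namespace Vale.Agent.P340.W

universe u
variable {S : Type u} {P : Spec S} {lv : S → ℕ} {i : ℕ}

theorem hasMod_even (hW : WNKindVar P) (hlv : LvOk P lv) {χ : S → Bool}
    (hχ : PolE.Even P {c | lv c = i} χ) : HasMod.{u, u} P lv i := fun D hD hDN _ =>
  ⟨ME.model hW hlv (fun a b c h hc => hχ a b c h hc) hD hDN, (Tm.var : ℕ → Tm S),
    ((fun n A h => by cases h) : SubC P (fun _ => none) D Tm.var), rfl⟩

theorem cl_even [Countable S] (hW : WNKindVar P) (hlv : LvOk P lv) {χ : S → Bool}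
    (hχ : PolE.Even P {c | lv c = i} χ) : Cl P lv (i + 1) → Cl P lv i :=
  cl_step hW hlv (hasMod_even hW hlv hχ)

theorem hasMod_lin (hW : WNKindVar P) (hlv : LvOk P lv) (hL : Lin P {c | lv c = i}) :
    HasMod.{u, u} P lv i := fun D hD _ _ =>
  ⟨ML.model hW hlv (fun a b c h hc ha hb => hL a b c h ha hb hc) hD,
    ((Tm.var : ℕ → Tm S), fun _ => ML.top P lv i D),
    ((fun n A h => by cases h) : SubC P (fun _ => none) D Tm.var), rfl⟩

theorem cl_lin [Countable S] (hW : WNKindVar P) (hlv : LvOk P lv) (hL : Lin P {c | lv c = i}) :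
    Cl P lv (i + 1) → Cl P lv i :=
  cl_step hW hlv (hasMod_lin hW hlv hL)

end Vale.Agent.P340.W
end

section

/-! Levels of the sorts of a finite specification; the cases of a level. -/

namespace Vale.Agent.P340.W

universe u
variable {S : Type u} {P : Spec S}

open Relation

/-- Levels: the levels are the blocks, in an order compatible with the rules. -/
theorem exists_lv [Finite S] (P : Spec S) : ∃ lv : S → ℕ, LvOk P lv ∧
    ∀ s t, lv t = lv s ↔ t ∈ Block P s := by
  obtain ⟨lv, h1, h2⟩ := exists_rank fun a b : S => Dep P b a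
  have key : ∀ a b : S, ReflTransGen (fun a b : S => Dep P b a) a b →
      ReflTransGen (Dep P) b a := by
    intro a b h
    induction h with
    | refl => exact .refl
    | tail _ h ih => exact .head h ih
  have mono : ∀ a b : S, ReflTransGen (Dep P) b a → lv a ≤ lv b := by
    intro a b h
    induction h with
    | refl => exact le_refl _
    | tail _ h ih => exact (h1 _ _ h).trans ih
  refine ⟨lv, fun a b c h => ⟨h1 _ _ ⟨b, .inl h⟩, h1 _ _ ⟨a, .inr h⟩⟩, fun s t => ⟨fun h => ?_,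
    fun h => le_antisymm (mono _ _ h.1) (mono _ _ h.2)⟩⟩
  obtain ⟨h3, h4⟩ := h2 _ _ h
  exact ⟨key _ _ h3, key _ _ h4⟩

theorem lv_set {lv : S → ℕ} (hb : ∀ s t, lv t = lv s ↔ t ∈ Block P s) (s : S) :
    {c | lv c = lv s} = Block P s := by
  ext t; exact hb s t

/-- A level is two-colourable, linear or mixed. -/
theorem lv_cases {lv : S → ℕ} (hb : ∀ s t, lv t = lv s ↔ t ∈ Block P s) (i : ℕ) :
    (∃ χ, ME.Ev P lv i χ) ∨ Lin P {c | lv c = i} ∨ Vy.Blk P {c | lv c = i} := by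
  by_cases h : ∃ s, lv s = i
  · obtain ⟨s, rfl⟩ := h
    rw [lv_set hb s]
    rcases Vy.blk_cases (P := P) s with ⟨χ, h⟩ | h | h
    · refine .inl ⟨χ, fun a b c hr hc => ?_⟩
      obtain ⟨h1, h2⟩ := h a b c hr ((hb s c).1 hc)
      exact ⟨fun ha => h1 ((hb s a).1 ha), fun hb' => h2 ((hb s b).1 hb')⟩
    · exact .inr (.inl h)
    · exact .inr (.inr h)
  · exact .inl ⟨fun _ => true, fun a b c _ hc => absurd ⟨c, hc⟩ h⟩

end Vale.Agent.P340.W
end

section

/-! The final assembly: one family of models is left. -/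

namespace Vale.Agent.P340.W

universe u v
variable {S : Type u} {P : Spec S}

/-- The model of a level with ranks. -/
def RankModel : Prop :=
  ∀ {S : Type u} [Finite S] {P : Spec S} {lv : S → ℕ} {i : ℕ}, WNKindVar P → LvOk P lv →
    RankedM' P {c | lv c = i} → HasMod.{u, v} P lv i

theorem lv_good' [Finite S] (hl : ∀ s, Vy.Liv P s) (hW : WNKindVar P) {lv : S → ℕ}
    (hb : ∀ s t, lv t = lv s ↔ t ∈ Block P s) (i : ℕ) :
    (∃ χ, PolE.Even P {c | lv c = i} χ) ∨ Lin P {c | lv c = i} ∨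
      RankedM' P {c | lv c = i} := by
  rcases lv_cases hb i with ⟨χ, h⟩ | h | h
  · exact .inl ⟨χ, fun a b c hr hc => h a b c hr hc⟩
  · exact .inr (.inl h)
  · rcases rankedM'_or_bad (P := P) (C := {c | lv c = i}) with hR | ⟨V, hV⟩
    · exact .inr (.inr hR)
    · exact absurd hW (Vy.not_wn_of_bad hl h hV.bad)

theorem sn_of_rankModel_live (hm : RankModel.{u, v}) [Finite S] (hl : ∀ s, Vy.Liv P s)
    (hW : WNKindVar P) : SN P := by
  have : Countable S := Finite.to_countable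
  obtain ⟨lv, hlv, hb⟩ := exists_lv P
  obtain ⟨K, hK⟩ : ∃ K, ∀ s, lv s < K := by
    obtain ⟨K, hK⟩ := (Set.finite_range lv).bddAbove
    exact ⟨K + 1, fun s => Nat.lt_succ_of_le (hK ⟨s, rfl⟩)⟩
  refine sn_of_phases hK fun i _ => ?_
  rcases lv_good' hl hW hb i with ⟨χ, h⟩ | h | h
  · exact cl_even hW hlv h
  · exact cl_lin hW hlv h
  · exact cl_step hW hlv (hm hW hlv h)

/-- Weak normalization implies strong normalization. -/
theorem sn_of_rankModel (hm : RankModel.{u, v}) (hW : WNKindVar P) : SN P :=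
  SN_of_restr fun F hF => by
    have : Finite F := hF
    exact SN_of_live (sn_of_rankModel_live hm liv_restr ((hW.restr F).restr _))

theorem main_of_rankModel (hm : RankModel.{u, v}) {S : Type u} (P : Spec S) : WNKindVar P ↔ SN P :=
  ⟨sn_of_rankModel hm, wn_of_sn⟩

end Vale.Agent.P340.W
end

section

/-! The Barendregt-Geuvers-Klop conjecture for all pure type systems. -/

namespace Vale.Agent.P340

namespace NM

open W (LvOk)

universe u

/-- The model of a level with ranks. -/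
theorem rankModel : W.RankModel.{u, u + 1} := by
  intro S _ P lv i hW hlv hR D hD hN hsat
  obtain ⟨Q, U, E, O, rk, R, H⟩ := setup_of_ranked hR hW hlv hD hN hsat
  exact model_ex H

end NM

universe u

/-- Weak normalization and strong normalization are equivalent for every pure type system. -/
theorem main {S : Type u} (P : Spec S) : WNKindVar P ↔ SN P := W.main_of_rankModel NM.rankModel P

end Vale.Agent.P340
end

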